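import Mathlib

/-! Faithful normal semifinite traces on concrete von Neumann algebras, in vector form. -/

noncomputable section

open scoped NNReal ENNReal

namespace Vale.Agent.P078

universe u

variable {H : Type u} [NormedAddCommGroup H] [InnerProductSpace ℂ H] [CompleteSpace H]

/-- `M` carries a faithful normal semifinite trace `τ (x* x) = ∑ᵢ ‖x (η i)‖²` (values in `[0, ∞]`):
`τ (x* x) = τ (x x*)`, `τ` is faithful, and every nonzero projection of `M` dominates a nonzero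
projection of finite trace. -/
def HasFaithfulNormalSemifiniteTrace (M : VonNeumannAlgebra H) : Prop :=
  ∃ (I : Type u) (η : I → H),
    (∀ x ∈ M, (∑' i, (‖x (η i)‖₊ : ℝ≥0∞) ^ 2) = ∑' i, (‖star x (η i)‖₊ : ℝ≥0∞) ^ 2) ∧
    (∀ x ∈ M, (∀ i, x (η i) = 0) → x = 0) ∧
    (∀ p ∈ M, IsStarProjection p → p ≠ 0 → ∃ q ∈ M, IsStarProjection q ∧ q ≠ 0 ∧ p * q = q ∧
      (∑' i, (‖q (η i)‖₊ : ℝ≥0∞) ^ 2) < ⊤)

end Vale.Agent.P078
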