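import Mathlib
import Vale.Agent.P078.SemiDefs

/-! Approximately semifinite inclusions. -/

noncomputable section

open scoped InnerProductSpace

namespace Vale.Agent.P078

universe u

variable {H : Type u} [NormedAddCommGroup H] [InnerProductSpace ℂ H] [CompleteSpace H]

/-- `A` lies in the centraliser of a faithful normal positive functional `φ x = ∑ₙ ⟪η n, x (η n)⟫`
of `M`, and every self-adjoint element of `M` is approximated in the `φ` norm, with no larger
operator norm, by elements of semifinite von Neumann subalgebras of `M` that contain `A`. -/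
def IsApproxSemifinite (M : VonNeumannAlgebra H) (A : StarSubalgebra ℂ (H →L[ℂ] H)) : Prop :=
  ∃ η : ℕ → H, Summable (fun n => ‖η n‖ ^ 2) ∧
    (∀ x ∈ M, (∀ n, x (η n) = 0) → x = 0) ∧
    (∀ a ∈ A, ∀ x ∈ M,
      (∑' n, ⟪η n, (a * x) (η n)⟫_ℂ) = ∑' n, ⟪η n, (x * a) (η n)⟫_ℂ) ∧
    ∀ x ∈ M, IsSelfAdjoint x → ∀ t : ℝ, 0 < t → ∃ B : VonNeumannAlgebra H,
      B.toStarSubalgebra ≤ M.toStarSubalgebra ∧ A ≤ B.toStarSubalgebra ∧
        HasFaithfulNormalSemifiniteTrace B ∧
          ∃ y ∈ B, IsSelfAdjoint y ∧ ‖y‖ ≤ ‖x‖ ∧ (∑' n, ‖(x - y) (η n)‖ ^ 2) ≤ t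

end Vale.Agent.P078
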