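import Mathlib

/-! Interface for the analytic core of P078. -/

noncomputable section

open scoped ComplexOrder

namespace Vale.Agent.P078

universe u v

/-- A tracial C*-probability space with 2-norm complete balls and a maximal abelian subalgebra,
presented as the image of the real continuous functions on a compact space. -/
structure TMasa (M : Type u) [CStarAlgebra M] (Ω : Type v) [TopologicalSpace Ω]
    [CompactSpace Ω] [T2Space Ω] where
  /-- the (real part of the) trace -/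
  tr : M →ₗ[ℝ] ℝ
  /-- the embedding of the self-adjoint part of the subalgebra -/
  emb : C(Ω, ℝ) →ₐ[ℝ] M
  tr_mul_comm : ∀ x y, tr (x * y) = tr (y * x)
  tr_star : ∀ x, tr (star x) = tr x
  tr_one : tr 1 = 1
  tr_star_mul_self : ∀ x, 0 ≤ tr (star x * x)
  tr_faithful : ∀ x, tr (star x * x) = 0 → x = 0
  complete : ∀ (u : ℕ → M) (C : ℝ), (∀ n, ‖u n‖ ≤ C) →
    (∀ ε > 0, ∃ N, ∀ m ≥ N, ∀ n ≥ N, tr (star (u m - u n) * (u m - u n)) ≤ ε) →
    ∃ x, ‖x‖ ≤ C ∧
      Filter.Tendsto (fun n => tr (star (u n - x) * (u n - x))) Filter.atTop (nhds 0)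
  emb_selfAdjoint : ∀ f, IsSelfAdjoint (emb f)
  emb_norm : ∀ f, ‖emb f‖ = ‖f‖
  maximal : ∀ x, IsSelfAdjoint x → (∀ f, Commute x (emb f)) → ∃ f, emb f = x

/-- An indexed finite partition of unity by idempotents. -/
structure IsPartition {R : Type*} [CommRing R] {n : ℕ} (p : Fin n → R) : Prop where
  idem : ∀ i, p i * p i = p i
  orth : ∀ i j, i ≠ j → p i * p j = 0
  sum_one : ∑ i, p i = 1

variable {M : Type u} [CStarAlgebra M] {Ω : Type v} [TopologicalSpace Ω] [CompactSpace Ω]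
  [T2Space Ω]

/-- `x` has an `(ε, r)` paving up to a projection of arbitrarily small co-trace. -/
def TMasa.Pavable (T : TMasa M Ω) (x : M) (ε : ℝ) (r : ℕ) : Prop :=
  ∀ δ : ℝ, 0 < δ → ∃ p : Fin r → C(Ω, ℝ), IsPartition p ∧ ∃ a : C(Ω, ℝ), ‖a‖ ≤ ‖x‖ ∧
    ∃ q : M, IsStarProjection q ∧ T.tr (1 - q) ≤ δ ∧
      ‖q * ((∑ i, T.emb (p i) * x * T.emb (p i)) - T.emb a) * q‖ ≤ ε * ‖x‖

end Vale.Agent.P078
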