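import Mathlib

/-! The notions of the problem, for concrete von Neumann algebras. -/

noncomputable section

open scoped InnerProductSpace

namespace Vale.Agent.P078

universe u

variable {H : Type u} [NormedAddCommGroup H] [InnerProductSpace ℂ H] [CompleteSpace H]

/-- `M` carries a faithful normal tracial state: `τ x = ∑ₙ ⟪η n, x (η n)⟫`. -/
def HasFaithfulNormalTracialState (M : VonNeumannAlgebra H) : Prop :=
  ∃ η : ℕ → H, Summable (fun n => ‖η n‖ ^ 2) ∧ (∑' n, ‖η n‖ ^ 2) = 1 ∧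
    (∀ x ∈ M, ∀ y ∈ M, (∑' n, ⟪η n, (x * y) (η n)⟫_ℂ) = ∑' n, ⟪η n, (y * x) (η n)⟫_ℂ) ∧
    (∀ x ∈ M, (∀ n, x (η n) = 0) → x = 0)

/-- `A` is a maximal abelian self-adjoint subalgebra of `M`. -/
def IsMASA (M : VonNeumannAlgebra H) (A : StarSubalgebra ℂ (H →L[ℂ] H)) : Prop :=
  A ≤ M.toStarSubalgebra ∧ (∀ a ∈ A, ∀ b ∈ A, a * b = b * a) ∧
    ∀ B : StarSubalgebra ℂ (H →L[ℂ] H), B ≤ M.toStarSubalgebra →
      (∀ a ∈ B, ∀ b ∈ B, a * b = b * a) → A ≤ B → B = A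

/-- `x` is `(ε, r)` so-pavable over `A` inside `M`. -/
def SoPavable (M : VonNeumannAlgebra H) (A : StarSubalgebra ℂ (H →L[ℂ] H))
    (x : H →L[ℂ] H) (ε : ℝ) (r : ℕ) : Prop :=
  ∀ F : Finset H, ∀ δ : ℝ, 0 < δ → ∃ p : Fin r → (H →L[ℂ] H),
    (∀ i, p i ∈ A ∧ IsStarProjection (p i)) ∧ (∀ i j, i ≠ j → p i * p j = 0) ∧ ∑ i, p i = 1 ∧
    ∃ a ∈ A, IsSelfAdjoint a ∧ ‖a‖ ≤ ‖x‖ ∧
      ∃ q ∈ M, IsStarProjection q ∧ (∀ ξ ∈ F, ‖(1 - q) ξ‖ < δ) ∧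
        ‖q * ((∑ i, p i * x * p i) - a) * q‖ ≤ ε * ‖x‖

end Vale.Agent.P078
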