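import Mathlib
import Vale.Agent.P078.Defs
import Vale.Agent.P078.StatementDefs

/-! From a concrete tracial von Neumann algebra with a MASA to the abstract interface. -/

noncomputable section

open scoped InnerProductSpace ComplexOrder
open Filter Topology

namespace Vale.Agent.P078

universe u

variable {H : Type u} [NormedAddCommGroup H] [InnerProductSpace ℂ H] [CompleteSpace H]

namespace Bridge

lemma isClosed_vna (M : VonNeumannAlgebra H) :
    IsClosed ((M.toStarSubalgebra : Set (H →L[ℂ] H))) := by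
  rw [VonNeumannAlgebra.coe_toStarSubalgebra, ← M.centralizer_centralizer]
  exact Set.isClosed_centralizer _

lemma mem_of_commute {M : VonNeumannAlgebra H} {x : H →L[ℂ] H}
    (h : ∀ y ∈ M.commutant, y * x = x * y) : x ∈ M := by
  have : x ∈ Set.centralizer (Set.centralizer (M : Set (H →L[ℂ] H))) := by
    rw [Set.mem_centralizer_iff]
    intro y hy
    exact h y (by rw [← SetLike.mem_coe, M.coe_commutant]; exact hy)
  rwa [M.centralizer_centralizer] at this

lemma commute_of_mem {M : VonNeumannAlgebra H} {x y : H →L[ℂ] H} (hx : x ∈ M)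
    (hy : y ∈ M.commutant) : y * x = x * y := by
  rw [← SetLike.mem_coe, M.coe_commutant, Set.mem_centralizer_iff] at hy
  exact (hy x hx).symm

/-- vectors where a bounded operator acts as the identity-complement are controlled: the span of
the commutant applied to the trace vectors is dense. -/
lemma dense_commutant_span (M : VonNeumannAlgebra H) (η : ℕ → H)
    (hfaith : ∀ x ∈ M, (∀ n, x (η n) = 0) → x = 0) :
    Dense ((Submodule.span ℂ {v : H | ∃ y ∈ M.commutant, ∃ n, v = y (η n)} : Submodule ℂ H) :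
      Set H) := by
  set V := Submodule.span ℂ {v : H | ∃ y ∈ M.commutant, ∃ n, v = y (η n)} with hV
  set K := V.topologicalClosure with hK
  have : CompleteSpace K := V.isClosed_topologicalClosure.completeSpace_coe
  have hinvV : ∀ z ∈ M.commutant, ∀ v ∈ V, z v ∈ V := by
    intro z hz v hv
    have : V ≤ V.comap (z : H →L[ℂ] H).toLinearMap := by
      refine Submodule.span_le.2 ?_
      rintro _ ⟨y, hy, n, rfl⟩
      exact Submodule.subset_span ⟨z * y, mul_mem hz hy, n, rfl⟩
    exact this hv
  have hinv : ∀ z ∈ M.commutant, ∀ v ∈ K, z v ∈ K := by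
    intro z hz v hv
    exact map_mem_closure z.continuous hv fun w hw => hinvV z hz w hw
  have hcomm : ∀ z ∈ M.commutant, z * K.starProjection = K.starProjection * z := by
    intro z hz
    have hzs : star z ∈ M.commutant := star_mem hz
    ext v
    simp only [mul_apply_eq_comp]
    refine (Submodule.eq_starProjection_of_mem_of_inner_eq_zero (K := K)
      (hinv z hz _ (K.starProjection_apply_mem v)) ?_).symm
    intro w hw
    rw [← map_sub, ← ContinuousLinearMap.adjoint_inner_right, ← ContinuousLinearMap.star_eq_adjoint]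
    exact K.starProjection_inner_eq_zero v _ (hinv _ hzs w hw)
  have hP : K.starProjection ∈ M := mem_of_commute hcomm
  have hη : ∀ n, η n ∈ K := fun n =>
    V.le_topologicalClosure (Submodule.subset_span ⟨1, one_mem _, n, rfl⟩)
  have h1 : (1 : H →L[ℂ] H) - K.starProjection = 0 := by
    refine hfaith _ (sub_mem (one_mem _) hP) fun n => ?_
    simp [Submodule.starProjection_eq_self_iff.2 (hη n)]
  intro v
  have : K.starProjection v = v := by
    have := congrArg (fun T : H →L[ℂ] H => T v) h1
    exact (sub_eq_zero.1 (by simpa using this)).symm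
  exact this ▸ K.starProjection_apply_mem v

variable (η : ℕ → H)

/-- the trace attached to the vectors `η` -/
def trFun (x : H →L[ℂ] H) : ℝ := ∑' n, (⟪η n, x (η n)⟫_ℂ).re

variable {η} (hη : Summable fun n => ‖η n‖ ^ 2)
include hη

omit [CompleteSpace H] in
lemma summable_inner (x : H →L[ℂ] H) : Summable fun n => ⟪η n, x (η n)⟫_ℂ := by
  refine Summable.of_norm_bounded (hη.mul_left ‖x‖) fun n => ?_
  calc ‖⟪η n, x (η n)⟫_ℂ‖ ≤ ‖η n‖ * ‖x (η n)‖ := norm_inner_le_norm _ _
    _ ≤ ‖η n‖ * (‖x‖ * ‖η n‖) := by gcongr; exact x.le_opNorm _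
    _ = ‖x‖ * ‖η n‖ ^ 2 := by ring

lemma summable_re (x : H →L[ℂ] H) : Summable fun n => (⟪η n, x (η n)⟫_ℂ).re :=
  Complex.reCLM.summable (summable_inner hη x)

omit [CompleteSpace H] in
lemma summable_sq (x : H →L[ℂ] H) : Summable fun n => ‖x (η n)‖ ^ 2 := by
  refine Summable.of_nonneg_of_le (fun n => sq_nonneg _) (fun n => ?_) (hη.mul_left (‖x‖ ^ 2))
  rw [← mul_pow]
  exact pow_le_pow_left₀ (norm_nonneg _) (x.le_opNorm _) 2

lemma trFun_add (x y : H →L[ℂ] H) : trFun η (x + y) = trFun η x + trFun η y := by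
  rw [trFun, trFun, trFun, ← (summable_re hη x).tsum_add (summable_re hη y)]
  refine tsum_congr fun n => ?_
  simp

omit hη in
lemma trFun_star_mul (x y : H →L[ℂ] H) :
    trFun η (star x * y) = ∑' n, (⟪x (η n), y (η n)⟫_ℂ).re := by
  refine tsum_congr fun n => ?_
  rw [mul_apply_eq_comp, ContinuousLinearMap.star_eq_adjoint,
    ContinuousLinearMap.adjoint_inner_right]

omit hη in
lemma trFun_star_mul_self (x : H →L[ℂ] H) :
    trFun η (star x * x) = ∑' n, ‖x (η n)‖ ^ 2 := by
  rw [trFun_star_mul]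
  refine tsum_congr fun n => ?_
  rw [inner_self_eq_norm_sq_to_K]
  norm_cast

omit hη in
lemma trFun_star (x : H →L[ℂ] H) : trFun η (star x) = trFun η x := by
  refine tsum_congr fun n => ?_
  rw [ContinuousLinearMap.star_eq_adjoint, ContinuousLinearMap.adjoint_inner_right,
    ← inner_conj_symm, Complex.conj_re]

lemma sq_le_trFun_proj {q : H →L[ℂ] H} (hq : IsStarProjection q) (n : ℕ) :
    ‖(1 - q) (η n)‖ ^ 2 ≤ trFun η (1 - q) := by
  have h1 : IsStarProjection (1 - q) := hq.one_sub
  have e : trFun η (1 - q) = ∑' n, ‖(1 - q) (η n)‖ ^ 2 := by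
    rw [← trFun_star_mul_self, h1.isSelfAdjoint.star_eq, h1.isIdempotentElem.eq]
  rw [e]
  exact (summable_sq hη _).le_tsum n fun m _ => sq_nonneg _

/-- small co-trace projections act almost as the identity on any given vector. -/
lemma exists_delta (M : VonNeumannAlgebra H)
    (hfaith : ∀ x ∈ M, (∀ n, x (η n) = 0) → x = 0) (ξ : H) {δ : ℝ} (hδ : 0 < δ) :
    ∃ d > 0, ∀ q ∈ M, IsStarProjection q → trFun η (1 - q) ≤ d → ‖(1 - q) ξ‖ < δ := by
  have key : ∀ v ∈ (Submodule.span ℂ {v : H | ∃ y ∈ M.commutant, ∃ n, v = y (η n)} :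
      Submodule ℂ H), ∀ ε > 0, ∃ d > 0, ∀ q ∈ M, IsStarProjection q →
        trFun η (1 - q) ≤ d → ‖(1 - q) v‖ < ε := by
    intro v hv
    induction hv using Submodule.span_induction with
    | mem v hv =>
      obtain ⟨y, hy, n, rfl⟩ := hv
      intro ε hε
      refine ⟨(ε / (‖y‖ + 1)) ^ 2, by positivity, fun q hq hqp hd => ?_⟩
      have h1 : ‖(1 - q) (η n)‖ ≤ ε / (‖y‖ + 1) :=
        (pow_le_pow_iff_left₀ (norm_nonneg _) (by positivity) two_ne_zero).1
          ((sq_le_trFun_proj hη hqp n).trans hd)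
      have h2 : (1 - q) (y (η n)) = y ((1 - q) (η n)) := by
        have := commute_of_mem (sub_mem (one_mem _) hq) hy
        exact (congrArg (fun T : H →L[ℂ] H => T (η n)) this).symm
      rw [h2]
      calc ‖y ((1 - q) (η n))‖ ≤ ‖y‖ * ‖(1 - q) (η n)‖ := y.le_opNorm _
        _ ≤ ‖y‖ * (ε / (‖y‖ + 1)) := by gcongr
        _ < ε := by
          rw [mul_div_assoc', div_lt_iff₀ (by positivity)]
          nlinarith [norm_nonneg y]
    | zero => exact fun ε hε => ⟨1, one_pos, fun q _ _ _ => by simpa using hε⟩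
    | add a b _ _ ha hb =>
      intro ε hε
      obtain ⟨d₁, hd₁, h₁⟩ := ha (ε / 2) (half_pos hε)
      obtain ⟨d₂, hd₂, h₂⟩ := hb (ε / 2) (half_pos hε)
      refine ⟨min d₁ d₂, lt_min hd₁ hd₂, fun q hq hqp hd => ?_⟩
      rw [map_add]
      exact (norm_add_le _ _).trans_lt (by
        linarith [h₁ q hq hqp (hd.trans (min_le_left _ _)),
          h₂ q hq hqp (hd.trans (min_le_right _ _))])
    | smul c a _ ha =>
      intro ε hε
      obtain ⟨d, hd, h⟩ := ha (ε / (‖c‖ + 1)) (by positivity)
      refine ⟨d, hd, fun q hq hqp hd' => ?_⟩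
      rw [map_smul, norm_smul]
      have := h q hq hqp hd'
      rw [lt_div_iff₀ (by positivity)] at this
      nlinarith [norm_nonneg c, norm_nonneg ((1 - q) a)]
  obtain ⟨v, hv, hvξ⟩ := Metric.mem_closure_iff.1 (dense_commutant_span M η hfaith ξ) (δ / 2)
    (half_pos hδ)
  obtain ⟨d, hd, h⟩ := key v hv (δ / 2) (half_pos hδ)
  refine ⟨d, hd, fun q hq hqp hd' => ?_⟩
  have h3 : ‖(1 - q) (ξ - v)‖ ≤ dist ξ v := by
    rw [dist_eq_norm]
    exact ((1 - q).le_opNorm _).trans
      (mul_le_of_le_one_left (norm_nonneg _) hqp.one_sub.norm_le)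
  calc ‖(1 - q) ξ‖ = ‖(1 - q) (ξ - v) + (1 - q) v‖ := by rw [← map_add, sub_add_cancel]
    _ ≤ ‖(1 - q) (ξ - v)‖ + ‖(1 - q) v‖ := norm_add_le _ _
    _ < δ := by linarith [h q hq hqp hd']

/-- bounded sequences of `M` which are Cauchy in the 2-norm converge. -/
lemma complete_ball (M : VonNeumannAlgebra H)
    (hfaith : ∀ x ∈ M, (∀ n, x (η n) = 0) → x = 0) (u : ℕ → (H →L[ℂ] H)) (hu : ∀ n, u n ∈ M)
    (C : ℝ) (hC : ∀ n, ‖u n‖ ≤ C)
    (hcau : ∀ ε > 0, ∃ N, ∀ m ≥ N, ∀ n ≥ N, trFun η (star (u m - u n) * (u m - u n)) ≤ ε) :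
    ∃ x ∈ M, ‖x‖ ≤ C ∧
      Tendsto (fun n => trFun η (star (u n - x) * (u n - x))) atTop (𝓝 0) := by
  have hC0 : 0 ≤ C := (norm_nonneg _).trans (hC 0)
  have hgen : ∀ k, ∀ ε > 0, ∃ N, ∀ m ≥ N, ∀ n ≥ N, ‖(u m - u n) (η k)‖ ≤ ε := by
    intro k ε hε
    obtain ⟨N, hN⟩ := hcau (ε ^ 2) (by positivity)
    refine ⟨N, fun m hm n hn => ?_⟩
    refine (pow_le_pow_iff_left₀ (norm_nonneg _) hε.le two_ne_zero).1 ?_
    refine le_trans ?_ ((trFun_star_mul_self (η := η) _).symm.le.trans (hN m hm n hn))
    exact (summable_sq hη _).le_tsum k fun m _ => sq_nonneg _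
  have hspan : ∀ v ∈ (Submodule.span ℂ {v : H | ∃ y ∈ M.commutant, ∃ n, v = y (η n)} :
      Submodule ℂ H), CauchySeq fun n => u n v := by
    intro v hv
    induction hv using Submodule.span_induction with
    | mem v hv =>
      obtain ⟨y, hy, k, rfl⟩ := hv
      have hk : CauchySeq fun n => u n (η k) := by
        rw [Metric.cauchySeq_iff]
        intro ε hε
        obtain ⟨N, hN⟩ := hgen k (ε / 2) (half_pos hε)
        refine ⟨N, fun m hm n hn => ?_⟩
        rw [dist_eq_norm]
        exact lt_of_le_of_lt (by simpa using hN m hm n hn) (half_lt_self hε)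
      have e : (fun n => u n (y (η k))) = fun n => y (u n (η k)) := by
        funext n
        exact (congrArg (fun T : H →L[ℂ] H => T (η k)) (commute_of_mem (hu n) hy)).symm
      rw [e]
      exact hk.map y.uniformContinuous
    | zero => simpa using cauchySeq_const (0 : H)
    | add a b _ _ ha hb =>
      have e : (fun n => u n (a + b)) = (fun n => u n a) + fun n => u n b :=
        funext fun n => map_add (u n) a b
      rw [e]
      exact ha.add hb
    | smul c a _ ha =>
      have e : (fun n => u n (c • a)) = fun n => c • u n a := funext fun n => map_smul (u n) c a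
      rw [e]
      exact ha.map (uniformContinuous_const_smul c)
  have hall : ∀ v, ∃ w, Tendsto (fun n => u n v) atTop (𝓝 w) := by
    intro v
    refine cauchySeq_tendsto_of_complete ?_
    rw [Metric.cauchySeq_iff]
    intro ε hε
    obtain ⟨w, hw, hwv⟩ := Metric.mem_closure_iff.1 (dense_commutant_span M η hfaith v)
      (ε / (4 * (C + 1))) (by positivity)
    obtain ⟨N, hN⟩ := Metric.cauchySeq_iff.1 (hspan w hw) (ε / 2) (half_pos hε)
    refine ⟨N, fun m hm n hn => ?_⟩
    have hb : ∀ i, dist (u i v) (u i w) ≤ ε / 4 := by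
      intro i
      rw [dist_eq_norm, ← map_sub]
      refine ((u i).le_opNorm _).trans ?_
      rw [← dist_eq_norm]
      calc ‖u i‖ * dist v w ≤ (C + 1) * (ε / (4 * (C + 1))) :=
            mul_le_mul (by linarith [hC i]) hwv.le dist_nonneg (by positivity)
        _ = ε / 4 := by field_simp
    calc dist (u m v) (u n v) ≤ dist (u m v) (u m w) + dist (u m w) (u n w) + dist (u n w) (u n v) :=
          dist_triangle4 _ _ _ _
      _ < ε := by
        rw [dist_comm (u n w)]
        linarith [hb m, hb n, hN m hm n hn]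
  choose g hg using hall
  set x : H →L[ℂ] H := LinearMap.mkContinuous
    { toFun := g
      map_add' := fun a b => tendsto_nhds_unique (hg (a + b))
        (by simpa [map_add] using (hg a).add (hg b))
      map_smul' := fun c a => tendsto_nhds_unique (hg (c • a))
        (by simpa [map_smul] using (hg a).const_smul c) } C
    (fun v => le_of_tendsto' (hg v).norm fun n =>
      ((u n).le_opNorm v).trans (mul_le_mul_of_nonneg_right (hC n) (norm_nonneg v))) with hxdef
  have hx : ∀ v, Tendsto (fun n => u n v) atTop (𝓝 (x v)) := hg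
  have hxM : x ∈ M := by
    refine mem_of_commute fun y hy => ?_
    ext v
    refine tendsto_nhds_unique ((y.continuous.tendsto _).comp (hx v)) ((hx (y v)).congr fun n => ?_)
    exact (congrArg (fun T : H →L[ℂ] H => T v) (commute_of_mem (hu n) hy)).symm
  refine ⟨x, hxM, LinearMap.mkContinuous_norm_le _ hC0 _, ?_⟩
  rw [Metric.tendsto_atTop]
  intro ε hε
  obtain ⟨N, hN⟩ := hcau (ε / 2) (half_pos hε)
  refine ⟨N, fun n hn => ?_⟩
  have hle : trFun η (star (u n - x) * (u n - x)) ≤ ε / 2 := by
    rw [trFun_star_mul_self]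
    refine (summable_sq hη _).tsum_le_of_sum_le fun s => ?_
    have hlim : Tendsto (fun m => ∑ k ∈ s, ‖(u n - u m) (η k)‖ ^ 2) atTop
        (𝓝 (∑ k ∈ s, ‖(u n - x) (η k)‖ ^ 2)) := by
      refine tendsto_finsetSum _ fun k _ => ?_
      simp only [sub_apply]
      exact ((tendsto_const_nhds.sub (hx (η k))).norm).pow 2
    refine le_of_tendsto hlim ((eventually_ge_atTop N).mono fun m hm => ?_)
    exact ((summable_sq hη _).sum_le_tsum s fun k _ => sq_nonneg _).trans
      ((trFun_star_mul_self (η := η) _).symm.le.trans (hN n hn m hm))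
  rw [Real.dist_eq, sub_zero, abs_of_nonneg]
  · linarith
  · rw [trFun_star_mul_self]; exact tsum_nonneg fun k => sq_nonneg _

omit hη in
lemma isClosed_masa {M : VonNeumannAlgebra H} {A : StarSubalgebra ℂ (H →L[ℂ] H)}
    (hA : IsMASA M A) : IsClosed (A : Set (H →L[ℂ] H)) := by
  obtain ⟨hAM, hAc, hAmax⟩ := hA
  have hle : A.topologicalClosure ≤ M.toStarSubalgebra :=
    StarSubalgebra.topologicalClosure_minimal hAM (isClosed_vna M)
  let := A.commRingTopologicalClosure fun a b => Subtype.ext (hAc a a.2 b b.2)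
  have := hAmax A.topologicalClosure hle
    (fun a ha b hb => congrArg Subtype.val
      (mul_comm (⟨a, ha⟩ : A.topologicalClosure) ⟨b, hb⟩))
    A.le_topologicalClosure
  rw [← this]
  exact A.isClosed_topologicalClosure

omit hη in
lemma mem_masa_of_commute {M : VonNeumannAlgebra H} {A : StarSubalgebra ℂ (H →L[ℂ] H)}
    (hA : IsMASA M A) {y : H →L[ℂ] H} (hyM : y ∈ M) (hys : star y = y)
    (hya : ∀ a ∈ A, y * a = a * y) : y ∈ A := by
  obtain ⟨hAM, hAc, hAmax⟩ := hA
  set s := insert y (A : Set (H →L[ℂ] H)) with hs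
  have hcs : ∀ a ∈ s, ∀ b ∈ s, a * b = b * a := by
    rintro a (rfl | ha) b (rfl | hb)
    · rfl
    · exact hya b hb
    · exact (hya a ha).symm
    · exact hAc a ha b hb
  have hstar : ∀ b ∈ s, star b ∈ s := by
    rintro b (rfl | hb)
    · exact Or.inl hys
    · exact Or.inr (star_mem (s := A) hb)
  have hB := hAmax (StarAlgebra.adjoin ℂ s)
    (StarAlgebra.adjoin_le (Set.insert_subset hyM hAM))
    (fun a ha b hb => by
      have := StarAlgebra.isMulCommutative_adjoin ℂ hcs
        (fun a ha b hb => hcs a ha _ (hstar b hb))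
      exact setLike_mul_comm ha hb)
    (fun a ha => StarAlgebra.subset_adjoin ℂ s (Or.inr ha))
  exact hB ▸ StarAlgebra.subset_adjoin ℂ s (Or.inl rfl)

end Bridge

section Gelfand

variable (B : Type u) [CommCStarAlgebra B]

/-- real continuous functions on the spectrum, inside the algebra -/
def realEmb : C(WeakDual.characterSpace ℂ B, ℝ) →ₐ[ℝ] B :=
  (((gelfandStarTransform B).symm : C(WeakDual.characterSpace ℂ B, ℂ) →⋆ₐ[ℂ] B).toAlgHom.restrictScalars
      ℝ).comp (Complex.ofRealAm.compLeftContinuous ℝ Complex.continuous_ofReal)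

variable {B}

lemma realEmb_gelfand (f : C(WeakDual.characterSpace ℂ B, ℝ)) (ω) :
    gelfandStarTransform B (realEmb B f) ω = (f ω : ℂ) :=
  DFunLike.congr_fun ((gelfandStarTransform B).apply_symm_apply _) ω

lemma realEmb_selfAdjoint (f : C(WeakDual.characterSpace ℂ B, ℝ)) :
    IsSelfAdjoint (realEmb B f) := by
  show star _ = _
  apply EquivLike.injective (gelfandStarTransform B)
  rw [map_star]
  ext ω
  rw [ContinuousMap.star_apply, realEmb_gelfand]
  exact Complex.conj_ofReal _

lemma realEmb_norm (f : C(WeakDual.characterSpace ℂ B, ℝ)) : ‖realEmb B f‖ = ‖f‖ := by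
  rw [← StarAlgEquiv.norm_map (gelfandStarTransform B)]
  simp only [ContinuousMap.norm_eq_iSup_norm, realEmb_gelfand, Complex.norm_real]

lemma realEmb_rep (b : B) : ∃ f g : C(WeakDual.characterSpace ℂ B, ℝ),
    b = realEmb B f + Complex.I • realEmb B g ∧ (IsSelfAdjoint b → b = realEmb B f) := by
  let f : C(WeakDual.characterSpace ℂ B, ℝ) :=
    ⟨fun ω => (gelfandStarTransform B b ω).re,
      Complex.continuous_re.comp (map_continuous (gelfandStarTransform B b))⟩
  let g : C(WeakDual.characterSpace ℂ B, ℝ) :=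
    ⟨fun ω => (gelfandStarTransform B b ω).im,
      Complex.continuous_im.comp (map_continuous (gelfandStarTransform B b))⟩
  refine ⟨f, g, ?_, fun hb => ?_⟩
  · apply EquivLike.injective (gelfandStarTransform B)
    ext ω
    rw [map_add, map_smul, ContinuousMap.add_apply, ContinuousMap.smul_apply, realEmb_gelfand,
      realEmb_gelfand, smul_eq_mul, mul_comm]
    exact (Complex.re_add_im _).symm
  · apply EquivLike.injective (gelfandStarTransform B)
    ext ω
    rw [realEmb_gelfand]
    have h : star (gelfandStarTransform B b) = gelfandStarTransform B b := by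
      rw [← map_star, hb.star_eq]
    exact (Complex.conj_eq_iff_re.1 (DFunLike.congr_fun h ω)).symm

end Gelfand

section Main

variable {M : VonNeumannAlgebra H} {A : StarSubalgebra ℂ (H →L[ℂ] H)}
  (Ω : Type u) [TopologicalSpace Ω] [CompactSpace Ω] [T2Space Ω]

open Bridge in
/-- The transfer, for any presentation of the self-adjoint part of `A`. -/
lemma soPavable_aux {ε : ℝ} {r : ℕ}
    (hcore : ∀ (M : Type u) [CStarAlgebra M] [PartialOrder M] [StarOrderedRing M]
      (Ω : Type u) [TopologicalSpace Ω] [CompactSpace Ω] [T2Space Ω] (T : TMasa M Ω) (x : M),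
      IsSelfAdjoint x → T.Pavable x ε r)
    (hM : HasFaithfulNormalTracialState M) (hA : IsMASA M A)
    (e : C(Ω, ℝ) →ₐ[ℝ] (H →L[ℂ] H)) (heA : ∀ f, e f ∈ A) (hesa : ∀ f, IsSelfAdjoint (e f))
    (henorm : ∀ f, ‖e f‖ = ‖f‖)
    (hrep : ∀ a ∈ A, ∃ f g, a = e f + Complex.I • e g ∧ (IsSelfAdjoint a → a = e f))
    (x : H →L[ℂ] H) (hxM : x ∈ M) (hx : IsSelfAdjoint x) : SoPavable M A x ε r := by
  obtain ⟨η, hη, hη1, hcomm, hfaith⟩ := hM
  have : IsClosed ((M.toStarSubalgebra : Set (H →L[ℂ] H))) := isClosed_vna M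
  let _ : CStarAlgebra M.toStarSubalgebra := StarSubalgebra.cstarAlgebra M.toStarSubalgebra
  let _ : PartialOrder M.toStarSubalgebra := CStarAlgebra.spectralOrder M.toStarSubalgebra
  have : StarOrderedRing M.toStarSubalgebra := CStarAlgebra.spectralOrderedRing M.toStarSubalgebra
  let emb : C(Ω, ℝ) →ₐ[ℝ] M.toStarSubalgebra :=
    e.codRestrict (M.toStarSubalgebra.toSubalgebra.restrictScalars ℝ) fun f => hA.1 (heA f)
  have hemb : ∀ f, ((emb f : M.toStarSubalgebra) : H →L[ℂ] H) = e f := fun f => rfl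
  let T : TMasa M.toStarSubalgebra Ω :=
    { tr :=
        { toFun := fun y => trFun η (y : H →L[ℂ] H)
          map_add' := fun y z => trFun_add hη _ _
          map_smul' := fun c y => by
            simp only [trFun, smul_eq_mul, RingHom.id_apply, ← tsum_mul_left]
            refine tsum_congr fun n => ?_
            simp [inner_smul_right_eq_smul] }
      emb := emb
      tr_mul_comm := fun y z => by
        show trFun η ((y : H →L[ℂ] H) * z) = trFun η ((z : H →L[ℂ] H) * y)
        rw [trFun, trFun, ← Complex.re_tsum (summable_inner hη _),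
          ← Complex.re_tsum (summable_inner hη _)]
        exact congrArg Complex.re (hcomm _ y.2 _ z.2)
      tr_star := fun y => trFun_star _
      tr_one := by
        show trFun η (1 : H →L[ℂ] H) = 1
        rw [trFun, ← hη1]
        refine tsum_congr fun n => ?_
        simp [inner_self_eq_norm_sq_to_K, ← Complex.ofReal_pow]
      tr_star_mul_self := fun y => by
        show 0 ≤ trFun η (star (y : H →L[ℂ] H) * y)
        rw [trFun_star_mul_self]
        exact tsum_nonneg fun n => sq_nonneg _
      tr_faithful := fun y hy => by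
        have hy : trFun η (star (y : H →L[ℂ] H) * y) = 0 := hy
        rw [trFun_star_mul_self] at hy
        refine Subtype.ext (hfaith _ y.2 fun n => ?_)
        have h1 := (summable_sq hη (y : H →L[ℂ] H)).le_tsum n fun m _ => sq_nonneg _
        rw [hy] at h1
        exact norm_eq_zero.1 (pow_eq_zero_iff two_ne_zero |>.1 (le_antisymm h1 (sq_nonneg _)))
      complete := fun u C hC hcau => by
        obtain ⟨y, hy, hyC, hlim⟩ := complete_ball hη M hfaith (fun n => (u n : H →L[ℂ] H))
          (fun n => (u n).2) C hC hcau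
        exact ⟨⟨y, hy⟩, hyC, hlim⟩
      emb_selfAdjoint := fun f => Subtype.ext (hesa f).star_eq
      emb_norm := henorm
      maximal := fun y hy hcy => by
        have hys : star (y : H →L[ℂ] H) = y := congrArg Subtype.val hy.star_eq
        have hya : ∀ a ∈ A, (y : H →L[ℂ] H) * a = a * y := by
          intro a ha
          obtain ⟨f, g, hfg, -⟩ := hrep a ha
          have h1 : (y : H →L[ℂ] H) * e f = e f * y := congrArg Subtype.val (hcy f).eq
          have h2 : (y : H →L[ℂ] H) * e g = e g * y := congrArg Subtype.val (hcy g).eq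
          rw [hfg, mul_add, add_mul, mul_smul_comm, smul_mul_assoc, h1, h2]
        obtain ⟨f, g, -, hf⟩ := hrep _ (mem_masa_of_commute hA y.2 hys hya)
        exact ⟨f, Subtype.ext (hf hys).symm⟩ }
  intro F δ hδ
  choose d hd hdq using fun ξ : H => exists_delta hη M hfaith ξ hδ
  obtain ⟨δ', hδ', hδ'F⟩ : ∃ δ' > 0, ∀ ξ ∈ F, δ' ≤ d ξ := by
    rcases F.eq_empty_or_nonempty with rfl | hne
    · exact ⟨1, one_pos, by simp⟩
    · exact ⟨F.inf' hne d, (Finset.lt_inf'_iff hne).2 fun ξ _ => hd ξ,
        fun ξ hξ => Finset.inf'_le d hξ⟩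
  obtain ⟨p, hp, a, ha, q, hq, hqtr, hbound⟩ :=
    hcore M.toStarSubalgebra Ω T ⟨x, hxM⟩ (Subtype.ext hx.star_eq) δ' hδ'
  have hqproj : IsStarProjection (q : H →L[ℂ] H) :=
    ⟨congrArg Subtype.val hq.isIdempotentElem.eq, congrArg Subtype.val hq.isSelfAdjoint.star_eq⟩
  refine ⟨fun i => e (p i), fun i => ⟨heA _, ?_, hesa _⟩, fun i j hij => ?_, ?_,
    e a, heA _, hesa a, ?_,
    q, q.2, hqproj, fun ξ hξ => hdq ξ q q.2 hqproj (hqtr.trans (hδ'F ξ hξ)), ?_⟩
  · show e (p i) * e (p i) = e (p i)
    rw [← map_mul, hp.idem]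
  · show e (p i) * e (p j) = 0
    rw [← map_mul, hp.orth i j hij, map_zero]
  · rw [← map_sum, hp.sum_one, map_one]
  · rw [henorm]; exact ha
  · refine le_of_eq_of_le ?_ hbound
    show _ = ‖((q * ((∑ i, emb (p i) * ⟨x, hxM⟩ * emb (p i)) - emb a) * q :
      M.toStarSubalgebra) : H →L[ℂ] H)‖
    simp [hemb]

end Main

open Bridge in
/-- The concrete statement follows from the abstract one. -/
theorem soPavable_of_core {ε : ℝ} {r : ℕ}
    (hcore : ∀ (M : Type u) [CStarAlgebra M] [PartialOrder M] [StarOrderedRing M]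
      (Ω : Type u) [TopologicalSpace Ω] [CompactSpace Ω] [T2Space Ω] (T : TMasa M Ω) (x : M),
      IsSelfAdjoint x → T.Pavable x ε r) :
    ∀ (H : Type u) [NormedAddCommGroup H] [InnerProductSpace ℂ H] [CompleteSpace H]
      (M : VonNeumannAlgebra H) (A : StarSubalgebra ℂ (H →L[ℂ] H)),
      HasFaithfulNormalTracialState M → IsMASA M A →
        ∀ x ∈ M, IsSelfAdjoint x → SoPavable M A x ε r := by
  intro H _ _ _ M A hM hA x hxM hx
  have : IsClosed (A : Set (H →L[ℂ] H)) := isClosed_masa hA
  let _ : CommCStarAlgebra A :=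
    { StarSubalgebra.cstarAlgebra A with
      mul_comm := fun a b => Subtype.ext (hA.2.1 a a.2 b b.2) }
  refine soPavable_aux (WeakDual.characterSpace ℂ A) hcore hM hA
    ((A.subtype.toAlgHom.restrictScalars ℝ).comp (realEmb A)) (fun f => (realEmb A f).2)
    (fun f => congrArg Subtype.val (realEmb_selfAdjoint f).star_eq) (fun f => realEmb_norm f)
    (fun a ha => ?_) x hxM hx
  obtain ⟨f, g, hfg, hf⟩ := realEmb_rep (⟨a, ha⟩ : A)
  exact ⟨f, g, congrArg Subtype.val hfg, fun h => congrArg Subtype.val (hf (Subtype.ext h.star_eq))⟩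

end Vale.Agent.P078
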