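import Mathlib
import Vale.Agent.P078.SemiDefs

/-! The Hilbert space of square integrable elements of a semifinite algebra. -/

noncomputable section

open scoped InnerProductSpace ComplexOrder NNReal ENNReal
open Filter Topology

namespace Vale.Agent.P078.Semi

universe u

variable {H : Type u} [NormedAddCommGroup H] [InnerProductSpace ℂ H] [CompleteSpace H]

/-- A von Neumann algebra with chosen trace vectors. -/
structure Ctx (H : Type u) [NormedAddCommGroup H] [InnerProductSpace ℂ H] [CompleteSpace H] where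
  /-- the algebra -/
  M : VonNeumannAlgebra H
  /-- index set of the trace vectors -/
  I : Type u
  /-- the trace vectors -/
  η : I → H
  symm : ∀ x ∈ M, (∑' i, (‖x (η i)‖₊ : ℝ≥0∞) ^ 2) = ∑' i, (‖star x (η i)‖₊ : ℝ≥0∞) ^ 2
  faith : ∀ x ∈ M, (∀ i, x (η i) = 0) → x = 0
  semifinite : ∀ p ∈ M, IsStarProjection p → p ≠ 0 → ∃ q ∈ M, IsStarProjection q ∧ q ≠ 0 ∧
    p * q = q ∧ (∑' i, (‖q (η i)‖₊ : ℝ≥0∞) ^ 2) < ⊤

lemma mem_of_commute {M : VonNeumannAlgebra H} {x : H →L[ℂ] H}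
    (h : ∀ y ∈ M.commutant, y * x = x * y) : x ∈ M := by
  have : x ∈ Set.centralizer (Set.centralizer (M : Set (H →L[ℂ] H))) := by
    rw [Set.mem_centralizer_iff]
    intro y hy
    exact h y (by rw [← SetLike.mem_coe, M.coe_commutant]; exact hy)
  rwa [M.centralizer_centralizer] at this

lemma commute_of_mem {M : VonNeumannAlgebra H} {x y : H →L[ℂ] H} (hx : x ∈ M)
    (hy : y ∈ M.commutant) : y * x = x * y := by
  rw [← SetLike.mem_coe, M.coe_commutant, Set.mem_centralizer_iff] at hy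
  exact (hy x hx).symm

/-- a closed subspace invariant under `z` and `star z` has a commuting projection. -/
lemma commute_starProjection (K : Submodule ℂ H) [K.HasOrthogonalProjection] {z : H →L[ℂ] H}
    (h1 : ∀ v ∈ K, z v ∈ K) (h2 : ∀ v ∈ K, star z v ∈ K) :
    z * K.starProjection = K.starProjection * z := by
  ext v
  simp only [mul_apply_eq_comp]
  refine (Submodule.eq_starProjection_of_mem_of_inner_eq_zero (K := K)
    (h1 _ (K.starProjection_apply_mem v)) ?_).symm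
  intro w hw
  rw [← map_sub, ← ContinuousLinearMap.adjoint_inner_right, ← ContinuousLinearMap.star_eq_adjoint]
  exact K.starProjection_inner_eq_zero v _ (h2 _ hw)

namespace Ctx

variable (C : Ctx H)

/-- square integrable -/
def Fin2 (x : H →L[ℂ] H) : Prop := Summable fun i => ‖x (C.η i)‖ ^ 2

lemma fin2_iff (x : H →L[ℂ] H) :
    C.Fin2 x ↔ (∑' i, (‖x (C.η i)‖₊ : ℝ≥0∞) ^ 2) ≠ ⊤ := by
  simp only [← ENNReal.coe_pow, ENNReal.tsum_coe_ne_top_iff_summable, ← NNReal.summable_coe]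
  exact Iff.rfl

lemma Fin2.star {C : Ctx H} {x : H →L[ℂ] H} (h : C.Fin2 x) (hx : x ∈ C.M) :
    C.Fin2 (Star.star x) := by
  rw [fin2_iff] at h ⊢
  rwa [← C.symm x hx]

lemma exists_finite_proj {p : H →L[ℂ] H} (hp : p ∈ C.M) (hpp : IsStarProjection p) (h0 : p ≠ 0) :
    ∃ q ∈ C.M, IsStarProjection q ∧ q ≠ 0 ∧ p * q = q ∧ C.Fin2 q := by
  obtain ⟨q, h1, h2, h3, h4, h5⟩ := C.semifinite p hp hpp h0
  exact ⟨q, h1, h2, h3, h4, (C.fin2_iff q).2 h5.ne⟩

variable {C}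

lemma fin2_zero : C.Fin2 0 := by simp [Fin2]

lemma Fin2.of_le {x y : H →L[ℂ] H} (h : C.Fin2 x) (c : ℝ)
    (hle : ∀ i, ‖y (C.η i)‖ ≤ c * ‖x (C.η i)‖) : C.Fin2 y := by
  refine Summable.of_nonneg_of_le (fun i => sq_nonneg _) (fun i => ?_)
    (Summable.mul_left (c ^ 2) h)
  rw [← mul_pow]
  exact pow_le_pow_left₀ (norm_nonneg _) (hle i) 2

lemma Fin2.mul_left {x : H →L[ℂ] H} (h : C.Fin2 x) (a : H →L[ℂ] H) : C.Fin2 (a * x) :=
  h.of_le ‖a‖ fun i => a.le_opNorm _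

lemma Fin2.add {x y : H →L[ℂ] H} (hx : C.Fin2 x) (hy : C.Fin2 y) : C.Fin2 (x + y) := by
  refine Summable.of_nonneg_of_le (fun i => sq_nonneg _) (fun i => ?_)
    ((Summable.add hx hy).mul_left 2)
  have h := norm_add_le (x (C.η i)) (y (C.η i))
  rw [add_apply]
  nlinarith [norm_nonneg (x (C.η i)), norm_nonneg (y (C.η i)),
    norm_nonneg (x (C.η i) + y (C.η i)), sq_nonneg (‖x (C.η i)‖ - ‖y (C.η i)‖)]

lemma Fin2.smul {x : H →L[ℂ] H} (hx : C.Fin2 x) (c : ℂ) : C.Fin2 (c • x) :=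
  hx.of_le ‖c‖ fun i => le_of_eq (norm_smul _ _)

lemma Fin2.neg {x : H →L[ℂ] H} (hx : C.Fin2 x) : C.Fin2 (-x) :=
  hx.of_le 1 fun i => by simp

lemma Fin2.sub {x y : H →L[ℂ] H} (hx : C.Fin2 x) (hy : C.Fin2 y) : C.Fin2 (x - y) := by
  simpa [sub_eq_add_neg] using hx.add hy.neg

lemma fin2_sum {ι : Type*} (s : Finset ι) {f : ι → H →L[ℂ] H}
    (h : ∀ j ∈ s, C.Fin2 (f j)) : C.Fin2 (∑ j ∈ s, f j) :=
  Finset.sum_induction f C.Fin2 (fun _ _ => Fin2.add) fin2_zero h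

lemma Fin2.mul_right {x : H →L[ℂ] H} (h : C.Fin2 x) (hx : x ∈ C.M) {a : H →L[ℂ] H}
    (ha : a ∈ C.M) : C.Fin2 (x * a) := by
  have h1 : C.Fin2 (Star.star a * Star.star x) := (h.star hx).mul_left _
  have := h1.star (mul_mem (star_mem ha) (star_mem hx))
  simpa using this

variable (C)

open scoped Classical in
/-- the vector attached to an operator -/
def l2 (x : H →L[ℂ] H) : lp (fun _ : C.I => H) 2 :=
  if h : C.Fin2 x then ⟨fun i => x (C.η i), memℓp_gen (by simpa [Fin2] using h)⟩ else 0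

/-- the 2-norm -/
def n2 (x : H →L[ℂ] H) : ℝ := ‖C.l2 x‖

lemma n2_nonneg (x : H →L[ℂ] H) : 0 ≤ C.n2 x := norm_nonneg _

variable {C}

lemma l2_apply {x : H →L[ℂ] H} (h : C.Fin2 x) (i : C.I) : C.l2 x i = x (C.η i) := by
  rw [l2, dif_pos h]

lemma l2_add {x y : H →L[ℂ] H} (hx : C.Fin2 x) (hy : C.Fin2 y) :
    C.l2 (x + y) = C.l2 x + C.l2 y := by
  refine lp.ext (funext fun i => ?_)
  rw [lp.coeFn_add, Pi.add_apply, l2_apply (hx.add hy), l2_apply hx, l2_apply hy, add_apply]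

lemma l2_smul {x : H →L[ℂ] H} (hx : C.Fin2 x) (c : ℂ) : C.l2 (c • x) = c • C.l2 x := by
  refine lp.ext (funext fun i => ?_)
  rw [lp.coeFn_smul, Pi.smul_apply, l2_apply (hx.smul c), l2_apply hx]
  rfl

lemma l2_zero : C.l2 0 = 0 := by
  refine lp.ext (funext fun i => ?_)
  rw [l2_apply fin2_zero]
  simp

lemma l2_sub {x y : H →L[ℂ] H} (hx : C.Fin2 x) (hy : C.Fin2 y) :
    C.l2 (x - y) = C.l2 x - C.l2 y := by
  rw [eq_sub_iff_add_eq, ← l2_add (hx.sub hy) hy, sub_add_cancel]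

lemma l2_sum {ι : Type*} (s : Finset ι) {f : ι → H →L[ℂ] H} (h : ∀ j, C.Fin2 (f j)) :
    C.l2 (∑ j ∈ s, f j) = ∑ j ∈ s, C.l2 (f j) := by
  classical
  induction s using Finset.induction_on with
  | empty => simp [l2_zero]
  | insert j s hj ih =>
    rw [Finset.sum_insert hj, Finset.sum_insert hj, l2_add (h j) (fin2_sum s fun k _ => h k), ih]

lemma inner_l2 {x y : H →L[ℂ] H} (hx : C.Fin2 x) (hy : C.Fin2 y) :
    ⟪C.l2 x, C.l2 y⟫_ℂ = ∑' i, ⟪x (C.η i), y (C.η i)⟫_ℂ := by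
  rw [lp.inner_eq_tsum]
  simp [l2_apply hx, l2_apply hy]

lemma n2_sq {x : H →L[ℂ] H} (hx : C.Fin2 x) : C.n2 x ^ 2 = ∑' i, ‖x (C.η i)‖ ^ 2 := by
  have := lp.norm_rpow_eq_tsum (p := 2) (by norm_num) (C.l2 x)
  simpa [n2, l2_apply hx] using this

lemma norm_le_n2 {x : H →L[ℂ] H} (hx : C.Fin2 x) (i : C.I) : ‖x (C.η i)‖ ≤ C.n2 x := by
  have h := hx.le_tsum i fun j _ => sq_nonneg _
  rw [← n2_sq hx] at h
  exact (pow_le_pow_iff_left₀ (norm_nonneg _) (C.n2_nonneg _) two_ne_zero).1 h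

lemma n2_le_of_le {x y : H →L[ℂ] H} (hx : C.Fin2 x) {c : ℝ} (hc : 0 ≤ c)
    (hle : ∀ i, ‖y (C.η i)‖ ≤ c * ‖x (C.η i)‖) : C.n2 y ≤ c * C.n2 x := by
  have hy := hx.of_le c hle
  refine (pow_le_pow_iff_left₀ (C.n2_nonneg _) (mul_nonneg hc (C.n2_nonneg _)) two_ne_zero).1 ?_
  rw [mul_pow, n2_sq hx, n2_sq hy, ← tsum_mul_left]
  refine Summable.tsum_le_tsum (fun i => ?_) hy (Summable.mul_left (c ^ 2) hx)
  rw [← mul_pow]
  exact pow_le_pow_left₀ (norm_nonneg _) (hle i) 2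

lemma n2_mul_left_le {x : H →L[ℂ] H} (hx : C.Fin2 x) (a : H →L[ℂ] H) :
    C.n2 (a * x) ≤ ‖a‖ * C.n2 x :=
  n2_le_of_le hx (norm_nonneg a) fun _ => a.le_opNorm _

lemma n2_star {x : H →L[ℂ] H} (hx : C.Fin2 x) (hxM : x ∈ C.M) :
    C.n2 (Star.star x) = C.n2 x := by
  have hs := hx.star hxM
  refine (pow_left_inj₀ (C.n2_nonneg _) (C.n2_nonneg _) two_ne_zero).1 ?_
  rw [n2_sq hs, n2_sq hx]
  have e : ∀ y : H →L[ℂ] H, C.Fin2 y → ENNReal.ofReal (∑' i, ‖y (C.η i)‖ ^ 2) =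
      ∑' i, (‖y (C.η i)‖₊ : ℝ≥0∞) ^ 2 := by
    intro y hy
    rw [ENNReal.ofReal_tsum_of_nonneg (fun i => sq_nonneg _) hy]
    refine tsum_congr fun i => ?_
    rw [ENNReal.ofReal_pow (norm_nonneg _), ofReal_norm, enorm_eq_nnnorm]
  have h := C.symm x hxM
  rw [← e x hx, ← e _ hs] at h
  exact ((ENNReal.ofReal_eq_ofReal_iff (tsum_nonneg fun i => sq_nonneg _)
    (tsum_nonneg fun i => sq_nonneg _)).1 h).symm

lemma n2_mul_right_le {x a : H →L[ℂ] H} (hx : C.Fin2 x) (hxM : x ∈ C.M) (ha : a ∈ C.M) :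
    C.n2 (x * a) ≤ C.n2 x * ‖a‖ := by
  rw [← n2_star (hx.mul_right hxM ha) (mul_mem hxM ha), star_mul]
  refine (n2_mul_left_le (hx.star hxM) _).trans_eq ?_
  rw [norm_star, n2_star hx hxM, mul_comm]

/-- polarisation of the trace property -/
lemma inner_star {x y : H →L[ℂ] H} (hx : C.Fin2 x) (hxM : x ∈ C.M) (hy : C.Fin2 y)
    (hyM : y ∈ C.M) :
    ⟪C.l2 (Star.star x), C.l2 (Star.star y)⟫_ℂ = ⟪C.l2 y, C.l2 x⟫_ℂ := by
  have hn : ∀ z, C.Fin2 z → z ∈ C.M → ‖C.l2 (Star.star z)‖ = ‖C.l2 z‖ :=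
    fun z hz hzM => n2_star hz hzM
  have hxs := hx.star hxM
  have hys := hy.star hyM
  have h1 := hn _ (hx.add hy) (add_mem hxM hyM)
  rw [star_add, l2_add hxs hys, l2_add hx hy] at h1
  have hI : Complex.I • y ∈ C.M := SMulMemClass.smul_mem (s := C.M.toStarSubalgebra) _ hyM
  have h2 := hn _ (hx.add (hy.smul Complex.I)) (add_mem hxM hI)
  rw [star_add, star_smul, l2_add hxs (hys.smul _), l2_smul hys, l2_add hx (hy.smul _),
    l2_smul hy] at h2
  have r1 : (⟪C.l2 (Star.star x), C.l2 (Star.star y)⟫_ℂ).re = (⟪C.l2 x, C.l2 y⟫_ℂ).re := by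
    have a := norm_add_sq (𝕜 := ℂ) (C.l2 (Star.star x)) (C.l2 (Star.star y))
    have b := norm_add_sq (𝕜 := ℂ) (C.l2 x) (C.l2 y)
    simp only [RCLike.re_to_complex, hn x hx hxM, hn y hy hyM, h1] at a b
    linarith
  have r2 : (⟪C.l2 (Star.star x), C.l2 (Star.star y)⟫_ℂ).im = -(⟪C.l2 x, C.l2 y⟫_ℂ).im := by
    have a := norm_add_sq (𝕜 := ℂ) (C.l2 (Star.star x))
      (Star.star Complex.I • C.l2 (Star.star y))
    have b := norm_add_sq (𝕜 := ℂ) (C.l2 x) (Complex.I • C.l2 y)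
    rw [h2] at a
    simp only [RCLike.re_to_complex, norm_smul, inner_smul_right, hn x hx hxM, hn y hy hyM,
      norm_star, Complex.norm_I, Complex.star_def, Complex.conj_I, Complex.mul_re, Complex.neg_re,
      Complex.neg_im, Complex.I_re, Complex.I_im, norm_neg] at a b
    linarith
  rw [← inner_conj_symm (C.l2 y)]
  apply Complex.ext
  · rw [Complex.conj_re]; exact r1
  · rw [Complex.conj_im]; exact r2

lemma inner_mul_left {x y : H →L[ℂ] H} (hx : C.Fin2 x) (hy : C.Fin2 y) (a : H →L[ℂ] H) :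
    ⟪C.l2 (a * x), C.l2 y⟫_ℂ = ⟪C.l2 x, C.l2 (Star.star a * y)⟫_ℂ := by
  rw [inner_l2 (hx.mul_left a) hy, inner_l2 hx (hy.mul_left _)]
  refine tsum_congr fun i => ?_
  rw [mul_apply_eq_comp, mul_apply_eq_comp, ContinuousLinearMap.star_eq_adjoint,
    ContinuousLinearMap.adjoint_inner_right]

lemma inner_mul_right {x y a : H →L[ℂ] H} (hx : C.Fin2 x) (hxM : x ∈ C.M) (hy : C.Fin2 y)
    (hyM : y ∈ C.M) (ha : a ∈ C.M) :
    ⟪C.l2 (x * a), C.l2 y⟫_ℂ = ⟪C.l2 x, C.l2 (y * Star.star a)⟫_ℂ := by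
  rw [← inner_star hy hyM (hx.mul_right hxM ha) (mul_mem hxM ha), star_mul,
    ← inner_star (hy.mul_right hyM (star_mem ha)) (mul_mem hyM (star_mem ha)) hx hxM, star_mul,
    star_star]
  rw [← inner_conj_symm, inner_mul_left (hx.star hxM) (hy.star hyM), inner_conj_symm, star_star]

variable (C)

/-- the commutant orbit of the trace vectors spans a dense subspace -/
lemma dense_span :
    Dense ((Submodule.span ℂ {v : H | ∃ y ∈ C.M.commutant, ∃ i, v = y (C.η i)} : Submodule ℂ H) :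
      Set H) := by
  set V := Submodule.span ℂ {v : H | ∃ y ∈ C.M.commutant, ∃ i, v = y (C.η i)} with hV
  set K := V.topologicalClosure with hK
  have : CompleteSpace K := V.isClosed_topologicalClosure.completeSpace_coe
  have hinv : ∀ z ∈ C.M.commutant, ∀ v ∈ K, z v ∈ K := by
    intro z hz v hv
    refine map_mem_closure z.continuous hv fun w hw => ?_
    have : V ≤ V.comap (z : H →L[ℂ] H).toLinearMap := by
      refine Submodule.span_le.2 ?_
      rintro _ ⟨y, hy, i, rfl⟩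
      exact Submodule.subset_span ⟨z * y, mul_mem hz hy, i, rfl⟩
    exact this hw
  have hP : K.starProjection ∈ C.M := mem_of_commute fun z hz =>
    commute_starProjection K (hinv z hz) (hinv _ (star_mem hz))
  have hη : ∀ i, C.η i ∈ K := fun i =>
    V.le_topologicalClosure (Submodule.subset_span ⟨1, one_mem _, i, rfl⟩)
  have h1 : (1 : H →L[ℂ] H) - K.starProjection = 0 := by
    refine C.faith _ (sub_mem (one_mem _) hP) fun i => ?_
    simp [Submodule.starProjection_eq_self_iff.2 (hη i)]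
  intro v
  have : K.starProjection v = v := by
    have := congrArg (fun T : H →L[ℂ] H => T v) h1
    exact (sub_eq_zero.1 (by simpa using this)).symm
  exact this ▸ K.starProjection_apply_mem v

/-- contractions of small 2-norm are small on any given vector -/
lemma exists_small (ξ : H) {δ : ℝ} (hδ : 0 < δ) :
    ∃ d > 0, ∀ q ∈ C.M, C.Fin2 q → ‖q‖ ≤ 1 → C.n2 q ≤ d → ‖q ξ‖ < δ := by
  have key : ∀ v ∈ (Submodule.span ℂ {v : H | ∃ y ∈ C.M.commutant, ∃ i, v = y (C.η i)} :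
      Submodule ℂ H), ∀ ε > 0, ∃ d > 0, ∀ q ∈ C.M, C.Fin2 q → C.n2 q ≤ d → ‖q v‖ < ε := by
    intro v hv
    induction hv using Submodule.span_induction with
    | mem v hv =>
      obtain ⟨y, hy, i, rfl⟩ := hv
      intro ε hε
      refine ⟨ε / (‖y‖ + 1), by positivity, fun q hq hf hd => ?_⟩
      have h2 : q (y (C.η i)) = y (q (C.η i)) :=
        (congrArg (fun T : H →L[ℂ] H => T (C.η i)) (commute_of_mem hq hy)).symm
      rw [h2]
      calc ‖y (q (C.η i))‖ ≤ ‖y‖ * ‖q (C.η i)‖ := y.le_opNorm _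
        _ ≤ ‖y‖ * (ε / (‖y‖ + 1)) := by gcongr; exact (norm_le_n2 hf i).trans hd
        _ < ε := by
          rw [mul_div_assoc', div_lt_iff₀ (by positivity)]
          nlinarith [norm_nonneg y]
    | zero => exact fun ε hε => ⟨1, one_pos, fun q _ _ _ => by simpa using hε⟩
    | add a b _ _ ha hb =>
      intro ε hε
      obtain ⟨d₁, hd₁, h₁⟩ := ha (ε / 2) (half_pos hε)
      obtain ⟨d₂, hd₂, h₂⟩ := hb (ε / 2) (half_pos hε)
      refine ⟨min d₁ d₂, lt_min hd₁ hd₂, fun q hq hf hd => ?_⟩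
      rw [map_add]
      exact (norm_add_le _ _).trans_lt (by
        linarith [h₁ q hq hf (hd.trans (min_le_left _ _)),
          h₂ q hq hf (hd.trans (min_le_right _ _))])
    | smul c a _ ha =>
      intro ε hε
      obtain ⟨d, hd, h⟩ := ha (ε / (‖c‖ + 1)) (by positivity)
      refine ⟨d, hd, fun q hq hf hd' => ?_⟩
      rw [map_smul, norm_smul]
      have := h q hq hf hd'
      rw [lt_div_iff₀ (by positivity)] at this
      nlinarith [norm_nonneg c, norm_nonneg (q a)]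
  obtain ⟨v, hv, hvξ⟩ := Metric.mem_closure_iff.1 (C.dense_span ξ) (δ / 2) (half_pos hδ)
  obtain ⟨d, hd, h⟩ := key v hv (δ / 2) (half_pos hδ)
  refine ⟨d, hd, fun q hq hf hq1 hd' => ?_⟩
  have h3 : ‖q (ξ - v)‖ ≤ dist ξ v := by
    rw [dist_eq_norm]
    exact (q.le_opNorm _).trans (mul_le_of_le_one_left (norm_nonneg _) hq1)
  calc ‖q ξ‖ = ‖q (ξ - v) + q v‖ := by rw [← map_add, sub_add_cancel]
    _ ≤ ‖q (ξ - v)‖ + ‖q v‖ := norm_add_le _ _
    _ < δ := by linarith [h q hq hf hd']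

end Ctx

end Vale.Agent.P078.Semi
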