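import Mathlib
import Vale.Agent.P078.Bridge
import Vale.Agent.P078.SemiL2

/-! Spectral supports, the finite part of the subalgebra, finite projections. -/

noncomputable section

open scoped InnerProductSpace ComplexOrder
open Filter Topology

namespace Vale.Agent.P078.Semi

universe u

variable {H : Type u} [NormedAddCommGroup H] [InnerProductSpace ℂ H] [CompleteSpace H]

instance (S : Submodule ℂ H) : CompleteSpace S.topologicalClosure :=
  S.isClosed_topologicalClosure.completeSpace_coe

/-- the projection onto the closure of the range of `φ(a)` -/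
def supp (φ : ℝ → ℝ) (a : H →L[ℂ] H) : H →L[ℂ] H :=
  (LinearMap.range (cfc φ a).toLinearMap).topologicalClosure.starProjection

lemma supp_proj (φ : ℝ → ℝ) (a : H →L[ℂ] H) : IsStarProjection (supp φ a) :=
  isStarProjection_starProjection

lemma supp_mul_cfc (φ : ℝ → ℝ) (a : H →L[ℂ] H) : supp φ a * cfc φ a = cfc φ a := by
  ext v
  exact Submodule.starProjection_eq_self_iff.2
    (Submodule.le_topologicalClosure _ (LinearMap.mem_range_self _ v))

lemma cfc_mul_supp_self (φ : ℝ → ℝ) (a : H →L[ℂ] H) : cfc φ a * supp φ a = cfc φ a := by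
  have h := congrArg star (supp_mul_cfc φ a)
  have hs : IsSelfAdjoint (cfc φ a) := IsSelfAdjoint.cfc
  rwa [star_mul, (supp_proj φ a).isSelfAdjoint.star_eq, hs.star_eq] at h

lemma mul_supp_eq {φ : ℝ → ℝ} {a S T : H →L[ℂ] H} (h : S * cfc φ a = T * cfc φ a) :
    S * supp φ a = T * supp φ a := by
  ext v
  have hsub : (LinearMap.range (cfc φ a).toLinearMap).topologicalClosure ≤
      LinearMap.ker (S - T).toLinearMap := by
    refine Submodule.topologicalClosure_minimal _ ?_ (ContinuousLinearMap.isClosed_ker _)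
    rintro _ ⟨w, rfl⟩
    have := congrArg (fun U : H →L[ℂ] H => U w) h
    exact LinearMap.mem_ker.2 (sub_eq_zero.2 this)
  exact sub_eq_zero.1 (hsub (Submodule.starProjection_apply_mem
    (LinearMap.range (cfc φ a).toLinearMap).topologicalClosure v))

lemma commute_supp (φ : ℝ → ℝ) {a z : H →L[ℂ] H} (ha : IsSelfAdjoint a) (hz : Commute a z) :
    z * supp φ a = supp φ a * z := by
  have hzs : Commute a (star z) := by
    have := congrArg star hz.eq
    rw [star_mul, star_mul, ha.star_eq] at this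
    exact this.symm
  have key : ∀ y : H →L[ℂ] H, Commute a y →
      ∀ v ∈ (LinearMap.range (cfc φ a).toLinearMap).topologicalClosure,
        y v ∈ (LinearMap.range (cfc φ a).toLinearMap).topologicalClosure := by
    intro y hy v hv
    refine map_mem_closure y.continuous hv ?_
    rintro _ ⟨w, rfl⟩
    refine ⟨y w, ?_⟩
    exact congrArg (fun U : H →L[ℂ] H => U w) (hy.cfc_real φ).eq
  exact commute_starProjection _ (key z hz) (key _ hzs)

lemma supp_mem {M : VonNeumannAlgebra H} (φ : ℝ → ℝ) {a : H →L[ℂ] H} (ha : IsSelfAdjoint a)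
    (haM : a ∈ M) : supp φ a ∈ M :=
  mem_of_commute fun _ hy => commute_supp φ ha (commute_of_mem haM hy).symm

lemma supp_mem_masa {M : VonNeumannAlgebra H} {A : StarSubalgebra ℂ (H →L[ℂ] H)}
    (hA : IsMASA M A) (φ : ℝ → ℝ) {a : H →L[ℂ] H} (ha : IsSelfAdjoint a)
    (haA : a ∈ A) : supp φ a ∈ A :=
  Bridge.mem_masa_of_commute hA (supp_mem φ ha (hA.1 haA))
    (supp_proj φ a).isSelfAdjoint.star_eq fun b hb =>
      (commute_supp φ ha (hA.2.1 a haA b hb)).symm

lemma norm_proj_le {p : H →L[ℂ] H} (hp : IsStarProjection p) : ‖p‖ ≤ 1 := hp.norm_le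

/-- cutting an element at a level -/
lemma cut (M : VonNeumannAlgebra H) {k : H →L[ℂ] H} (hk : IsSelfAdjoint k) (hkM : k ∈ M)
    {c : ℝ} (hc : 0 < c) :
    ∃ R ∈ M, IsStarProjection R ∧ ‖k * (1 - R)‖ ≤ c ∧ (∀ v, ‖R v‖ ≤ c⁻¹ * ‖k v‖) ∧
      (∀ w : H →L[ℂ] H, w * k = k → w * R = R) ∧
      ∀ A : StarSubalgebra ℂ (H →L[ℂ] H), IsMASA M A → k ∈ A → R ∈ A := by
  set cl : ℝ → ℝ := fun s => max (-c) (min c s) with hcl
  set φ : ℝ → ℝ := fun s => s - cl s with hφ
  set m : ℝ → ℝ := fun s => s / max (s ^ 2) (c ^ 2) with hm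
  set g : ℝ → ℝ := fun s => m s * s with hg
  set ν : ℝ → ℝ := fun s => 1 - c / max |s| c with hν
  have hc2 : ∀ s : ℝ, max (s ^ 2) (c ^ 2) ≠ 0 := fun s =>
    (lt_of_lt_of_le (pow_pos hc 2) (le_max_right _ _)).ne'
  have hc1 : ∀ s : ℝ, max |s| c ≠ 0 := fun s => (lt_of_lt_of_le hc (le_max_right _ _)).ne'
  have hclc : Continuous cl := by fun_prop
  have hφc : Continuous φ := by fun_prop
  have hmc : Continuous m := Continuous.div (by fun_prop) (by fun_prop) hc2
  have hgc : Continuous g := hmc.mul continuous_id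
  have hνc : Continuous ν :=
    continuous_const.sub (Continuous.div (by fun_prop) (by fun_prop) hc1)
  have hgφ : ∀ s, g s * φ s = φ s := by
    intro s
    by_cases hs : |s| ≤ c
    · have : φ s = 0 := by
        rw [abs_le] at hs
        simp [hφ, hcl, hs.1, hs.2]
      simp [this]
    · have h1 : c ^ 2 ≤ s ^ 2 := by
        rw [← sq_abs s]; exact pow_le_pow_left₀ hc.le (not_le.1 hs).le 2
      have h0 : s ≠ 0 := fun h => hs (by simp [h, hc.le])
      have : g s = 1 := by
        simp only [hg, hm, max_eq_left h1]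
        field_simp
      rw [this, one_mul]
  have hφν : ∀ s, φ s = s * ν s := by
    intro s
    simp only [hφ, hν, hcl]
    rcases le_total |s| c with hs | hs
    · rw [max_eq_right hs, div_self hc.ne']
      rw [abs_le] at hs
      simp [hs.1, hs.2]
    · rcases le_total 0 s with h0 | h0
      · rw [abs_of_nonneg h0] at hs ⊢
        rw [max_eq_left hs, min_eq_left hs, max_eq_right (by linarith)]
        rcases h0.eq_or_lt with h | h
        · exact absurd hs (by linarith)
        · field_simp
      · rw [abs_of_nonpos h0] at hs ⊢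
        rw [max_eq_left hs, min_eq_right (by linarith), max_eq_left (by linarith)]
        have h : s ≠ 0 := by intro h; linarith
        field_simp
  set R := supp φ k with hR
  refine ⟨R, supp_mem φ hk hkM, supp_proj φ k, ?_, ?_, ?_, fun A hA hkA =>
    supp_mem_masa hA φ hk hkA⟩
  · have h1 : k = cfc cl k + cfc φ k := by
      rw [← cfc_add _ cl φ hclc.continuousOn hφc.continuousOn]
      exact ((cfc_congr fun s _ => by simp [hφ]).trans (cfc_id' ℝ k)).symm
    have h2 : k * (1 - R) = cfc cl k * (1 - R) := by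
      conv_lhs => rw [h1]
      rw [add_mul, mul_sub (cfc φ k), mul_one, hR, cfc_mul_supp_self, sub_self, add_zero]
    rw [h2]
    refine (norm_mul_le _ _).trans ((mul_le_of_le_one_right (norm_nonneg _)
      (supp_proj φ k).one_sub.norm_le).trans ?_)
    refine norm_cfc_le hc.le fun s _ => ?_
    rw [Real.norm_eq_abs, abs_le]
    exact ⟨le_max_left _ _, max_le (by linarith) (min_le_left _ _)⟩
  · intro v
    have h3 : cfc g k * R = R := by
      have : cfc g k * cfc φ k = 1 * cfc φ k := by
        rw [one_mul, ← cfc_mul _ _ _ hgc.continuousOn hφc.continuousOn]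
        exact cfc_congr fun s _ => hgφ s
      simpa using mul_supp_eq this
    have h4 : R = R * cfc g k := by
      have hsR : star R = R := (supp_proj φ k).isSelfAdjoint.star_eq
      have hsg : star (cfc g k) = cfc g k := (IsSelfAdjoint.cfc (f := g) (a := k)).star_eq
      have := congrArg star h3
      rw [star_mul, hsR, hsg] at this
      exact this.symm
    have h5 : cfc g k = cfc m k * k := by
      rw [cfc_mul m (fun s => s) k hmc.continuousOn continuous_id.continuousOn, cfc_id' ℝ k]
    rw [h4, h5, mul_apply_eq_comp, mul_apply_eq_comp]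
    refine (R.le_opNorm _).trans ((mul_le_of_le_one_left (norm_nonneg _)
      (supp_proj φ k).norm_le).trans (((cfc m k).le_opNorm _).trans
        (mul_le_mul_of_nonneg_right ?_ (norm_nonneg _))))
    refine norm_cfc_le (inv_nonneg.2 hc.le) fun s _ => ?_
    rw [hm, Real.norm_eq_abs, abs_div,
      abs_of_pos (lt_of_lt_of_le (pow_pos hc 2) (le_max_right _ _)), inv_eq_one_div,
      div_le_div_iff₀ (lt_of_lt_of_le (pow_pos hc 2) (le_max_right _ _)) hc, one_mul]
    rcases le_total |s| c with hs | hs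
    · refine le_trans ?_ (le_max_right _ _)
      nlinarith [abs_nonneg s]
    · refine le_trans ?_ (le_max_left _ _)
      nlinarith [abs_nonneg s, sq_abs s]
  · intro w hw
    have h6 : w * cfc φ k = 1 * cfc φ k := by
      have : cfc φ k = k * cfc ν k := by
        rw [cfc_congr (fun s _ => hφν s),
          cfc_mul (fun s => s) ν k continuous_id.continuousOn hνc.continuousOn, cfc_id' ℝ k]
      rw [one_mul, this, ← mul_assoc, hw]
    simpa using mul_supp_eq h6

namespace Ctx

variable (C : Ctx H) {A : StarSubalgebra ℂ (H →L[ℂ] H)}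

/-- the finite part of the subalgebra -/
lemma exists_finite_part (hA : IsMASA C.M A) :
    ∃ z ∈ A, IsStarProjection z ∧ (∀ e ∈ A, IsStarProjection e → C.Fin2 e → z * e = e) ∧
      ∀ (F : Finset H) {δ : ℝ}, 0 < δ → ∃ e ∈ A, IsStarProjection e ∧ C.Fin2 e ∧
        ∀ ξ ∈ F, ‖(z - e) ξ‖ < δ := by
  classical
  set S : Set H := {v | ∃ e ∈ A, IsStarProjection e ∧ C.Fin2 e ∧ e v = v} with hS
  set K := (Submodule.span ℂ S).topologicalClosure with hK
  have inv : ∀ y : H →L[ℂ] H, (∀ e ∈ A, e * y = y * e) → ∀ v ∈ K, y v ∈ K := by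
    intro y hy v hv
    refine map_mem_closure y.continuous hv fun u hu => ?_
    have : Submodule.span ℂ S ≤ (Submodule.span ℂ S).comap y.toLinearMap := by
      refine Submodule.span_le.2 ?_
      rintro u ⟨e, he, hep, hef, heu⟩
      refine Submodule.subset_span ⟨e, he, hep, hef, ?_⟩
      have := congrArg (fun T : H →L[ℂ] H => T u) (hy e he)
      simp only [mul_apply_eq_comp] at this
      exact this.trans (congrArg y heu)
    exact this hu
  have com : ∀ y : H →L[ℂ] H, (∀ e ∈ A, e * y = y * e) →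
      y * K.starProjection = K.starProjection * y := by
    intro y hy
    refine commute_starProjection K (inv y hy) (inv _ fun e he => ?_)
    have := congrArg star (hy (star e) (star_mem he))
    rw [star_mul, star_mul, star_star] at this
    exact this.symm
  have hzM : K.starProjection ∈ C.M :=
    mem_of_commute fun y hy => com y fun e he => (commute_of_mem (hA.1 he) hy).symm
  have hzA : K.starProjection ∈ A := Bridge.mem_masa_of_commute hA hzM
    isStarProjection_starProjection.isSelfAdjoint.star_eq fun b hb =>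
      (com b fun e he => hA.2.1 e he b hb).symm
  refine ⟨_, hzA, isStarProjection_starProjection, fun e he hep hef => ?_, fun F δ hδ => ?_⟩
  · ext v
    refine Submodule.starProjection_eq_self_iff.2
      (Submodule.le_topologicalClosure _ (Submodule.subset_span ⟨e, he, hep, hef, ?_⟩))
    exact congrArg (fun T : H →L[ℂ] H => T v) hep.isIdempotentElem.eq
  have join : ∀ e ∈ A, IsStarProjection e → C.Fin2 e → ∀ e' ∈ A, IsStarProjection e' →
      C.Fin2 e' → ∃ f ∈ A, IsStarProjection f ∧ C.Fin2 f ∧ f * e = e ∧ f * e' = e' := by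
    intro e he hep hef e' he' hep' hef'
    have hc : e * e' = e' * e := hA.2.1 e he e' he'
    have h1 := hep.isIdempotentElem.eq
    have h2 := hep'.isIdempotentElem.eq
    have i1 : ∀ u : H →L[ℂ] H, e * (e * u) = e * u := fun u => by rw [← mul_assoc, h1]
    have i2 : ∀ u : H →L[ℂ] H, e' * (e' * u) = e' * u := fun u => by rw [← mul_assoc, h2]
    have i3 : ∀ u : H →L[ℂ] H, e' * (e * u) = e * (e' * u) := fun u => by
      rw [← mul_assoc, ← hc, mul_assoc]
    refine ⟨e + e' - e * e', sub_mem (add_mem he he') (mul_mem he he'), ⟨?_, ?_⟩,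
      (hef.add hef').sub (hef'.mul_left e), ?_, ?_⟩
    · show _ * _ = _
      simp only [mul_sub, sub_mul, mul_add, add_mul, mul_assoc, h1, h2, i1, i2, i3, hc.symm]
      abel
    · show star _ = _
      simp [star_add, hep.isSelfAdjoint.star_eq, hep'.isSelfAdjoint.star_eq, hc]
    · simp only [sub_mul, add_mul, mul_assoc, h1, i1, hc.symm]
      abel
    · simp only [sub_mul, add_mul, mul_assoc, h2]
      abel
  have fix1 : ∀ u ∈ Submodule.span ℂ S, ∃ e ∈ A, IsStarProjection e ∧ C.Fin2 e ∧ e u = u := by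
    intro u hu
    induction hu using Submodule.span_induction with
    | mem u hu => exact hu
    | zero => exact ⟨0, zero_mem _, IsStarProjection.zero _, fin2_zero, by simp⟩
    | add a b _ _ ha hb =>
      obtain ⟨e, he, hep, hef, hea⟩ := ha
      obtain ⟨e', he', hep', hef', heb⟩ := hb
      obtain ⟨f, hf, hfp, hff, h1, h2⟩ := join e he hep hef e' he' hep' hef'
      refine ⟨f, hf, hfp, hff, ?_⟩
      have a1 := congrArg (fun T : H →L[ℂ] H => T a) h1
      have b1 := congrArg (fun T : H →L[ℂ] H => T b) h2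
      simp only [mul_apply_eq_comp, hea, heb] at a1 b1
      rw [map_add, a1, b1]
    | smul c a _ ha =>
      obtain ⟨e, he, hep, hef, hea⟩ := ha
      exact ⟨e, he, hep, hef, by rw [map_smul, hea]⟩
  induction F using Finset.induction_on with
  | empty => exact ⟨0, zero_mem _, IsStarProjection.zero _, fin2_zero, by simp⟩
  | insert ξ F hξ ih =>
    obtain ⟨e, he, hep, hef, hF⟩ := ih
    obtain ⟨u, hu, hud⟩ := Metric.mem_closure_iff.1 (K.starProjection_apply_mem ξ) δ hδ
    obtain ⟨e', he', hep', hef', heu⟩ := fix1 u hu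
    obtain ⟨f, hf, hfp, hff, h1, h2⟩ := join e he hep hef e' he' hep' hef'
    have zf : ∀ g ∈ A, IsStarProjection g → C.Fin2 g → ∀ v : H,
        (K.starProjection - g) v = (1 - g) (K.starProjection v) := by
      intro g hg hgp hgf v
      have e1 : g * K.starProjection = g := by
        rw [hA.2.1 g hg _ hzA]
        ext y
        refine Submodule.starProjection_eq_self_iff.2
          (Submodule.le_topologicalClosure _ (Submodule.subset_span ⟨g, hg, hgp, hgf, ?_⟩))
        exact congrArg (fun T : H →L[ℂ] H => T y) hgp.isIdempotentElem.eq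
      have e2 := congrArg (fun T : H →L[ℂ] H => T v) e1
      simp only [mul_apply_eq_comp] at e2
      simp [e2]
    refine ⟨f, hf, hfp, hff, fun v hv => ?_⟩
    rcases Finset.mem_insert.1 hv with rfl | hv
    · rw [zf f hf hfp hff]
      have : (1 - f) u = 0 := by
        have b1 := congrArg (fun T : H →L[ℂ] H => T u) h2
        simp only [mul_apply_eq_comp, heu] at b1
        simp [b1]
      rw [← sub_zero ((1 - f) _), ← this, ← map_sub]
      refine ((1 - f).le_opNorm _).trans_lt (lt_of_le_of_lt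
        (mul_le_of_le_one_left (norm_nonneg _) hfp.one_sub.norm_le) ?_)
      rwa [← dist_eq_norm]
    · have : (K.starProjection - f) v = (1 - f) ((K.starProjection - e) v) := by
        rw [zf f hf hfp hff, zf e he hep hef]
        have : (1 - f) * (1 - e) = 1 - f := by
          rw [mul_sub, mul_one, sub_mul, one_mul, h1, sub_self, sub_zero]
        exact (congrArg (fun T : H →L[ℂ] H => T (K.starProjection v)) this).symm
      rw [this]
      exact ((1 - f).le_opNorm _).trans_lt (lt_of_le_of_lt
        (mul_le_of_le_one_left (norm_nonneg _) hfp.one_sub.norm_le) (hF v hv))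

/-- finite projections under `w` exhaust `w` -/
lemma exists_finite_approx {w : H →L[ℂ] H} (hw : w ∈ C.M) (hwp : IsStarProjection w)
    (F : Finset H) {δ : ℝ} (hδ : 0 < δ) :
    ∃ q ∈ C.M, IsStarProjection q ∧ C.Fin2 q ∧ w * q = q ∧ ∀ ξ ∈ F, ‖(w - q) ξ‖ < δ := by
  classical
  set S : Set H := {v | ∃ q ∈ C.M, IsStarProjection q ∧ C.Fin2 q ∧ w * q = q ∧ q v = v} with hS
  set K := (Submodule.span ℂ S).topologicalClosure with hK
  have inv : ∀ y ∈ C.M.commutant, ∀ v ∈ K, y v ∈ K := by
    intro y hy v hv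
    refine map_mem_closure y.continuous hv fun u hu => ?_
    have : Submodule.span ℂ S ≤ (Submodule.span ℂ S).comap y.toLinearMap := by
      refine Submodule.span_le.2 ?_
      rintro u ⟨q, hq, hqp, hqf, hwq, hqu⟩
      refine Submodule.subset_span ⟨q, hq, hqp, hqf, hwq, ?_⟩
      have := congrArg (fun T : H →L[ℂ] H => T u) (commute_of_mem hq hy)
      simp only [mul_apply_eq_comp] at this
      exact this.symm.trans (congrArg y hqu)
    exact this hu
  have hP : K.starProjection ∈ C.M :=
    mem_of_commute fun y hy => commute_starProjection K (inv y hy) (inv _ (star_mem hy))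
  have hPp : IsStarProjection K.starProjection := isStarProjection_starProjection
  have hwK : ∀ v ∈ K, w v = v := by
    intro v hv
    have hle : K ≤ LinearMap.ker (w - 1).toLinearMap := by
      refine Submodule.topologicalClosure_minimal _ (Submodule.span_le.2 ?_)
        (ContinuousLinearMap.isClosed_ker _)
      rintro u ⟨q, hq, hqp, hqf, hwq, hqu⟩
      have := congrArg (fun T : H →L[ℂ] H => T u) hwq
      simp only [mul_apply_eq_comp, hqu] at this
      exact LinearMap.mem_ker.2 (sub_eq_zero.2 this)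
    exact sub_eq_zero.1 (hle hv)
  have hwP : w * K.starProjection = K.starProjection :=
    ContinuousLinearMap.ext fun v => hwK _ (K.starProjection_apply_mem v)
  have hPw : K.starProjection * w = K.starProjection := by
    have := congrArg star hwP
    rwa [star_mul, hPp.isSelfAdjoint.star_eq, hwp.isSelfAdjoint.star_eq] at this
  have hP' : w - K.starProjection = 0 := by
    by_contra h0
    have hp : IsStarProjection (w - K.starProjection) := by
      refine ⟨?_, hwp.isSelfAdjoint.sub hPp.isSelfAdjoint⟩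
      show _ * _ = _
      simp only [mul_sub, sub_mul, hwP, hPw, hwp.isIdempotentElem.eq, hPp.isIdempotentElem.eq]
      abel
    obtain ⟨q, hq, hqp, hq0, hdq, hqf⟩ := C.exists_finite_proj (sub_mem hw hP) hp h0
    have hwd : w * (w - K.starProjection) = w - K.starProjection := by
      rw [mul_sub, hwp.isIdempotentElem.eq, hwP]
    have hwq : w * q = q := by rw [← hdq, ← mul_assoc, hwd]
    have hPq : K.starProjection * q = q := by
      ext v
      refine Submodule.starProjection_eq_self_iff.2
        (Submodule.le_topologicalClosure _ (Submodule.subset_span ⟨q, hq, hqp, hqf, hwq, ?_⟩))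
      exact congrArg (fun T : H →L[ℂ] H => T v) hqp.isIdempotentElem.eq
    apply hq0
    rw [← hdq, sub_mul, hwq, hPq, sub_self]
  set Good : (H →L[ℂ] H) → H → Prop := fun g u => ∃ K0 : ℝ, 0 ≤ K0 ∧
    ∀ v, ‖⟪v, u⟫_ℂ‖ ≤ K0 * √(⟪v, g v⟫_ℂ).re with hGood
  set Adm : (H →L[ℂ] H) → Prop := fun g => g ∈ C.M ∧ IsSelfAdjoint g ∧ C.Fin2 g ∧ w * g = g ∧
    ∀ v, 0 ≤ (⟪v, g v⟫_ℂ).re with hAdm
  have adm0 : Adm 0 := ⟨zero_mem _, IsSelfAdjoint.zero _, fin2_zero, mul_zero _, by simp⟩
  have admadd : ∀ g g', Adm g → Adm g' → Adm (g + g') := fun g g' h h' =>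
    ⟨add_mem h.1 h'.1, h.2.1.add h'.2.1, h.2.2.1.add h'.2.2.1,
      by rw [mul_add, h.2.2.2.1, h'.2.2.2.1],
      fun v => by simpa [inner_add_right] using add_nonneg (h.2.2.2.2 v) (h'.2.2.2.2 v)⟩
  have mono : ∀ g g' u, Adm g → Adm g' → (Good g u ∨ Good g' u) → Good (g + g') u := by
    intro g g' u h h' hu
    rcases hu with ⟨K0, hK0, hb⟩ | ⟨K0, hK0, hb⟩ <;>
      refine ⟨K0, hK0, fun v => (hb v).trans (mul_le_mul_of_nonneg_left ?_ hK0)⟩ <;>
      apply Real.sqrt_le_sqrt <;>
      simp only [add_apply, inner_add_right, Complex.add_re]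
    · linarith [h'.2.2.2.2 v]
    · linarith [h.2.2.2.2 v]
  have gen : ∀ u ∈ Submodule.span ℂ S, ∃ g, Adm g ∧ Good g u := by
    intro u hu
    induction hu using Submodule.span_induction with
    | mem u hu =>
      obtain ⟨q, hq, hqp, hqf, hwq, hqu⟩ := hu
      have hsq : ∀ v, (⟪v, q v⟫_ℂ).re = ‖q v‖ ^ 2 := by
        intro v
        have : ⟪v, q v⟫_ℂ = ⟪q v, q v⟫_ℂ := by
          conv_lhs => rw [← hqp.isIdempotentElem.eq, mul_apply_eq_comp]
          rw [← ContinuousLinearMap.adjoint_inner_left, ← ContinuousLinearMap.star_eq_adjoint,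
            hqp.isSelfAdjoint.star_eq]
        rw [this, inner_self_eq_norm_sq_to_K]
        norm_cast
      refine ⟨q, ⟨hq, hqp.isSelfAdjoint, hqf, hwq, fun v => by rw [hsq]; positivity⟩,
        ‖u‖, norm_nonneg _, fun v => ?_⟩
      rw [hsq, Real.sqrt_sq (norm_nonneg _)]
      conv_lhs => rw [← hqu, ← ContinuousLinearMap.adjoint_inner_left,
        ← ContinuousLinearMap.star_eq_adjoint, hqp.isSelfAdjoint.star_eq]
      rw [mul_comm]
      exact norm_inner_le_norm _ _
    | zero => exact ⟨0, adm0, 0, le_rfl, fun v => by simp⟩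
    | add a b _ _ ha hb =>
      obtain ⟨g, hg, hga⟩ := ha
      obtain ⟨g', hg', hgb⟩ := hb
      obtain ⟨Ka, hKa, ba⟩ := mono g g' a hg hg' (Or.inl hga)
      obtain ⟨Kb, hKb, bb⟩ := mono g g' b hg hg' (Or.inr hgb)
      refine ⟨g + g', admadd g g' hg hg', Ka + Kb, add_nonneg hKa hKb, fun v => ?_⟩
      rw [inner_add_right, add_mul]
      exact (norm_add_le _ _).trans (add_le_add (ba v) (bb v))
    | smul c a _ ha =>
      obtain ⟨g, hg, Ka, hKa, ba⟩ := ha
      refine ⟨g, hg, ‖c‖ * Ka, by positivity, fun v => ?_⟩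
      rw [inner_smul_right, norm_mul, mul_assoc]
      exact mul_le_mul_of_nonneg_left (ba v) (norm_nonneg _)
  have key : ∃ g, Adm g ∧ ∀ ξ ∈ F, ∃ u, Good g u ∧ ‖w ξ - u‖ < δ / 2 := by
    clear_value Good Adm
    induction F using Finset.induction_on with
    | empty => exact ⟨0, adm0, by simp⟩
    | insert ξ F hξ ih =>
      obtain ⟨g, hg, hF⟩ := ih
      have hwξ : w ξ ∈ K := by
        rw [sub_eq_zero.1 hP']
        exact K.starProjection_apply_mem ξ
      obtain ⟨u, hu, hud⟩ := Metric.mem_closure_iff.1 hwξ (δ / 2) (half_pos hδ)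
      obtain ⟨g', hg', hgu⟩ := gen u hu
      refine ⟨g + g', admadd g g' hg hg', fun v hv => ?_⟩
      rcases Finset.mem_insert.1 hv with rfl | hv
      · exact ⟨u, mono g g' u hg hg' (Or.inr hgu), by rwa [← dist_eq_norm]⟩
      · obtain ⟨u', hu', hd⟩ := hF v hv
        exact ⟨u', mono g g' u' hg hg' (Or.inl hu'), hd⟩
  obtain ⟨g, ⟨hgM, hgs, hgf, hwg, hgp⟩, hF⟩ := key
  choose! u hu hud using hF
  choose! K0 hK0 hKb using hu
  set B := 1 + ∑ ξ ∈ F, K0 ξ with hB
  have hBpos : 0 < B := by
    have := Finset.sum_nonneg (s := F) (fun ξ h => hK0 ξ h)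
    linarith
  have hc : (0 : ℝ) < (δ / (2 * B)) ^ 2 := by positivity
  obtain ⟨R, hRM, hRp, hkR, hRv, hwR, -⟩ := cut C.M hgs hgM hc
  refine ⟨R, hRM, hRp, hgf.of_le _ fun i => hRv _, hwR w hwg, fun ξ hξ => ?_⟩
  have hRw : R * w = R := by
    have := congrArg star (hwR w hwg)
    rwa [star_mul, hwp.isSelfAdjoint.star_eq, hRp.isSelfAdjoint.star_eq] at this
  have e1 : (w - R) ξ = (1 - R) (w ξ) := by
    have := congrArg (fun T : H →L[ℂ] H => T ξ) hRw
    simp only [mul_apply_eq_comp] at this
    simp [this]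
  have e2 : ‖(1 - R) (u ξ)‖ ≤ K0 ξ * (δ / (2 * B)) := by
    set v := (1 - R) (u ξ) with hv
    have hfix : (1 - R) v = v :=
      congrArg (fun T : H →L[ℂ] H => T (u ξ)) hRp.one_sub.isIdempotentElem.eq
    have h1 : (⟪v, g v⟫_ℂ).re ≤ (δ / (2 * B)) ^ 2 * ‖v‖ ^ 2 := by
      refine (Complex.re_le_norm _).trans ((norm_inner_le_norm _ _).trans ?_)
      have h3 : g v = (g * (1 - R)) v := by rw [mul_apply_eq_comp, hfix]
      rw [h3, pow_two ‖v‖, ← mul_assoc, mul_comm ‖v‖]
      exact mul_le_mul_of_nonneg_right (((g * (1 - R)).le_opNorm v).trans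
        (mul_le_mul_of_nonneg_right hkR (norm_nonneg _))) (norm_nonneg _)
    have h2 : ⟪v, u ξ⟫_ℂ = ⟪v, v⟫_ℂ := by
      conv_lhs => rw [← hfix]
      rw [← ContinuousLinearMap.adjoint_inner_right, ← ContinuousLinearMap.star_eq_adjoint,
        hRp.one_sub.isSelfAdjoint.star_eq]
    have h4 := hKb ξ hξ v
    rw [h2, inner_self_eq_norm_sq_to_K, norm_pow, RCLike.norm_ofReal, abs_norm] at h4
    have h5 : √(⟪v, g v⟫_ℂ).re ≤ δ / (2 * B) * ‖v‖ := by
      refine (Real.sqrt_le_sqrt h1).trans_eq ?_
      rw [← mul_pow, Real.sqrt_sq (by positivity)]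
    have h6 := h4.trans (mul_le_mul_of_nonneg_left h5 (hK0 ξ hξ))
    rcases (norm_nonneg v).eq_or_lt with h | h
    · rw [← h]; exact mul_nonneg (hK0 ξ hξ) (by positivity)
    · rw [← mul_assoc, pow_two] at h6
      exact le_of_mul_le_mul_right h6 h
  rw [e1, show w ξ = (w ξ - u ξ) + u ξ from (sub_add_cancel _ _).symm, map_add]
  have e3 : ‖(1 - R) (w ξ - u ξ)‖ ≤ ‖w ξ - u ξ‖ :=
    ((1 - R).le_opNorm _).trans (mul_le_of_le_one_left (norm_nonneg _) hRp.one_sub.norm_le)
  have e4 : K0 ξ * (δ / (2 * B)) ≤ δ / 2 := by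
    have : K0 ξ ≤ B := by
      have := Finset.single_le_sum (fun y h => hK0 y h) hξ
      linarith
    calc K0 ξ * (δ / (2 * B)) ≤ B * (δ / (2 * B)) := by gcongr
      _ = δ / 2 := by field_simp
  exact (norm_add_le _ _).trans_lt (by linarith [hud ξ hξ])

end Ctx

end Vale.Agent.P078.Semi
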