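import Mathlib
import Vale.Agent.P078.SemiSpec

/-! Finite corners of a semifinite algebra carry tracial states. -/

noncomputable section

open scoped InnerProductSpace ComplexOrder
open Filter Topology

namespace Vale.Agent.P078.Semi

universe u

variable {H : Type u} [NormedAddCommGroup H] [InnerProductSpace ℂ H] [CompleteSpace H]

section Lift

variable (K : Submodule ℂ H) [K.HasOrthogonalProjection] [CompleteSpace K]

/-- an operator of a closed subspace, extended by zero -/
def lift (T : K →L[ℂ] K) : H →L[ℂ] H := K.subtypeL ∘L (T ∘L K.orthogonalProjectionOnto)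

/-- compression to a closed subspace -/
def compress (X : H →L[ℂ] H) : K →L[ℂ] K := K.orthogonalProjectionOnto ∘L (X ∘L K.subtypeL)

lemma lift_apply (T : K →L[ℂ] K) (v : H) : lift K T v = (T (K.orthogonalProjectionOnto v) : H) := rfl

lemma proj_coe (v : K) : K.orthogonalProjectionOnto (v : H) = v :=
  Submodule.orthogonalProjectionOnto_mem_subspace_eq_self v

lemma coe_proj (v : H) : (K.orthogonalProjectionOnto v : H) = K.starProjection v := rfl

lemma lift_mul (S T : K →L[ℂ] K) : lift K (S * T) = lift K S * lift K T := by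
  ext v
  simp only [mul_apply_eq_comp, lift_apply, proj_coe]

lemma lift_add (S T : K →L[ℂ] K) : lift K (S + T) = lift K S + lift K T := by
  ext v
  simp [lift_apply]

lemma lift_smul (c : ℂ) (T : K →L[ℂ] K) : lift K (c • T) = c • lift K T := by
  ext v
  simp [lift_apply]

lemma lift_zero : lift K 0 = 0 := by
  ext v
  simp [lift_apply]

lemma lift_sub (S T : K →L[ℂ] K) : lift K (S - T) = lift K S - lift K T := by
  ext v
  simp [lift_apply]

lemma lift_one : lift K 1 = K.starProjection := by
  ext v
  simp [lift_apply, coe_proj]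

lemma lift_sum {ι : Type*} (s : Finset ι) (T : ι → K →L[ℂ] K) :
    lift K (∑ j ∈ s, T j) = ∑ j ∈ s, lift K (T j) := by
  ext v
  simp [lift_apply, sum_apply]

lemma lift_star (T : K →L[ℂ] K) : star (lift K T) = lift K (star T) := by
  simp only [ContinuousLinearMap.star_eq_adjoint, lift, ContinuousLinearMap.adjoint_comp,
    Submodule.adjoint_orthogonalProjectionOnto, Submodule.adjoint_subtypeL]
  rfl

lemma lift_injective {S T : K →L[ℂ] K} (h : lift K S = lift K T) : S = T := by
  ext v
  have := congrArg (fun X : H →L[ℂ] H => X (v : H)) h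
  simpa [lift_apply, proj_coe] using this

lemma lift_compress (X : H →L[ℂ] H) :
    lift K (compress K X) = K.starProjection * X * K.starProjection := by
  ext v
  simp only [lift_apply, compress, ContinuousLinearMap.comp_apply, mul_apply_eq_comp]
  rfl

lemma norm_lift_le (T : K →L[ℂ] K) : ‖lift K T‖ ≤ ‖T‖ := by
  refine ContinuousLinearMap.opNorm_le_bound _ (ContinuousLinearMap.opNorm_nonneg _) fun v => ?_
  rw [lift_apply, Submodule.norm_coe]
  exact (T.le_opNorm _).trans
    (mul_le_mul_of_nonneg_left (K.norm_orthogonalProjectionOnto_apply_le v) (norm_nonneg _))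

lemma norm_compress_le (X : H →L[ℂ] H) : ‖compress K X‖ ≤ ‖X‖ := by
  refine ContinuousLinearMap.opNorm_le_bound _ (norm_nonneg _) fun v => ?_
  exact (K.norm_orthogonalProjectionOnto_apply_le _).trans (X.le_opNorm _)

lemma inner_proj (T : K →L[ℂ] K) (v : H) :
    ⟪K.orthogonalProjectionOnto v, T (K.orthogonalProjectionOnto v)⟫_ℂ = ⟪v, lift K T v⟫_ℂ := by
  rw [lift_apply]
  exact Submodule.inner_orthogonalProjectionOnto_eq_of_mem_right (T (K.orthogonalProjectionOnto v)) v

/-- the corner of a star subalgebra containing the projection -/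
def cornerAlg (S : StarSubalgebra ℂ (H →L[ℂ] H)) (h : K.starProjection ∈ S) :
    StarSubalgebra ℂ (K →L[ℂ] K) where
  carrier := {T | lift K T ∈ S}
  mul_mem' {a b} ha hb := by
    show lift K (a * b) ∈ S
    rw [lift_mul]; exact mul_mem ha hb
  one_mem' := by show lift K 1 ∈ S; rwa [lift_one]
  add_mem' {a b} ha hb := by
    show lift K (a + b) ∈ S
    rw [lift_add]; exact add_mem ha hb
  zero_mem' := by show lift K 0 ∈ S; rw [lift_zero]; exact zero_mem _
  algebraMap_mem' c := by
    show lift K (algebraMap ℂ _ c) ∈ S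
    rw [Algebra.algebraMap_eq_smul_one, lift_smul, lift_one]
    exact SMulMemClass.smul_mem _ h
  star_mem' {a} ha := by
    show lift K (star a) ∈ S
    rw [← lift_star]; exact star_mem ha

lemma mem_cornerAlg {S : StarSubalgebra ℂ (H →L[ℂ] H)} {h : K.starProjection ∈ S}
    {T : K →L[ℂ] K} : T ∈ cornerAlg K S h ↔ lift K T ∈ S := Iff.rfl

/-- the reduced von Neumann algebra -/
def cornerVNA (M : VonNeumannAlgebra H) (h : K.starProjection ∈ M.toStarSubalgebra) :
    VonNeumannAlgebra K where
  toStarSubalgebra := cornerAlg K M.toStarSubalgebra h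
  centralizer_centralizer' := by
    refine Set.Subset.antisymm (fun T hT => ?_) Set.subset_centralizer_centralizer
    refine mem_of_commute fun y hy => ?_
    have hc : ∀ v, K.starProjection (y v) = y (K.starProjection v) := fun v =>
      congrArg (fun X : H →L[ℂ] H => X v) (commute_of_mem h hy).symm
    have hinv : ∀ v : K, K.starProjection (y v) = y v := fun v => by
      rw [hc, Submodule.starProjection_eq_self_iff.2 v.2]
    have hyK : ∀ v : K, (compress K y v : H) = y v := fun v => hinv v
    have hmem : compress K y ∈ Set.centralizer (cornerAlg K M.toStarSubalgebra h).carrier := by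
      rw [Set.mem_centralizer_iff]
      intro S hS
      ext v
      have e := congrArg (fun X : H →L[ℂ] H => X (v : H)) (commute_of_mem hS hy)
      simp only [mul_apply_eq_comp, lift_apply, proj_coe] at e
      simp only [mul_apply_eq_comp, hyK]
      rw [e, ← hyK v, proj_coe]
    have hT' := Set.mem_centralizer_iff.1 hT _ hmem
    ext v
    have e := congrArg (fun X : K →L[ℂ] K => (X (K.orthogonalProjectionOnto v) : H)) hT'
    simp only [mul_apply_eq_comp, hyK] at e
    simp only [mul_apply_eq_comp, lift_apply]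
    rw [e]
    congr 2
    apply Subtype.ext
    rw [hyK, coe_proj, coe_proj, hc]

lemma mem_cornerVNA {M : VonNeumannAlgebra H} {h : K.starProjection ∈ M.toStarSubalgebra}
    {T : K →L[ℂ] K} : T ∈ cornerVNA K M h ↔ lift K T ∈ M := Iff.rfl

end Lift

namespace Ctx

variable {C : Ctx H} {A : StarSubalgebra ℂ (H →L[ℂ] H)}

lemma isMASA_corner (hA : IsMASA C.M A) (K : Submodule ℂ H) [K.HasOrthogonalProjection]
    [CompleteSpace K] (h : K.starProjection ∈ A) :
    IsMASA (cornerVNA K C.M (hA.1 h)) (cornerAlg K A h) := by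
  refine ⟨fun T hT => hA.1 hT, fun S hS T hT => lift_injective K ?_, fun B hB hBc hAB => ?_⟩
  · rw [lift_mul, lift_mul, hA.2.1 _ hS _ hT]
  refine le_antisymm (fun b hb => ?_) hAB
  have key : ∀ b ∈ B, IsSelfAdjoint b → b ∈ cornerAlg K A h := by
    intro b hb hbs
    refine Bridge.mem_masa_of_commute hA (hB hb) (by rw [lift_star, hbs.star_eq]) fun a ha => ?_
    have hP : IsStarProjection K.starProjection := isStarProjection_starProjection
    have hca : compress K a ∈ cornerAlg K A h := by
      rw [mem_cornerAlg, lift_compress]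
      exact mul_mem (mul_mem h ha) h
    have e := congrArg (lift K) (hBc b hb _ (hAB hca))
    rw [lift_mul, lift_mul, lift_compress] at e
    have p1 : lift K b * K.starProjection = lift K b := by rw [← lift_one K, ← lift_mul, mul_one]
    have p2 : K.starProjection * lift K b = lift K b := by rw [← lift_one K, ← lift_mul, one_mul]
    have p3 : K.starProjection * a * K.starProjection = a * K.starProjection := by
      rw [hA.2.1 _ h a ha, mul_assoc, hP.isIdempotentElem.eq]
    rw [p3] at e
    calc lift K b * a = lift K b * (a * K.starProjection) := by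
          rw [hA.2.1 a ha _ h, ← mul_assoc, p1]
      _ = a * K.starProjection * lift K b := e
      _ = a * lift K b := by rw [mul_assoc, p2]
  have h1 : (1 / 2 : ℂ) • (b + star b) ∈ cornerAlg K A h :=
    key _ (SMulMemClass.smul_mem _ (add_mem hb (star_mem hb))) (by
      show star _ = _
      rw [star_smul, star_add, star_star, add_comm]
      norm_num)
  have h2 : (Complex.I / 2) • (star b - b) ∈ cornerAlg K A h :=
    key _ (SMulMemClass.smul_mem _ (sub_mem (star_mem hb) hb)) (by
      show star _ = _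
      rw [star_smul, star_sub, star_star, Complex.star_def, map_div₀, Complex.conj_I,
        show (starRingEnd ℂ) 2 = 2 from map_ofNat _ _, neg_div, neg_smul, ← smul_neg, neg_sub])
  have e : b = (1 / 2 : ℂ) • (b + star b) + Complex.I • ((Complex.I / 2) • (star b - b)) := by
    rw [smul_smul, show Complex.I * (Complex.I / 2) = -(1 / 2 : ℂ) by
      rw [← mul_div_assoc, Complex.I_mul_I]; norm_num, smul_add, smul_sub, neg_smul, neg_smul]
    module
  rw [e]
  exact add_mem h1 (SMulMemClass.smul_mem _ h2)

lemma tracial_corner (K : Submodule ℂ H) [K.HasOrthogonalProjection] [CompleteSpace K]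
    (h : K.starProjection ∈ C.M.toStarSubalgebra) (hf : C.Fin2 K.starProjection)
    (h0 : 0 < ∑' i, ‖K.starProjection (C.η i)‖ ^ 2) :
    HasFaithfulNormalTracialState (cornerVNA K C.M h) := by
  classical
  set τ0 := ∑' i, ‖K.starProjection (C.η i)‖ ^ 2 with hτ
  set c : ℝ := (Real.sqrt τ0)⁻¹ with hc
  set s := Function.support fun i => ‖K.starProjection (C.η i)‖ ^ 2 with hs
  have hcnt : Countable s := (Summable.countable_support hf).to_subtype
  obtain ⟨f, hfi⟩ := Countable.exists_injective_nat s
  set g : s → K := fun i => (c : ℂ) • K.orthogonalProjectionOnto (C.η i.1) with hg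
  set η' : ℕ → K := Function.extend f g 0 with hη'
  have hzero : ∀ i, i ∉ s → K.orthogonalProjectionOnto (C.η i) = 0 := by
    intro i hi
    simp only [hs, Function.mem_support, ne_eq, not_not, pow_eq_zero_iff two_ne_zero,
      norm_eq_zero] at hi
    exact Subtype.ext hi
  have hext : ∀ {X : Type} [Zero X] (φ : K → X), φ 0 = 0 →
      (fun n => φ (η' n)) = Function.extend f (fun i => φ (g i)) 0 := by
    intro X _ φ hφ
    funext n
    by_cases hn : ∃ i, f i = n
    · obtain ⟨i, rfl⟩ := hn
      rw [hη', hfi.extend_apply, hfi.extend_apply]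
    · rw [hη', Function.extend_apply' _ _ _ hn, Function.extend_apply' _ _ _ hn, Pi.zero_apply,
        Pi.zero_apply, hφ]
  have hsum : Summable fun n => ‖η' n‖ ^ 2 := by
    rw [hext (fun v => ‖v‖ ^ 2) (by simp), summable_extend_zero hfi]
    refine ((Summable.subtype hf s).mul_left (c ^ 2)).congr fun i => ?_
    show c ^ 2 * ‖K.starProjection (C.η i.1)‖ ^ 2 = ‖g i‖ ^ 2
    rw [hg, norm_smul, mul_pow, Complex.norm_real, Real.norm_eq_abs, sq_abs, ← Submodule.norm_coe]
    rfl
  refine ⟨η', hsum, ?_, fun x hx y hy => ?_, fun x hx hxe => ?_⟩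
  · have hfe : (∑' n, ‖η' n‖ ^ 2) = ∑' i : s, ‖g i‖ ^ 2 := by
      rw [hext (fun v => ‖v‖ ^ 2) (by simp), tsum_extend_zero hfi]
    rw [hfe]
    have e : (fun i : s => ‖g i‖ ^ 2) = fun i : s => c ^ 2 * ‖K.starProjection (C.η i.1)‖ ^ 2 := by
      funext i
      rw [hg, norm_smul, mul_pow, Complex.norm_real, Real.norm_eq_abs, sq_abs, ← Submodule.norm_coe]
      rfl
    rw [e, tsum_mul_left, tsum_subtype_eq_of_support_subset (s := s)
      (f := fun i => ‖K.starProjection (C.η i)‖ ^ 2) subset_rfl, hc, inv_pow,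
      Real.sq_sqrt h0.le]
    exact inv_mul_cancel₀ h0.ne'
  · have key : ∀ T : K →L[ℂ] K, (∑' n, ⟪η' n, T (η' n)⟫_ℂ) =
        (c : ℂ) ^ 2 * ∑' i, ⟪C.η i, lift K T (C.η i)⟫_ℂ := by
      intro T
      rw [hext (fun v => ⟪v, T v⟫_ℂ) (by simp), tsum_extend_zero hfi]
      have e : (fun i : s => ⟪g i, T (g i)⟫_ℂ) =
          fun i : s => (c : ℂ) ^ 2 * ⟪C.η i.1, lift K T (C.η i.1)⟫_ℂ := by
        funext i
        rw [hg, map_smul, inner_smul_left, inner_smul_right, Complex.conj_ofReal, inner_proj,
          ← mul_assoc, pow_two]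
      rw [e, tsum_mul_left]
      congr 1
      refine tsum_subtype_eq_of_support_subset (s := s)
        (f := fun i => ⟪C.η i, lift K T (C.η i)⟫_ℂ) fun i hi => ?_
      by_contra hni
      refine hi ?_
      show ⟪C.η i, lift K T (C.η i)⟫_ℂ = 0
      rw [lift_apply, hzero i hni, map_zero, ZeroMemClass.coe_zero, inner_zero_right]
    have hL : ∀ T, T ∈ cornerVNA K C.M h → C.Fin2 (lift K T) ∧ lift K T ∈ C.M := by
      intro T hT
      refine ⟨?_, hT⟩
      have : lift K T = lift K T * K.starProjection := by rw [← lift_one K, ← lift_mul, mul_one]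
      rw [this]
      exact hf.mul_left _
    obtain ⟨hxf, hxM⟩ := hL x hx
    obtain ⟨hyf, hyM⟩ := hL y hy
    rw [key, key, lift_mul, lift_mul]
    congr 1
    have e : ∀ X Y : H →L[ℂ] H, X ∈ C.M → C.Fin2 X → C.Fin2 Y →
        (∑' i, ⟪C.η i, (X * Y) (C.η i)⟫_ℂ) = ⟪C.l2 (star X), C.l2 Y⟫_ℂ := by
      intro X Y hX hXf hYf
      rw [inner_l2 (hXf.star hX) hYf]
      refine tsum_congr fun i => ?_
      rw [mul_apply_eq_comp, ContinuousLinearMap.star_eq_adjoint,
        ContinuousLinearMap.adjoint_inner_left]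
    rw [e _ _ hxM hxf hyf, e _ _ hyM hyf hxf]
    have := inner_star hxf hxM (hyf.star hyM) (star_mem hyM)
    rwa [star_star] at this
  · refine lift_injective K ?_
    rw [lift_zero]
    refine C.faith _ hx fun i => ?_
    by_cases hi : i ∈ s
    · have := hxe (f ⟨i, hi⟩)
      rw [hη', hfi.extend_apply, hg, map_smul] at this
      have hc0 : (c : ℂ) ≠ 0 := by
        rw [Ne, Complex.ofReal_eq_zero, hc, inv_eq_zero]
        exact (Real.sqrt_pos.2 h0).ne'
      rw [lift_apply, (smul_eq_zero.1 this).resolve_left hc0, ZeroMemClass.coe_zero]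
    · rw [lift_apply, hzero i hi, map_zero, ZeroMemClass.coe_zero]

/-- paving in a finite corner -/
theorem corner_pavable {ε₀ : ℝ} {r : ℕ} (hε₀ : 0 ≤ ε₀)
    (hfin : ∀ (K : Type u) [NormedAddCommGroup K] [InnerProductSpace ℂ K] [CompleteSpace K]
      (N : VonNeumannAlgebra K) (B : StarSubalgebra ℂ (K →L[ℂ] K)),
      HasFaithfulNormalTracialState N → IsMASA N B →
        ∀ y ∈ N, IsSelfAdjoint y → SoPavable N B y ε₀ r)
    (hA : IsMASA C.M A) {e : H →L[ℂ] H} (heA : e ∈ A) (hep : IsStarProjection e)
    (hef : C.Fin2 e) {x : H →L[ℂ] H} (hxM : x ∈ C.M) (hx : IsSelfAdjoint x) (F : Finset H)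
    {δ : ℝ} (hδ : 0 < δ) :
    ∃ (p : Fin r → H →L[ℂ] H) (a q : H →L[ℂ] H), (∀ i, p i ∈ A ∧ IsStarProjection (p i)) ∧
      (∀ i j, i ≠ j → p i * p j = 0) ∧ ∑ i, p i = e ∧ a ∈ A ∧ IsSelfAdjoint a ∧ ‖a‖ ≤ ‖x‖ ∧
      e * a = a ∧ q ∈ C.M ∧ IsStarProjection q ∧ e * q = q ∧ (∀ ξ ∈ F, ‖(e - q) ξ‖ < δ) ∧
      ‖q * ((∑ i, p i * x * p i) - a) * q‖ ≤ ε₀ * ‖x‖ := by
  classical
  rcases eq_or_ne e 0 with rfl | he0
  · refine ⟨fun _ => 0, 0, 0, fun i => ⟨zero_mem _, IsStarProjection.zero _⟩, by simp, by simp,
      zero_mem _, IsSelfAdjoint.zero _, by simp, by simp, zero_mem _, IsStarProjection.zero _,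
      by simp, fun ξ _ => by simpa using hδ, ?_⟩
    simpa using mul_nonneg hε₀ (norm_nonneg x)
  set K : Submodule ℂ H := LinearMap.ker (1 - e).toLinearMap with hK
  have : CompleteSpace K := (ContinuousLinearMap.isClosed_ker (1 - e)).completeSpace_coe
  have hmem : ∀ v, v ∈ K ↔ e v = v := by
    intro v
    rw [hK, LinearMap.mem_ker]
    show v - e v = 0 ↔ _
    rw [sub_eq_zero, eq_comm]
  have hP : K.starProjection = e := by
    ext v
    refine Submodule.eq_starProjection_of_mem_of_inner_eq_zero
      ((hmem _).2 (congrArg (fun T : H →L[ℂ] H => T v) hep.isIdempotentElem.eq)) fun w hw => ?_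
    have hew := (hmem w).1 hw
    rw [← hew, ← ContinuousLinearMap.adjoint_inner_left, ← ContinuousLinearMap.star_eq_adjoint,
      hep.isSelfAdjoint.star_eq, map_sub,
      ← mul_apply_eq_comp e e v, hep.isIdempotentElem.eq, sub_self, inner_zero_left]
  have hKA : K.starProjection ∈ A := hP ▸ heA
  have hKf : C.Fin2 K.starProjection := hP ▸ hef
  have h0 : 0 < ∑' i, ‖K.starProjection (C.η i)‖ ^ 2 := by
    refine lt_of_le_of_ne (tsum_nonneg fun i => sq_nonneg _) fun h => he0 ?_
    rw [← hP]
    refine C.faith _ (hA.1 hKA) fun i => ?_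
    have := (hasSum_zero_iff_of_nonneg fun i => sq_nonneg ‖K.starProjection (C.η i)‖).1
      (h.symm ▸ Summable.hasSum hKf)
    simpa using congrFun this i
  have hxe : compress K x ∈ cornerVNA K C.M (hA.1 hKA) := by
    rw [mem_cornerVNA, lift_compress, hP]
    exact mul_mem (mul_mem (hA.1 heA) hxM) (hA.1 heA)
  have hxes : IsSelfAdjoint (compress K x) := by
    show star _ = _
    refine lift_injective K ?_
    rw [← lift_star, lift_compress, star_mul, star_mul, hx.star_eq, hP, hep.isSelfAdjoint.star_eq,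
      mul_assoc]
  obtain ⟨p, hpA, hporth, hpsum, a, haA, has, han, q, hqN, hqp, hqF, hbd⟩ :=
    hfin K _ _ (tracial_corner K (hA.1 hKA) hKf h0) (isMASA_corner hA K hKA) _ hxe hxes
      (F.image fun v => K.orthogonalProjectionOnto v) δ hδ
  have hproj : ∀ T : K →L[ℂ] K, IsStarProjection T → IsStarProjection (lift K T) := fun T hT =>
    ⟨by rw [IsIdempotentElem, ← lift_mul, hT.isIdempotentElem.eq],
      show star (lift K T) = lift K T by rw [lift_star, hT.isSelfAdjoint.star_eq]⟩
  have hle : ∀ T : K →L[ℂ] K, e * lift K T = lift K T := fun T => by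
    rw [← hP, ← lift_one K, ← lift_mul, one_mul]
  refine ⟨fun i => lift K (p i), lift K a, lift K q, fun i => ⟨(hpA i).1, hproj _ (hpA i).2⟩,
    fun i j hij => by rw [← lift_mul, hporth i j hij, lift_zero],
    by rw [← lift_sum, hpsum, lift_one, hP], haA,
    show star (lift K a) = lift K a by rw [lift_star, has.star_eq],
    (norm_lift_le K a).trans (han.trans (norm_compress_le K x)), hle a, hqN, hproj q hqp, hle q,
    fun ξ hξ => ?_, ?_⟩
  · have h1 : e - lift K q = lift K (1 - q) := by rw [lift_sub, lift_one, hP]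
    rw [h1, lift_apply, Submodule.norm_coe]
    exact hqF _ (Finset.mem_image_of_mem _ hξ)
  · have e1 : ∀ i, lift K (p i) * x * lift K (p i) = lift K (p i * compress K x * p i) := by
      intro i
      rw [lift_mul, lift_mul, lift_compress]
      have a1 : lift K (p i) * K.starProjection = lift K (p i) := by
        rw [← lift_one K, ← lift_mul, mul_one]
      have a2 : K.starProjection * lift K (p i) = lift K (p i) := by
        rw [← lift_one K, ← lift_mul, one_mul]
      simp only [← mul_assoc, a1]
      rw [mul_assoc _ K.starProjection, a2]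
    simp only [e1]
    rw [← lift_sum, ← lift_sub, ← lift_mul, ← lift_mul]
    exact (norm_lift_le K _).trans (hbd.trans (mul_le_mul_of_nonneg_left (norm_compress_le K x) hε₀))

end Ctx

end Vale.Agent.P078.Semi
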