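import Mathlib
import Vale.Agent.P078.SemiSpec

/-! Partitions below a projection of the subalgebra, pinchings and their weak limits. -/

noncomputable section

open scoped InnerProductSpace ComplexOrder
open Filter Topology

namespace Vale.Agent.P078.Semi

universe u

variable {H : Type u} [NormedAddCommGroup H] [InnerProductSpace ℂ H] [CompleteSpace H]

/-- partitions of `w` by projections of `A` -/
structure WPart (A : StarSubalgebra ℂ (H →L[ℂ] H)) (w : H →L[ℂ] H) where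
  /-- number of atoms -/
  n : ℕ
  /-- the atoms -/
  f : Fin n → H →L[ℂ] H
  pos : 0 < n
  mem : ∀ j, f j ∈ A
  proj : ∀ j, IsStarProjection (f j)
  orth : ∀ i j, i ≠ j → f i * f j = 0
  sum : ∑ j, f j = w

namespace WPart

variable {A : StarSubalgebra ℂ (H →L[ℂ] H)} {w : H →L[ℂ] H} (Q : WPart A w)

lemma idem (j) : Q.f j * Q.f j = Q.f j := (Q.proj j).isIdempotentElem.eq

lemma star_f (j) : star (Q.f j) = Q.f j := (Q.proj j).isSelfAdjoint.star_eq

lemma w_mul (j) : w * Q.f j = Q.f j := by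
  calc w * Q.f j = (∑ i, Q.f i) * Q.f j := by rw [Q.sum]
    _ = Q.f j := ?_
  rw [Finset.sum_mul, Finset.sum_eq_single j (fun i _ hi => Q.orth i j hi) (by simp), Q.idem]

lemma mul_w (j) : Q.f j * w = Q.f j := by
  calc Q.f j * w = Q.f j * ∑ i, Q.f i := by rw [Q.sum]
    _ = Q.f j := ?_
  rw [Finset.mul_sum, Finset.sum_eq_single j (fun i _ hi => Q.orth j i hi.symm) (by simp), Q.idem]

lemma inner_f (j) (u v : H) : ⟪Q.f j u, v⟫_ℂ = ⟪u, Q.f j v⟫_ℂ := by
  conv_lhs => rw [← Q.star_f j, ContinuousLinearMap.star_eq_adjoint,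
    ContinuousLinearMap.adjoint_inner_left]

lemma norm_sum_sq (u : Fin Q.n → H) :
    ‖∑ j, Q.f j (u j)‖ ^ 2 = ∑ j, ‖Q.f j (u j)‖ ^ 2 := by
  have : (⟪∑ j, Q.f j (u j), ∑ j, Q.f j (u j)⟫_ℂ) = ∑ j, ⟪Q.f j (u j), Q.f j (u j)⟫_ℂ := by
    rw [sum_inner]
    refine Finset.sum_congr rfl fun j _ => ?_
    rw [inner_sum, Finset.sum_eq_single j ?_ (by simp)]
    intro i _ hi
    rw [Q.inner_f, ← mul_apply_eq_comp, Q.orth j i hi.symm, zero_apply, inner_zero_right]
  simp only [inner_self_eq_norm_sq_to_K] at this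
  exact Complex.ofReal_injective (by push_cast; exact this)

lemma sum_norm_sq (v : H) : ∑ j, ‖Q.f j v‖ ^ 2 = ‖w v‖ ^ 2 := by
  rw [← Q.norm_sum_sq fun _ => v, ← sum_apply, Q.sum]

/-- refinement -/
instance : Preorder (WPart A w) where
  le Q Q' := ∀ j', ∃ j, Q.f j * Q'.f j' = Q'.f j'
  le_refl Q := fun j => ⟨j, Q.idem j⟩
  le_trans Q Q' Q'' h h' := fun k => by
    obtain ⟨j', hj'⟩ := h' k
    obtain ⟨j, hj⟩ := h j'
    exact ⟨j, by rw [← hj', ← mul_assoc, hj]⟩

/-- the parent of an atom in a coarser partition -/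
def parent {Q Q' : WPart A w} (h : Q ≤ Q') (j' : Fin Q'.n) : Fin Q.n := (h j').choose

lemma parent_spec {Q Q' : WPart A w} (h : Q ≤ Q') (j' : Fin Q'.n) :
    Q.f (parent h j') * Q'.f j' = Q'.f j' := (h j').choose_spec

lemma mul_of_le {Q Q' : WPart A w} (h : Q ≤ Q') (j : Fin Q.n) (j' : Fin Q'.n) :
    Q.f j * Q'.f j' = if parent h j' = j then Q'.f j' else 0 := by
  split_ifs with e
  · rw [← e]; exact parent_spec h j'
  · rw [← parent_spec h j', ← mul_assoc, Q.orth j _ (Ne.symm e), zero_mul]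

variable (hA : ∀ a ∈ A, ∀ b ∈ A, a * b = b * a)
include hA

/-- common refinement -/
def meet (Q Q' : WPart A w) : WPart A w where
  n := Q.n * Q'.n
  f k := Q.f (finProdFinEquiv.symm k).1 * Q'.f (finProdFinEquiv.symm k).2
  pos := Nat.mul_pos Q.pos Q'.pos
  mem k := mul_mem (Q.mem _) (Q'.mem _)
  proj k := by
    refine ⟨?_, ?_⟩
    · show _ * _ = _
      rw [mul_assoc, ← mul_assoc (Q'.f _), hA _ (Q'.mem _) _ (Q.mem _), mul_assoc (Q.f _),
        Q'.idem, ← mul_assoc, Q.idem]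
    · show star _ = _
      rw [star_mul, Q'.star_f, Q.star_f, hA _ (Q'.mem _) _ (Q.mem _)]
  orth k l hkl := by
    obtain ⟨⟨a, b⟩, rfl⟩ := finProdFinEquiv.surjective k
    obtain ⟨⟨c, d⟩, rfl⟩ := finProdFinEquiv.surjective l
    simp only [Equiv.symm_apply_apply]
    rw [mul_assoc, ← mul_assoc (Q'.f _), hA _ (Q'.mem _) _ (Q.mem _), mul_assoc (Q.f _),
      ← mul_assoc]
    by_cases h : a = c
    · have : b ≠ d := fun e => hkl (by rw [h, e])
      rw [Q'.orth b d this, mul_zero]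
    · rw [Q.orth a c h, zero_mul]
  sum := by
    rw [← (finProdFinEquiv).sum_comp]
    simp only [Equiv.symm_apply_apply, Fintype.sum_prod_type, ← Finset.mul_sum, Q'.sum, Q.mul_w,
      Q.sum]

lemma le_meet_left (Q Q' : WPart A w) : Q ≤ Q.meet hA Q' := fun k =>
  ⟨(finProdFinEquiv.symm k).1, by
    show Q.f _ * (Q.f _ * Q'.f _) = Q.f _ * Q'.f _
    rw [← mul_assoc, Q.idem]⟩

lemma le_meet_right (Q Q' : WPart A w) : Q' ≤ Q.meet hA Q' := fun k =>
  ⟨(finProdFinEquiv.symm k).2, by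
    show Q'.f _ * (Q.f _ * Q'.f _) = Q.f _ * Q'.f _
    rw [hA _ (Q.mem _) _ (Q'.mem _), ← mul_assoc, Q'.idem]⟩

/-- splitting by a projection -/
def split (hwA : w ∈ A) (hw : IsStarProjection w) (S : H →L[ℂ] H) (hS : S ∈ A)
    (hSp : IsStarProjection S) : WPart A w where
  n := 2
  f := ![S * w, w - S * w]
  pos := two_pos
  mem := Fin.forall_fin_two.2 ⟨mul_mem hS hwA, sub_mem hwA (mul_mem hS hwA)⟩
  proj := by
    have h1 : IsStarProjection (S * w) := hSp.mul hw (hA S hS w hwA)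
    refine Fin.forall_fin_two.2 ⟨h1, ?_, hw.isSelfAdjoint.sub h1.isSelfAdjoint⟩
    have e1 : w * (S * w) = S * w := by
      rw [← mul_assoc, hA w hwA S hS, mul_assoc, hw.isIdempotentElem.eq]
    have e2 : S * w * w = S * w := by rw [mul_assoc, hw.isIdempotentElem.eq]
    show (w - S * w) * (w - S * w) = w - S * w
    simp only [sub_mul, mul_sub, e1, e2, hw.isIdempotentElem.eq, h1.isIdempotentElem.eq]
    abel
  orth := by
    have h1 : IsStarProjection (S * w) := hSp.mul hw (hA S hS w hwA)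
    have e1 : w * (S * w) = S * w := by
      rw [← mul_assoc, hA w hwA S hS, mul_assoc, hw.isIdempotentElem.eq]
    have e2 : S * w * w = S * w := by rw [mul_assoc, hw.isIdempotentElem.eq]
    intro i j hij
    fin_cases i <;> fin_cases j <;> first
      | exact absurd rfl hij
      | simp [sub_mul, mul_sub, e1, e2, h1.isIdempotentElem.eq]
  sum := by simp [Fin.sum_univ_two]

lemma eq_or_zero_of_split (hwA : w ∈ A) (hw : IsStarProjection w) (S : H →L[ℂ] H) (hS : S ∈ A)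
    (hSp : IsStarProjection S) {Q : WPart A w} (h : WPart.split hA hwA hw S hS hSp ≤ Q)
    (j : Fin Q.n) : S * Q.f j = Q.f j ∨ S * Q.f j = 0 := by
  obtain ⟨i, hi⟩ : ∃ i : Fin 2, ![S * w, w - S * w] i * Q.f j = Q.f j := h j
  have e : S * (S * w) = S * w := by rw [← mul_assoc, hSp.isIdempotentElem.eq]
  have hi' : i = 0 ∨ i = 1 := by fin_cases i <;> simp
  rcases hi' with rfl | rfl
  · left
    rw [← hi, ← mul_assoc]
    simp [e]
  · right
    rw [← hi, ← mul_assoc]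
    simp [mul_sub, e]

end WPart

namespace Ctx

variable {C : Ctx H} {A : StarSubalgebra ℂ (H →L[ℂ] H)} {w : H →L[ℂ] H}

lemma nonempty_wpart (hwA : w ∈ A) (hw : IsStarProjection w) : Nonempty (WPart A w) :=
  ⟨{ n := 1
     f := fun _ => w
     pos := one_pos
     mem := fun _ => hwA
     proj := fun _ => hw
     orth := fun i j hij => absurd (Subsingleton.elim i j) hij
     sum := by simp }⟩

/-- pinching by a partition -/
def _root_.Vale.Agent.P078.Semi.WPart.pinch (Q : WPart A w) (y : H →L[ℂ] H) : H →L[ℂ] H :=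
  ∑ j, Q.f j * y * Q.f j

lemma pinch_norm_le (Q : WPart A w) (hw : IsStarProjection w) (y : H →L[ℂ] H) :
    ‖Q.pinch y‖ ≤ ‖y‖ := by
  refine ContinuousLinearMap.opNorm_le_bound _ (norm_nonneg _) fun v => ?_
  refine (pow_le_pow_iff_left₀ (norm_nonneg _) (by positivity) two_ne_zero).1 ?_
  rw [WPart.pinch, sum_apply]
  simp only [mul_apply_eq_comp]
  rw [Q.norm_sum_sq]
  calc ∑ j, ‖Q.f j (y (Q.f j v))‖ ^ 2 ≤ ∑ j, ‖y‖ ^ 2 * ‖Q.f j v‖ ^ 2 := by
        refine Finset.sum_le_sum fun j _ => ?_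
        rw [← mul_pow]
        refine pow_le_pow_left₀ (norm_nonneg _) (((Q.f j).le_opNorm _).trans ?_) 2
        exact (mul_le_of_le_one_left (norm_nonneg _) (Q.proj j).norm_le).trans (y.le_opNorm _)
    _ = ‖y‖ ^ 2 * ‖w v‖ ^ 2 := by rw [← Finset.mul_sum, Q.sum_norm_sq]
    _ ≤ (‖y‖ * ‖v‖) ^ 2 := by
        rw [mul_pow]
        gcongr
        exact (w.le_opNorm v).trans (mul_le_of_le_one_left (norm_nonneg _) hw.norm_le)

lemma star_pinch (Q : WPart A w) (y : H →L[ℂ] H) : star (Q.pinch y) = Q.pinch (star y) := by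
  simp [WPart.pinch, star_sum, Q.star_f, mul_assoc]

lemma pinch_mul_w (Q : WPart A w) (y : H →L[ℂ] H) : Q.pinch y * w = Q.pinch y := by
  simp [WPart.pinch, Finset.sum_mul, mul_assoc, Q.mul_w]

lemma w_mul_pinch (Q : WPart A w) (y : H →L[ℂ] H) : w * Q.pinch y = Q.pinch y := by
  simp [WPart.pinch, Finset.mul_sum, ← mul_assoc, Q.w_mul]

lemma pinch_mem (hA : IsMASA C.M A) (Q : WPart A w) {y : H →L[ℂ] H} (hy : y ∈ C.M) :
    Q.pinch y ∈ C.M :=
  sum_mem fun j _ => mul_mem (mul_mem (hA.1 (Q.mem j)) hy) (hA.1 (Q.mem j))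

lemma pinch_fin2 (hA : IsMASA C.M A) (Q : WPart A w) {y : H →L[ℂ] H} (hf : C.Fin2 y)
    (hy : y ∈ C.M) : C.Fin2 (Q.pinch y) :=
  fin2_sum _ fun j _ =>
    (hf.mul_left _).mul_right (mul_mem (hA.1 (Q.mem j)) hy) (hA.1 (Q.mem j))

lemma pinch_pinch {Q Q' : WPart A w} (hAc : ∀ a ∈ A, ∀ b ∈ A, a * b = b * a) (h : Q ≤ Q')
    (y : H →L[ℂ] H) : Q'.pinch (Q.pinch y) = Q'.pinch y := by
  simp only [WPart.pinch, Finset.mul_sum, Finset.sum_mul]
  refine Finset.sum_congr rfl fun k _ => ?_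
  rw [Finset.sum_eq_single (WPart.parent h k) ?_ (by simp)]
  · have e1 := WPart.parent_spec h k
    have e2 : Q'.f k * Q.f (WPart.parent h k) = Q'.f k := by
      rw [hAc _ (Q'.mem _) _ (Q.mem _), e1]
    rw [← mul_assoc, ← mul_assoc, e2, mul_assoc, e1]
  · intro j _ hj
    rw [mul_assoc, mul_assoc, WPart.mul_of_le h, if_neg (Ne.symm hj), mul_zero, mul_zero]

lemma inner_pinch (hA : IsMASA C.M A) (Q : WPart A w) {y v : H →L[ℂ] H} (hy : C.Fin2 y)
    (hyM : y ∈ C.M) (hv : C.Fin2 v) (hvM : v ∈ C.M) :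
    ⟪C.l2 (Q.pinch y), C.l2 v⟫_ℂ = ⟪C.l2 y, C.l2 (Q.pinch v)⟫_ℂ := by
  have hf : ∀ j, Q.f j ∈ C.M := fun j => hA.1 (Q.mem j)
  rw [WPart.pinch, WPart.pinch,
    l2_sum _ fun j => (hy.mul_left _).mul_right (mul_mem (hf j) hyM) (hf j),
    l2_sum _ fun j => (hv.mul_left _).mul_right (mul_mem (hf j) hvM) (hf j), sum_inner, inner_sum]
  refine Finset.sum_congr rfl fun j _ => ?_
  rw [inner_mul_right (hy.mul_left _) (mul_mem (hf j) hyM) hv hvM (hf j), Q.star_f,
    inner_mul_left hy (hv.mul_right hvM (hf j)), Q.star_f, mul_assoc]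

lemma n2_pinch_le (hA : IsMASA C.M A) (Q : WPart A w) {y : H →L[ℂ] H} (hy : C.Fin2 y)
    (hyM : y ∈ C.M) : C.n2 (Q.pinch y) ≤ C.n2 y := by
  have hp := pinch_fin2 hA Q hy hyM
  have hpM := pinch_mem hA Q hyM
  have e : ⟪C.l2 (Q.pinch y), C.l2 (Q.pinch y)⟫_ℂ = ⟪C.l2 y, C.l2 (Q.pinch y)⟫_ℂ := by
    rw [inner_pinch hA Q hy hyM hp hpM, pinch_pinch hA.2.1 le_rfl]
  have h1 : C.n2 (Q.pinch y) ^ 2 ≤ C.n2 y * C.n2 (Q.pinch y) := by
    have := norm_inner_le_norm (𝕜 := ℂ) (C.l2 y) (C.l2 (Q.pinch y))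
    rw [← e, inner_self_eq_norm_sq_to_K, norm_pow, RCLike.norm_ofReal, abs_norm] at this
    exact this
  rcases (C.n2_nonneg (Q.pinch y)).eq_or_lt with h | h
  · rw [← h]; exact C.n2_nonneg _
  · rw [pow_two] at h1
    exact le_of_mul_le_mul_right h1 h

/-- weak limits of bounded families along ultrafilters -/
lemma exists_wlim {ι : Type*} (U : Ultrafilter ι) (T : ι → H →L[ℂ] H) (B : ℝ)
    (hT : ∀ j, ‖T j‖ ≤ B) :
    ∃ L : H →L[ℂ] H, ‖L‖ ≤ max B 0 ∧
      ∀ u v, Tendsto (fun j => ⟪T j u, v⟫_ℂ) (U : Filter ι) (𝓝 ⟪L u, v⟫_ℂ) := by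
  have hb : ∀ u v j, ‖⟪T j u, v⟫_ℂ‖ ≤ max B 0 * ‖u‖ * ‖v‖ := fun u v j =>
    (norm_inner_le_norm _ _).trans (mul_le_mul_of_nonneg_right (((T j).le_opNorm u).trans
      (mul_le_mul_of_nonneg_right ((hT j).trans (le_max_left _ _)) (norm_nonneg _)))
      (norm_nonneg _))
  have hex : ∀ u v, ∃ l : ℂ, ‖l‖ ≤ max B 0 * ‖u‖ * ‖v‖ ∧
      Tendsto (fun j => ⟪T j u, v⟫_ℂ) (U : Filter ι) (𝓝 l) := by
    intro u v
    obtain ⟨l, hl, hlim⟩ := (isCompact_closedBall (0 : ℂ) (max B 0 * ‖u‖ * ‖v‖)).ultrafilter_le_nhds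
      (U.map fun j => ⟪T j u, v⟫_ℂ) (by
        rw [Ultrafilter.coe_map, le_principal_iff, mem_map]
        exact univ_mem' fun j => by simpa [dist_zero_right] using hb u v j)
    exact ⟨l, by simpa [dist_zero_right] using hl, hlim⟩
  choose l hl hlim using hex
  have add1 : ∀ a b v, l (a + b) v = l a v + l b v := fun a b v =>
    tendsto_nhds_unique (hlim (a + b) v) (by
      simpa [map_add, inner_add_left] using (hlim a v).add (hlim b v))
  have smul1 : ∀ (c : ℂ) a v, l (c • a) v = (starRingEnd ℂ) c • l a v := fun c a v =>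
    tendsto_nhds_unique (hlim (c • a) v) (by
      simpa [map_smul, inner_smul_left, mul_comm] using (hlim a v).const_mul ((starRingEnd ℂ) c))
  have add2 : ∀ a b v, l a (b + v) = l a b + l a v := fun a b v =>
    tendsto_nhds_unique (hlim a (b + v)) (by
      simpa [inner_add_right] using (hlim a b).add (hlim a v))
  have smul2 : ∀ (c : ℂ) a v, l a (c • v) = c • l a v := fun c a v =>
    tendsto_nhds_unique (hlim a (c • v)) (by
      simpa [inner_smul_right] using (hlim a v).const_mul c)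
  let Bf : H →L⋆[ℂ] H →L[ℂ] ℂ :=
    LinearMap.mkContinuous₂ (LinearMap.mk₂'ₛₗ (starRingEnd ℂ) (RingHom.id ℂ) l add1 smul1 add2
      smul2) (max B 0) hl
  refine ⟨InnerProductSpace.continuousLinearMapOfBilin Bf, ?_, fun u v => ?_⟩
  · refine ContinuousLinearMap.opNorm_le_bound _ (le_max_right _ _) fun u => ?_
    set L := InnerProductSpace.continuousLinearMapOfBilin Bf with hL
    have h := hl u (L u)
    rw [show l u (L u) = ⟪L u, L u⟫_ℂ from
      (InnerProductSpace.continuousLinearMapOfBilin_apply Bf u (L u)).symm,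
      inner_self_eq_norm_sq_to_K, norm_pow, RCLike.norm_ofReal, abs_norm, pow_two] at h
    rcases (norm_nonneg (L u)).eq_or_lt with h0 | h0
    · rw [← h0]; positivity
    · exact le_of_mul_le_mul_right h h0
  · rw [InnerProductSpace.continuousLinearMapOfBilin_apply]
    exact hlim u v

/-- an ultrafilter refining refinement -/
def ultra (hAc : ∀ a ∈ A, ∀ b ∈ A, a * b = b * a) [Nonempty (WPart A w)] :
    Ultrafilter (WPart A w) :=
  have : IsDirectedOrder (WPart A w) :=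
    ⟨fun Q Q' => ⟨Q.meet hAc Q', WPart.le_meet_left hAc Q Q', WPart.le_meet_right hAc Q Q'⟩⟩
  Ultrafilter.of atTop

lemma ultra_le (hAc : ∀ a ∈ A, ∀ b ∈ A, a * b = b * a) [Nonempty (WPart A w)] :
    (ultra (w := w) hAc : Filter (WPart A w)) ≤ atTop :=
  have : IsDirectedOrder (WPart A w) :=
    ⟨fun Q Q' => ⟨Q.meet hAc Q', WPart.le_meet_left hAc Q Q', WPart.le_meet_right hAc Q Q'⟩⟩
  Ultrafilter.of_le atTop

lemma eventually_ge (hAc : ∀ a ∈ A, ∀ b ∈ A, a * b = b * a) [Nonempty (WPart A w)]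
    (Q0 : WPart A w) : ∀ᶠ Q in (ultra (w := w) hAc : Filter (WPart A w)), Q0 ≤ Q :=
  (eventually_ge_atTop Q0).filter_mono (ultra_le hAc)

/-- approximation by steps over a partition -/
lemma exists_step (hA : IsMASA C.M A) (hwA : w ∈ A) (hw : IsStarProjection w)
    {b : H →L[ℂ] H} (hb : IsSelfAdjoint b) (hbA : b ∈ A) {c : ℝ} (hc : 0 < c) :
    ∃ (Q : WPart A w) (t : Fin Q.n → ℝ), ‖b * w - ∑ j, (t j : ℂ) • Q.f j‖ ≤ 2 * c := by
  classical
  obtain ⟨N, hN⟩ : ∃ N : ℕ, ‖b‖ / c < N := exists_nat_gt _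
  set φ : ℤ → ℝ → ℝ := fun i s => max 0 (2 * c - |s - i * c|) with hφ
  set ψ : ℤ → ℝ → ℝ := fun i s => max (-(2 * c)) (min (2 * c) (s - i * c)) with hψ
  set idx := Finset.Icc (-(N : ℤ)) N with hidx
  have hφc : ∀ i, Continuous (φ i) := fun i => by fun_prop
  have hψc : ∀ i, Continuous (ψ i) := fun i => by fun_prop
  have hne := nonempty_wpart hwA hw
  have hdir : IsDirectedOrder (WPart A w) :=
    ⟨fun Q Q' => ⟨Q.meet hA.2.1 Q', WPart.le_meet_left hA.2.1 Q Q',
      WPart.le_meet_right hA.2.1 Q Q'⟩⟩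
  obtain ⟨Q, hQ⟩ := (idx.image fun i => WPart.split hA.2.1 hwA hw (supp (φ i) b)
    (supp_mem_masa hA (φ i) hb hbA) (supp_proj (φ i) b)).exists_le
  have hsp : ∀ i ∈ idx, ∀ j, supp (φ i) b * Q.f j = Q.f j ∨ supp (φ i) b * Q.f j = 0 :=
    fun i hi j => WPart.eq_or_zero_of_split hA.2.1 hwA hw _ _ _
      (hQ _ (Finset.mem_image_of_mem _ hi)) j
  have key : ∀ j, ∃ t : ℝ, ‖(b - (t : ℂ) • 1) * Q.f j‖ ≤ 2 * c := by
    intro j
    by_cases hex : ∃ i ∈ idx, supp (φ i) b * Q.f j = Q.f j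
    · obtain ⟨i, -, hij⟩ := hex
      refine ⟨i * c, ?_⟩
      have e0 : b - (((i : ℝ) * c : ℝ) : ℂ) • (1 : H →L[ℂ] H) = cfc (fun s : ℝ => s - i * c) b := by
        rw [cfc_sub (fun s : ℝ => s) (fun _ : ℝ => (i : ℝ) * c) b, cfc_id' ℝ b, cfc_const _ b hb,
          Algebra.algebraMap_eq_smul_one, ← Complex.coe_smul]
      have e1 : (b - (((i : ℝ) * c : ℝ) : ℂ) • (1 : H →L[ℂ] H)) * supp (φ i) b =
          cfc (ψ i) b * supp (φ i) b := by
        refine mul_supp_eq ?_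
        rw [e0, ← cfc_mul _ _ _ (by fun_prop) (hφc i).continuousOn,
          ← cfc_mul _ _ _ (hψc i).continuousOn (hφc i).continuousOn]
        refine cfc_congr fun s _ => ?_
        show (s - i * c) * φ i s = ψ i s * φ i s
        by_cases hs : |s - i * c| ≤ 2 * c
        · rw [abs_le] at hs
          simp only [hψ, min_eq_right hs.2, max_eq_right hs.1]
        · have : φ i s = 0 := max_eq_left (by linarith)
          simp [this]
      rw [← hij, ← mul_assoc, e1, mul_assoc, hij]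
      refine (norm_mul_le _ _).trans ((mul_le_of_le_one_right (norm_nonneg _)
        (Q.proj j).norm_le).trans ?_)
      refine norm_cfc_le (by positivity) fun s _ => ?_
      rw [Real.norm_eq_abs, abs_le]
      exact ⟨le_max_left _ _, max_le (by linarith) (min_le_left _ _)⟩
    · push_neg at hex
      refine ⟨0, ?_⟩
      suffices Q.f j = 0 by simp [this]; positivity
      set Φ : ℝ → ℝ := fun s => ∑ i ∈ idx, φ i s with hΦ
      have hΦc : Continuous Φ := by fun_prop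
      have hΦ0 : ∀ s ∈ spectrum ℝ b, 0 < Φ s := by
        intro s hs
        have hsb : |s| ≤ ‖b‖ := by
          rcases subsingleton_or_nontrivial (H →L[ℂ] H) with h | h
          · simp at hs
          · simpa [Real.norm_eq_abs] using spectrum.norm_le_norm_of_mem hs
        have hlt : |s| / c < N := lt_of_le_of_lt (by gcongr) hN
        have hlt : |s / c| < N := by rwa [abs_div, abs_of_pos hc]
        rw [abs_lt] at hlt
        have h1 := Int.floor_le (s / c)
        have h2 := Int.lt_floor_add_one (s / c)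
        have hmem : ⌊s / c⌋ ∈ idx := by
          rw [hidx, Finset.mem_Icc]
          refine ⟨Int.le_floor.2 (by push_cast; linarith), ?_⟩
          exact_mod_cast le_trans h1 hlt.2.le
        refine lt_of_lt_of_le ?_ (Finset.single_le_sum (fun i _ => le_max_left _ _) hmem)
        refine lt_of_lt_of_le ?_ (le_max_right _ _)
        rw [le_div_iff₀ hc] at h1
        rw [div_lt_iff₀ hc] at h2
        rw [sub_pos, abs_lt]
        constructor <;> nlinarith
      have hzero : cfc Φ b * Q.f j = 0 := by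
        rw [show Φ = ∑ i ∈ idx, φ i from funext fun s => (Finset.sum_apply s idx φ).symm,
          cfc_sum φ b idx fun i _ => (hφc i).continuousOn, Finset.sum_mul]
        refine Finset.sum_eq_zero fun i hi => ?_
        rw [← cfc_mul_supp_self, mul_assoc, ((hsp i hi j).resolve_left (hex i hi)), mul_zero]
      have hinv : cfc (fun s => (Φ s)⁻¹) b * cfc Φ b = 1 := by
        rw [← cfc_mul (fun s => (Φ s)⁻¹) Φ b (hΦc.continuousOn.inv₀ fun s hs => (hΦ0 s hs).ne') hΦc.continuousOn,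
          cfc_congr (g := fun _ => (1 : ℝ)) fun s hs => inv_mul_cancel₀ (hΦ0 s hs).ne',
          cfc_const_one ℝ b]
      rw [← one_mul (Q.f j), ← hinv, mul_assoc, hzero, mul_zero]
  choose t ht using key
  refine ⟨Q, t, ContinuousLinearMap.opNorm_le_bound _ (by positivity) fun v => ?_⟩
  have e : b * w - ∑ j, (t j : ℂ) • Q.f j = ∑ j, Q.f j * ((b - (t j : ℂ) • 1) * Q.f j) := by
    calc b * w - ∑ j, (t j : ℂ) • Q.f j = ∑ j, (b * Q.f j - (t j : ℂ) • Q.f j) := by
          rw [Finset.sum_sub_distrib, ← Finset.mul_sum, Q.sum]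
      _ = _ := ?_
    refine Finset.sum_congr rfl fun j _ => ?_
    rw [sub_mul, smul_mul_assoc, one_mul, mul_sub, mul_smul_comm, Q.idem, ← mul_assoc,
      hA.2.1 _ (Q.mem j) b hbA, mul_assoc, Q.idem]
  rw [e]
  refine (pow_le_pow_iff_left₀ (norm_nonneg _) (by positivity) two_ne_zero).1 ?_
  rw [sum_apply]
  simp only [mul_apply_eq_comp]
  rw [Q.norm_sum_sq]
  calc _ ≤ ∑ j, (2 * c) ^ 2 * ‖Q.f j v‖ ^ 2 := by
        refine Finset.sum_le_sum fun j _ => ?_
        rw [← mul_pow]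
        refine pow_le_pow_left₀ (norm_nonneg _) (((Q.f j).le_opNorm _).trans ?_) 2
        refine (mul_le_of_le_one_left (norm_nonneg _) (Q.proj j).norm_le).trans ?_
        have hfix : Q.f j (Q.f j v) = Q.f j v :=
          congrArg (fun T : H →L[ℂ] H => T v) (Q.idem j)
        calc ‖(b - (t j : ℂ) • 1) (Q.f j v)‖
            = ‖((b - (t j : ℂ) • 1) * Q.f j) (Q.f j v)‖ := by rw [mul_apply_eq_comp, hfix]
          _ ≤ ‖(b - (t j : ℂ) • 1) * Q.f j‖ * ‖Q.f j v‖ := ContinuousLinearMap.le_opNorm _ _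
          _ ≤ _ := mul_le_mul_of_nonneg_right (ht j) (norm_nonneg _)
    _ = (2 * c) ^ 2 * ‖w v‖ ^ 2 := by rw [← Finset.mul_sum, Q.sum_norm_sq]
    _ ≤ (2 * c * ‖v‖) ^ 2 := by
        rw [mul_pow (2 * c) ‖v‖]
        gcongr
        exact (w.le_opNorm v).trans (mul_le_of_le_one_left (norm_nonneg _) hw.norm_le)

/-- weak limits of pinchings lie in the subalgebra -/
lemma exists_pinch_wlim (hA : IsMASA C.M A) (hwA : w ∈ A) (hw : IsStarProjection w)
    [Nonempty (WPart A w)] {y : H →L[ℂ] H} (hy : IsSelfAdjoint y) (hyM : y ∈ C.M) :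
    ∃ L ∈ A, IsSelfAdjoint L ∧ ‖L‖ ≤ ‖y‖ ∧ w * L = L ∧ L * w = L ∧ ∀ u v,
      Tendsto (fun Q : WPart A w => ⟪Q.pinch y u, v⟫_ℂ)
        (ultra (w := w) hA.2.1 : Filter (WPart A w)) (𝓝 ⟪L u, v⟫_ℂ) := by
  obtain ⟨L, hLn, hlim⟩ := exists_wlim (ultra (w := w) hA.2.1) (fun Q => Q.pinch y) ‖y‖
    fun Q => pinch_norm_le Q hw y
  rw [max_eq_left (norm_nonneg _)] at hLn
  have comm : ∀ z : H →L[ℂ] H, (∀ᶠ Q in (ultra (w := w) hA.2.1 : Filter (WPart A w)),
      z * Q.pinch y = Q.pinch y * z) → z * L = L * z := by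
    intro z hz
    ext u
    refine ext_inner_right ℂ fun v => ?_
    simp only [mul_apply_eq_comp]
    rw [← ContinuousLinearMap.adjoint_inner_right]
    refine tendsto_nhds_unique (hlim u (z.adjoint v)) ((hlim (z u) v).congr' ?_)
    filter_upwards [hz] with Q hQ
    have := congrArg (fun T : H →L[ℂ] H => T u) hQ
    simp only [mul_apply_eq_comp] at this
    rw [← this, ContinuousLinearMap.adjoint_inner_right]
  have hsa : star L = L := by
    ext u
    refine ext_inner_right ℂ fun v => ?_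
    rw [ContinuousLinearMap.star_eq_adjoint, ContinuousLinearMap.adjoint_inner_left,
      ← inner_conj_symm]
    refine tendsto_nhds_unique ((Complex.continuous_conj.tendsto _).comp (hlim v u))
      ((hlim u v).congr fun Q => ?_)
    simp only [Function.comp_apply, inner_conj_symm]
    rw [← ContinuousLinearMap.adjoint_inner_right, ← ContinuousLinearMap.star_eq_adjoint,
      star_pinch, hy.star_eq]
  have hLw : L * w = L := by
    ext u
    refine ext_inner_right ℂ fun v => ?_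
    simp only [mul_apply_eq_comp]
    refine tendsto_nhds_unique (hlim (w u) v) ((hlim u v).congr fun Q => ?_)
    rw [← mul_apply_eq_comp, pinch_mul_w]
  have hwL : w * L = L := by
    rw [comm w (Eventually.of_forall fun Q => by rw [w_mul_pinch, pinch_mul_w]), hLw]
  have hLM : L ∈ C.M := mem_of_commute fun z hz =>
    comm z (Eventually.of_forall fun Q => commute_of_mem (pinch_mem hA Q hyM) hz)
  have hsaA : ∀ b ∈ A, IsSelfAdjoint b → L * b = b * L := by
    intro b hb hbs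
    have hbw : L * b = L * (b * w) := by
      rw [hA.2.1 b hb w hwA, ← mul_assoc, hLw]
    have hbw' : b * L = b * w * L := by rw [mul_assoc, hwL]
    rw [hbw, hbw']
    refine sub_eq_zero.1 (norm_le_zero_iff.1 (le_of_forall_pos_le_add fun θ hθ => ?_))
    rw [zero_add]
    obtain ⟨Q0, t, ht⟩ := exists_step hA hwA hw hbs hb
      (c := θ / (4 * (‖L‖ + 1))) (by positivity)
    set s := ∑ j, (t j : ℂ) • Q0.f j with hs
    have hsL : s * L = L * s := by
      refine comm s ?_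
      filter_upwards [eventually_ge hA.2.1 Q0] with Q hQ
      have hj : ∀ j, Q0.f j * Q.pinch y = Q.pinch y * Q0.f j := by
        intro j
        rw [WPart.pinch, Finset.mul_sum, Finset.sum_mul]
        refine Finset.sum_congr rfl fun k _ => ?_
        rw [← mul_assoc, ← mul_assoc, WPart.mul_of_le hQ, mul_assoc (Q.f k * y),
          hA.2.1 (Q.f k) (Q.mem k) (Q0.f j) (Q0.mem j), WPart.mul_of_le hQ]
        split_ifs <;> simp
      rw [hs, Finset.sum_mul, Finset.mul_sum]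
      refine Finset.sum_congr rfl fun j _ => ?_
      rw [smul_mul_assoc, mul_smul_comm, hj]
    have e : L * (b * w) - b * w * L = L * (b * w - s) - (b * w - s) * L := by
      rw [mul_sub, sub_mul, hsL]; abel
    rw [e]
    have h1 : ‖b * w - s‖ * (‖L‖ + 1) ≤ θ / 2 := by
      calc ‖b * w - s‖ * (‖L‖ + 1) ≤ 2 * (θ / (4 * (‖L‖ + 1))) * (‖L‖ + 1) := by gcongr
        _ = θ / 2 := by field_simp; ring
    refine (norm_sub_le _ _).trans ?_
    nlinarith [norm_mul_le L (b * w - s), norm_mul_le (b * w - s) L, norm_nonneg (b * w - s)]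
  refine ⟨L, Bridge.mem_masa_of_commute hA hLM hsa fun b hb => ?_, hsa, hLn, hwL, hLw, hlim⟩
  have hRe : ((1 / 2 : ℂ) • (b + star b)) ∈ A :=
    SMulMemClass.smul_mem _ (add_mem hb (star_mem hb))
  have hIm : ((Complex.I / 2) • (star b - b)) ∈ A :=
    SMulMemClass.smul_mem _ (sub_mem (star_mem hb) hb)
  have h1 := hsaA _ hRe (by
    show star _ = _
    rw [star_smul, star_add, star_star, add_comm]
    norm_num)
  have h2 := hsaA _ hIm (by
    show star _ = _
    rw [star_smul, star_sub, star_star, Complex.star_def, map_div₀, Complex.conj_I,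
      show (starRingEnd ℂ) 2 = 2 from map_ofNat _ _, neg_div, neg_smul, ← smul_neg, neg_sub])
  have e : b = (1 / 2 : ℂ) • (b + star b) + Complex.I • ((Complex.I / 2) • (star b - b)) := by
    rw [smul_smul, show Complex.I * (Complex.I / 2) = -(1 / 2 : ℂ) by
      rw [← mul_div_assoc, Complex.I_mul_I]; norm_num, smul_add, smul_sub, neg_smul, neg_smul]
    module
  rw [e, mul_add, add_mul, h1, mul_smul_comm Complex.I, smul_mul_assoc Complex.I, h2]

/-- weakly null bounded families are null against square integrable elements -/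
lemma tendsto_inner_zero {ι : Type*} (U : Filter ι) (Z : ι → H →L[ℂ] H) {B : ℝ}
    (hZ : ∀ j, C.Fin2 (Z j)) (hB : ∀ j, C.n2 (Z j) ≤ B)
    (hw : ∀ i v, Tendsto (fun j => ⟪v, Z j (C.η i)⟫_ℂ) U (𝓝 0))
    (y : lp (fun _ : C.I => H) 2) :
    Tendsto (fun j => ⟪y, C.l2 (Z j)⟫_ℂ) U (𝓝 0) := by
  classical
  rw [Metric.tendsto_nhds]
  intro θ hθ
  have hsum := lp.hasSum_single (by norm_num : (2 : ENNReal) ≠ ⊤) y
  obtain ⟨s, hs⟩ := (Metric.tendsto_nhds.1 hsum (θ / (2 * (|B| + 1))) (by positivity)).exists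
  set y' := ∑ i ∈ s, lp.single 2 i (y i) with hy'
  rw [dist_eq_norm] at hs
  have hfin : Tendsto (fun j => ⟪y', C.l2 (Z j)⟫_ℂ) U (𝓝 0) := by
    simp only [hy', sum_inner, lp.inner_single_left, l2_apply (hZ _)]
    simpa using tendsto_finsetSum s fun i _ => hw i (y i)
  filter_upwards [Metric.tendsto_nhds.1 hfin (θ / 2) (half_pos hθ)] with j hj
  rw [dist_zero_right] at hj ⊢
  have h1 : ‖⟪y - y', C.l2 (Z j)⟫_ℂ‖ ≤ θ / (2 * (|B| + 1)) * (|B| + 1) := by
    refine (norm_inner_le_norm _ _).trans (mul_le_mul (by rw [norm_sub_rev]; exact hs.le)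
      ((hB j).trans (by linarith [le_abs_self B])) (norm_nonneg _) (by positivity))
  rw [inner_sub_left] at h1
  have h2 : θ / (2 * (|B| + 1)) * (|B| + 1) = θ / 2 := by field_simp
  have := norm_add_le (⟪y, C.l2 (Z j)⟫_ℂ - ⟪y', C.l2 (Z j)⟫_ℂ) ⟪y', C.l2 (Z j)⟫_ℂ
  rw [sub_add_cancel] at this
  linarith

/-- pinchings of finite projections are small when no finite projection of `A` is below `w` -/
lemma pinch_small (hA : IsMASA C.M A) (hwA : w ∈ A) (hw : IsStarProjection w)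
    [Nonempty (WPart A w)] (hnf : ∀ e ∈ A, IsStarProjection e → C.Fin2 e → w * e = 0)
    {q : H →L[ℂ] H} (hq : q ∈ C.M) (hqs : IsSelfAdjoint q) (hqf : C.Fin2 q) {θ : ℝ} (hθ : 0 < θ) :
    ∀ᶠ Q in (ultra (w := w) hA.2.1 : Filter (WPart A w)), C.n2 (Q.pinch q) ≤ θ := by
  obtain ⟨L, hLA, hLs, -, hwL, -, hlim⟩ := exists_pinch_wlim hA hwA hw hqs hq
  have hLf : C.Fin2 L := by
    refine summable_of_sum_le (c := C.n2 q ^ 2) (fun i => sq_nonneg _) fun s => ?_
    set X := ∑ i ∈ s, ‖L (C.η i)‖ ^ 2 with hX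
    have hlim' : Tendsto (fun Q : WPart A w => ∑ i ∈ s, (⟪Q.pinch q (C.η i), L (C.η i)⟫_ℂ).re)
        (ultra (w := w) hA.2.1 : Filter (WPart A w)) (𝓝 X) := by
      refine tendsto_finsetSum s fun i _ => ?_
      have h := (Complex.continuous_re.tendsto _).comp (hlim (C.η i) (L (C.η i)))
      rwa [show (⟪L (C.η i), L (C.η i)⟫_ℂ).re = ‖L (C.η i)‖ ^ 2 by
        rw [inner_self_eq_norm_sq_to_K]; norm_cast] at h
    have hle : X ≤ (C.n2 q ^ 2 + X) / 2 := by
      refine le_of_tendsto hlim' (Eventually.of_forall fun Q => ?_)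
      have hp := pinch_fin2 hA Q hqf hq
      have h1 : ∑ i ∈ s, ‖Q.pinch q (C.η i)‖ ^ 2 ≤ C.n2 q ^ 2 :=
        ((Summable.sum_le_tsum s (fun i _ => sq_nonneg _) hp).trans (n2_sq hp).ge).trans
          (pow_le_pow_left₀ (C.n2_nonneg _) (n2_pinch_le hA Q hqf hq) 2)
      have h2 : ∑ i ∈ s, (⟪Q.pinch q (C.η i), L (C.η i)⟫_ℂ).re ≤
          ∑ i ∈ s, (‖Q.pinch q (C.η i)‖ ^ 2 + ‖L (C.η i)‖ ^ 2) / 2 := by
        refine Finset.sum_le_sum fun i _ => (Complex.re_le_norm _).trans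
          ((norm_inner_le_norm _ _).trans ?_)
        nlinarith [sq_nonneg (‖Q.pinch q (C.η i)‖ - ‖L (C.η i)‖)]
      rw [← Finset.sum_div, Finset.sum_add_distrib] at h2
      linarith
    linarith
  have hL0 : L = 0 := by
    refine norm_le_zero_iff.1 (le_of_forall_pos_le_add fun c hc => ?_)
    rw [zero_add]
    obtain ⟨R, hRM, hRp, hLR, hRv, hwR, hRA⟩ := cut C.M hLs (hA.1 hLA) hc
    have hR0 : R = 0 := by
      rw [← hwR w hwL]
      exact hnf R (hRA A hA hLA) hRp (hLf.of_le _ fun i => hRv _)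
    simpa [hR0] using hLR
  obtain ⟨Q0, hQ0⟩ : ∃ Q0 : WPart A w, C.n2 (Q0.pinch q) ≤ θ := by
    have ht : Tendsto (fun Q : WPart A w => ⟪C.l2 q, C.l2 (Q.pinch q)⟫_ℂ)
        (ultra (w := w) hA.2.1 : Filter (WPart A w)) (𝓝 0) := by
      refine tendsto_inner_zero _ _ (fun Q => pinch_fin2 hA Q hqf hq)
        (fun Q => n2_pinch_le hA Q hqf hq) (fun i v => ?_) _
      have h := (Complex.continuous_conj.tendsto _).comp (hlim (C.η i) v)
      simpa [hL0, Function.comp_def] using h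
    obtain ⟨Q0, hQ0⟩ := (Metric.tendsto_nhds.1 ht (θ ^ 2) (pow_pos hθ 2)).exists
    refine ⟨Q0, (pow_le_pow_iff_left₀ (C.n2_nonneg _) hθ.le two_ne_zero).1 ?_⟩
    have hp := pinch_fin2 hA Q0 hqf hq
    rw [dist_zero_right, ← pinch_pinch hA.2.1 (le_refl Q0) q,
      ← inner_pinch hA Q0 hqf hq hp (pinch_mem hA Q0 hq), inner_self_eq_norm_sq_to_K, norm_pow,
      RCLike.norm_ofReal, abs_norm] at hQ0
    exact hQ0.le
  filter_upwards [eventually_ge hA.2.1 Q0] with Q hQ
  rw [← pinch_pinch hA.2.1 hQ q]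
  exact (n2_pinch_le hA Q (pinch_fin2 hA Q0 hqf hq) (pinch_mem hA Q0 hq)).trans hQ0

/-- nested partitions with almost orthogonal errors -/
lemma exists_nested (hA : IsMASA C.M A) (hwA : w ∈ A) (hw : IsStarProjection w)
    [Nonempty (WPart A w)] (hnf : ∀ e ∈ A, IsStarProjection e → C.Fin2 e → w * e = 0)
    {q : H →L[ℂ] H} (hq : q ∈ C.M) (hqp : IsStarProjection q) (hqf : C.Fin2 q)
    {x : H →L[ℂ] H} (hx : IsSelfAdjoint x) (hxM : x ∈ C.M) :
    ∃ a ∈ A, IsSelfAdjoint a ∧ ‖a‖ ≤ ‖x‖ ∧ w * a = a ∧ a * w = a ∧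
      ∀ (m : ℕ) {θ : ℝ}, 0 < θ → ∃ Q : ℕ → WPart A w, (∀ t, Q t ≤ Q (t + 1)) ∧
        (∀ t, C.n2 ((Q t).pinch q) ≤ θ) ∧
        ‖∑ t ∈ Finset.range m, C.l2 (q * ((Q t).pinch x - a) * q)‖ ^ 2 ≤
          m * ((2 * ‖x‖ * C.n2 q) ^ 2 + 2) := by
  classical
  obtain ⟨a, haA, has, han, hwa, haw, hlim⟩ := exists_pinch_wlim hA hwA hw hx hxM
  refine ⟨a, haA, has, han, hwa, haw, fun m θ hθ => ?_⟩
  set Z : WPart A w → H →L[ℂ] H := fun Q => q * (Q.pinch x - a) * q with hZ
  have hZf : ∀ Q, C.Fin2 (Z Q) := fun Q => hqf.mul_left _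
  have hZb : ∀ Q, C.n2 (Z Q) ≤ 2 * ‖x‖ * C.n2 q := by
    intro Q
    refine (n2_mul_left_le hqf _).trans (mul_le_mul_of_nonneg_right ?_ (C.n2_nonneg _))
    refine (norm_mul_le _ _).trans ((mul_le_of_le_one_left (norm_nonneg _) hqp.norm_le).trans
      ((norm_sub_le _ _).trans ?_))
    linarith [pinch_norm_le Q hw x]
  have hnull : ∀ y : lp (fun _ : C.I => H) 2, Tendsto (fun Q => ⟪y, C.l2 (Z Q)⟫_ℂ)
      (ultra (w := w) hA.2.1 : Filter (WPart A w)) (𝓝 0) := by
    refine tendsto_inner_zero _ Z hZf hZb fun i v => ?_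
    have h := ((Complex.continuous_conj.tendsto _).comp (hlim (q (C.η i)) (q v))).sub
      (tendsto_const_nhds (x := ⟪q v, a (q (C.η i))⟫_ℂ))
    simp only [Function.comp_def, inner_conj_symm, sub_self] at h
    refine h.congr fun Q => ?_
    have e : Z Q (C.η i) = q (Q.pinch x (q (C.η i)) - a (q (C.η i))) := by simp [hZ]
    conv_rhs => rw [e, ← ContinuousLinearMap.adjoint_inner_left,
      ← ContinuousLinearMap.star_eq_adjoint, hqp.isSelfAdjoint.star_eq, inner_sub_right]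
  induction m with
  | zero =>
    obtain ⟨Q0, hQ0⟩ := (pinch_small hA hwA hw hnf hq hqp.isSelfAdjoint hqf hθ).exists
    exact ⟨fun _ => Q0, fun _ => le_rfl, fun _ => hQ0, by simp⟩
  | succ m ih =>
    obtain ⟨Q, hmono, hD, hsum⟩ := ih
    set S := ∑ t ∈ Finset.range m, C.l2 (Z (Q t)) with hS
    obtain ⟨Q', ⟨h1, h2⟩, h3⟩ := (((Metric.tendsto_nhds.1 (hnull S) 1 one_pos).and
      (pinch_small hA hwA hw hnf hq hqp.isSelfAdjoint hqf hθ)).and
        (eventually_ge hA.2.1 (Q (m - 1)))).exists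
    refine ⟨fun t => if t < m then Q t else Q', fun t => ?_, fun t => ?_, ?_⟩
    · show (if t < m then Q t else Q') ≤ (if t + 1 < m then Q (t + 1) else Q')
      by_cases ht : t + 1 < m
      · rw [if_pos ht, if_pos (by omega)]; exact hmono t
      · rw [if_neg ht]
        by_cases ht' : t < m
        · rw [if_pos ht', show t = m - 1 by omega]; exact h3
        · rw [if_neg ht']
    · show C.n2 ((if t < m then Q t else Q').pinch q) ≤ θ
      split_ifs
      · exact hD t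
      · exact h2
    · rw [Finset.sum_range_succ]
      beta_reduce
      rw [if_neg (lt_irrefl m)]
      rw [Finset.sum_congr rfl fun t ht => by rw [if_pos (Finset.mem_range.1 ht)]]
      rw [dist_zero_right] at h1
      change ‖S + C.l2 (Z Q')‖ ^ 2 ≤ _
      rw [norm_add_sq (𝕜 := ℂ)]
      have h4 : RCLike.re ⟪S, C.l2 (Z Q')⟫_ℂ ≤ 1 := (RCLike.re_le_norm _).trans h1.le
      have h5 : ‖C.l2 (Z Q')‖ ^ 2 ≤ (2 * ‖x‖ * C.n2 q) ^ 2 :=
        pow_le_pow_left₀ (norm_nonneg _) (hZb Q') 2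
      push_cast
      nlinarith

end Ctx

end Vale.Agent.P078.Semi
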