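import Mathlib
import Vale.Agent.P078.SemiPart

/-! One relabelling step. -/

noncomputable section

open scoped InnerProductSpace ComplexOrder
open Filter Topology

namespace Vale.Agent.P078.Semi

universe u

/-- expectation for independent labels -/
def Ex {n r : ℕ} (μ : Fin n → Fin r → ℝ) (G : (Fin n → Fin r) → ℝ) : ℝ :=
  ∑ L, (∏ k, μ k (L k)) * G L

section Finite

variable {n r : ℕ} {μ : Fin n → Fin r → ℝ}

lemma Ex_sum {ι : Type*} (s : Finset ι) (G : ι → (Fin n → Fin r) → ℝ) :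
    Ex μ (fun L => ∑ a ∈ s, G a L) = ∑ a ∈ s, Ex μ (G a) := by
  simp only [Ex, Finset.mul_sum]
  exact Finset.sum_comm

lemma Ex_smul (c : ℝ) (G : (Fin n → Fin r) → ℝ) : Ex μ (fun L => c * G L) = c * Ex μ G := by
  simp only [Ex, Finset.mul_sum]
  exact Finset.sum_congr rfl fun L _ => by ring

lemma Ex_const (h1 : ∀ k, ∑ i, μ k i = 1) (c : ℝ) : Ex μ (fun _ => c) = c := by
  simp only [Ex, ← Finset.sum_mul]
  rw [← Fintype.prod_sum]
  simp [h1]

lemma Ex_mono (h0 : ∀ k i, 0 ≤ μ k i) {G G' : (Fin n → Fin r) → ℝ} (h : ∀ L, G L ≤ G' L) :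
    Ex μ G ≤ Ex μ G' :=
  Finset.sum_le_sum fun L _ =>
    mul_le_mul_of_nonneg_left (h L) (Finset.prod_nonneg fun k _ => h0 k _)

lemma Ex_add (G G' : (Fin n → Fin r) → ℝ) :
    Ex μ (fun L => G L + G' L) = Ex μ G + Ex μ G' := by
  simp only [Ex, mul_add, Finset.sum_add_distrib]

lemma exists_le_Ex (h0 : ∀ k i, 0 ≤ μ k i) (h1 : ∀ k, ∑ i, μ k i = 1) (G : (Fin n → Fin r) → ℝ) :
    ∃ L, G L ≤ Ex μ G := by
  by_contra h
  push Not at h
  have hw : ∑ L : Fin n → Fin r, ∏ k, μ k (L k) = 1 := by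
    rw [← Fintype.prod_sum]; simp [h1]
  obtain ⟨L0, -, hL0⟩ := Finset.exists_ne_zero_of_sum_ne_zero
    (f := fun L : Fin n → Fin r => ∏ k, μ k (L k)) (s := Finset.univ)
    (by rw [hw]; exact one_ne_zero)
  have : ∑ L : Fin n → Fin r, (∏ k, μ k (L k)) * Ex μ G <
      ∑ L : Fin n → Fin r, (∏ k, μ k (L k)) * G L :=
    Finset.sum_lt_sum (fun L _ => mul_le_mul_of_nonneg_left (h L).le
        (Finset.prod_nonneg fun k _ => h0 k _))
      ⟨L0, Finset.mem_univ _, mul_lt_mul_of_pos_left (h L0)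
        (lt_of_le_of_ne (Finset.prod_nonneg fun k _ => h0 k _) hL0.symm)⟩
  rw [← Finset.sum_mul, hw, one_mul] at this
  exact lt_irrefl _ this

lemma Ex_zero (k : Fin n) (φ : Fin r → ℝ) (hφ : ∑ i, μ k i * φ i = 0)
    (R : (Fin n → Fin r) → ℝ) (hR : ∀ L i, R (Function.update L k i) = R L) :
    Ex μ (fun L => φ (L k) * R L) = 0 := by
  classical
  rw [Ex, ← (Equiv.funSplitAt k (Fin r)).symm.sum_comp, Fintype.sum_prod_type, Finset.sum_comm]
  refine Finset.sum_eq_zero fun g _ => ?_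
  rcases isEmpty_or_nonempty (Fin r) with hr0 | ⟨⟨i0⟩⟩
  · simp
  have key : ∀ i, (∏ j, μ j ((Equiv.funSplitAt k (Fin r)).symm (i, g) j)) *
      (φ ((Equiv.funSplitAt k (Fin r)).symm (i, g) k) *
        R ((Equiv.funSplitAt k (Fin r)).symm (i, g))) =
      (μ k i * φ i) * ((∏ j ∈ Finset.univ.erase k,
        μ j ((Equiv.funSplitAt k (Fin r)).symm (i0, g) j)) *
        R ((Equiv.funSplitAt k (Fin r)).symm (i0, g))) := by
    intro i
    have hk : ∀ i, (Equiv.funSplitAt k (Fin r)).symm (i, g) k = i := fun i => by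
      simp [Equiv.funSplitAt, Equiv.piSplitAt]
    have hne : ∀ j, j ≠ k → (Equiv.funSplitAt k (Fin r)).symm (i, g) j =
        (Equiv.funSplitAt k (Fin r)).symm (i0, g) j := fun j hj => by
      simp [Equiv.funSplitAt, Equiv.piSplitAt, hj]
    have he : (Equiv.funSplitAt k (Fin r)).symm (i, g) =
        Function.update ((Equiv.funSplitAt k (Fin r)).symm (i0, g)) k i := by
      funext j
      rcases eq_or_ne j k with rfl | hj
      · rw [Function.update_self, hk]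
      · rw [Function.update_of_ne hj, hne j hj]
    rw [← Finset.mul_prod_erase _ _ (Finset.mem_univ k), hk,
      Finset.prod_congr rfl (fun j hj => by rw [hne j (Finset.ne_of_mem_erase hj)]), he, hR]
    ring
  rw [Finset.sum_congr rfl fun i _ => key i, ← Finset.sum_mul, hφ, zero_mul]

variable {E : Type*} [NormedAddCommGroup E] [InnerProductSpace ℂ E]

/-- orthogonality in expectation -/
lemma Ex_norm_sum_sq {ι : Type*} [DecidableEq ι] (h0 : ∀ k i, 0 ≤ μ k i)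
    (h1 : ∀ k, ∑ i, μ k i = 1) (s : Finset ι) (v : ι → (Fin n → Fin r) → E) (b : ι → ℝ)
    (horth : ∀ a ∈ s, ∀ a' ∈ s, a ≠ a' → Ex μ (fun L => RCLike.re ⟪v a L, v a' L⟫_ℂ) = 0)
    (hb : ∀ a ∈ s, ∀ L, ‖v a L‖ ^ 2 ≤ b a) :
    Ex μ (fun L => ‖∑ a ∈ s, v a L‖ ^ 2) ≤ ∑ a ∈ s, b a := by
  have e : (fun L => ‖∑ a ∈ s, v a L‖ ^ 2) =
      fun L => ∑ a ∈ s, ∑ a' ∈ s, RCLike.re ⟪v a L, v a' L⟫_ℂ := by
    funext L
    rw [← inner_self_eq_norm_sq (𝕜 := ℂ), sum_inner, map_sum]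
    exact Finset.sum_congr rfl fun a _ => by rw [inner_sum, map_sum]
  rw [e, Ex_sum]
  refine Finset.sum_le_sum fun a ha => ?_
  rw [Ex_sum, Finset.sum_eq_single a (fun a' ha' hne => horth a ha a' ha' (Ne.symm hne))
    (fun h => absurd ha h)]
  refine (Ex_mono h0 fun L => ?_).trans_eq (Ex_const h1 (b a))
  rw [inner_self_eq_norm_sq (𝕜 := ℂ)]
  exact hb a ha L

/-- centred indicator -/
def dev (μ : Fin n → Fin r → ℝ) (k : Fin n) (i : Fin r) (j : Fin r) : ℝ :=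
  (if j = i then 1 else 0) - μ k i

lemma sum_dev (h1 : ∀ k, ∑ i, μ k i = 1) (k : Fin n) (i : Fin r) :
    ∑ j, μ k j * dev μ k i j = 0 := by
  simp [dev, mul_sub, Finset.sum_sub_distrib, ← Finset.sum_mul, h1]

lemma abs_dev_le (h0 : ∀ k i, 0 ≤ μ k i) (h1 : ∀ k, ∑ i, μ k i = 1) (k : Fin n) (i j : Fin r) :
    |dev μ k i j| ≤ 1 := by
  have hle : μ k i ≤ 1 := h1 k ▸ Finset.single_le_sum (fun i _ => h0 k i) (Finset.mem_univ i)
  rw [dev, abs_le]
  split_ifs <;> constructor <;> linarith [h0 k i]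

lemma sum_abs_dev_le (h0 : ∀ k i, 0 ≤ μ k i) (h1 : ∀ k, ∑ i, μ k i = 1) (k : Fin n) (j : Fin r) :
    ∑ i, |dev μ k i j| ≤ 2 := by
  calc ∑ i, |dev μ k i j| ≤ ∑ i, ((if j = i then (1 : ℝ) else 0) + μ k i) := by
        refine Finset.sum_le_sum fun i _ => ?_
        rw [dev, abs_le]
        split_ifs <;> constructor <;> linarith [h0 k i]
    _ = 2 := by rw [Finset.sum_add_distrib, h1, Finset.sum_ite_eq, if_pos (Finset.mem_univ _)]; norm_num

/-- a sum of independent centred linear terms -/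
lemma Ex_linear_le (h0 : ∀ k i, 0 ≤ μ k i) (h1 : ∀ k, ∑ i, μ k i = 1)
    (V : Fin n → Fin r → E) :
    Ex μ (fun L => ‖∑ k, ∑ i, (dev μ k i (L k) : ℂ) • V k i‖ ^ 2) ≤
      (r : ℝ) * ∑ k, ∑ i, ‖V k i‖ ^ 2 := by
  rw [Finset.mul_sum]
  refine Ex_norm_sum_sq h0 h1 Finset.univ
    (fun k L => ∑ i, (dev μ k i (L k) : ℂ) • V k i) _ (fun k _ k' _ hne => ?_) (fun k _ L => ?_)
  · simp only [sum_inner, inner_smul_left, map_sum, Complex.conj_ofReal, RCLike.re_to_complex,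
      Complex.re_ofReal_mul]
    rw [Ex_sum]
    refine Finset.sum_eq_zero fun i _ => ?_
    exact Ex_zero k (fun j => dev μ k i j) (sum_dev h1 k i) _ fun L i' => by
      simp [Function.update_of_ne (Ne.symm hne)]
  · calc ‖∑ i, (dev μ k i (L k) : ℂ) • V k i‖ ^ 2 ≤ (∑ i, ‖V k i‖) ^ 2 := by
          refine pow_le_pow_left₀ (norm_nonneg _) ((norm_sum_le _ _).trans
            (Finset.sum_le_sum fun i _ => ?_)) 2
          rw [norm_smul, Complex.norm_real, Real.norm_eq_abs]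
          exact mul_le_of_le_one_left (norm_nonneg _) (abs_dev_le h0 h1 k i _)
      _ ≤ _ := by
          have := sq_sum_le_card_mul_sum_sq (s := (Finset.univ : Finset (Fin r)))
            (f := fun i => ‖V k i‖)
          simpa using this

/-- a sum of centred pair terms -/
lemma Ex_pairs_le (h0 : ∀ k i, 0 ≤ μ k i) (h1 : ∀ k, ∑ i, μ k i = 1)
    (s : Finset (Fin n × Fin n)) (hs : ∀ a ∈ s, a.1 ≠ a.2)
    (hs' : ∀ a ∈ s, (a.2, a.1) ∉ s) (Y : Fin n → Fin n → E) :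
    Ex μ (fun L => ‖∑ a ∈ s,
        ((∑ i, dev μ a.1 i (L a.1) * dev μ a.2 i (L a.2) : ℝ) : ℂ) • Y a.1 a.2‖ ^ 2) ≤
      4 * ∑ k, ∑ l, ‖Y k l‖ ^ 2 := by
  refine (Ex_norm_sum_sq h0 h1 s (fun a L =>
    ((∑ i, dev μ a.1 i (L a.1) * dev μ a.2 i (L a.2) : ℝ) : ℂ) • Y a.1 a.2)
    (fun a => 4 * ‖Y a.1 a.2‖ ^ 2) (fun a ha a' ha' hne => ?_) (fun a ha L => ?_)).trans ?_
  · simp only [inner_smul_left, inner_smul_right, Complex.conj_ofReal, RCLike.re_to_complex,
      Complex.re_ofReal_mul]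
    obtain ⟨k, hk, hk'⟩ : ∃ k, (k = a.1 ∨ k = a.2) ∧ k ≠ a'.1 ∧ k ≠ a'.2 := by
      by_contra hcon
      push Not at hcon
      have h1' := hcon a.1 (Or.inl rfl)
      have h2' := hcon a.2 (Or.inr rfl)
      by_cases h : a.1 = a'.1
      · refine hne (Prod.ext h (h2' fun e => hs a ha (h.trans e.symm)))
      · have e1 := h1' h
        have e2 : a.2 = a'.1 := by
          by_contra h'
          exact hs a ha (e1.trans (h2' h').symm)
        exact hs' a' ha' (by rwa [← e1, ← e2])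
    obtain ⟨hk1, hk2⟩ := hk'
    set c := (⟪Y a.1 a.2, Y a'.1 a'.2⟫_ℂ).re
    set R' : (Fin n → Fin r) → ℝ := fun L =>
      (∑ j, dev μ a'.1 j (L a'.1) * dev μ a'.2 j (L a'.2)) * c with hR'
    refine Eq.trans (congrArg (Ex μ) (funext fun L => ?_)) ((Ex_sum Finset.univ fun i L =>
      dev μ a.1 i (L a.1) * (dev μ a.2 i (L a.2) * R' L)).trans
        (Finset.sum_eq_zero fun i _ => ?_))
    · simp only [hR', ← mul_assoc (dev μ a.1 _ _), ← Finset.sum_mul]
      ring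
    rcases hk with rfl | rfl
    · exact Ex_zero a.1 (fun j => dev μ a.1 i j) (sum_dev h1 _ i)
        (fun L => dev μ a.2 i (L a.2) * R' L) fun L j => by
          simp [hR', Function.update_of_ne (Ne.symm hk1), Function.update_of_ne (Ne.symm hk2),
            Function.update_of_ne (Ne.symm (hs a ha))]
    · rw [show (fun L => dev μ a.1 i (L a.1) * (dev μ a.2 i (L a.2) * R' L)) =
        fun L => dev μ a.2 i (L a.2) * (dev μ a.1 i (L a.1) * R' L) from funext fun L => by ring]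
      exact Ex_zero a.2 (fun j => dev μ a.2 i j) (sum_dev h1 _ i)
        (fun L => dev μ a.1 i (L a.1) * R' L) fun L j => by
          simp [hR', Function.update_of_ne (Ne.symm hk1), Function.update_of_ne (Ne.symm hk2),
            Function.update_of_ne (hs a ha)]
  · show ‖((∑ i, dev μ a.1 i (L a.1) * dev μ a.2 i (L a.2) : ℝ) : ℂ) • Y a.1 a.2‖ ^ 2 ≤ _
    rw [norm_smul, Complex.norm_real, Real.norm_eq_abs, mul_pow, sq_abs]
    refine mul_le_mul_of_nonneg_right ?_ (sq_nonneg _)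
    have h : |∑ i, dev μ a.1 i (L a.1) * dev μ a.2 i (L a.2)| ≤ 2 := by
      refine (Finset.abs_sum_le_sum_abs _ _).trans (le_trans (Finset.sum_le_sum fun i _ => ?_)
        (sum_abs_dev_le h0 h1 a.1 (L a.1)))
      rw [abs_mul]
      exact mul_le_of_le_one_right (abs_nonneg _) (abs_dev_le h0 h1 _ _ _)
    rw [abs_le] at h
    nlinarith [h.1, h.2]
  · rw [← Finset.mul_sum]
    refine mul_le_mul_of_nonneg_left ?_ (by norm_num)
    rw [← Fintype.sum_prod_type']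
    exact Finset.sum_le_univ_sum_of_nonneg fun a => sq_nonneg _

/-- the linear fluctuation vector -/
def linV (μ : Fin n → Fin r → ℝ) (Y : Fin n → Fin n → E) (k : Fin n) (i : Fin r) : E :=
  ∑ l, ((if l = k then 0 else μ l i : ℝ) : ℂ) • (Y k l + Y l k)

/-- pairs `k < l` -/
def ltSet (n : ℕ) : Finset (Fin n × Fin n) := Finset.univ.filter fun a => a.1 < a.2

/-- pairs `l < k` -/
def gtSet (n : ℕ) : Finset (Fin n × Fin n) := Finset.univ.filter fun a => a.2 < a.1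

/-- the pair coefficient -/
def pr (μ : Fin n → Fin r → ℝ) (L : Fin n → Fin r) (k l : Fin n) : ℝ :=
  ∑ i, dev μ k i (L k) * dev μ l i (L l)

lemma decomp (Y : Fin n → Fin n → E) (L : Fin n → Fin r) :
    (∑ k, ∑ l, ((if L l = L k then (1 : ℝ) else 0 : ℝ) : ℂ) • Y k l) -
      (∑ k, ∑ l, ((if k = l then 1 else ∑ i, μ k i * μ l i : ℝ) : ℂ) • Y k l) =
    (∑ k, ∑ i, (dev μ k i (L k) : ℂ) • linV μ Y k i) +
      ((∑ a ∈ ltSet n, (pr μ L a.1 a.2 : ℂ) • Y a.1 a.2) +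
        ∑ a ∈ gtSet n, (pr μ L a.1 a.2 : ℂ) • Y a.1 a.2) := by
  have e4 : (∑ k, ∑ i, (dev μ k i (L k) : ℂ) • linV μ Y k i) = ∑ k, ∑ l,
      (((∑ i, dev μ k i (L k) * (if l = k then 0 else μ l i)) +
        ∑ i, dev μ l i (L l) * (if k = l then 0 else μ k i) : ℝ) : ℂ) • Y k l := by
    have a1 : ∀ k, ∑ i, (dev μ k i (L k) : ℂ) • linV μ Y k i = ∑ l,
        ((∑ i, dev μ k i (L k) * (if l = k then 0 else μ l i) : ℝ) : ℂ) • (Y k l + Y l k) := by
      intro k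
      simp only [linV, Finset.smul_sum, smul_smul]
      rw [Finset.sum_comm]
      refine Finset.sum_congr rfl fun l _ => ?_
      rw [← Finset.sum_smul, Complex.ofReal_sum]
      simp only [Complex.ofReal_mul]
    rw [Finset.sum_congr rfl fun k _ => a1 k]
    simp only [smul_add, Complex.ofReal_add, add_smul, Finset.sum_add_distrib]
    congr 1
    exact Finset.sum_comm
  have e5 : ((∑ a ∈ ltSet n, (pr μ L a.1 a.2 : ℂ) • Y a.1 a.2) +
      ∑ a ∈ gtSet n, (pr μ L a.1 a.2 : ℂ) • Y a.1 a.2) =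
      ∑ k, ∑ l, ((if k = l then 0 else pr μ L k l : ℝ) : ℂ) • Y k l := by
    simp only [ltSet, gtSet]
    rw [← Finset.sum_union (Finset.disjoint_filter.2 fun a _ h h' => lt_asymm h h'),
      ← Fintype.sum_prod_type']
    refine Finset.sum_subset_zero_on_sdiff (Finset.subset_univ _) (fun a ha => ?_) fun a ha => ?_
    · have : a.1 = a.2 := by
        simp only [Finset.mem_sdiff, Finset.mem_univ, true_and, Finset.mem_union,
          Finset.mem_filter, not_or, not_lt] at ha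
        exact le_antisymm ha.2 ha.1
      simp [this]
    · have : a.1 ≠ a.2 := by
        simp only [Finset.mem_union, Finset.mem_filter, Finset.mem_univ, true_and] at ha
        rcases ha with h | h
        · exact h.ne
        · exact h.ne'
      rw [if_neg this]
  rw [e4, e5]
  simp only [← Finset.sum_add_distrib, ← Finset.sum_sub_distrib, ← add_smul, ← sub_smul,
    ← Complex.ofReal_add, ← Complex.ofReal_sub]
  refine Finset.sum_congr rfl fun k _ => Finset.sum_congr rfl fun l _ => ?_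
  congr 2
  rcases eq_or_ne k l with rfl | hkl
  · simp
  · have hsum : (if L l = L k then (1 : ℝ) else 0) = ∑ i,
        (dev μ k i (L k) + μ k i) * (dev μ l i (L l) + μ l i) := by
      simp [dev, eq_comm]
    simp only [if_neg hkl, if_neg (Ne.symm hkl), hsum, pr, add_mul, mul_add,
      Finset.sum_add_distrib]
    simp only [mul_comm (μ k _) (dev μ l _ _)]
    ring

lemma sq_norm_add3_le (P P1 P2 : E) :
    ‖P + (P1 + P2)‖ ^ 2 ≤ 2 * ‖P‖ ^ 2 + (4 * ‖P1‖ ^ 2 + 4 * ‖P2‖ ^ 2) := by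
  have : ‖P + (P1 + P2)‖ ^ 2 ≤ (‖P‖ + (‖P1‖ + ‖P2‖)) ^ 2 :=
    pow_le_pow_left₀ (norm_nonneg _)
      ((norm_add_le _ _).trans (add_le_add le_rfl (norm_add_le _ _))) 2
  nlinarith [sq_nonneg (‖P‖ - (‖P1‖ + ‖P2‖)), sq_nonneg (‖P1‖ - ‖P2‖)]

end Finite

variable {H : Type u} [NormedAddCommGroup H] [InnerProductSpace ℂ H] [CompleteSpace H]

namespace WPart

variable {A : StarSubalgebra ℂ (H →L[ℂ] H)} {w : H →L[ℂ] H} (Q : WPart A w) {r : ℕ}

/-- the `i`-th piece of a labelled partition -/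
def piece (L : Fin Q.n → Fin r) (i : Fin r) : H →L[ℂ] H :=
  ∑ l, (if L l = i then (1 : ℂ) else 0) • Q.f l

lemma piece_mem (L : Fin Q.n → Fin r) (i : Fin r) : Q.piece L i ∈ A :=
  sum_mem fun l _ => SMulMemClass.smul_mem _ (Q.mem l)

lemma piece_mul_f (L : Fin Q.n → Fin r) (i : Fin r) (l : Fin Q.n) :
    Q.piece L i * Q.f l = (if L l = i then (1 : ℂ) else 0) • Q.f l := by
  rw [piece, Finset.sum_mul, Finset.sum_eq_single l (fun k _ hk => by
    rw [smul_mul_assoc, Q.orth k l hk, smul_zero]) (by simp), smul_mul_assoc, Q.idem]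

lemma piece_mul_piece (L : Fin Q.n → Fin r) (i j : Fin r) :
    Q.piece L i * Q.piece L j = if i = j then Q.piece L i else 0 := by
  conv_lhs => rw [piece.eq_def Q L j]
  rw [Finset.mul_sum]
  simp only [mul_smul_comm, piece_mul_f, smul_smul]
  split_ifs with h
  · subst h
    refine Finset.sum_congr rfl fun l _ => ?_
    split_ifs <;> simp
  · refine Finset.sum_eq_zero fun l _ => ?_
    split_ifs with a b <;> simp_all

lemma piece_star (L : Fin Q.n → Fin r) (i : Fin r) : star (Q.piece L i) = Q.piece L i := by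
  rw [piece, star_sum]
  refine Finset.sum_congr rfl fun l _ => ?_
  rw [star_smul, Q.star_f]
  split_ifs <;> simp

lemma piece_proj (L : Fin Q.n → Fin r) (i : Fin r) : IsStarProjection (Q.piece L i) :=
  ⟨by show _ * _ = _; rw [piece_mul_piece, if_pos rfl], piece_star Q L i⟩

lemma sum_piece (L : Fin Q.n → Fin r) : ∑ i, Q.piece L i = w := by
  simp only [piece]
  rw [Finset.sum_comm]
  simp only [← Finset.sum_smul, Finset.sum_ite_eq, Finset.mem_univ, if_true, one_smul]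
  exact Q.sum

lemma w_mul_piece (L : Fin Q.n → Fin r) (i : Fin r) : w * Q.piece L i = Q.piece L i := by
  simp [piece, Finset.mul_sum, Q.w_mul]

lemma piece_parent {Q' : WPart A w} (h : Q ≤ Q') (L : Fin Q.n → Fin r) (i : Fin r) :
    Q'.piece (fun l => L (parent h l)) i = Q.piece L i := by
  have e : ∀ j, Q.f j = ∑ l, (if parent h l = j then (1 : ℂ) else 0) • Q'.f l := by
    intro j
    calc Q.f j = Q.f j * ∑ l, Q'.f l := by rw [Q'.sum, Q.mul_w]
      _ = _ := by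
        rw [Finset.mul_sum]
        refine Finset.sum_congr rfl fun l _ => ?_
        rw [mul_of_le h]
        split_ifs <;> simp
  calc Q'.piece (fun l => L (parent h l)) i
      = ∑ l, ∑ j, ((if L j = i then (1 : ℂ) else 0) * if parent h l = j then 1 else 0) •
          Q'.f l := by
        refine Finset.sum_congr rfl fun l _ => ?_
        rw [← Finset.sum_smul, Finset.sum_eq_single (parent h l)
          (fun j _ hj => by rw [if_neg (Ne.symm hj), mul_zero]) (by simp)]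
        simp
    _ = Q.piece L i := by
        rw [Finset.sum_comm, piece]
        refine Finset.sum_congr rfl fun j _ => ?_
        rw [e j, Finset.smul_sum]
        simp only [smul_smul]

end WPart

namespace Ctx

variable {C : Ctx H} {A : StarSubalgebra ℂ (H →L[ℂ] H)} {w q x : H →L[ℂ] H}

/-- the matrix blocks -/
def blk (C : Ctx H) (Q : WPart A w) (q x : H →L[ℂ] H) (k l : Fin Q.n) :
    lp (fun _ : C.I => H) 2 :=
  C.l2 (q * Q.f k * x * Q.f l * q)

lemma norm_l2_eq (T : H →L[ℂ] H) : ‖C.l2 T‖ = C.n2 T := rfl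

lemma l2_pinched (hqf : C.Fin2 q) (Q : WPart A w) {r : ℕ} (L : Fin Q.n → Fin r) :
    C.l2 (q * (∑ i, Q.piece L i * x * Q.piece L i) * q) =
      ∑ k, ∑ l, ((if L l = L k then (1 : ℝ) else 0 : ℝ) : ℂ) • C.blk Q q x k l := by
  have e : ∀ i, q * (Q.piece L i * x * Q.piece L i) * q = ∑ k, ∑ l,
      ((if L k = i then (1 : ℂ) else 0) * if L l = i then 1 else 0) •
        (q * Q.f k * x * Q.f l * q) := by
    intro i
    simp only [WPart.piece, Finset.mul_sum, Finset.sum_mul, smul_mul_assoc, mul_smul_comm,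
      Finset.smul_sum, smul_smul, mul_assoc]
    rw [Finset.sum_comm]
    refine Finset.sum_congr rfl fun k _ => Finset.sum_congr rfl fun l _ => ?_
    congr 1
    ring
  have e' : q * (∑ i, Q.piece L i * x * Q.piece L i) * q = ∑ k, ∑ l,
      ((if L l = L k then (1 : ℝ) else 0 : ℝ) : ℂ) • (q * Q.f k * x * Q.f l * q) := by
    rw [Finset.mul_sum, Finset.sum_mul, Finset.sum_congr rfl fun i _ => e i, Finset.sum_comm]
    refine Finset.sum_congr rfl fun k _ => ?_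
    rw [Finset.sum_comm]
    refine Finset.sum_congr rfl fun l _ => ?_
    rw [← Finset.sum_smul]
    congr 1
    rw [Finset.sum_eq_single (L k) (fun i _ hi => by rw [if_neg (Ne.symm hi), zero_mul]) (by simp),
      if_pos rfl, one_mul]
    split_ifs <;> simp
  rw [e', l2_sum _ fun k => fin2_sum _ fun l _ => (hqf.mul_left _).smul _]
  refine Finset.sum_congr rfl fun k _ => ?_
  rw [l2_sum _ fun l => (hqf.mul_left _).smul _]
  exact Finset.sum_congr rfl fun l _ => l2_smul (hqf.mul_left _) _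

lemma l2_full (hqf : C.Fin2 q) (hwq : w * q = q) (hqw : q * w = q) (Q : WPart A w) :
    C.l2 (q * x * q) = ∑ k, ∑ l, C.blk Q q x k l := by
  have e : q * x * q = ∑ k, ∑ l, q * Q.f k * x * Q.f l * q := by
    calc q * x * q = q * (∑ k, Q.f k) * x * (∑ l, Q.f l) * q := by
          rw [Q.sum, hqw, mul_assoc (q * x) w q, hwq]
      _ = _ := by simp only [Finset.mul_sum, Finset.sum_mul]; rw [Finset.sum_comm]
  rw [e, l2_sum _ fun k => fin2_sum _ fun l _ => hqf.mul_left _]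
  exact Finset.sum_congr rfl fun k _ => l2_sum _ fun l => hqf.mul_left _

lemma l2_diag (hqf : C.Fin2 q) (Q : WPart A w) :
    C.l2 (q * Q.pinch x * q) = ∑ k, C.blk Q q x k k := by
  rw [WPart.pinch, Finset.mul_sum, Finset.sum_mul, l2_sum _ fun k => hqf.mul_left _]
  exact Finset.sum_congr rfl fun k _ => by simp only [blk, mul_assoc]

lemma sum_left_le (hqp : IsStarProjection q) (Q : WPart A w) {Z : H →L[ℂ] H} (hZ : C.Fin2 Z) :
    ∑ k, C.n2 (q * Q.f k * Z) ^ 2 ≤ C.n2 Z * C.n2 (Q.pinch q * Z) := by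
  have hqs : star q = q := hqp.isSelfAdjoint.star_eq
  have : ∑ k, C.n2 (q * Q.f k * Z) ^ 2 = (⟪C.l2 Z, C.l2 (Q.pinch q * Z)⟫_ℂ).re := by
    rw [WPart.pinch, Finset.sum_mul, l2_sum _ fun k => hZ.mul_left _, inner_sum, Complex.re_sum]
    refine Finset.sum_congr rfl fun k _ => ?_
    have e : ⟪C.l2 (q * Q.f k * Z), C.l2 (q * Q.f k * Z)⟫_ℂ =
        ⟪C.l2 Z, C.l2 (Q.f k * q * Q.f k * Z)⟫_ℂ := by
      rw [inner_mul_left hZ (hZ.mul_left _), star_mul, hqs, Q.star_f]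
      simp only [mul_assoc]
      rw [← mul_assoc q q, hqp.isIdempotentElem.eq]
    rw [← e, inner_self_eq_norm_sq_to_K]
    norm_cast
  rw [this]
  exact (Complex.re_le_norm _).trans (norm_inner_le_norm _ _)

lemma sum_quad_le (hA : IsMASA C.M A) (hq : q ∈ C.M) (hqp : IsStarProjection q)
    (hqf : C.Fin2 q) (Q : WPart A w) {Z : H →L[ℂ] H} (hZ : C.Fin2 Z) (hZM : Z ∈ C.M) :
    ∑ l, (⟪C.l2 (Q.f l * q), C.l2 (Z * (Q.f l * q))⟫_ℂ).re ≤ C.n2 (Q.pinch q) * C.n2 Z := by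
  have hfM : ∀ l, Q.f l ∈ C.M := fun l => hA.1 (Q.mem l)
  have hqs : star q = q := hqp.isSelfAdjoint.star_eq
  have : ∑ l, (⟪C.l2 (Q.f l * q), C.l2 (Z * (Q.f l * q))⟫_ℂ).re =
      (⟪C.l2 (Q.pinch q), C.l2 Z⟫_ℂ).re := by
    rw [WPart.pinch, l2_sum _ fun l => (hqf.mul_left _).mul_right (mul_mem (hfM l) hq) (hfM l),
      sum_inner, Complex.re_sum]
    refine Finset.sum_congr rfl fun l _ => congrArg Complex.re ?_
    have a1 : C.Fin2 (Q.f l * q) := hqf.mul_left _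
    have a2 : Q.f l * q ∈ C.M := mul_mem (hfM l) hq
    calc ⟪C.l2 (Q.f l * q), C.l2 (Z * (Q.f l * q))⟫_ℂ
        = ⟪C.l2 (Q.f l * q * q), C.l2 (Z * Q.f l)⟫_ℂ := by
          rw [inner_mul_right a1 a2 (hZ.mul_right hZM (hfM l)) (mul_mem hZM (hfM l)) hq, hqs,
            mul_assoc Z]
      _ = ⟪C.l2 (Q.f l * q), C.l2 (Z * Q.f l)⟫_ℂ := by
          rw [mul_assoc, hqp.isIdempotentElem.eq]
      _ = ⟪C.l2 (Q.f l * q * Q.f l), C.l2 Z⟫_ℂ := by
          rw [inner_mul_right a1 a2 hZ hZM (hfM l), Q.star_f]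
  rw [this]
  exact (Complex.re_le_norm _).trans (norm_inner_le_norm _ _)

lemma sum_gram_le (hA : IsMASA C.M A) (hq : q ∈ C.M) (hqp : IsStarProjection q)
    (hqf : C.Fin2 q) (Q : WPart A w) {G : H →L[ℂ] H} (hG : C.Fin2 G) (hGM : G ∈ C.M) :
    ∑ l, C.n2 (G * Q.f l * q) ^ 2 ≤ C.n2 (Q.pinch q) * C.n2 (star G * G) := by
  refine le_of_eq_of_le (Finset.sum_congr rfl fun l _ => ?_)
    (sum_quad_le hA hq hqp hqf Q (hG.mul_left _) (mul_mem (star_mem hGM) hGM))
  have hfq : C.Fin2 (Q.f l * q) := hqf.mul_left _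
  rw [mul_assoc (star G), ← inner_mul_left hfq (hfq.mul_left _), mul_assoc,
    inner_self_eq_norm_sq_to_K]
  norm_cast

lemma sum_blk_le (hA : IsMASA C.M A) (hq : q ∈ C.M) (hqp : IsStarProjection q)
    (hqf : C.Fin2 q) (hx : IsSelfAdjoint x) (hxM : x ∈ C.M) (Q : WPart A w) :
    ∑ k, ∑ l, ‖C.blk Q q x k l‖ ^ 2 ≤ ‖x‖ ^ 2 * C.n2 (Q.pinch q) ^ 2 := by
  set D := Q.pinch q with hD
  have hDf : C.Fin2 D := pinch_fin2 hA Q hqf hq
  have hDM : D ∈ C.M := pinch_mem hA Q hq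
  have hZ : C.Fin2 (x * D * x) := (hDf.mul_left _).mul_right (mul_mem hxM hDM) hxM
  rw [Finset.sum_comm]
  have h1 : ∀ l, ∑ k, ‖C.blk Q q x k l‖ ^ 2 =
      (⟪C.l2 (Q.f l * q), C.l2 (x * D * x * (Q.f l * q))⟫_ℂ).re := by
    intro l
    have hfl : C.Fin2 (Q.f l * q) := hqf.mul_left _
    have hqs : star q = q := hqp.isSelfAdjoint.star_eq
    have e : x * D * x * (Q.f l * q) =
        ∑ k, star (q * Q.f k * x) * (q * Q.f k * x * (Q.f l * q)) := by
      rw [hD, WPart.pinch]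
      simp only [Finset.mul_sum, Finset.sum_mul, star_mul, hx.star_eq, hqs, Q.star_f, mul_assoc]
      refine Finset.sum_congr rfl fun k _ => ?_
      rw [← mul_assoc q q, hqp.isIdempotentElem.eq]
    rw [e, l2_sum _ fun k => ((hfl.mul_left _).mul_left _), inner_sum, Complex.re_sum]
    refine Finset.sum_congr rfl fun k _ => ?_
    rw [← inner_mul_left hfl (hfl.mul_left _), inner_self_eq_norm_sq_to_K]
    norm_cast
  rw [Finset.sum_congr rfl fun l _ => h1 l]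
  refine (sum_quad_le hA hq hqp hqf Q hZ (mul_mem (mul_mem hxM hDM) hxM)).trans ?_
  have h3 : C.n2 (x * D * x) ≤ ‖x‖ * C.n2 D * ‖x‖ :=
    (n2_mul_right_le (hDf.mul_left _) (mul_mem hxM hDM) hxM).trans
      (mul_le_mul_of_nonneg_right (n2_mul_left_le hDf x) (norm_nonneg _))
  calc C.n2 D * C.n2 (x * D * x) ≤ C.n2 D * (‖x‖ * C.n2 D * ‖x‖) :=
        mul_le_mul_of_nonneg_left h3 (C.n2_nonneg _)
    _ = _ := by ring

lemma exists_mean (hA : IsMASA C.M A) (hw : IsStarProjection w) (Q : WPart A w) {r : ℕ}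
    {μ : Fin Q.n → Fin r → ℝ} (h0 : ∀ k i, 0 ≤ μ k i) (i : Fin r)
    (hle : ∀ l, μ l i ≤ 1) :
    ∃ a, a ∈ C.M ∧ star a = a ∧ ‖a‖ ≤ 1 ∧ a = ∑ l, (μ l i : ℂ) • Q.f l := by
  refine ⟨_, sum_mem fun l _ =>
    SMulMemClass.smul_mem (s := C.M.toStarSubalgebra) _ (hA.1 (Q.mem l)), ?_, ?_, rfl⟩
  · rw [star_sum]
    exact Finset.sum_congr rfl fun l _ => by
      rw [star_smul, Q.star_f, Complex.star_def, Complex.conj_ofReal]
  · refine ContinuousLinearMap.opNorm_le_bound _ zero_le_one fun v => ?_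
    refine (pow_le_pow_iff_left₀ (norm_nonneg _) (by positivity) two_ne_zero).1 ?_
    have e : (∑ l, (μ l i : ℂ) • Q.f l) v = ∑ l, Q.f l ((μ l i : ℂ) • v) := by
      simp [sum_apply]
    rw [e, Q.norm_sum_sq, one_mul]
    calc ∑ l, ‖Q.f l ((μ l i : ℂ) • v)‖ ^ 2 ≤ ∑ l, ‖Q.f l v‖ ^ 2 := by
          refine Finset.sum_le_sum fun l _ => pow_le_pow_left₀ (norm_nonneg _) ?_ 2
          rw [map_smul, norm_smul, Complex.norm_real, Real.norm_eq_abs, abs_of_nonneg (h0 l i)]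
          exact mul_le_of_le_one_left (norm_nonneg _) (hle l)
      _ = ‖w v‖ ^ 2 := Q.sum_norm_sq v
      _ ≤ ‖v‖ ^ 2 := by
          gcongr
          exact (w.le_opNorm v).trans (mul_le_of_le_one_left (norm_nonneg _) hw.norm_le)

lemma sum_linV_le (hA : IsMASA C.M A) (hw : IsStarProjection w) (hq : q ∈ C.M)
    (hqp : IsStarProjection q) (hqf : C.Fin2 q) (hx : IsSelfAdjoint x) (hxM : x ∈ C.M)
    (Q : WPart A w) {r : ℕ} {μ : Fin Q.n → Fin r → ℝ} (h0 : ∀ k i, 0 ≤ μ k i)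
    (h1 : ∀ k, ∑ i, μ k i = 1) (i : Fin r) :
    ∑ k, ‖linV μ (C.blk Q q x) k i‖ ^ 2 ≤
      8 * (‖x‖ ^ 2 * (C.n2 (Q.pinch q) * C.n2 q + C.n2 (Q.pinch q) ^ 2)) := by
  have hle : ∀ l, μ l i ≤ 1 := fun l =>
    h1 l ▸ Finset.single_le_sum (fun j _ => h0 l j) (Finset.mem_univ i)
  obtain ⟨a, haM, has, han, hae⟩ := exists_mean hA hw Q h0 i hle
  have hfM : ∀ l, Q.f l ∈ C.M := fun l => hA.1 (Q.mem l)
  have hqs : star q = q := hqp.isSelfAdjoint.star_eq
  have hA1 : ∀ k, C.l2 (q * Q.f k * x * a * q) = ∑ l, (μ l i : ℂ) • C.blk Q q x k l := by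
    intro k
    have : q * Q.f k * x * a * q = ∑ l, (μ l i : ℂ) • (q * Q.f k * x * Q.f l * q) := by
      rw [hae]
      simp only [Finset.mul_sum, Finset.sum_mul, mul_smul_comm, smul_mul_assoc]
    rw [this, l2_sum _ fun l => (hqf.mul_left _).smul _]
    exact Finset.sum_congr rfl fun l _ => l2_smul (hqf.mul_left _) _
  have hA2 : ∀ k, C.l2 (q * a * x * Q.f k * q) = ∑ l, (μ l i : ℂ) • C.blk Q q x l k := by
    intro k
    have : q * a * x * Q.f k * q = ∑ l, (μ l i : ℂ) • (q * Q.f l * x * Q.f k * q) := by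
      rw [hae]
      simp only [Finset.mul_sum, Finset.sum_mul, mul_smul_comm, smul_mul_assoc]
    rw [this, l2_sum _ fun l => (hqf.mul_left _).smul _]
    exact Finset.sum_congr rfl fun l _ => l2_smul (hqf.mul_left _) _
  have hVn : ∀ k, ‖linV μ (C.blk Q q x) k i‖ ^ 2 ≤
      8 * C.n2 (q * Q.f k * (x * a * q)) ^ 2 + 8 * ‖C.blk Q q x k k‖ ^ 2 := by
    intro k
    have e : C.n2 (q * a * x * Q.f k * q) = C.n2 (q * Q.f k * x * a * q) := by
      rw [← n2_star (hqf.mul_left _) (mul_mem (mul_mem (mul_mem (mul_mem hq haM) hxM) (hfM k)) hq)]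
      congr 1
      simp only [star_mul, hqs, hx.star_eq, has, Q.star_f, mul_assoc]
    have hμle : ‖((μ k i : ℝ) : ℂ)‖ ≤ 1 := by
      rw [Complex.norm_real, Real.norm_eq_abs, abs_of_nonneg (h0 k i)]
      exact hle k
    have hVe : linV μ (C.blk Q q x) k i = C.l2 (q * Q.f k * x * a * q) +
        C.l2 (q * a * x * Q.f k * q) - (μ k i : ℂ) • (C.blk Q q x k k + C.blk Q q x k k) := by
      rw [hA1, hA2, ← Finset.sum_add_distrib, eq_sub_iff_add_eq]
      simp only [linV, ← smul_add]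
      rw [← Finset.sum_erase_add _ _ (Finset.mem_univ k),
        ← Finset.sum_erase_add _ (fun l => (μ l i : ℂ) • (C.blk Q q x k l + C.blk Q q x l k))
          (Finset.mem_univ k)]
      simp only [if_true, Complex.ofReal_zero, zero_smul, add_zero]
      congr 1
      refine Finset.sum_congr rfl fun l hl => ?_
      rw [if_neg (Finset.ne_of_mem_erase hl)]
    have h : ‖linV μ (C.blk Q q x) k i‖ ≤
        2 * C.n2 (q * Q.f k * (x * a * q)) + 2 * ‖C.blk Q q x k k‖ := by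
      rw [show q * Q.f k * (x * a * q) = q * Q.f k * x * a * q by simp only [mul_assoc], hVe]
      refine (norm_sub_le _ _).trans (add_le_add ((norm_add_le _ _).trans ?_) ?_)
      · rw [norm_l2_eq, norm_l2_eq, e]; linarith
      · rw [norm_smul]
        refine (mul_le_of_le_one_left (norm_nonneg _) hμle).trans ((norm_add_le _ _).trans ?_)
        linarith
    have h' := pow_le_pow_left₀ (norm_nonneg _) h 2
    nlinarith [sq_nonneg (C.n2 (q * Q.f k * (x * a * q)) - ‖C.blk Q q x k k‖)]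
  refine (Finset.sum_le_sum fun k _ => hVn k).trans ?_
  rw [Finset.sum_add_distrib, ← Finset.mul_sum, ← Finset.mul_sum]
  have hd : ∑ k, ‖C.blk Q q x k k‖ ^ 2 ≤ ‖x‖ ^ 2 * C.n2 (Q.pinch q) ^ 2 :=
    (Finset.sum_le_sum fun k _ => Finset.single_le_sum (f := fun l => ‖C.blk Q q x k l‖ ^ 2)
      (fun l _ => sq_nonneg _) (Finset.mem_univ k)).trans (sum_blk_le hA hq hqp hqf hx hxM Q)
  have hxa : ‖x * a‖ ≤ ‖x‖ :=
    (norm_mul_le _ _).trans (mul_le_of_le_one_right (norm_nonneg _) han)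
  have hk : ∑ k, C.n2 (q * Q.f k * (x * a * q)) ^ 2 ≤
      ‖x‖ ^ 2 * (C.n2 (Q.pinch q) * C.n2 q) := by
    refine (sum_left_le hqp Q (hqf.mul_left _)).trans ?_
    have b1 : C.n2 (x * a * q) ≤ ‖x‖ * C.n2 q :=
      (n2_mul_left_le hqf _).trans (mul_le_mul_of_nonneg_right hxa (C.n2_nonneg _))
    have b2 : C.n2 (Q.pinch q * (x * a * q)) ≤ C.n2 (Q.pinch q) * ‖x‖ :=
      (n2_mul_right_le (pinch_fin2 hA Q hqf hq) (pinch_mem hA Q hq)
        (mul_mem (mul_mem hxM haM) hq)).trans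
        (mul_le_mul_of_nonneg_left ((norm_mul_le _ _).trans
          ((mul_le_of_le_one_right (norm_nonneg _) hqp.norm_le).trans hxa)) (C.n2_nonneg _))
    refine (mul_le_mul b1 b2 (C.n2_nonneg _)
      (mul_nonneg (norm_nonneg _) (C.n2_nonneg _))).trans_eq ?_
    ring
  linarith

lemma cross_decomp (hqf : C.Fin2 q) (hwq : w * q = q) (Q : WPart A w) {r : ℕ}
    (L old : Fin Q.n → Fin r) (u : ℝ) (G : Fin r → H →L[ℂ] H) :
    C.l2 (∑ i, G i * Q.piece L i * q) - ((u : ℂ) • C.l2 (∑ i, G i * Q.piece old i * q) +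
        (((1 - u) / r : ℝ) : ℂ) • C.l2 (∑ i, G i * q)) =
      ∑ k, ∑ i, (dev (fun l i => u * (if old l = i then 1 else 0) + (1 - u) / r) k i (L k) : ℂ) •
        C.l2 (G i * Q.f k * q) := by
  have hGf' : ∀ k i, C.Fin2 (G i * Q.f k * q) := fun k i => hqf.mul_left _
  have hL : ∀ L : Fin Q.n → Fin r, C.l2 (∑ i, G i * Q.piece L i * q) =
      ∑ k, ∑ i, ((if L k = i then (1 : ℝ) else 0 : ℝ) : ℂ) • C.l2 (G i * Q.f k * q) := by
    intro L
    rw [Finset.sum_comm, l2_sum _ fun i => hqf.mul_left _]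
    refine Finset.sum_congr rfl fun i _ => ?_
    have : G i * Q.piece L i * q =
        ∑ k, ((if L k = i then (1 : ℝ) else 0 : ℝ) : ℂ) • (G i * Q.f k * q) := by
      simp only [WPart.piece, Finset.mul_sum, Finset.sum_mul, mul_smul_comm, smul_mul_assoc]
      exact Finset.sum_congr rfl fun k _ => by split_ifs <;> simp
    rw [this, l2_sum _ fun k => (hGf' k i).smul _]
    exact Finset.sum_congr rfl fun k _ => l2_smul (hGf' k i) _
  have hall : C.l2 (∑ i, G i * q) = ∑ k, ∑ i, C.l2 (G i * Q.f k * q) := by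
    rw [Finset.sum_comm, l2_sum _ fun i => hqf.mul_left _]
    refine Finset.sum_congr rfl fun i _ => ?_
    rw [← l2_sum _ fun k => hGf' k i, ← Finset.sum_mul, ← Finset.mul_sum, Q.sum, mul_assoc, hwq]
  rw [hL L, hL old, hall]
  simp only [Finset.smul_sum, smul_smul, ← Finset.sum_add_distrib, ← Finset.sum_sub_distrib,
    ← add_smul, ← sub_smul]
  refine Finset.sum_congr rfl fun k _ => Finset.sum_congr rfl fun i _ => ?_
  congr 1
  simp only [dev]
  push_cast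
  split_ifs <;> simp

lemma ww_decomp (hqf : C.Fin2 q) (hwq : w * q = q) (hqw : q * w = q) (Q : WPart A w) {r : ℕ}
    (hr : 0 < r) (L old : Fin Q.n → Fin r) (u : ℝ) {μ : Fin Q.n → Fin r → ℝ}
    (hμ : μ = fun l i => u * (if old l = i then 1 else 0) + (1 - u) / r) :
    C.l2 (q * (∑ i, Q.piece L i * x * Q.piece L i) * q) -
        (((u ^ 2 : ℝ) : ℂ) • C.l2 (q * (∑ i, Q.piece old i * x * Q.piece old i) * q) +
          ((1 - u ^ 2 : ℝ) : ℂ) • (((1 / r : ℝ) : ℂ) • C.l2 (q * x * q) +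
            ((1 - 1 / r : ℝ) : ℂ) • C.l2 (q * Q.pinch x * q))) =
      (∑ k, ∑ i, (dev μ k i (L k) : ℂ) • linV μ (C.blk Q q x) k i) +
        ((∑ a ∈ ltSet Q.n, (pr μ L a.1 a.2 : ℂ) • C.blk Q q x a.1 a.2) +
          ∑ a ∈ gtSet Q.n, (pr μ L a.1 a.2 : ℂ) • C.blk Q q x a.1 a.2) := by
  rw [← decomp (μ := μ) (C.blk Q q x) L, l2_pinched hqf Q L, l2_pinched hqf Q old,
    l2_full hqf hwq hqw Q, l2_diag hqf Q]
  congr 1
  have e : ∑ k, C.blk Q q x k k =
      ∑ k, ∑ l, ((if k = l then (1 : ℝ) else 0 : ℝ) : ℂ) • C.blk Q q x k l := by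
    refine Finset.sum_congr rfl fun k _ => ?_
    rw [Finset.sum_eq_single k (fun l _ hl => by rw [if_neg (Ne.symm hl)]; simp) (by simp)]
    simp
  rw [e]
  simp only [Finset.smul_sum, smul_add, smul_smul, ← Finset.sum_add_distrib, ← add_smul,
    ← Complex.ofReal_mul, ← Complex.ofReal_add]
  refine Finset.sum_congr rfl fun k _ => Finset.sum_congr rfl fun l _ => ?_
  congr 2
  have hr' : (r : ℝ) ≠ 0 := Nat.cast_ne_zero.2 hr.ne'
  rcases eq_or_ne k l with rfl | hkl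
  · simp only [if_true, mul_one]
    field_simp
    ring
  · rw [if_neg hkl, if_neg hkl, hμ]
    simp only [add_mul, mul_add, Finset.sum_add_distrib, Finset.sum_const, Finset.card_univ,
      Fintype.card_fin, nsmul_eq_mul, mul_ite, ite_mul, mul_one, mul_zero, zero_mul,
      Finset.sum_ite_eq, Finset.mem_univ, if_true]
    split_ifs <;>
      first
        | (exfalso; exact ‹¬ _› (Eq.symm ‹_›))
        | (field_simp; ring)

/-- one relabelling step -/
theorem step (hA : IsMASA C.M A) (hw : IsStarProjection w) (Q : WPart A w) {r : ℕ}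
    (hr : 0 < r) (old : Fin Q.n → Fin r) {u : ℝ} (hu0 : 0 ≤ u) (hu1 : u ≤ 1)
    (hq : q ∈ C.M) (hqp : IsStarProjection q) (hqf : C.Fin2 q) (hwq : w * q = q)
    (hx : IsSelfAdjoint x) (hxM : x ∈ C.M)
    (G : Fin r → H →L[ℂ] H) (hGM : ∀ i, G i ∈ C.M) (hGf : ∀ i, C.Fin2 (G i))
    {g : ℝ} (hG : ∀ i, ‖G i‖ ≤ ‖x‖) (hG2 : ∀ i, C.n2 (G i) ≤ g) :
    ∃ L : Fin Q.n → Fin r,
      ‖C.l2 (q * (∑ i, Q.piece L i * x * Q.piece L i) * q) -
        (((u ^ 2 : ℝ) : ℂ) • C.l2 (q * (∑ i, Q.piece old i * x * Q.piece old i) * q) +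
          ((1 - u ^ 2 : ℝ) : ℂ) • (((1 / r : ℝ) : ℂ) • C.l2 (q * x * q) +
            ((1 - 1 / r : ℝ) : ℂ) • C.l2 (q * Q.pinch x * q)))‖ ^ 2 +
      ‖C.l2 (∑ i, G i * Q.piece L i * q) -
        ((u : ℂ) • C.l2 (∑ i, G i * Q.piece old i * q) +
          (((1 - u) / r : ℝ) : ℂ) • C.l2 (∑ i, G i * q))‖ ^ 2 ≤
      (r : ℝ) ^ 2 * C.n2 (Q.pinch q) *
        (48 * ‖x‖ ^ 2 * (C.n2 q + C.n2 (Q.pinch q)) + ‖x‖ * g) := by
  set μ : Fin Q.n → Fin r → ℝ := fun l i =>
    u * (if old l = i then 1 else 0) + (1 - u) / r with hμ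
  have hr' : (0 : ℝ) < r := Nat.cast_pos.2 hr
  have h0 : ∀ k i, 0 ≤ μ k i := fun k i => by
    have : 0 ≤ (1 - u) / r := div_nonneg (by linarith) hr'.le
    simp only [hμ]; split_ifs <;> linarith
  have h1 : ∀ k, ∑ i, μ k i = 1 := fun k => by
    simp only [hμ, Finset.sum_add_distrib, mul_ite, mul_one, mul_zero, Finset.sum_ite_eq,
      Finset.mem_univ, if_true, Finset.sum_const, Finset.card_univ, Fintype.card_fin, nsmul_eq_mul]
    field_simp
    ring
  have hqw : q * w = q := by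
    have := congrArg star hwq
    rwa [star_mul, hw.isSelfAdjoint.star_eq, hqp.isSelfAdjoint.star_eq] at this
  set Y := C.blk Q q x with hY
  have hYsum : ∑ k, ∑ l, ‖Y k l‖ ^ 2 ≤ ‖x‖ ^ 2 * C.n2 (Q.pinch q) ^ 2 :=
    sum_blk_le hA hq hqp hqf hx hxM Q
  have hlin : ∑ k, ∑ i, ‖linV μ Y k i‖ ^ 2 ≤
      r * (8 * (‖x‖ ^ 2 * (C.n2 (Q.pinch q) * C.n2 q + C.n2 (Q.pinch q) ^ 2))) := by
    rw [Finset.sum_comm]
    exact (Finset.sum_le_sum fun i _ => sum_linV_le hA hw hq hqp hqf hx hxM Q h0 h1 i).trans_eq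
      (by simp)
  have hcr : ∑ k, ∑ i, ‖C.l2 (G i * Q.f k * q)‖ ^ 2 ≤
      r * (C.n2 (Q.pinch q) * (‖x‖ * g)) := by
    rw [Finset.sum_comm]
    refine (Finset.sum_le_sum (g := fun _ => C.n2 (Q.pinch q) * (‖x‖ * g))
      fun i _ => (sum_gram_le hA hq hqp hqf Q (hGf i) (hGM i)).trans
      (mul_le_mul_of_nonneg_left ((n2_mul_left_le (hGf i) _).trans ?_) (C.n2_nonneg _))).trans_eq
      (by simp)
    rw [norm_star]
    exact mul_le_mul (hG i) (hG2 i) (C.n2_nonneg _) (norm_nonneg _)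
  have hp1 := (Ex_linear_le h0 h1 (linV μ Y)).trans (mul_le_mul_of_nonneg_left hlin hr'.le)
  have hp2 := (Ex_pairs_le h0 h1 (ltSet Q.n) (fun a ha => ((Finset.mem_filter.1 ha).2).ne)
    (fun a ha ha' => lt_asymm (Finset.mem_filter.1 ha).2 (Finset.mem_filter.1 ha').2) Y).trans
      (mul_le_mul_of_nonneg_left hYsum (by norm_num))
  have hp3 := (Ex_pairs_le h0 h1 (gtSet Q.n) (fun a ha => ((Finset.mem_filter.1 ha).2).ne')
    (fun a ha ha' => lt_asymm (Finset.mem_filter.1 ha).2 (Finset.mem_filter.1 ha').2) Y).trans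
      (mul_le_mul_of_nonneg_left hYsum (by norm_num))
  have hp4 := (Ex_linear_le h0 h1 fun k i => C.l2 (G i * Q.f k * q)).trans
    (mul_le_mul_of_nonneg_left hcr hr'.le)
  obtain ⟨L, hL⟩ := exists_le_Ex h0 h1 fun L =>
    2 * ‖∑ k, ∑ i, (dev μ k i (L k) : ℂ) • linV μ Y k i‖ ^ 2 +
      (4 * ‖∑ a ∈ ltSet Q.n, (pr μ L a.1 a.2 : ℂ) • Y a.1 a.2‖ ^ 2 +
        (4 * ‖∑ a ∈ gtSet Q.n, (pr μ L a.1 a.2 : ℂ) • Y a.1 a.2‖ ^ 2 +
          ‖∑ k, ∑ i, (dev μ k i (L k) : ℂ) • C.l2 (G i * Q.f k * q)‖ ^ 2))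
  refine ⟨L, ?_⟩
  rw [ww_decomp hqf hwq hqw Q hr L old u hμ, cross_decomp hqf hwq Q L old u G, ← hμ]
  rw [Ex_add, Ex_add, Ex_add, Ex_smul, Ex_smul, Ex_smul] at hL
  refine (add_le_add (sq_norm_add3_le _ _ _) le_rfl).trans ?_
  simp only [pr] at hL ⊢
  have hr1 : (1 : ℝ) ≤ (r : ℝ) ^ 2 := one_le_pow₀ (by exact_mod_cast hr)
  have hn0 := C.n2_nonneg (Q.pinch q)
  have hn1 := C.n2_nonneg q
  have h32 : 32 * (‖x‖ ^ 2 * C.n2 (Q.pinch q) ^ 2) ≤
      (r : ℝ) ^ 2 * (32 * (‖x‖ ^ 2 * C.n2 (Q.pinch q) ^ 2)) :=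
    le_mul_of_one_le_left (by positivity) hr1
  have h00 : 0 ≤ 32 * ((r : ℝ) ^ 2 * (‖x‖ ^ 2 * (C.n2 (Q.pinch q) * C.n2 q))) := by positivity
  calc _ ≤ 2 * ((r : ℝ) * (r * (8 * (‖x‖ ^ 2 * (C.n2 (Q.pinch q) * C.n2 q +
        C.n2 (Q.pinch q) ^ 2))))) + (4 * (4 * (‖x‖ ^ 2 * C.n2 (Q.pinch q) ^ 2)) +
        (4 * (4 * (‖x‖ ^ 2 * C.n2 (Q.pinch q) ^ 2)) +
          r * (r * (C.n2 (Q.pinch q) * (‖x‖ * g))))) := by linarith
    _ ≤ _ := by linarith

end Ctx

end Vale.Agent.P078.Semi
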