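import Mathlib
import Vale.Agent.P078.SemiRandom
import Vale.Agent.P078.SemiCorner

/-! So-paving in semifinite algebras from so-paving in tracial algebras. -/

noncomputable section

open scoped InnerProductSpace ComplexOrder
open Filter Topology

namespace Vale.Agent.P078

universe u

variable {H : Type u} [NormedAddCommGroup H] [InnerProductSpace ℂ H] [CompleteSpace H]

/-- more pieces do not hurt -/
lemma SoPavable.mono {M : VonNeumannAlgebra H} {A : StarSubalgebra ℂ (H →L[ℂ] H)}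
    {x : H →L[ℂ] H} {ε : ℝ} {r r' : ℕ} (h : SoPavable M A x ε r) (hr : r ≤ r') :
    SoPavable M A x ε r' := by
  intro F δ hδ
  obtain ⟨p, hp, horth, hsum, a, haA, has, han, q, hq, hqp, hqF, hb⟩ := h F δ hδ
  obtain ⟨d, rfl⟩ := Nat.exists_eq_add_of_le hr
  refine ⟨Fin.append p (fun _ : Fin d => 0), fun i => ?_, fun i j hij => ?_, ?_, a, haA, has, han,
    q, hq, hqp, hqF, ?_⟩
  · induction i using Fin.addCases with
    | left i => simpa using hp i
    | right i =>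
      simp only [Fin.append_right]
      exact ⟨zero_mem _, IsStarProjection.zero _⟩
  · induction i using Fin.addCases with
    | right i => simp [Fin.append_right]
    | left i =>
      induction j using Fin.addCases with
      | right j => simp [Fin.append_right]
      | left j =>
        simp only [Fin.append_left]
        exact horth i j fun e => hij (by rw [e])
  · simp [Fin.sum_univ_add, hsum]
  · simpa [Fin.sum_univ_add] using hb

namespace Semi.Ctx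

variable {C : Ctx H} {A : StarSubalgebra ℂ (H →L[ℂ] H)}

lemma exists_small_set (C : Ctx H) (F : Finset H) {δ : ℝ} (hδ : 0 < δ) :
    ∃ d > 0, ∀ ξ ∈ F, ∀ q ∈ C.M, C.Fin2 q → ‖q‖ ≤ 1 → C.n2 q ≤ d → ‖q ξ‖ < δ := by
  classical
  induction F using Finset.induction_on with
  | empty => exact ⟨1, one_pos, by simp⟩
  | insert v F _ ih =>
    obtain ⟨d, hd, h⟩ := ih
    obtain ⟨d', hd', h'⟩ := C.exists_small v hδ
    refine ⟨min d d', lt_min hd hd', fun ξ hξ q hq hf hn hle => ?_⟩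
    rcases Finset.mem_insert.1 hξ with rfl | hξ
    · exact h' q hq hf hn (hle.trans (min_le_right _ _))
    · exact h ξ hξ q hq hf hn (hle.trans (min_le_left _ _))

/-- the compressed pinched element -/
def ww (C : Ctx H) {w : H →L[ℂ] H} {r : ℕ} (Q : WPart A w) (q x : H →L[ℂ] H)
    (L : Fin Q.n → Fin r) : lp (fun _ : C.I => H) 2 :=
  C.l2 (q * (∑ i, Q.piece L i * x * Q.piece L i) * q)

/-- the compressed cross block -/
def cr (C : Ctx H) {w : H →L[ℂ] H} {r : ℕ} (Q : WPart A w) (q : H →L[ℂ] H)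
    (G : Fin r → H →L[ℂ] H) (L : Fin Q.n → Fin r) : lp (fun _ : C.I => H) 2 :=
  C.l2 (∑ i, G i * Q.piece L i * q)

lemma ww_parent {w q x : H →L[ℂ] H} {r : ℕ} {Q Q' : WPart A w} (h : Q ≤ Q')
    (L : Fin Q.n → Fin r) :
    C.ww Q' q x (fun l => L (WPart.parent h l)) = C.ww Q q x L := by
  simp only [ww, WPart.piece_parent]

lemma cr_parent {w q : H →L[ℂ] H} {r : ℕ} (G : Fin r → H →L[ℂ] H) {Q Q' : WPart A w} (h : Q ≤ Q')
    (L : Fin Q.n → Fin r) :
    C.cr Q' q G (fun l => L (WPart.parent h l)) = C.cr Q q G L := by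
  simp only [cr, WPart.piece_parent]

lemma le_of_sq_add {a b t : ℝ} (ha : 0 ≤ a) (hb : 0 ≤ b) (ht : 0 ≤ t)
    (h : a ^ 2 + b ^ 2 ≤ t ^ 2) : a ≤ t ∧ b ≤ t :=
  ⟨(pow_le_pow_iff_left₀ ha ht two_ne_zero).1 (le_trans (le_add_of_nonneg_right (sq_nonneg b)) h),
    (pow_le_pow_iff_left₀ hb ht two_ne_zero).1 (le_trans (le_add_of_nonneg_left (sq_nonneg a)) h)⟩

/-- labels along nested partitions average their pinchings -/
lemma exists_avg (hA : IsMASA C.M A) {w : H →L[ℂ] H} (hw : IsStarProjection w)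
    {q x : H →L[ℂ] H} (hq : q ∈ C.M) (hqp : IsStarProjection q) (hqf : C.Fin2 q)
    (hwq : w * q = q) (hx : IsSelfAdjoint x) (hxM : x ∈ C.M) {r : ℕ} (hr : 0 < r)
    (G : Fin r → H →L[ℂ] H) (hGM : ∀ i, G i ∈ C.M) (hGf : ∀ i, C.Fin2 (G i))
    {g : ℝ} (hG : ∀ i, ‖G i‖ ≤ ‖x‖) (hG2 : ∀ i, C.n2 (G i) ≤ g)
    (Q : ℕ → WPart A w) (hmono : ∀ t, Q t ≤ Q (t + 1)) {θ : ℝ} (hθ : 0 ≤ θ)
    (hsmall : ∀ t, (r : ℝ) ^ 2 * C.n2 ((Q t).pinch q) *
      (48 * ‖x‖ ^ 2 * (C.n2 q + C.n2 ((Q t).pinch q)) + ‖x‖ * g) ≤ θ ^ 2) (k : ℕ) :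
    ∃ L : Fin (Q k).n → Fin r,
      ‖C.ww (Q k) q x L - (((1 / r : ℝ) : ℂ) • C.l2 (q * x * q) + ((1 - 1 / r : ℝ) : ℂ) •
          (((1 / (k + 1) : ℝ) : ℂ) •
            ∑ t ∈ Finset.range (k + 1), C.l2 (q * (Q t).pinch x * q)))‖ ≤ (k + 1) * θ ∧
      ‖C.cr (Q k) q G L - ((1 / r : ℝ) : ℂ) • C.l2 (∑ i, G i * q)‖ ≤ (k + 1) * θ := by
  induction k with
  | zero =>
    obtain ⟨L, hL⟩ := step hA hw (Q 0) hr (fun _ => ⟨0, hr⟩) (le_refl (0 : ℝ)) zero_le_one hq hqp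
      hqf hwq hx hxM G hGM hGf hG hG2
    refine ⟨L, ?_⟩
    have h := le_of_sq_add (norm_nonneg _) (norm_nonneg _) hθ (hL.trans (hsmall 0))
    simpa [ww, cr, one_div] using h
  | succ k ih =>
    obtain ⟨L₀, h1, h2⟩ := ih
    set γ : ℝ := ((k : ℝ) + 1) / ((k : ℝ) + 2) with hγ
    have hγ0 : 0 ≤ γ := by positivity
    have hγ1 : γ ≤ 1 := by rw [hγ, div_le_one (by positivity)]; linarith
    set u := Real.sqrt γ with hu
    have hu0 : 0 ≤ u := Real.sqrt_nonneg _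
    have hu1 : u ≤ 1 := Real.sqrt_le_one.2 hγ1
    have huu : u ^ 2 = γ := Real.sq_sqrt hγ0
    obtain ⟨L, hL⟩ := step hA hw (Q (k + 1)) hr (fun l => L₀ (WPart.parent (hmono k) l)) hu0 hu1
      hq hqp hqf hwq hx hxM G hGM hGf hG hG2
    refine ⟨L, ?_⟩
    obtain ⟨e1, e2⟩ := le_of_sq_add (norm_nonneg _) (norm_nonneg _) hθ (hL.trans (hsmall (k + 1)))
    change ‖C.ww (Q (k + 1)) q x L - (_ • C.ww (Q (k + 1)) q x _ + _)‖ ≤ θ at e1
    change ‖C.cr (Q (k + 1)) q G L - (_ • C.cr (Q (k + 1)) q G _ + _)‖ ≤ θ at e2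
    rw [ww_parent (hmono k), huu] at e1
    rw [cr_parent G (hmono k)] at e2
    set X := C.l2 (q * x * q)
    set S := ∑ t ∈ Finset.range (k + 1), C.l2 (q * (Q t).pinch x * q) with hS
    set P := C.l2 (q * (Q (k + 1)).pinch x * q)
    set ρ : ℂ := ((1 / r : ℝ) : ℂ) with hρ
    set W₀ := C.ww (Q k) q x L₀
    set W := C.ww (Q (k + 1)) q x L
    rw [Nat.cast_succ]
    constructor
    · have hT : ρ • X + ((1 - 1 / r : ℝ) : ℂ) • (((1 / ((k : ℝ) + 1 + 1) : ℝ) : ℂ) •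
          ∑ t ∈ Finset.range (k + 1 + 1), C.l2 (q * (Q t).pinch x * q)) =
        (γ : ℂ) • (ρ • X + ((1 - 1 / r : ℝ) : ℂ) • (((1 / ((k : ℝ) + 1) : ℝ) : ℂ) • S)) +
          ((1 - γ : ℝ) : ℂ) • (ρ • X + ((1 - 1 / r : ℝ) : ℂ) • P) := by
        rw [Finset.sum_range_succ, ← hS, smul_add]
        have a1 : (1 / ((k : ℝ) + 1 + 1) : ℝ) = γ * (1 / ((k : ℝ) + 1)) := by
          rw [hγ]; field_simp; ring
        have a2 : (1 / ((k : ℝ) + 1 + 1) : ℝ) = 1 - γ := by
          rw [hγ]; field_simp; ring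
        nth_rewrite 1 [a1]
        rw [a2]
        push_cast
        module
      rw [hT]
      have e : W - ((γ : ℂ) • (ρ • X + ((1 - 1 / r : ℝ) : ℂ) • (((1 / ((k : ℝ) + 1) : ℝ) : ℂ) • S)) +
          ((1 - γ : ℝ) : ℂ) • (ρ • X + ((1 - 1 / r : ℝ) : ℂ) • P)) =
        (W - ((γ : ℂ) • W₀ + ((1 - γ : ℝ) : ℂ) • (ρ • X + ((1 - 1 / r : ℝ) : ℂ) • P))) +
          (γ : ℂ) • (W₀ - (ρ • X + ((1 - 1 / r : ℝ) : ℂ) • (((1 / ((k : ℝ) + 1) : ℝ) : ℂ) • S))) := by
        rw [smul_sub]; abel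
      rw [e]
      refine (norm_add_le _ _).trans ?_
      rw [norm_smul, Complex.norm_real, Real.norm_eq_abs, abs_of_nonneg hγ0]
      have h1' := mul_le_mul hγ1 h1 (norm_nonneg _) zero_le_one
      linarith
    · set Z := C.cr (Q k) q G L₀
      set Z' := C.cr (Q (k + 1)) q G L
      set c0 := C.l2 (∑ i, G i * q)
      have e : Z' - ρ • c0 = (Z' - ((u : ℂ) • Z + (((1 - u) / r : ℝ) : ℂ) • c0)) +
          (u : ℂ) • (Z - ρ • c0) := by
        rw [hρ, show ((1 - u) / r : ℝ) = 1 / r - u * (1 / r) by ring]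
        push_cast
        module
      rw [e]
      refine (norm_add_le _ _).trans ?_
      rw [norm_smul, Complex.norm_real, Real.norm_eq_abs, abs_of_nonneg hu0]
      have h2' := mul_le_mul hu1 h2 (norm_nonneg _) zero_le_one
      linarith

/-- labelled partitions of the part without finite projections -/
lemma exists_labels (hA : IsMASA C.M A) {w : H →L[ℂ] H} (hwA : w ∈ A) (hw : IsStarProjection w)
    (hnf : ∀ e ∈ A, IsStarProjection e → C.Fin2 e → w * e = 0)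
    {q x : H →L[ℂ] H} (hq : q ∈ C.M) (hqp : IsStarProjection q) (hqf : C.Fin2 q)
    (hwq : w * q = q) (hx : IsSelfAdjoint x) (hxM : x ∈ C.M) {r : ℕ} (hr : 0 < r) :
    ∃ a ∈ A, IsSelfAdjoint a ∧ ‖a‖ ≤ ‖x‖ ∧ w * a = a ∧
      ∀ (G : Fin r → H →L[ℂ] H), (∀ i, G i ∈ C.M) → (∀ i, C.Fin2 (G i)) → ∀ {g : ℝ},
        (∀ i, ‖G i‖ ≤ ‖x‖) → (∀ i, C.n2 (G i) ≤ g) → ∀ {θ : ℝ}, 0 < θ →
          ∃ (Q : WPart A w) (L : Fin Q.n → Fin r),
            ‖C.ww Q q x L - (((1 / r : ℝ) : ℂ) • C.l2 (q * x * q) +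
              ((1 - 1 / r : ℝ) : ℂ) • C.l2 (q * a * q))‖ ≤ θ ∧
            ‖C.cr Q q G L - ((1 / r : ℝ) : ℂ) • C.l2 (∑ i, G i * q)‖ ≤ θ := by
  have := nonempty_wpart hwA hw
  obtain ⟨a, haA, has, han, hwa, -, hnest⟩ := exists_nested hA hwA hw hnf hq hqp hqf hx hxM
  refine ⟨a, haA, has, han, hwa, fun G hGM hGf g hG hG2 θ hθ => ?_⟩
  have hg : 0 ≤ g := (C.n2_nonneg _).trans (hG2 ⟨0, hr⟩)
  set Cz := (2 * ‖x‖ * C.n2 q) ^ 2 + 2 with hCz
  obtain ⟨m, hm⟩ := exists_nat_gt (Cz / (θ / 2) ^ 2)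
  have hm0 : (0 : ℝ) < (m : ℝ) + 1 := by positivity
  set θ₁ := θ / (2 * ((m : ℝ) + 1)) with hθ₁
  have hθ₁0 : 0 < θ₁ := by positivity
  have hq0 := C.n2_nonneg q
  set B := (r : ℝ) ^ 2 * (48 * ‖x‖ ^ 2 * (C.n2 q + 1) + ‖x‖ * g) with hB
  have hB0 : 0 ≤ B := by positivity
  set θD := min 1 (θ₁ ^ 2 / (B + 1)) with hθD
  obtain ⟨Q, hmono, hD, hsum⟩ := hnest (m + 1) (θ := θD) (lt_min one_pos (by positivity))
  have hsmall : ∀ t, (r : ℝ) ^ 2 * C.n2 ((Q t).pinch q) *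
      (48 * ‖x‖ ^ 2 * (C.n2 q + C.n2 ((Q t).pinch q)) + ‖x‖ * g) ≤ θ₁ ^ 2 := by
    intro t
    have h0 := C.n2_nonneg ((Q t).pinch q)
    have h1 : C.n2 ((Q t).pinch q) ≤ 1 := (hD t).trans (min_le_left _ _)
    have h2 : C.n2 ((Q t).pinch q) * (B + 1) ≤ θ₁ ^ 2 := by
      rw [← le_div_iff₀ (by positivity)]; exact (hD t).trans (min_le_right _ _)
    calc (r : ℝ) ^ 2 * C.n2 ((Q t).pinch q) *
          (48 * ‖x‖ ^ 2 * (C.n2 q + C.n2 ((Q t).pinch q)) + ‖x‖ * g)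
        ≤ (r : ℝ) ^ 2 * C.n2 ((Q t).pinch q) * (48 * ‖x‖ ^ 2 * (C.n2 q + 1) + ‖x‖ * g) := by
          gcongr
      _ = C.n2 ((Q t).pinch q) * B := by rw [hB]; ring
      _ ≤ C.n2 ((Q t).pinch q) * (B + 1) := mul_le_mul_of_nonneg_left (by linarith) h0
      _ ≤ θ₁ ^ 2 := h2
  obtain ⟨L, h1, h2⟩ := exists_avg hA hw hq hqp hqf hwq hx hxM hr G hGM hGf hG hG2 Q hmono
    hθ₁0.le hsmall m
  have hmθ : ((m : ℝ) + 1) * θ₁ = θ / 2 := by rw [hθ₁]; field_simp
  rw [hmθ] at h1 h2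
  refine ⟨Q m, L, ?_, h2.trans (by linarith)⟩
  set X := C.l2 (q * x * q)
  set Aq := C.l2 (q * a * q) with hAq
  have e : ∑ t ∈ Finset.range (m + 1), C.l2 (q * ((Q t).pinch x - a) * q) =
      (∑ t ∈ Finset.range (m + 1), C.l2 (q * (Q t).pinch x * q)) - ((m : ℂ) + 1) • Aq := by
    have e' : ∀ t, C.l2 (q * ((Q t).pinch x - a) * q) =
        C.l2 (q * (Q t).pinch x * q) - Aq := fun t => by
      rw [hAq, ← l2_sub (hqf.mul_left _) (hqf.mul_left _), mul_sub, sub_mul]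
    simp only [e', Finset.sum_sub_distrib, Finset.sum_const, Finset.card_range]
    rw [← Nat.cast_smul_eq_nsmul ℂ]
    push_cast
    rfl
  rw [e] at hsum
  set S := ∑ t ∈ Finset.range (m + 1), C.l2 (q * (Q t).pinch x * q)
  set c : ℂ := ((1 / ((m : ℝ) + 1) : ℝ) : ℂ) with hc
  have hcm : c * ((m : ℂ) + 1) = 1 := by
    rw [hc]
    push_cast
    exact one_div_mul_cancel (by exact_mod_cast hm0.ne')
  have h3 : ‖c • (S - ((m : ℂ) + 1) • Aq)‖ ≤ θ / 2 := by
    refine (pow_le_pow_iff_left₀ (norm_nonneg _) (by positivity) two_ne_zero).1 ?_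
    rw [norm_smul, mul_pow, hc, Complex.norm_real, Real.norm_eq_abs, abs_of_nonneg (by positivity)]
    refine (mul_le_mul_of_nonneg_left hsum (sq_nonneg _)).trans ?_
    rw [Nat.cast_add, Nat.cast_one]
    have : (1 / ((m : ℝ) + 1)) ^ 2 * (((m : ℝ) + 1) * Cz) = Cz / ((m : ℝ) + 1) := by field_simp
    rw [this, div_le_iff₀ hm0]
    rw [div_lt_iff₀ (by positivity)] at hm
    nlinarith [sq_nonneg (θ / 2)]
  rw [smul_sub, smul_smul, hcm, one_smul] at h3
  have e2 : C.ww (Q m) q x L - (((1 / r : ℝ) : ℂ) • X + ((1 - 1 / r : ℝ) : ℂ) • Aq) =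
      (C.ww (Q m) q x L - (((1 / r : ℝ) : ℂ) • X + ((1 - 1 / r : ℝ) : ℂ) • (c • S))) +
        ((1 - 1 / r : ℝ) : ℂ) • (c • S - Aq) := by
    rw [smul_sub]; abel
  rw [e2]
  refine (norm_add_le _ _).trans ?_
  have hρ1 : ‖((1 - 1 / r : ℝ) : ℂ)‖ ≤ 1 := by
    have hr1 : (1 : ℝ) ≤ r := by exact_mod_cast hr
    have : 1 / (r : ℝ) ≤ 1 := by rw [div_le_one (by positivity)]; exact hr1
    rw [Complex.norm_real, Real.norm_eq_abs, abs_of_nonneg (by linarith)]
    linarith [show 0 ≤ 1 / (r : ℝ) by positivity]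
  rw [norm_smul]
  nlinarith [norm_nonneg (c • S - Aq)]

lemma cut_bound {k M₀ q q₀ R : H →L[ℂ] H} (hqp : IsStarProjection q)
    (hq₀ : IsStarProjection q₀) (hq : q = (1 - R) * q₀) {c b : ℝ} (hk : ‖k * (1 - R)‖ ≤ c)
    (hM : ‖M₀‖ ≤ b) : ‖q * (k + M₀) * q‖ ≤ c + b := by
  rw [mul_add, add_mul]
  refine (norm_add_le _ _).trans (add_le_add ?_ ?_)
  · have e : q * k * q = q * (k * (1 - R)) * q₀ := by
      conv_lhs => arg 2; rw [hq]
      simp only [mul_assoc]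
    rw [e]
    exact (norm_mul_le _ _).trans ((mul_le_of_le_one_right (norm_nonneg _) hq₀.norm_le).trans
      ((norm_mul_le _ _).trans ((mul_le_of_le_one_left (norm_nonneg _) hqp.norm_le).trans hk)))
  · exact (norm_mul_le _ _).trans ((mul_le_of_le_one_right (norm_nonneg _) hqp.norm_le).trans
      ((norm_mul_le _ _).trans ((mul_le_of_le_one_left (norm_nonneg _) hqp.norm_le).trans hM)))

lemma norm_conj_le {p p' y : H →L[ℂ] H} (hp : IsStarProjection p) (hp' : IsStarProjection p') :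
    ‖p * y * p'‖ ≤ ‖y‖ :=
  (norm_mul_le _ _).trans ((mul_le_of_le_one_right (norm_nonneg _) hp'.norm_le).trans
    ((norm_mul_le _ _).trans (mul_le_of_le_one_left (norm_nonneg _) hp.norm_le)))

lemma norm_add_orth_le {e w a b : H →L[ℂ] H} (he : IsStarProjection e) (hw : IsStarProjection w)
    (hew : e * w = 0) (ha : e * a = a) (hae : a * e = a) (hb : w * b = b) (hbw : b * w = b)
    {t : ℝ} (hat : ‖a‖ ≤ t) (hbt : ‖b‖ ≤ t) : ‖a + b‖ ≤ t := by
  have ht : 0 ≤ t := (norm_nonneg _).trans hat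
  refine ContinuousLinearMap.opNorm_le_bound _ ht fun v => ?_
  refine (pow_le_pow_iff_left₀ (norm_nonneg _) (by positivity) two_ne_zero).1 ?_
  have hf : ∀ {S T : H →L[ℂ] H}, S * T = T → ∀ u, S (T u) = T u := fun h u =>
    congrArg (fun X : H →L[ℂ] H => X u) h
  have adj : ∀ {S : H →L[ℂ] H}, IsStarProjection S → ∀ u z, ⟪S u, z⟫_ℂ = ⟪u, S z⟫_ℂ := by
    intro S hS u z
    conv_lhs => rw [← hS.isSelfAdjoint.star_eq, ContinuousLinearMap.star_eq_adjoint,
      ContinuousLinearMap.adjoint_inner_left]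
  have horth : ∀ u z, ⟪e u, w z⟫_ℂ = 0 := fun u z => by
    rw [adj he, ← mul_apply_eq_comp, hew, zero_apply, inner_zero_right]
  have h1 : ‖(a + b) v‖ ^ 2 = ‖a v‖ ^ 2 + ‖b v‖ ^ 2 := by
    rw [add_apply, norm_add_sq (𝕜 := ℂ), ← hf ha v, ← hf hb v, horth]
    simp
  have h2 : ‖e v‖ ^ 2 + ‖w v‖ ^ 2 ≤ ‖v‖ ^ 2 := by
    have hee : IsStarProjection (e + w) := by
      have hwe : w * e = 0 := by
        have := congrArg star hew
        rwa [star_mul, star_zero, he.isSelfAdjoint.star_eq, hw.isSelfAdjoint.star_eq] at this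
      refine ⟨?_, he.isSelfAdjoint.add hw.isSelfAdjoint⟩
      show _ * _ = _
      simp [mul_add, add_mul, he.isIdempotentElem.eq, hw.isIdempotentElem.eq, hew, hwe]
    have h := pow_le_pow_left₀ (norm_nonneg _) (((e + w).le_opNorm v).trans
      (mul_le_of_le_one_left (norm_nonneg _) hee.norm_le)) 2
    rwa [add_apply, norm_add_sq (𝕜 := ℂ), horth, map_zero, mul_zero, add_zero] at h
  have h3 : ‖a v‖ ≤ t * ‖e v‖ := by
    conv_lhs => rw [← hae, mul_apply_eq_comp]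
    exact (a.le_opNorm _).trans (mul_le_mul_of_nonneg_right hat (norm_nonneg _))
  have h4 : ‖b v‖ ≤ t * ‖w v‖ := by
    conv_lhs => rw [← hbw, mul_apply_eq_comp]
    exact (b.le_opNorm _).trans (mul_le_mul_of_nonneg_right hbt (norm_nonneg _))
  have h3' := pow_le_pow_left₀ (norm_nonneg _) h3 2
  have h4' := pow_le_pow_left₀ (norm_nonneg _) h4 2
  rw [h1, mul_pow]
  rw [mul_pow] at h3' h4'
  nlinarith [mul_le_mul_of_nonneg_left h2 (sq_nonneg t)]

/-- the pieces on the whole space -/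
lemma block_identity {r : ℕ} {e z w qe q x a₁ a₂ : H →L[ℂ] H} (p Fp : Fin r → H →L[ℂ] H)
    (i₀ : Fin r) (hep : ∀ i, e * p i = p i) (hpe : ∀ i, p i * e = p i)
    (hwF : ∀ i, w * Fp i = Fp i) (hFw : ∀ i, Fp i * w = Fp i)
    (hew : e * w = 0) (hwe : w * e = 0) (hez : e * (z - e) = 0) (hze : (z - e) * e = 0)
    (hwz : w * (z - e) = 0) (hzw : (z - e) * w = 0)
    (h1 : qe * e = qe) (h1' : e * qe = qe) (h2 : q * w = q) (h2' : w * q = q)
    (ha₁ : e * a₁ = a₁) (ha₁' : a₁ * e = a₁) (ha₂ : w * a₂ = a₂) (ha₂' : a₂ * w = a₂) :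
    let P := fun i => p i + Fp i + if i = i₀ then z - e else 0
    (qe + q) * ((∑ i, P i * x * P i) - (a₁ + a₂)) * (qe + q) =
      qe * ((∑ i, p i * x * p i) - a₁) * qe + (q * (∑ i, Fp i * x * Fp i) * q - q * a₂ * q) +
        ((∑ i, qe * p i * x * Fp i * q) + ∑ i, q * Fp i * x * p i * qe) := by
  intro P
  have z1 : ∀ i, qe * Fp i = 0 := fun i => by
    rw [← h1, ← hwF i, mul_assoc, ← mul_assoc e, hew, zero_mul, mul_zero]
  have z2 : ∀ i, q * p i = 0 := fun i => by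
    rw [← h2, ← hep i, mul_assoc, ← mul_assoc w, hwe, zero_mul, mul_zero]
  have z3 : ∀ i, Fp i * qe = 0 := fun i => by
    rw [← h1', ← hFw i, mul_assoc, ← mul_assoc w, hwe, zero_mul, mul_zero]
  have z4 : ∀ i, p i * q = 0 := fun i => by
    rw [← h2', ← hpe i, mul_assoc, ← mul_assoc e, hew, zero_mul, mul_zero]
  have z5 : qe * (z - e) = 0 := by rw [← h1, mul_assoc, hez, mul_zero]
  have z6 : q * (z - e) = 0 := by rw [← h2, mul_assoc, hwz, mul_zero]
  have z7 : (z - e) * qe = 0 := by rw [← h1', ← mul_assoc, hze, zero_mul]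
  have z8 : (z - e) * q = 0 := by rw [← h2', ← mul_assoc, hzw, zero_mul]
  have lP : ∀ i, (qe + q) * P i = qe * p i + q * Fp i := by
    intro i
    simp only [P]
    split_ifs <;> simp [mul_add, add_mul, z1, z2, z5, z6]
  have rP : ∀ i, P i * (qe + q) = p i * qe + Fp i * q := by
    intro i
    simp only [P]
    split_ifs <;> simp [mul_add, add_mul, z3, z4, z7, z8]
  have ea : (qe + q) * (a₁ + a₂) * (qe + q) = qe * a₁ * qe + q * a₂ * q := by
    have y1 : qe * a₂ = 0 := by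
      rw [← h1, ← ha₂, mul_assoc, ← mul_assoc e, hew, zero_mul, mul_zero]
    have y2 : q * a₁ = 0 := by
      rw [← h2, ← ha₁, mul_assoc, ← mul_assoc w, hwe, zero_mul, mul_zero]
    have y3 : a₁ * q = 0 := by
      rw [← h2', ← ha₁', mul_assoc, ← mul_assoc e, hew, zero_mul, mul_zero]
    have y4 : a₂ * qe = 0 := by
      rw [← h1', ← ha₂', mul_assoc, ← mul_assoc w, hwe, zero_mul, mul_zero]
    simp [mul_add, add_mul, y1, y2, mul_assoc, y3, y4]
  have ei : ∀ i, (qe + q) * (P i * x * P i) * (qe + q) =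
      qe * (p i * x * p i) * qe + q * (Fp i * x * Fp i) * q +
        (qe * p i * x * Fp i * q + q * Fp i * x * p i * qe) := by
    intro i
    calc (qe + q) * (P i * x * P i) * (qe + q) = ((qe + q) * P i) * x * (P i * (qe + q)) := by
          simp only [mul_assoc]
      _ = _ := by
          rw [lP, rP]
          simp only [mul_add, add_mul, mul_assoc]
          abel
  rw [mul_sub, sub_mul, ea, Finset.mul_sum, Finset.sum_mul, Finset.sum_congr rfl fun i _ => ei i,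
    Finset.sum_add_distrib, Finset.sum_add_distrib, Finset.sum_add_distrib, mul_sub, sub_mul,
    Finset.mul_sum, Finset.sum_mul, Finset.mul_sum, Finset.sum_mul]
  abel

end Semi.Ctx

open Semi Semi.Ctx in
/-- So-paving passes from tracial to semifinite algebras. -/
theorem soPavable_semifinite {ε : ℝ} {r₀ r : ℕ} (hε : 0 < ε) (hr₀ : r₀ ≤ r)
    (hr : 16 / ε ≤ (r : ℝ))
    (hfin : ∀ (K : Type u) [NormedAddCommGroup K] [InnerProductSpace ℂ K] [CompleteSpace K]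
      (N : VonNeumannAlgebra K) (B : StarSubalgebra ℂ (K →L[ℂ] K)),
      HasFaithfulNormalTracialState N → IsMASA N B →
        ∀ y ∈ N, IsSelfAdjoint y → SoPavable N B y (ε / 2) r₀)
    (M : VonNeumannAlgebra H) (A : StarSubalgebra ℂ (H →L[ℂ] H))
    (hM : HasFaithfulNormalSemifiniteTrace M) (hA : IsMASA M A)
    (x : H →L[ℂ] H) (hxM : x ∈ M) (hx : IsSelfAdjoint x) : SoPavable M A x ε r := by
  classical
  obtain ⟨I, η, hsymm, hfaith, hsemi⟩ := hM
  set C : Ctx H := ⟨M, I, η, hsymm, hfaith, hsemi⟩ with hC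
  intro F δ hδ
  have hrpos : 0 < r := by
    rcases Nat.eq_zero_or_pos r with h | h
    · rw [h, Nat.cast_zero] at hr
      exact absurd hr (not_le.2 (by positivity))
    · exact h
  have hr' : (0 : ℝ) < r := Nat.cast_pos.2 hrpos
  let i₀ : Fin r := ⟨0, hrpos⟩
  have hA1 : (1 : H →L[ℂ] H) ∈ A := one_mem _
  rcases eq_or_ne x 0 with rfl | hx0
  · refine ⟨fun i => if i = i₀ then 1 else 0, fun i => ?_, fun i j hij => ?_, by simp, 0,
      zero_mem _, IsSelfAdjoint.zero _, le_rfl, 1, one_mem _, IsStarProjection.one _,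
      fun ξ _ => by simpa using hδ, by simp⟩
    · dsimp only
      split_ifs
      · exact ⟨hA1, IsStarProjection.one _⟩
      · exact ⟨zero_mem _, IsStarProjection.zero _⟩
    · by_cases h : i = i₀
      · subst h; simp [Ne.symm hij]
      · simp [h]
  obtain ⟨z, hzA, hzp, hze, hzapp⟩ := C.exists_finite_part (A := A) hA
  set w := 1 - z with hw
  have hwA : w ∈ A := sub_mem hA1 hzA
  have hwp : IsStarProjection w := hzp.one_sub
  have hnf : ∀ e ∈ A, IsStarProjection e → C.Fin2 e → w * e = 0 := fun e he hep hef => by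
    rw [hw, sub_mul, one_mul, hze e he hep hef, sub_self]
  obtain ⟨e, heA, hep, hef, heF⟩ := hzapp F (show 0 < δ / 4 by positivity)
  obtain ⟨p, a₁, qe, hp, hporth, hpsum, ha₁A, ha₁s, ha₁n, hea₁, hqeM, hqep, heqe, hqeF, hbd⟩ :=
    corner_pavable (r := r) (show (0 : ℝ) ≤ ε / 2 by positivity)
      (fun K _ _ _ N B hN hB y hy hys => (hfin K N B hN hB y hy hys).mono hr₀)
      hA heA hep hef hxM hx F (show 0 < δ / 4 by positivity)
  obtain ⟨q₂, hq₂M, hq₂p, hq₂f, hwq₂, hq₂F⟩ := C.exists_finite_approx (hA.1 hwA) hwp F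
    (show 0 < δ / 4 by positivity)
  obtain ⟨a₂, ha₂A, ha₂s, ha₂n, hwa₂, hlab⟩ :=
    exists_labels hA hwA hwp hnf hq₂M hq₂p hq₂f hwq₂ hx hxM hrpos
  have hqef : C.Fin2 qe := heqe ▸ hef.mul_right (hA.1 heA) hqeM
  have hpM : ∀ i, p i ∈ C.M := fun i => hA.1 (hp i).1
  set G : Fin r → H →L[ℂ] H := fun i => qe * p i * x with hGdef
  have hpx : ∀ i, ‖p i * x‖ ≤ ‖x‖ := fun i =>
    (norm_mul_le _ _).trans (mul_le_of_le_one_left (norm_nonneg _) (hp i).2.norm_le)
  have hG : ∀ i, ‖G i‖ ≤ ‖x‖ := fun i => by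
    rw [hGdef]
    dsimp only
    rw [mul_assoc]
    exact (norm_mul_le _ _).trans
      ((mul_le_of_le_one_left (norm_nonneg _) hqep.norm_le).trans (hpx i))
  have hGM : ∀ i, G i ∈ C.M := fun i => mul_mem (mul_mem hqeM (hpM i)) hxM
  have hGf : ∀ i, C.Fin2 (G i) := fun i =>
    (hqef.mul_right hqeM (hpM i)).mul_right (mul_mem hqeM (hpM i)) hxM
  have hG2 : ∀ i, C.n2 (G i) ≤ C.n2 qe * ‖x‖ := fun i => by
    rw [hGdef]
    dsimp only
    rw [mul_assoc]
    exact (n2_mul_right_le hqef hqeM (mul_mem (hpM i) hxM)).trans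
      (mul_le_mul_of_nonneg_left (hpx i) (C.n2_nonneg _))
  set c := ε / 4 * ‖x‖ with hc
  have hc0 : 0 < c := by have := norm_pos_iff.2 hx0; positivity
  obtain ⟨d, hd, hdq⟩ := C.exists_small_set F (show 0 < δ / 4 by positivity)
  obtain ⟨Q, L, hW, hCr⟩ := hlab G hGM hGf hG hG2 (show 0 < d * c / 3 by positivity)
  set Fp := fun i => Q.piece L i with hFp
  set P : Fin r → H →L[ℂ] H := fun i => p i + Fp i + if i = i₀ then z - e else 0 with hP
  set ρ : ℂ := ((1 / r : ℝ) : ℂ) with hρ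
  have comm : ∀ {u v : H →L[ℂ] H}, u ∈ A → v ∈ A → u * v = v * u := fun hu hv => hA.2.1 _ hu _ hv
  have hew : e * w = 0 := by rw [comm heA hwA, hnf e heA hep hef]
  have hwe : w * e = 0 := hnf e heA hep hef
  have hzme : z * e = e := hze e heA hep hef
  have hemz : e * z = e := by rw [comm heA hzA, hzme]
  have hez : e * (z - e) = 0 := by rw [mul_sub, hemz, hep.isIdempotentElem.eq, sub_self]
  have hze' : (z - e) * e = 0 := by rw [sub_mul, hzme, hep.isIdempotentElem.eq, sub_self]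
  have hwz0 : w * z = 0 := by rw [hw, sub_mul, one_mul, hzp.isIdempotentElem.eq, sub_self]
  have hwz : w * (z - e) = 0 := by rw [mul_sub, hwz0, hwe, sub_zero]
  have hzmA : z - e ∈ A := sub_mem hzA heA
  have hzw : (z - e) * w = 0 := by rw [comm hzmA hwA, hwz]
  have hzmp : IsStarProjection (z - e) := by
    refine ⟨?_, hzp.isSelfAdjoint.sub hep.isSelfAdjoint⟩
    show (z - e) * (z - e) = z - e
    rw [mul_sub (z - e), hze', sub_zero, sub_mul, hzp.isIdempotentElem.eq, hemz]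
  have hepi : ∀ i, e * p i = p i := fun i => by
    rw [← hpsum, Finset.sum_mul,
      Finset.sum_eq_single i (fun j _ hj => hporth j i hj) (by simp), (hp i).2.isIdempotentElem.eq]
  have hpie : ∀ i, p i * e = p i := fun i => by rw [comm (hp i).1 heA, hepi]
  have hFA : ∀ i, Fp i ∈ A := fun i => Q.piece_mem L i
  have hwF : ∀ i, w * Fp i = Fp i := fun i => Q.w_mul_piece L i
  have hFw : ∀ i, Fp i * w = Fp i := fun i => by rw [comm (hFA i) hwA, hwF]
  have hpF : ∀ i j, p i * Fp j = 0 := fun i j => by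
    rw [← hpie i, ← hwF j, mul_assoc, ← mul_assoc e, hew, zero_mul, mul_zero]
  have hpz : ∀ i, p i * (z - e) = 0 := fun i => by rw [← hpie i, mul_assoc, hez, mul_zero]
  have hFz : ∀ i, Fp i * (z - e) = 0 := fun i => by rw [← hFw i, mul_assoc, hwz, mul_zero]
  have hrem : ∀ i, (if i = i₀ then z - e else 0) ∈ A ∧
      IsStarProjection (if i = i₀ then z - e else 0) := fun i => by
    split_ifs
    · exact ⟨hzmA, hzmp⟩
    · exact ⟨zero_mem _, IsStarProjection.zero _⟩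
  have hPA : ∀ i, P i ∈ A := fun i => add_mem (add_mem (hp i).1 (hFA i)) (hrem i).1
  have hPorth : ∀ i j, P i * P j = if i = j then P i else 0 := by
    intro i j
    simp only [hP, mul_add, add_mul, hpF, comm (hFA _) (hp _).1]
    have hz1 : ∀ k, (z - e) * p k = 0 := fun k => by rw [comm hzmA (hp k).1, hpz]
    have hz2 : ∀ k, (z - e) * Fp k = 0 := fun k => by rw [comm hzmA (hFA k), hFz]
    have hz3 : (z - e) * (z - e) = z - e := hzmp.isIdempotentElem.eq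
    by_cases hij : i = j
    · subst hij
      simp only [if_true, (hp i).2.isIdempotentElem.eq,
        show Fp i * Fp i = Fp i from (Q.piece_proj L i).isIdempotentElem.eq]
      split_ifs <;> simp [hpz, hFz, hz1, hz2, hz3]
    · have hff : Fp i * Fp j = 0 := by
        show Q.piece L i * Q.piece L j = 0
        rw [Q.piece_mul_piece, if_neg hij]
      simp only [if_neg hij, hporth i j hij, hff]
      split_ifs with a b <;> first | exact absurd (a.trans b.symm) hij | simp [hpz, hFz, hz1, hz2]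
  have hPp : ∀ i, IsStarProjection (P i) := fun i => by
    refine ⟨?_, ((hp i).2.isSelfAdjoint.add (Q.piece_proj L i).isSelfAdjoint).add
      (hrem i).2.isSelfAdjoint⟩
    show P i * P i = P i
    rw [hPorth, if_pos rfl]
  have hPsum : ∑ i, P i = 1 := by
    simp only [hP, Finset.sum_add_distrib, hpsum, hFp, Q.sum_piece, Finset.sum_ite_eq',
      Finset.mem_univ, if_true, hw]
    abel
  have ha₁e : a₁ * e = a₁ := by rw [comm ha₁A heA, hea₁]
  have ha₂w : a₂ * w = a₂ := by rw [comm ha₂A hwA, hwa₂]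
  have hqee : qe * e = qe := by
    have := congrArg star heqe
    rwa [star_mul, hqep.isSelfAdjoint.star_eq, hep.isSelfAdjoint.star_eq] at this
  have hq₂w : q₂ * w = q₂ := by
    have := congrArg star hwq₂
    rwa [star_mul, hq₂p.isSelfAdjoint.star_eq, hwp.isSelfAdjoint.star_eq] at this
  have hid := block_identity (qe := qe) (q := q₂) (x := x) (z := z) p Fp i₀ hepi hpie hwF hFw
    hew hwe hez hze' hwz hzw hqee heqe hq₂w hwq₂ hea₁ ha₁e hwa₂ ha₂w
  dsimp only at hid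
  set q₀ := qe + q₂ with hq₀
  set T := q₀ * ((∑ i, P i * x * P i) - (a₁ + a₂)) * q₀ with hT
  set main := qe * ((∑ i, p i * x * p i) - a₁) * qe +
    ρ • ((q₂ * (x - a₂) * q₂) + (qe * x * q₂ + q₂ * x * qe)) with hmain
  set k₁ := q₂ * (∑ i, Fp i * x * Fp i) * q₂ - (ρ • (q₂ * x * q₂) +
    ((1 - 1 / r : ℝ) : ℂ) • (q₂ * a₂ * q₂)) with hk₁
  set k₂ := (∑ i, G i * Fp i * q₂) - ρ • (qe * x * q₂) with hk₂
  set k₃ := (∑ i, q₂ * Fp i * x * p i * qe) - ρ • (q₂ * x * qe) with hk₃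
  have hsplit : T = (k₁ + (k₂ + k₃)) + main := by
    rw [hid]
    simp only [hk₁, hk₂, hk₃, hmain, hGdef, mul_sub, sub_mul, smul_add, smul_sub]
    rw [hρ, show ((1 - 1 / r : ℝ) : ℂ) = 1 - ((1 / r : ℝ) : ℂ) by push_cast; ring, sub_smul,
      one_smul]
    abel
  have hk₂star : star k₂ = k₃ := by
    simp only [hk₂, hk₃, hGdef, star_sub, star_sum, star_smul, star_mul, Complex.star_def, hρ,
      Complex.conj_ofReal, hqep.isSelfAdjoint.star_eq, hq₂p.isSelfAdjoint.star_eq, hx.star_eq,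
      mul_assoc]
    congr 1
    exact Finset.sum_congr rfl fun i _ => by
      rw [(hp i).2.isSelfAdjoint.star_eq, (Q.piece_proj L i).isSelfAdjoint.star_eq]
  have hk₁star : star k₁ = k₁ := by
    simp only [hk₁, star_sub, star_add, star_smul, star_mul, star_sum, Complex.star_def, hρ,
      Complex.conj_ofReal, hq₂p.isSelfAdjoint.star_eq, hx.star_eq, ha₂s.star_eq, hFp,
      WPart.piece_star, mul_assoc]
  set k := k₁ + (k₂ + k₃) with hk
  have hksa : IsSelfAdjoint k := by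
    show star k = k
    rw [hk, star_add, star_add, hk₁star, hk₂star, ← hk₂star, star_star]
    abel
  have hG₂M : ∀ i, G i * Fp i * q₂ ∈ C.M := fun i =>
    mul_mem (mul_mem (hGM i) (hA.1 (hFA i))) hq₂M
  have hFFM : ∀ i, Fp i * x * Fp i ∈ C.M := fun i =>
    mul_mem (mul_mem (hA.1 (hFA i)) hxM) (hA.1 (hFA i))
  have hsm : ∀ (c : ℂ) {y : H →L[ℂ] H}, y ∈ C.M → c • y ∈ C.M := fun c _ hy =>
    SMulMemClass.smul_mem (s := C.M.toStarSubalgebra) c hy
  have hk₁M : k₁ ∈ C.M := sub_mem (mul_mem (mul_mem hq₂M (sum_mem fun i _ => hFFM i)) hq₂M)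
    (add_mem (hsm _ (mul_mem (mul_mem hq₂M hxM) hq₂M))
      (hsm _ (mul_mem (mul_mem hq₂M (hA.1 ha₂A)) hq₂M)))
  have hk₂M : k₂ ∈ C.M := sub_mem (sum_mem fun i _ => hG₂M i)
    (hsm _ (mul_mem (mul_mem hqeM hxM) hq₂M))
  have hk₃M : k₃ ∈ C.M := hk₂star ▸ star_mem hk₂M
  have hkM : k ∈ C.M := add_mem hk₁M (add_mem hk₂M hk₃M)
  have hk₁f : C.Fin2 k₁ :=
    (hq₂f.mul_left _).sub (((hq₂f.mul_left _).smul _).add ((hq₂f.mul_left _).smul _))
  have hk₂f : C.Fin2 k₂ :=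
    (fin2_sum _ fun i _ => hq₂f.mul_left _).sub ((hq₂f.mul_left _).smul _)
  have hk₃f : C.Fin2 k₃ :=
    (fin2_sum _ fun i _ => hqef.mul_left _).sub ((hqef.mul_left _).smul _)
  have hkf : C.Fin2 k := hk₁f.add (hk₂f.add hk₃f)
  have hn₁ : C.n2 k₁ ≤ d * c / 3 := by
    rw [← norm_l2_eq, hk₁, l2_sub (hq₂f.mul_left _)
      (((hq₂f.mul_left _).smul _).add ((hq₂f.mul_left _).smul _)),
      l2_add ((hq₂f.mul_left _).smul _) ((hq₂f.mul_left _).smul _), l2_smul (hq₂f.mul_left _),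
      l2_smul (hq₂f.mul_left _)]
    exact hW
  have hGsum : ∑ i, G i * q₂ = qe * x * q₂ := by
    rw [hGdef, ← Finset.sum_mul, ← Finset.sum_mul, ← Finset.mul_sum, hpsum, hqee]
  have hn₂ : C.n2 k₂ ≤ d * c / 3 := by
    rw [← norm_l2_eq, hk₂, l2_sub (fin2_sum _ fun i _ => hq₂f.mul_left _)
      ((hq₂f.mul_left _).smul _), l2_smul (hq₂f.mul_left _), ← hGsum]
    exact hCr
  have hn₃ : C.n2 k₃ ≤ d * c / 3 := by rw [← hk₂star, n2_star hk₂f hk₂M]; exact hn₂
  have hnk : C.n2 k ≤ d * c := by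
    rw [← norm_l2_eq, hk, l2_add hk₁f (hk₂f.add hk₃f), l2_add hk₂f hk₃f]
    refine (norm_add_le _ _).trans ?_
    have := norm_add_le (C.l2 k₂) (C.l2 k₃)
    simp only [norm_l2_eq] at *
    linarith
  have hq₀p : IsStarProjection q₀ := by
    have z1 : qe * q₂ = 0 := by
      rw [← hqee, ← hwq₂, mul_assoc, ← mul_assoc e, hew, zero_mul, mul_zero]
    have z2 : q₂ * qe = 0 := by
      rw [← hq₂w, ← heqe, mul_assoc, ← mul_assoc w, hwe, zero_mul, mul_zero]
    refine ⟨?_, hqep.isSelfAdjoint.add hq₂p.isSelfAdjoint⟩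
    show (qe + q₂) * (qe + q₂) = qe + q₂
    simp [mul_add, add_mul, z1, z2, hqep.isIdempotentElem.eq, hq₂p.isIdempotentElem.eq]
  have hq₀k : q₀ * k = k := by
    have e1 : q₀ * main = main := by
      have i1 : q₀ * qe = qe := by
        rw [hq₀, add_mul, hqep.isIdempotentElem.eq, ← hq₂w, ← heqe, mul_assoc,
          ← mul_assoc w, hwe, zero_mul, mul_zero, add_zero]
      have i2 : q₀ * q₂ = q₂ := by
        rw [hq₀, add_mul, hq₂p.isIdempotentElem.eq, ← hqee, ← hwq₂, mul_assoc,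
          ← mul_assoc e, hew, zero_mul, mul_zero, zero_add]
      simp only [hmain, mul_add, mul_smul_comm, ← mul_assoc, i1, i2]
    have e2 : q₀ * T = T := by
      simp only [hT, ← mul_assoc, hq₀p.isIdempotentElem.eq]
    rw [eq_sub_of_add_eq hsplit.symm, mul_sub, e1, e2]
  obtain ⟨R, hRM, hRp, hkR, hRv, hwR, -⟩ := cut C.M hksa hkM hc0
  have hq₀R : q₀ * R = R := hwR q₀ hq₀k
  have hRq₀ : R * q₀ = R := by
    have := congrArg star hq₀R
    rwa [star_mul, hq₀p.isSelfAdjoint.star_eq, hRp.isSelfAdjoint.star_eq] at this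
  set q := q₀ - R with hq
  have hqp : IsStarProjection q := by
    refine ⟨?_, hq₀p.isSelfAdjoint.sub hRp.isSelfAdjoint⟩
    show (q₀ - R) * (q₀ - R) = q₀ - R
    simp [mul_sub, sub_mul, hq₀R, hRq₀, hq₀p.isIdempotentElem.eq, hRp.isIdempotentElem.eq]
  have hqeq : q = (1 - R) * q₀ := by rw [sub_mul, one_mul, hRq₀]
  refine ⟨P, fun i => ⟨hPA i, hPp i⟩, fun i j hij => by rw [hPorth, if_neg hij], hPsum, a₁ + a₂,
    add_mem ha₁A ha₂A, ha₁s.add ha₂s,
    norm_add_orth_le hep hwp hew hea₁ ha₁e hwa₂ ha₂w ha₁n ha₂n, q,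
    sub_mem (add_mem hqeM hq₂M) hRM, hqp, fun ξ hξ => ?_, ?_⟩
  · have hR2 : C.n2 R ≤ d := by
      refine (n2_le_of_le hkf (inv_nonneg.2 hc0.le) fun i => hRv _).trans ?_
      rw [inv_mul_le_iff₀ hc0, mul_comm]
      exact hnk
    have hR3 := hdq ξ hξ R hRM (hkf.of_le c⁻¹ fun i => hRv _) hRp.norm_le hR2
    have e1 : (1 : H →L[ℂ] H) - q = (z - e) + (e - qe) + (w - q₂) + R := by
      rw [hq, hq₀, hw]; abel
    rw [e1, add_apply, add_apply, add_apply]
    have := norm_add₃_le (a := (z - e) ξ) (b := (e - qe) ξ) (c := (w - q₂) ξ)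
    have := norm_add_le ((z - e) ξ + (e - qe) ξ + (w - q₂) ξ) (R ξ)
    linarith [heF ξ hξ, hqeF ξ hξ, hq₂F ξ hξ]
  · have e1 : q * ((∑ i, P i * x * P i) - (a₁ + a₂)) * q = q * (k + main) * q := by
      rw [← hsplit, hT]
      have i1 : q * q₀ = q := by rw [hqeq, mul_assoc, hq₀p.isIdempotentElem.eq]
      have i2 : q₀ * q = q := by rw [hq, mul_sub, hq₀p.isIdempotentElem.eq, hq₀R]
      simp only [← mul_assoc, i1]
      rw [mul_assoc _ q₀ q, i2]
    rw [e1]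
    have hρn : ‖ρ‖ = 1 / r := by
      rw [hρ, Complex.norm_real, Real.norm_eq_abs, abs_of_nonneg (by positivity)]
    have hmn : ‖main‖ ≤ ε / 2 * ‖x‖ + 1 / r * (4 * ‖x‖) := by
      rw [hmain]
      refine (norm_add_le _ _).trans (add_le_add hbd ?_)
      rw [norm_smul, hρn]
      refine mul_le_mul_of_nonneg_left ?_ (by positivity)
      have n1 : ‖q₂ * (x - a₂) * q₂‖ ≤ 2 * ‖x‖ :=
        (norm_conj_le hq₂p hq₂p).trans ((norm_sub_le _ _).trans (by linarith))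
      have n2' : ‖qe * x * q₂‖ ≤ ‖x‖ := norm_conj_le hqep hq₂p
      have n3 : ‖q₂ * x * qe‖ ≤ ‖x‖ := norm_conj_le hq₂p hqep
      refine (norm_add_le _ _).trans ?_
      have := norm_add_le (qe * x * q₂) (q₂ * x * qe)
      linarith
    refine (cut_bound hqp hq₀p hqeq hkR hmn).trans ?_
    have h1 : 1 / (r : ℝ) ≤ ε / 16 := by
      rw [div_le_div_iff₀ hr' (by norm_num)]
      rw [div_le_iff₀ hε] at hr
      linarith
    have h2 : 1 / (r : ℝ) * (4 * ‖x‖) ≤ ε / 16 * (4 * ‖x‖) :=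
      mul_le_mul_of_nonneg_right h1 (by positivity)
    rw [hc]
    linarith

end Vale.Agent.P078
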