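import Mathlib
import Vale.Agent.P078.Bridge
import Vale.Agent.P078.SemiMain
import Vale.Agent.P078.ApproxDefs

/-! So-paving passes from semifinite algebras to approximately semifinite inclusions, among them
inclusions into algebras of type III. -/

noncomputable section

open scoped InnerProductSpace NNReal ENNReal

namespace Vale.Agent.P078

universe u

variable {H : Type u} [NormedAddCommGroup H] [InnerProductSpace ℂ H] [CompleteSpace H]

namespace Approx

variable {η : ℕ → H}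

omit [CompleteSpace H] in
lemma summable_inner (hη : Summable fun n => ‖η n‖ ^ 2) (T : H →L[ℂ] H) :
    Summable fun n => ⟪η n, T (η n)⟫_ℂ := by
  refine Summable.of_norm_bounded (hη.mul_left ‖T‖) fun n => ?_
  refine (norm_inner_le_norm _ _).trans ?_
  calc ‖η n‖ * ‖T (η n)‖ ≤ ‖η n‖ * (‖T‖ * ‖η n‖) := by gcongr; exact T.le_opNorm _
    _ = ‖T‖ * ‖η n‖ ^ 2 := by ring

/-- the squared two norm -/
def phiSq (η : ℕ → H) (T : H →L[ℂ] H) : ℝ := ∑' n, ‖T (η n)‖ ^ 2

lemma phiSq_eq (hη : Summable fun n => ‖η n‖ ^ 2) (T : H →L[ℂ] H) :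
    phiSq η T = (∑' n, ⟪η n, (star T * T) (η n)⟫_ℂ).re := by
  rw [phiSq, Complex.re_tsum (summable_inner hη _)]
  refine tsum_congr fun n => ?_
  rw [mul_apply_eq_comp, ContinuousLinearMap.star_eq_adjoint,
    ContinuousLinearMap.adjoint_inner_right, inner_self_eq_norm_sq_to_K]
  norm_cast

lemma norm_sum_proj_sq {r : ℕ} (p : Fin r → (H →L[ℂ] H)) (hp : ∀ i, IsStarProjection (p i))
    (ho : ∀ i j, i ≠ j → p i * p j = 0) (w : Fin r → H) :
    ‖∑ i, p i (w i)‖ ^ 2 ≤ ∑ i, ‖w i‖ ^ 2 := by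
  have h : ∀ i j, i ≠ j → ⟪p i (w i), p j (w j)⟫_ℂ = 0 := fun i j hij => by
    rw [← ContinuousLinearMap.adjoint_inner_right, ← ContinuousLinearMap.star_eq_adjoint,
      (hp i).isSelfAdjoint.star_eq, ← mul_apply_eq_comp, ho i j hij]
    simp
  have e : ‖∑ i, p i (w i)‖ ^ 2 = ∑ i, ‖p i (w i)‖ ^ 2 := by
    rw [← inner_self_eq_norm_sq (𝕜 := ℂ), sum_inner, map_sum]
    refine Finset.sum_congr rfl fun i _ => ?_
    rw [inner_sum, Finset.sum_eq_single i (fun j _ hj => h i j hj.symm) (by simp),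
      inner_self_eq_norm_sq]
  rw [e]
  exact Finset.sum_le_sum fun i _ => pow_le_pow_left₀ (norm_nonneg _)
    ((p i).le_opNorm_of_le le_rfl |>.trans (mul_le_of_le_one_left (norm_nonneg _) (hp i).norm_le)) 2

/-- pinching by a centralised partition does not increase the two norm -/
lemma phiSq_pinch {M : VonNeumannAlgebra H} {A : StarSubalgebra ℂ (H →L[ℂ] H)}
    (hAM : A ≤ M.toStarSubalgebra) (hη : Summable fun n => ‖η n‖ ^ 2)
    (hc : ∀ a ∈ A, ∀ x ∈ M,
      (∑' n, ⟪η n, (a * x) (η n)⟫_ℂ) = ∑' n, ⟪η n, (x * a) (η n)⟫_ℂ)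
    {d : H →L[ℂ] H} (hd : d ∈ M) {r : ℕ} (p : Fin r → (H →L[ℂ] H))
    (hp : ∀ i, p i ∈ A ∧ IsStarProjection (p i)) (ho : ∀ i j, i ≠ j → p i * p j = 0)
    (hs : ∑ i, p i = 1) : phiSq η (∑ i, p i * d * p i) ≤ phiSq η d := by
  have hsq : ∀ T : H →L[ℂ] H, Summable fun n => ‖T (η n)‖ ^ 2 := fun T => Bridge.summable_sq hη T
  have h1 : phiSq η (∑ i, p i * d * p i) ≤ ∑ i, phiSq η (d * p i) := by
    simp only [phiSq]
    rw [← Summable.tsum_finsetSum fun i _ => hsq _]
    refine Summable.tsum_le_tsum (fun n => ?_) (hsq _) (summable_sum fun i _ => hsq _)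
    rw [sum_apply]
    simp only [mul_apply_eq_comp]
    exact norm_sum_proj_sq p (fun i => (hp i).2) ho _
  have h2 : ∀ i, phiSq η (d * p i) = (∑' n, ⟪η n, (star d * d * p i) (η n)⟫_ℂ).re := fun i => by
    have hm : star d * d * p i ∈ M := mul_mem (mul_mem (star_mem hd) hd) (hAM (hp i).1)
    have e := hc _ (hp i).1 _ hm
    rw [mul_assoc (star d * d), (hp i).2.isIdempotentElem.eq] at e
    rw [phiSq_eq hη, star_mul, (hp i).2.isSelfAdjoint.star_eq, ← e]
    simp only [mul_assoc]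
  refine h1.trans_eq ?_
  rw [Finset.sum_congr rfl fun i _ => h2 i, phiSq_eq hη, ← Complex.re_sum,
    ← Summable.tsum_finsetSum fun i _ => summable_inner hη _]
  congr 1
  refine tsum_congr fun n => ?_
  rw [← inner_sum, ← sum_apply, ← Finset.mul_sum, hs, mul_one]

/-- bounded elements of small two norm are small on any finite set of vectors -/
lemma exists_small {M : VonNeumannAlgebra H} (hη : Summable fun n => ‖η n‖ ^ 2)
    (hf : ∀ x ∈ M, (∀ n, x (η n) = 0) → x = 0) {K : ℝ} (hK : 0 ≤ K) (F : Finset H) {δ : ℝ}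
    (hδ : 0 < δ) :
    ∃ t > 0, ∀ W ∈ M, ‖W‖ ≤ K → phiSq η W ≤ t → ∀ ξ ∈ F, ‖W ξ‖ < δ := by
  classical
  have key : ∀ v ∈ (Submodule.span ℂ {v : H | ∃ y ∈ M.commutant, ∃ n, v = y (η n)} :
      Submodule ℂ H), ∀ e > 0, ∃ t > 0, ∀ W ∈ M, phiSq η W ≤ t → ‖W v‖ < e := by
    intro v hv
    induction hv using Submodule.span_induction with
    | mem v hv =>
      obtain ⟨y, hy, n, rfl⟩ := hv
      intro e he
      refine ⟨(e / (‖y‖ + 1)) ^ 2, by positivity, fun W hW hle => ?_⟩
      have h2 : W (y (η n)) = y (W (η n)) :=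
        (congrArg (fun T : H →L[ℂ] H => T (η n)) (Bridge.commute_of_mem hW hy)).symm
      have h3 : ‖W (η n)‖ ^ 2 ≤ phiSq η W :=
        (Bridge.summable_sq hη W).le_tsum n fun j _ => sq_nonneg _
      have h4 : ‖W (η n)‖ ≤ e / (‖y‖ + 1) :=
        pow_le_pow_iff_left₀ (norm_nonneg _) (by positivity) two_ne_zero |>.1 (h3.trans hle)
      rw [h2]
      calc ‖y (W (η n))‖ ≤ ‖y‖ * ‖W (η n)‖ := y.le_opNorm _
        _ ≤ ‖y‖ * (e / (‖y‖ + 1)) := by gcongr
        _ < e := by
          rw [mul_div_assoc', div_lt_iff₀ (by positivity)]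
          nlinarith [norm_nonneg y]
    | zero => exact fun e he => ⟨1, one_pos, fun W _ _ => by simpa using he⟩
    | add a b _ _ ha hb =>
      intro e he
      obtain ⟨t₁, ht₁, h₁⟩ := ha (e / 2) (half_pos he)
      obtain ⟨t₂, ht₂, h₂⟩ := hb (e / 2) (half_pos he)
      refine ⟨min t₁ t₂, lt_min ht₁ ht₂, fun W hW hle => ?_⟩
      rw [map_add]
      exact (norm_add_le _ _).trans_lt (by
        linarith [h₁ W hW (hle.trans (min_le_left _ _)), h₂ W hW (hle.trans (min_le_right _ _))])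
    | smul c a _ ha =>
      intro e he
      obtain ⟨t, ht, h⟩ := ha (e / (‖c‖ + 1)) (by positivity)
      refine ⟨t, ht, fun W hW hle => ?_⟩
      rw [map_smul, norm_smul]
      have := h W hW hle
      rw [lt_div_iff₀ (by positivity)] at this
      nlinarith [norm_nonneg c, norm_nonneg (W a)]
  induction F using Finset.induction_on with
  | empty => exact ⟨1, one_pos, by simp⟩
  | insert ξ F _ ih =>
    obtain ⟨t, ht, h⟩ := ih
    obtain ⟨v, hv, hvξ⟩ := Metric.mem_closure_iff.1 (Bridge.dense_commutant_span M η hf ξ)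
      (δ / (2 * (K + 1))) (by positivity)
    obtain ⟨t', ht', h'⟩ := key v hv (δ / 2) (half_pos hδ)
    refine ⟨min t t', lt_min ht ht', fun W hW hWK hle ζ hζ => ?_⟩
    rcases Finset.mem_insert.1 hζ with rfl | hζ
    · have h3 : ‖W (ζ - v)‖ ≤ δ / 2 := by
        refine (W.le_of_opNorm_le hWK _).trans ?_
        rw [dist_eq_norm, lt_div_iff₀ (by positivity)] at hvξ
        nlinarith [norm_nonneg (ζ - v)]
      calc ‖W ζ‖ = ‖W (ζ - v) + W v‖ := by rw [← map_add, sub_add_cancel]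
        _ ≤ ‖W (ζ - v)‖ + ‖W v‖ := norm_add_le _ _
        _ < δ := by linarith [h' W hW (hle.trans (min_le_right _ _))]
    · exact h W hW hWK (hle.trans (min_le_left _ _)) ζ hζ

end Approx

open Approx in
/-- So-paving passes from semifinite algebras to approximately semifinite inclusions. -/
theorem soPavable_approx {ε : ℝ} (hε : 0 < ε) {r : ℕ}
    (hsemi : ∀ (B : VonNeumannAlgebra H) (A : StarSubalgebra ℂ (H →L[ℂ] H)),
      HasFaithfulNormalSemifiniteTrace B → IsMASA B A →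
        ∀ y ∈ B, IsSelfAdjoint y → SoPavable B A y (ε / 2) r)
    (M : VonNeumannAlgebra H) (A : StarSubalgebra ℂ (H →L[ℂ] H))
    (hM : IsApproxSemifinite M A) (hA : IsMASA M A)
    (x : H →L[ℂ] H) (hxM : x ∈ M) (hx : IsSelfAdjoint x) : SoPavable M A x ε r := by
  classical
  obtain ⟨η, hη, hf, hc, happ⟩ := hM
  intro F δ hδ
  have masa : ∀ B : VonNeumannAlgebra H, B.toStarSubalgebra ≤ M.toStarSubalgebra →
      A ≤ B.toStarSubalgebra → IsMASA B A := fun B hBM hAB =>
    ⟨hAB, hA.2.1, fun D hD hcomm hAD => hA.2.2 D (hD.trans hBM) hcomm hAD⟩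
  rcases eq_or_ne x 0 with rfl | hx0
  · obtain ⟨B, hBM, hAB, hBt, y, hy, hys, hyn, -⟩ :=
      happ 0 (zero_mem _) (IsSelfAdjoint.zero _) 1 one_pos
    obtain rfl : y = 0 := by simpa using hyn
    obtain ⟨p, hp, ho, hs, a, ha, has, han, q, hq, hqp, hqF, hb⟩ :=
      hsemi B A hBt (masa B hBM hAB) 0 hy hys F δ hδ
    exact ⟨p, hp, ho, hs, a, ha, has, han, q, hBM hq, hqp, hqF, by simpa using hb⟩
  have hxpos : 0 < ‖x‖ := norm_pos_iff.2 hx0
  set c := ε / 2 * ‖x‖ with hcdef
  have hcpos : 0 < c := by positivity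
  set K : ℝ := r * (2 * ‖x‖) with hKdef
  have hK : 0 ≤ K := by positivity
  obtain ⟨t, ht, hsmall⟩ := exists_small hη hf hK F (show 0 < c * δ / 4 by positivity)
  obtain ⟨B, hBM, hAB, hBt, y, hy, hys, hyn, hyt⟩ := happ x hxM hx t ht
  set δ' := min (δ / 4) (c * δ / (4 * (K + 1))) with hδ'
  obtain ⟨p, hp, ho, hs, a, ha, has, han, q, hq, hqp, hqF, hb⟩ :=
    hsemi B A hBt (masa B hBM hAB) y hy hys F δ' (lt_min (by positivity) (by positivity))
  set W := ∑ i, p i * (x - y) * p i with hW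
  have hdM : x - y ∈ M := sub_mem hxM (hBM hy)
  have hWM : W ∈ M := sum_mem fun i _ =>
    mul_mem (mul_mem (hA.1 (hp i).1) hdM) (hA.1 (hp i).1)
  have hWs : IsSelfAdjoint W := by
    rw [IsSelfAdjoint, hW, star_sum]
    refine Finset.sum_congr rfl fun i _ => ?_
    rw [star_mul, star_mul, star_sub, hx.star_eq, hys.star_eq, (hp i).2.isSelfAdjoint.star_eq,
      mul_assoc]
  have hWn : ‖W‖ ≤ K := by
    refine (norm_sum_le _ _).trans ?_
    calc ∑ i, ‖p i * (x - y) * p i‖ ≤ ∑ _i : Fin r, 2 * ‖x‖ := by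
          refine Finset.sum_le_sum fun i _ => ?_
          calc ‖p i * (x - y) * p i‖ ≤ ‖p i‖ * ‖x - y‖ * ‖p i‖ :=
                (norm_mul_le _ _).trans (mul_le_mul_of_nonneg_right (norm_mul_le _ _)
                  (norm_nonneg _))
            _ ≤ 1 * ‖x - y‖ * 1 := by
                gcongr <;> exact (hp i).2.norm_le
            _ ≤ 2 * ‖x‖ := by linarith [norm_sub_le x y]
      _ = K := by simp [hKdef]
  have hWF : ∀ ξ ∈ F, ‖W ξ‖ < c * δ / 4 :=
    hsmall W hWM hWn ((phiSq_pinch hA.1 hη hc hdM p hp ho hs).trans hyt)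
  set k := q * W * q with hk
  have hks : IsSelfAdjoint k := by
    rw [IsSelfAdjoint, hk, star_mul, star_mul, hWs.star_eq, hqp.isSelfAdjoint.star_eq, mul_assoc]
  have hkM : k ∈ M := mul_mem (mul_mem (hBM hq) hWM) (hBM hq)
  obtain ⟨R, hRM, hRp, hkR, hRv, hwR, -⟩ := Semi.cut M hks hkM hcpos
  have hqk : q * k = k := by
    rw [hk, ← mul_assoc, ← mul_assoc, hqp.isIdempotentElem.eq]
  have hqR : q * R = R := hwR q hqk
  have hRq : R * q = R := by
    have := congrArg star hqR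
    rwa [star_mul, hqp.isSelfAdjoint.star_eq, hRp.isSelfAdjoint.star_eq] at this
  have he : IsStarProjection (q - R) := by
    constructor
    · show (q - R) * (q - R) = q - R
      rw [sub_mul, mul_sub, mul_sub, hqR, hRq, hqp.isIdempotentElem.eq, hRp.isIdempotentElem.eq,
        sub_self, sub_zero]
    · exact hqp.isSelfAdjoint.sub hRp.isSelfAdjoint
  have heq : (q - R) * q = q - R := by rw [sub_mul, hRq, hqp.isIdempotentElem.eq]
  have hqe : q * (q - R) = q - R := by rw [mul_sub, hqR, hqp.isIdempotentElem.eq]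
  refine ⟨p, hp, ho, hs, a, ha, has, han.trans hyn, q - R, sub_mem (hBM hq) hRM, he,
    fun ξ hξ => ?_, ?_⟩
  · have h1 : ‖(1 - q) ξ‖ < δ' := hqF ξ hξ
    have h2 : ‖k ξ‖ ≤ ‖W ξ‖ + K * ‖(1 - q) ξ‖ := by
      rw [hk, mul_apply_eq_comp, mul_apply_eq_comp]
      refine (q.le_of_opNorm_le hqp.norm_le _).trans ?_
      rw [one_mul, show q ξ = ξ - (1 - q) ξ by simp, map_sub]
      exact (norm_sub_le _ _).trans (by gcongr; exact W.le_of_opNorm_le hWn _)
    have h3 : ‖(1 - (q - R)) ξ‖ ≤ ‖(1 - q) ξ‖ + ‖R ξ‖ := by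
      rw [show (1 : H →L[ℂ] H) - (q - R) = (1 - q) + R by abel, add_apply]
      exact norm_add_le _ _
    have h4 : ‖R ξ‖ ≤ c⁻¹ * ‖k ξ‖ := hRv ξ
    have h5 : δ' ≤ δ / 4 := min_le_left _ _
    have h6 : (K + 1) * δ' ≤ c * δ / 4 := by
      have := min_le_right (δ / 4) (c * δ / (4 * (K + 1)))
      rw [← hδ', le_div_iff₀ (by positivity)] at this
      linarith
    have h7 : ‖k ξ‖ ≤ c * δ / 2 := by
      nlinarith [hWF ξ hξ, norm_nonneg ((1 - q) ξ)]
    have h8 : c⁻¹ * ‖k ξ‖ ≤ δ / 2 := by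
      rw [inv_mul_le_iff₀ hcpos]
      linarith
    linarith
  · set G := (∑ i, p i * y * p i) - a with hG
    have e1 : (∑ i, p i * x * p i) - a = G + W := by
      rw [hG, hW, show (∑ i, p i * (x - y) * p i) =
        (∑ i, p i * x * p i) - ∑ i, p i * y * p i by
          rw [← Finset.sum_sub_distrib]
          exact Finset.sum_congr rfl fun i _ => by rw [mul_sub, sub_mul]]
      abel
    rw [e1, mul_add, add_mul]
    refine (norm_add_le _ _).trans ?_
    have g1 : ‖(q - R) * G * (q - R)‖ ≤ ε / 2 * ‖x‖ := by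
      have : (q - R) * G * (q - R) = (q - R) * (q * G * q) * (q - R) := by
        have e : (q - R) * (q * G * q) * (q - R) = ((q - R) * q) * G * (q * (q - R)) := by
          simp only [mul_assoc]
        rw [e, heq, hqe]
      rw [this]
      calc ‖(q - R) * (q * G * q) * (q - R)‖
          ≤ ‖q - R‖ * ‖q * G * q‖ * ‖q - R‖ :=
            (norm_mul_le _ _).trans (mul_le_mul_of_nonneg_right (norm_mul_le _ _) (norm_nonneg _))
        _ ≤ 1 * ‖q * G * q‖ * 1 := by gcongr <;> exact he.norm_le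
        _ ≤ ε / 2 * ‖x‖ := by
            rw [one_mul, mul_one]
            exact hb.trans (mul_le_mul_of_nonneg_left hyn (by positivity))
    have g2 : ‖(q - R) * W * (q - R)‖ ≤ c := by
      have e : (q - R) * W * (q - R) = (q - R) * (k * (1 - R)) := by
        rw [hk]
        calc (q - R) * W * (q - R) = ((q - R) * q) * W * (q - R) := by rw [heq]
          _ = (q - R) * (q * W * (q - q * R)) := by rw [hqR]; simp only [mul_assoc]
          _ = (q - R) * (q * W * q * (1 - R)) := by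
              rw [mul_assoc (q * W) q, mul_sub q 1 R, mul_one]
      rw [e]
      exact (norm_mul_le _ _).trans ((mul_le_of_le_one_left (norm_nonneg _) he.norm_le).trans hkR)
    linarith

/-- tracial algebras are approximately semifinite over each of their maximal abelian subalgebras -/
lemma isApproxSemifinite_of_tracial {M : VonNeumannAlgebra H}
    {A : StarSubalgebra ℂ (H →L[ℂ] H)} (hA : IsMASA M A)
    (hT : HasFaithfulNormalTracialState M) (hS : HasFaithfulNormalSemifiniteTrace M) :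
    IsApproxSemifinite M A := by
  obtain ⟨η, hη, -, hcomm, hfaith⟩ := hT
  exact ⟨η, hη, hfaith, fun a ha x hx => hcomm a (hA.1 ha) x hx,
    fun x hx hxs t ht => ⟨M, le_rfl, hA.1, hS, x, hx, hxs, le_rfl, by simpa using ht.le⟩⟩

end Vale.Agent.P078
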