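import Mathlib
import Vale.Agent.P078.Trace

/-! The maximal abelian subalgebra, spectral projections and the conditional expectation. -/

noncomputable section

open scoped ComplexOrder
open Filter Topology

set_option linter.unusedSectionVars false

namespace Vale.Agent.P078

universe u v

variable {M : Type u} [CStarAlgebra M] [PartialOrder M] [StarOrderedRing M]
  {Ω : Type v} [TopologicalSpace Ω] [CompactSpace Ω] [T2Space Ω] (T : TMasa M Ω)

/-- the squareroot of a continuous function -/
def csqrt (f : C(Ω, ℝ)) : C(Ω, ℝ) := ⟨fun ω => Real.sqrt (f ω), by fun_prop⟩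

lemma csqrt_mul_self {f : C(Ω, ℝ)} (hf : 0 ≤ f) : csqrt f * csqrt f = f := by
  ext ω
  exact Real.mul_self_sqrt (hf ω)

namespace TMasa

lemma star_emb (f : C(Ω, ℝ)) : star (T.emb f) = T.emb f := (T.emb_selfAdjoint f).star_eq

lemma emb_nonneg {f : C(Ω, ℝ)} (hf : 0 ≤ f) : 0 ≤ T.emb f := by
  rw [← csqrt_mul_self hf, map_mul]
  nth_rewrite 1 [← T.star_emb]
  exact star_mul_self_nonneg _

lemma emb_mono {f g : C(Ω, ℝ)} (h : f ≤ g) : T.emb f ≤ T.emb g := by
  have := T.emb_nonneg (sub_nonneg.2 h)
  rwa [map_sub, sub_nonneg] at this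

lemma emb_inj {f g : C(Ω, ℝ)} (h : T.emb f = T.emb g) : f = g := by
  have : ‖f - g‖ = 0 := by rw [← T.emb_norm, map_sub, h, sub_self, norm_zero]
  exact sub_eq_zero.1 (norm_eq_zero.1 this)

lemma emb_comm (f g : C(Ω, ℝ)) : Commute (T.emb f) (T.emb g) := by
  rw [Commute, SemiconjBy, ← map_mul, ← map_mul, mul_comm]

/-- the trace on the subalgebra -/
def tau : C(Ω, ℝ) →ₗ[ℝ] ℝ := T.tr.comp T.emb.toLinearMap

lemma tau_apply (f : C(Ω, ℝ)) : T.tau f = T.tr (T.emb f) := rfl

lemma tau_one : T.tau 1 = 1 := by simp [tau_apply, T.tr_one]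

lemma tau_mono {f g : C(Ω, ℝ)} (h : f ≤ g) : T.tau f ≤ T.tau g := T.tr_mono (T.emb_mono h)

lemma tau_nonneg {f : C(Ω, ℝ)} (h : 0 ≤ f) : 0 ≤ T.tau f := T.tr_nonneg (T.emb_nonneg h)

lemma n2_emb_sq (f : C(Ω, ℝ)) : T.n2 (T.emb f) ^ 2 = T.tau (f * f) := by
  rw [T.n2_sq, ip, T.star_emb, ← map_mul, tau_apply]

lemma mem_range_of_tendsto {α : Type*} {l : Filter α} [l.NeBot] {u : α → C(Ω, ℝ)} {x : M}
    (h : T.Tendsto2 l (fun a => T.emb (u a)) x) : ∃ f, T.emb f = x := by
  refine T.maximal x ?_ fun f => ?_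
  · have := h.star' T
    simp only [T.star_emb] at this
    exact (this.unique T h)
  · have h1 := h.mul_const T (T.emb f)
    have h2 := h.const_mul T (T.emb f)
    simp only [(T.emb_comm _ f).eq] at h1
    exact h1.unique T h2

/-- the clopen hull of `{g > 0}` -/
def hull (g : C(Ω, ℝ)) : Set Ω := closure {ω | 0 < g ω}

lemma isClopen_hull (T : TMasa M Ω) (g : C(Ω, ℝ)) : IsClopen (hull g) := by
  let u : ℕ → C(Ω, ℝ) := fun n => ⟨fun ω => min 1 ((n : ℝ) * max (g ω) 0), by fun_prop⟩
  have hu0 : ∀ n ω, 0 ≤ u n ω := fun n ω => le_min zero_le_one (by positivity)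
  have hu1 : ∀ n ω, u n ω ≤ 1 := fun n ω => min_le_left _ _
  have humono : ∀ n m, n ≤ m → u n ≤ u m := fun n m h ω =>
    min_le_min le_rfl (mul_le_mul_of_nonneg_right (Nat.cast_le.2 h) (le_max_right _ _))
  have hle : ∀ n, u n ≤ 1 := fun n ω => hu1 n ω
  have hbdd : BddAbove (Set.range fun n => T.tau (u n)) :=
    ⟨1, by rintro _ ⟨n, rfl⟩; simpa [T.tau_one] using T.tau_mono (hle n)⟩
  obtain ⟨x, -, hx⟩ := T.exists_limit (fun n => T.emb (u n)) 1 (fun n => by
      rw [T.emb_norm, ContinuousMap.norm_le _ zero_le_one]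
      intro ω
      rw [Real.norm_eq_abs, abs_of_nonneg (hu0 n ω)]
      exact hu1 n ω) (by
    intro ε hε
    obtain ⟨N, hN⟩ := exists_lt_of_lt_ciSup
      (show (⨆ n, T.tau (u n)) - ε ^ 2 < ⨆ n, T.tau (u n) by
        have : 0 < ε ^ 2 := pow_pos hε 2
        linarith)
    refine ⟨N, fun m hm => ?_⟩
    refine (pow_le_pow_iff_left₀ (T.n2_nonneg _) hε.le two_ne_zero).1 ?_
    rw [← map_sub, T.n2_emb_sq]
    have h1 : (u m - u N) * (u m - u N) ≤ u m - u N := by
      intro ω
      have h0 : u N ω ≤ u m ω := humono N m hm ω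
      show (u m ω - u N ω) * (u m ω - u N ω) ≤ u m ω - u N ω
      nlinarith [hu0 N ω, hu1 m ω]
    have h2 := T.tau_mono h1
    have h3 := le_ciSup hbdd m
    rw [map_sub] at h2
    linarith)
  obtain ⟨c, rfl⟩ := T.mem_range_of_tendsto hx
  have key : ∀ h : C(Ω, ℝ), ∀ d : C(Ω, ℝ),
      Tendsto (fun n => ‖u n * h - d‖) atTop (𝓝 0) → c * h = d := by
    intro h d hd
    apply T.emb_inj
    have h1 := hx.mul_const T (T.emb h)
    simp only [← map_mul] at h1
    refine h1.unique T (squeeze_zero (fun n => T.n2_nonneg _) (fun n => ?_) hd)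
    rw [← map_sub, ← T.emb_norm]
    exact T.n2_le_norm _
  have hpos : ∀ ω ∈ {ω | 0 < g ω}, c ω = 1 := by
    intro ω hω
    let gp : C(Ω, ℝ) := ⟨fun ω => max (g ω) 0, by fun_prop⟩
    have e := key gp gp (squeeze_zero' (.of_forall fun n => norm_nonneg _)
      ((eventually_ge_atTop 1).mono fun n hn => by
        refine (ContinuousMap.norm_le _ (show (0 : ℝ) ≤ 1 / n by positivity)).2 fun y => ?_
        have hn' : (0 : ℝ) < n := by exact_mod_cast hn
        simp only [u, gp, ContinuousMap.sub_apply, ContinuousMap.mul_apply, ContinuousMap.coe_mk,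
          Real.norm_eq_abs]
        have hm0 : 0 ≤ max (g y) 0 := le_max_right _ _
        rcases le_total (1 : ℝ) (n * max (g y) 0) with h | h
        · rw [min_eq_left h, one_mul, sub_self, abs_zero]; positivity
        · rw [min_eq_right h]
          have h5 : max (g y) 0 ≤ 1 / n := by rw [le_div_iff₀ hn']; linarith
          have h7 : (n : ℝ) * max (g y) 0 * max (g y) 0 ≤ max (g y) 0 := mul_le_of_le_one_left hm0 h
          have h8 : 0 ≤ (n : ℝ) * max (g y) 0 * max (g y) 0 := by positivity
          rw [abs_le]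
          constructor <;> linarith)
      (tendsto_one_div_atTop_nhds_zero_nat))
    have e1 := DFunLike.congr_fun e ω
    have hg : max (g ω) 0 = g ω := max_eq_left (le_of_lt hω)
    simp only [ContinuousMap.mul_apply, gp, ContinuousMap.coe_mk, hg] at e1
    exact mul_right_cancel₀ (ne_of_gt hω) (by rw [e1, one_mul])
  have hone : ∀ ω ∈ hull g, c ω = 1 :=
    fun ω hω => closure_minimal hpos (isClosed_eq c.continuous continuous_const) hω
  have hzero : ∀ ω, ω ∉ hull g → c ω = 0 := by
    intro ω hω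
    obtain ⟨f, hf0, hf1, -⟩ := exists_continuous_zero_one_of_isClosed isClosed_closure
      (isClosed_singleton (x := ω)) (Set.disjoint_singleton_right.2 hω)
    have e := key f 0 (by
      refine tendsto_const_nhds.congr' (.of_forall fun n => ?_)
      have : u n * f = 0 := by
        ext y
        rcases le_or_gt (g y) 0 with hy | hy
        · simp [u, max_eq_right hy]
        · simp [show f y = 0 from hf0 (subset_closure hy)]
      simp [this])
    have e1 := DFunLike.congr_fun e ω
    simpa [show f ω = 1 from hf1 rfl] using e1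
  refine ⟨isClosed_closure, ?_⟩
  have : hull g = c ⁻¹' Set.Ioi (1 / 2) := by
    ext ω
    by_cases h : ω ∈ hull g
    · simp [h, hone ω h]; norm_num
    · simp [h, hzero ω h]
  show IsOpen (hull g)
  rw [this]
  exact isOpen_Ioi.preimage c.continuous

/-- the support projection of the positive part of `g` -/
def pos (g : C(Ω, ℝ)) : C(Ω, ℝ) :=
  ⟨Set.indicator (hull g) 1, continuous_const.indicator (fun ω hω => by
    simp [(T.isClopen_hull g).frontier_eq] at hω)⟩

lemma pos_apply (g : C(Ω, ℝ)) (ω : Ω) : T.pos g ω = Set.indicator (hull g) 1 ω := rfl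

lemma pos_mul_self (g : C(Ω, ℝ)) : T.pos g * T.pos g = T.pos g := by
  ext ω; by_cases h : ω ∈ hull g <;> simp [pos_apply, h]

lemma nonneg_of_mem_hull {g : C(Ω, ℝ)} {ω : Ω} (h : ω ∈ hull g) : 0 ≤ g ω :=
  closure_minimal (fun y (hy : 0 < g y) => hy.le) (isClosed_le continuous_const g.continuous) h

lemma nonpos_of_not_mem_hull {g : C(Ω, ℝ)} {ω : Ω} (h : ω ∉ hull g) : g ω ≤ 0 :=
  not_lt.1 fun h' => h (subset_closure h')

end TMasa

lemma idem_zero_or_one {e : C(Ω, ℝ)} (h : e * e = e) (ω : Ω) : e ω = 0 ∨ e ω = 1 := by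
  have := DFunLike.congr_fun h ω
  simp only [ContinuousMap.mul_apply] at this
  rcases eq_or_ne (e ω) 0 with h' | h'
  · exact .inl h'
  · exact .inr (mul_right_cancel₀ h' (by linarith))

lemma idem_nonneg {e : C(Ω, ℝ)} (h : e * e = e) : 0 ≤ e := fun ω => by
  rcases idem_zero_or_one h ω with h' | h' <;> simp [h']

lemma idem_le_one {e : C(Ω, ℝ)} (h : e * e = e) : e ≤ 1 := fun ω => by
  rcases idem_zero_or_one h ω with h' | h' <;> simp [h']

/-- finite partitions of unity by idempotents -/
structure Part (Ω : Type v) [TopologicalSpace Ω] where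
  n : ℕ
  e : Fin n → C(Ω, ℝ)
  isPartition : IsPartition e

namespace Part

instance : Preorder (Part Ω) where
  le P Q := ∀ i j, Q.e i * P.e j = Q.e i ∨ Q.e i * P.e j = 0
  le_refl P i j := by
    rcases eq_or_ne i j with rfl | h
    · exact .inl (P.isPartition.idem i)
    · exact .inr (P.isPartition.orth i j h)
  le_trans P Q R hPQ hQR := by
    intro k j
    by_cases hk : R.e k = 0
    · exact .inr (by simp [hk])
    obtain ⟨i, hi⟩ : ∃ i, R.e k * Q.e i = R.e k := by
      by_contra hne
      refine hk ?_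
      calc R.e k = R.e k * ∑ i, Q.e i := by rw [Q.isPartition.sum_one, mul_one]
        _ = 0 := by
          rw [Finset.mul_sum]
          refine Finset.sum_eq_zero fun i _ => ?_
          exact (hQR k i).resolve_left (not_exists.1 hne i)
    rw [← hi, mul_assoc]
    rcases hPQ i j with h | h <;> rw [h]
    · exact .inl rfl
    · exact .inr (mul_zero _)

/-- the trivial partition -/
def triv : Part Ω :=
  ⟨1, fun _ => 1, ⟨fun _ => mul_one _, fun i j h => absurd (Subsingleton.elim i j) h, by simp⟩⟩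

instance : Nonempty (Part Ω) := ⟨triv⟩

/-- common refinement -/
def inter (P Q : Part Ω) : Part Ω where
  n := P.n * Q.n
  e k := P.e (finProdFinEquiv.symm k).1 * Q.e (finProdFinEquiv.symm k).2
  isPartition := by
    refine ⟨fun k => ?_, fun k l h => ?_, ?_⟩
    · rw [mul_mul_mul_comm, P.isPartition.idem, Q.isPartition.idem]
    · rw [mul_mul_mul_comm]
      by_cases h1 : (finProdFinEquiv.symm k).1 = (finProdFinEquiv.symm l).1
      · have h2 : (finProdFinEquiv.symm k).2 ≠ (finProdFinEquiv.symm l).2 := fun h2 =>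
          h (finProdFinEquiv.symm.injective (Prod.ext h1 h2))
        rw [Q.isPartition.orth _ _ h2, mul_zero]
      · rw [P.isPartition.orth _ _ h1, zero_mul]
    · rw [← finProdFinEquiv.sum_comp]
      simp only [Equiv.symm_apply_apply, Fintype.sum_prod_type, ← Finset.mul_sum,
        Q.isPartition.sum_one, P.isPartition.sum_one, mul_one]

lemma le_inter_left (P Q : Part Ω) : P ≤ P.inter Q := by
  intro k j
  by_cases h : (finProdFinEquiv.symm k).1 = j
  · left; simp only [inter, ← h]; rw [mul_right_comm, P.isPartition.idem]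
  · right; simp only [inter]; rw [mul_right_comm, P.isPartition.orth _ _ h, zero_mul]

lemma le_inter_right (P Q : Part Ω) : Q ≤ P.inter Q := by
  intro k j
  by_cases h : (finProdFinEquiv.symm k).2 = j
  · left; simp only [inter, ← h]; rw [mul_assoc, Q.isPartition.idem]
  · right; simp only [inter]; rw [mul_assoc, Q.isPartition.orth _ _ h, mul_zero]

instance : IsDirected (Part Ω) (· ≤ ·) :=
  ⟨fun P Q => ⟨P.inter Q, le_inter_left P Q, le_inter_right P Q⟩⟩

/-- the two-element partition of an idempotent -/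
def split (f : C(Ω, ℝ)) (h : f * f = f) : Part Ω where
  n := 2
  e := ![f, 1 - f]
  isPartition := by
    refine ⟨fun i => ?_, fun i j hij => ?_, by simp [Fin.sum_univ_two]⟩
    · fin_cases i <;> simp [h, sub_mul, mul_sub]
    · fin_cases i <;> fin_cases j <;> simp_all [sub_mul, mul_sub]

lemma sum_mul_eq (P Q : Part Ω) (j : Fin P.n) : ∑ i, Q.e i * P.e j = P.e j := by
  rw [← Finset.sum_mul, Q.isPartition.sum_one, one_mul]

lemma eq_or_zero_of_split {f : C(Ω, ℝ)} {h : f * f = f} {Q : Part Ω} (hQ : split f h ≤ Q)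
    (i : Fin Q.n) : Q.e i * f = Q.e i ∨ Q.e i * f = 0 := by
  simpa [split] using hQ i (0 : Fin 2)

/-- the unique parent of a nonzero piece -/
lemma exists_parent {P Q : Part Ω} (h : P ≤ Q) {i : Fin Q.n} (hi : Q.e i ≠ 0) :
    ∃ j, Q.e i * P.e j = Q.e i ∧ ∀ k, k ≠ j → Q.e i * P.e k = 0 := by
  obtain ⟨j, hj⟩ : ∃ j, Q.e i * P.e j = Q.e i := by
    by_contra hne
    refine hi ?_
    calc Q.e i = Q.e i * ∑ j, P.e j := by rw [P.isPartition.sum_one, mul_one]
      _ = 0 := by
        rw [Finset.mul_sum]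
        exact Finset.sum_eq_zero fun j _ => (h i j).resolve_left (not_exists.1 hne j)
  exact ⟨j, hj, fun k hk => by rw [← hj, mul_assoc, P.isPartition.orth j k hk.symm, mul_zero]⟩

end Part

namespace TMasa

/-- approximation by step functions -/
theorem exists_step (T : TMasa M Ω) (f : C(Ω, ℝ)) {ε : ℝ} (hε : 0 < ε) :
    ∃ (P : Part Ω) (c : Fin P.n → ℝ), ‖f - ∑ i, c i • P.e i‖ ≤ ε ∧ ∀ i, |c i| ≤ ‖f‖ + ε := by
  obtain ⟨N, hN⟩ := exists_nat_gt (2 * (‖f‖ + ε) / ε)
  rw [div_lt_iff₀ hε] at hN
  let t : ℕ → ℝ := fun k => -(‖f‖ + ε) + k * ε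
  let U : ℕ → C(Ω, ℝ) := fun k => if k = 0 then 1 else if N < k then 0 else
    T.pos (f - ContinuousMap.const Ω (t k))
  have habs : ∀ ω, |f ω| ≤ ‖f‖ := fun ω => f.norm_coe_le_norm ω
  have hU01 : ∀ k ω, U k ω = 0 ∨ U k ω = 1 := by
    intro k ω
    simp only [U]
    split_ifs
    · right; rfl
    · left; rfl
    · exact idem_zero_or_one (T.pos_mul_self _) ω
  have hU1 : ∀ k ω, U k ω = 1 → 0 < k → t k ≤ f ω := by
    intro k ω h hk
    simp only [U] at h
    rw [if_neg hk.ne'] at h
    split_ifs at h with h2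
    · simp at h
    · by_cases hm : ω ∈ hull (f - ContinuousMap.const Ω (t k))
      · simpa using nonneg_of_mem_hull hm
      · simp [pos_apply, hm] at h
  have hU0 : ∀ k ω, U k ω = 0 → k ≤ N → f ω ≤ t k := by
    intro k ω h hk
    simp only [U] at h
    split_ifs at h with h1 h2
    · simp at h
    · omega
    · by_cases hm : ω ∈ hull (f - ContinuousMap.const Ω (t k))
      · simp [pos_apply, hm] at h
      · simpa using nonpos_of_not_mem_hull hm
  have hmono : ∀ k ω, U (k + 1) ω ≤ U k ω := by
    intro k ω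
    rcases hU01 k ω with h | h <;> rcases hU01 (k + 1) ω with h' | h' <;> simp only [h, h'] <;>
      try norm_num
    rcases Nat.eq_zero_or_pos k with rfl | hk
    · simp [U] at h
    · rcases le_or_gt (k + 1) N with hkN | hkN
      · have a1 := hU1 (k + 1) ω h' (by omega)
        have a2 := hU0 k ω h (by omega)
        simp only [t] at a1 a2
        push_cast at a1
        linarith
      · simp [U, hkN] at h'
  have hanti : ∀ ω, Antitone fun k => U k ω := fun ω => antitone_nat_of_succ_le fun k => hmono k ω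
  let e : Fin (N + 1) → C(Ω, ℝ) := fun i => U i - U (i + 1)
  have hP : IsPartition e := by
    refine ⟨fun i => ?_, fun i j hij => ?_, ?_⟩
    · ext ω
      simp only [e, ContinuousMap.mul_apply, ContinuousMap.sub_apply]
      rcases hU01 i ω with h | h <;> rcases hU01 (i + 1) ω with h' | h' <;>
        simp only [h, h'] <;> norm_num
      have := hmono i ω
      linarith
    · ext ω
      simp only [e, ContinuousMap.mul_apply, ContinuousMap.sub_apply, ContinuousMap.zero_apply]
      rcases lt_or_gt_of_ne (fun h => hij (Fin.ext h)) with h | h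
      · have h1 := hanti ω (Nat.succ_le_of_lt h)
        have h2 := hmono i ω
        have h3 := hmono j ω
        rcases hU01 i ω with a | a <;> rcases hU01 (i + 1) ω with b | b <;>
          rcases hU01 j ω with c | c <;> rcases hU01 (j + 1) ω with d | d <;>
          simp only [a, b, c, d] at h1 h2 h3 ⊢ <;> norm_num <;> linarith
      · have h1 := hanti ω (Nat.succ_le_of_lt h)
        have h2 := hmono i ω
        have h3 := hmono j ω
        rcases hU01 i ω with a | a <;> rcases hU01 (i + 1) ω with b | b <;>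
          rcases hU01 j ω with c | c <;> rcases hU01 (j + 1) ω with d | d <;>
          simp only [a, b, c, d] at h1 h2 h3 ⊢ <;> norm_num <;> linarith
    · rw [Fin.sum_univ_eq_sum_range (fun k => U k - U (k + 1)), Finset.sum_range_sub']
      simp [U]
  refine ⟨⟨N + 1, e, hP⟩, fun i => if (i : ℕ) < N then min (t i + ε) (‖f‖ + ε) else ‖f‖ + ε, ?_, fun i => ?_⟩
  · rw [ContinuousMap.norm_le _ hε.le]
    intro ω
    have hsum := DFunLike.congr_fun hP.sum_one ω
    rw [ContinuousMap.sum_apply, ContinuousMap.one_apply] at hsum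
    obtain ⟨i, hi⟩ : ∃ i, e i ω = 1 := by
      by_contra h
      have hz : ∀ i, e i ω = 0 := fun i =>
        (idem_zero_or_one (hP.idem i) ω).resolve_right (not_exists.1 h i)
      simp [hz] at hsum
    have hother : ∀ j ≠ i, e j ω = 0 := fun j hj => by
      simpa [hi] using DFunLike.congr_fun (hP.orth j i hj) ω
    rw [ContinuousMap.sub_apply, ContinuousMap.sum_apply, Finset.sum_eq_single i
      (fun j _ hj => by rw [ContinuousMap.smul_apply, hother j hj, smul_zero]) (by simp)]
    rw [ContinuousMap.smul_apply, hi, smul_eq_mul, mul_one, Real.norm_eq_abs]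
    have hi1 : U i ω = 1 ∧ U (i + 1) ω = 0 := by
      simp only [e, ContinuousMap.sub_apply] at hi
      rcases hU01 i ω with h | h <;> rcases hU01 (i + 1) ω with h' | h' <;>
        simp only [h, h'] at hi ⊢ <;> (first | (exfalso; linarith) | simp)
    have lo : t i ≤ f ω ∨ (i : ℕ) = 0 :=
      (Nat.eq_zero_or_pos (i : ℕ)).symm.imp (hU1 i ω hi1.1) id
    have hf := abs_le.1 (habs ω)
    rw [abs_le]
    beta_reduce
    split_ifs with hiN
    · have up := hU0 (i + 1) ω hi1.2 hiN
      have hmin := min_le_left (t i + ε) (‖f‖ + ε)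
      have hge : f ω ≤ min (t i + ε) (‖f‖ + ε) := by
        refine le_min ?_ (by linarith)
        simp only [t] at up ⊢
        push_cast at up
        linarith
      rcases lo with lo | lo
      · constructor <;> linarith
      · have : t i = -(‖f‖ + ε) := by simp [t, lo]
        constructor <;> linarith
    · have hiN' : (i : ℕ) = N := le_antisymm (Nat.lt_succ_iff.1 i.2) (not_lt.1 hiN)
      rcases lo with lo | lo
      · simp only [t, hiN'] at lo
        exfalso; linarith [norm_nonneg f]
      · rw [hiN'] at lo; subst lo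
        push_cast at hN; exfalso; nlinarith [norm_nonneg f]
  · show |if (i : ℕ) < N then min (t i + ε) (‖f‖ + ε) else ‖f‖ + ε| ≤ ‖f‖ + ε
    rw [abs_le]
    split_ifs with h
    · have h2 : 0 ≤ ((i : ℕ) : ℝ) * ε := by positivity
      refine ⟨le_min ?_ ?_, min_le_right _ _⟩ <;> linarith [norm_nonneg f]
    · constructor <;> linarith [norm_nonneg f]

end TMasa

end Vale.Agent.P078
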