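import Mathlib
import Vale.Agent.P078.Masa

/-! The conditional expectation onto the maximal abelian subalgebra. -/

noncomputable section

open scoped ComplexOrder
open Filter Topology

set_option linter.unusedSectionVars false

namespace Vale.Agent.P078

universe u v

variable {M : Type u} [CStarAlgebra M] [PartialOrder M] [StarOrderedRing M]
  {Ω : Type v} [TopologicalSpace Ω] [CompactSpace Ω] [T2Space Ω] (T : TMasa M Ω)

namespace TMasa

/-- pinching by a partition -/
def pinch (P : Part Ω) : M →ₗ[ℝ] M where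
  toFun x := ∑ i, T.emb (P.e i) * x * T.emb (P.e i)
  map_add' x y := by simp [mul_add, add_mul, Finset.sum_add_distrib]
  map_smul' c x := by simp [Finset.smul_sum]

lemma pinch_apply (P : Part Ω) (x : M) :
    T.pinch P x = ∑ i, T.emb (P.e i) * x * T.emb (P.e i) := rfl

lemma sandwich (f g : C(Ω, ℝ)) (x : M) :
    T.emb f * (T.emb g * x * T.emb g) * T.emb f = T.emb (f * g) * x * T.emb (f * g) := by
  rw [mul_comm f g, map_mul]
  nth_rewrite 1 [(T.emb_comm g f).eq]
  simp only [mul_assoc]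

lemma pinch_pinch {P Q : Part Ω} (h : P ≤ Q) (x : M) :
    T.pinch Q (T.pinch P x) = T.pinch Q x := by
  simp only [pinch_apply, Finset.mul_sum, Finset.sum_mul, T.sandwich]
  refine Finset.sum_congr rfl fun i _ => ?_
  by_cases hi : Q.e i = 0
  · simp [hi]
  obtain ⟨j, hj, hk⟩ := Part.exists_parent h hi
  rw [Finset.sum_eq_single j (fun k _ hk' => by simp [hk k hk']) (by simp), hj]

lemma pinch_one (P : Part Ω) : T.pinch P 1 = 1 := by
  simp only [pinch_apply, mul_one, ← map_mul, P.isPartition.idem]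
  rw [← map_sum, P.isPartition.sum_one, map_one]

lemma star_pinch (P : Part Ω) (x : M) : star (T.pinch P x) = T.pinch P (star x) := by
  simp [pinch_apply, T.star_emb, mul_assoc]

lemma ip_pinch (P : Part Ω) (x y : M) : T.ip (T.pinch P x) y = T.ip x (T.pinch P y) := by
  unfold ip
  rw [T.star_pinch]
  simp only [pinch_apply, Finset.sum_mul, Finset.mul_sum, map_sum]
  refine Finset.sum_congr rfl fun i _ => ?_
  rw [mul_assoc, mul_assoc, T.tr_mul_comm (T.emb (P.e i))]
  simp only [mul_assoc]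

lemma norm_pinch_le (P : Part Ω) (x : M) : ‖T.pinch P x‖ ≤ ‖x‖ := by
  have : Nontrivial M := ⟨0, 1, fun h => by simpa [← h] using T.tr_one⟩
  have key : star (T.pinch P x) * T.pinch P x ≤ algebraMap ℝ M (‖x‖ ^ 2) := by
    have e : star (T.pinch P x) * T.pinch P x =
        ∑ i, T.emb (P.e i) * (star x * T.emb (P.e i) * x) * T.emb (P.e i) := by
      rw [T.star_pinch]
      simp only [pinch_apply, Finset.mul_sum, Finset.sum_mul]
      refine Finset.sum_congr rfl fun i _ => ?_
      rw [Finset.sum_eq_single i ?_ (by simp)]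
      · have h := congrArg T.emb (P.isPartition.idem i)
        rw [map_mul] at h
        have h' : ∀ z, T.emb (P.e i) * (T.emb (P.e i) * z) = T.emb (P.e i) * z := fun z => by
          rw [← mul_assoc, h]
        simp only [mul_assoc, h']
      · intro j _ hj
        have h := congrArg T.emb (P.isPartition.orth j i hj)
        rw [map_mul, map_zero] at h
        have h' : ∀ z, T.emb (P.e j) * (T.emb (P.e i) * z) = 0 := fun z => by
          rw [← mul_assoc, h, zero_mul]
        simp only [mul_assoc, h', mul_zero]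
    have hb : ∀ i, star x * T.emb (P.e i) * x ≤ algebraMap ℝ M (‖x‖ ^ 2) := by
      intro i
      have h1 := star_left_conjugate_le_conjugate
        (T.emb_mono (idem_le_one (P.isPartition.idem i))) x
      rw [map_one, mul_one] at h1
      refine h1.trans ?_
      have := (IsSelfAdjoint.star_mul_self x).le_algebraMap_norm_self
      rwa [CStarRing.norm_star_mul_self, ← pow_two] at this
    rw [e]
    calc _ ≤ ∑ i, T.emb (P.e i) * algebraMap ℝ M (‖x‖ ^ 2) * T.emb (P.e i) :=
          Finset.sum_le_sum fun i _ => (T.emb_selfAdjoint _).conjugate_le_conjugate (hb i)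
      _ = T.pinch P (‖x‖ ^ 2 • (1 : M)) := by
          simp [pinch_apply, Algebra.algebraMap_eq_smul_one, Finset.smul_sum]
      _ = _ := by rw [map_smul, T.pinch_one, Algebra.algebraMap_eq_smul_one]
  have h := CStarAlgebra.norm_le_norm_of_nonneg_of_le (star_mul_self_nonneg _) key
  rw [CStarRing.norm_star_mul_self, norm_algebraMap', Real.norm_eq_abs,
    abs_of_nonneg (sq_nonneg _), ← pow_two] at h
  exact (pow_le_pow_iff_left₀ (norm_nonneg _) (norm_nonneg _) two_ne_zero).1 h

lemma tr_emb_mul_pinch (g : C(Ω, ℝ)) (P : Part Ω) (x : M) :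
    T.tr (T.emb g * T.pinch P x) = T.tr (T.emb g * x) := by
  have h : T.pinch P (T.emb g) = T.emb g := by
    simp only [pinch_apply, ← map_mul]
    rw [← map_sum]
    congr 1
    simp only [mul_comm _ g, mul_assoc, P.isPartition.idem]
    rw [← Finset.mul_sum, P.isPartition.sum_one, mul_one]
  have := T.ip_pinch P (T.emb g) x
  unfold ip at this
  rw [h, T.star_emb] at this
  exact this.symm

/-- Pinchings converge in 2-norm to an element of the subalgebra. -/
theorem exists_pinch_limit (x : M) (hx : IsSelfAdjoint x) :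
    ∃ f : C(Ω, ℝ), ‖f‖ ≤ ‖x‖ ∧ T.Tendsto2 atTop (fun P => T.pinch P x) (T.emb f) := by
  have hQ : ∀ Q : Part Ω, T.ip (T.pinch Q x) (T.pinch Q x) = T.ip x (T.pinch Q x) := fun Q => by
    rw [T.ip_pinch, T.pinch_pinch le_rfl]
  have hdiff : ∀ P Q : Part Ω, P ≤ Q → T.n2 (T.pinch Q x - T.pinch P x) ^ 2 =
      T.n2 (T.pinch P x) ^ 2 - T.n2 (T.pinch Q x) ^ 2 := by
    intro P Q h
    have h1 : T.ip (T.pinch Q x) (T.pinch P x) = T.ip x (T.pinch Q x) := by
      rw [T.ip_pinch, T.pinch_pinch h]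
    simp only [T.n2_sq, T.ip_sub_left, T.ip_sub_right, T.ip_comm (T.pinch P x) (T.pinch Q x), h1, hQ]
    ring
  have hbdd : BddBelow (Set.range fun P => T.n2 (T.pinch P x) ^ 2) :=
    ⟨0, by rintro _ ⟨P, rfl⟩; positivity⟩
  obtain ⟨y, hy, hlim⟩ := T.exists_limit (fun P => T.pinch P x) ‖x‖
    (fun P => T.norm_pinch_le P x) (by
    intro ε hε
    obtain ⟨P, hP⟩ := exists_lt_of_ciInf_lt
      (show (⨅ P, T.n2 (T.pinch P x) ^ 2) < (⨅ P, T.n2 (T.pinch P x) ^ 2) + ε ^ 2 by
        have : 0 < ε ^ 2 := pow_pos hε 2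
        linarith)
    refine ⟨P, fun Q hQ' => (pow_le_pow_iff_left₀ (T.n2_nonneg _) hε.le two_ne_zero).1 ?_⟩
    rw [hdiff P Q hQ']
    have := ciInf_le hbdd Q
    linarith)
  have hcomm : ∀ e : C(Ω, ℝ), e * e = e → Commute y (T.emb e) := by
    intro e he
    refine (hlim.mul_const T (T.emb e)).unique T ((hlim.const_mul T (T.emb e)).congr' T ?_)
    filter_upwards [eventually_ge_atTop (Part.split e he)] with P hP
    simp only [pinch_apply, Finset.mul_sum, Finset.sum_mul]
    refine Finset.sum_congr rfl fun i _ => ?_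
    rcases Part.eq_or_zero_of_split hP i with h | h
    · rw [← mul_assoc, ← mul_assoc, ← map_mul, mul_comm e, h, mul_assoc _ _ (T.emb e), ← map_mul,
        h]
    · rw [← mul_assoc, ← mul_assoc, ← map_mul, mul_comm e, h, mul_assoc _ _ (T.emb e), ← map_mul,
        h]
      simp
  have hsa : IsSelfAdjoint y := by
    have h1 := hlim.star' T
    simp only [T.star_pinch, hx.star_eq] at h1
    exact h1.unique T hlim
  have hcA : ∀ g, Commute y (T.emb g) := by
    intro g
    have hc : IsClosed {z : M | Commute y z} :=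
      isClosed_eq (continuous_const.mul continuous_id) (continuous_id.mul continuous_const)
    refine hc.closure_subset (Metric.mem_closure_iff.2 fun ε hε => ?_)
    obtain ⟨P, c, hP, -⟩ := T.exists_step g (half_pos hε)
    refine ⟨T.emb (∑ i, c i • P.e i), ?_, ?_⟩
    · simp only [Set.mem_ofPred_eq, map_sum, map_smul]
      exact Commute.sum_right _ _ _ fun i _ => (hcomm _ (P.isPartition.idem i)).smul_right _
    · rw [dist_eq_norm, ← map_sub, T.emb_norm]
      linarith
  obtain ⟨f, rfl⟩ := T.maximal y hsa hcA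
  exact ⟨f, by rwa [← T.emb_norm], hlim⟩

lemma eq_of_tau_mul {a b : C(Ω, ℝ)} (h : ∀ g, T.tau (g * a) = T.tau (g * b)) : a = b := by
  have h1 : T.n2 (T.emb (a - b)) ^ 2 = 0 := by
    rw [T.n2_emb_sq]
    have := h (a - b)
    rw [mul_sub, map_sub, sub_eq_zero]
    exact this
  have := T.eq_zero_of_n2 (pow_eq_zero_iff two_ne_zero |>.1 h1)
  exact sub_eq_zero.1 (T.emb_inj (this.trans (map_zero _).symm))

lemma exists_expect (x : M) :
    ∃ f : C(Ω, ℝ), ∀ g, T.tau (g * f) = T.tr (T.emb g * x) := by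
  have hs : IsSelfAdjoint ((1 / 2 : ℝ) • (x + star x)) :=
    IsSelfAdjoint.smul (IsSelfAdjoint.all (1 / 2 : ℝ)) (IsSelfAdjoint.add_star_self x)
  obtain ⟨f, -, hf⟩ := T.exists_pinch_limit _ hs
  refine ⟨f, fun g => ?_⟩
  have h1 := (hf.const_mul T (T.emb g)).tr_tendsto T
  simp only [T.tr_emb_mul_pinch] at h1
  have h2 := tendsto_nhds_unique h1 tendsto_const_nhds
  rw [tau_apply, map_mul T.emb, h2]
  have h3 : T.tr (T.emb g * star x) = T.tr (T.emb g * x) := by
    rw [← T.tr_star (T.emb g * x), star_mul, T.star_emb, T.tr_mul_comm]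
  simp only [mul_smul_comm, mul_add, map_smul, map_add, h3, smul_eq_mul]
  ring

/-- the conditional expectation (real part) -/
def E : M →ₗ[ℝ] C(Ω, ℝ) where
  toFun x := (T.exists_expect x).choose
  map_add' x y := T.eq_of_tau_mul fun g => by
    rw [(T.exists_expect (x + y)).choose_spec, mul_add, mul_add, map_add, map_add,
      (T.exists_expect x).choose_spec, (T.exists_expect y).choose_spec]
  map_smul' c x := T.eq_of_tau_mul fun g => by
    rw [RingHom.id_apply, (T.exists_expect (c • x)).choose_spec, mul_smul_comm, mul_smul_comm,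
      map_smul, map_smul, (T.exists_expect x).choose_spec]

lemma tau_mul_E (g : C(Ω, ℝ)) (x : M) : T.tau (g * T.E x) = T.tr (T.emb g * x) :=
  (T.exists_expect x).choose_spec g

lemma tau_E (x : M) : T.tau (T.E x) = T.tr x := by
  simpa using T.tau_mul_E 1 x

lemma E_star (x : M) : T.E (star x) = T.E x := T.eq_of_tau_mul fun g => by
  rw [tau_mul_E, tau_mul_E, ← T.tr_star (T.emb g * x), star_mul, T.star_emb, T.tr_mul_comm]

lemma E_emb (f : C(Ω, ℝ)) : T.E (T.emb f) = f := T.eq_of_tau_mul fun g => by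
  rw [tau_mul_E, tau_apply, map_mul T.emb]

lemma E_emb_mul (f : C(Ω, ℝ)) (x : M) : T.E (T.emb f * x) = f * T.E x :=
  T.eq_of_tau_mul fun g => by
    rw [tau_mul_E, ← mul_assoc g f, tau_mul_E, map_mul T.emb, mul_assoc]

lemma E_mul_emb (f : C(Ω, ℝ)) (x : M) : T.E (x * T.emb f) = f * T.E x :=
  T.eq_of_tau_mul fun g => by
    rw [tau_mul_E, ← mul_assoc g f, tau_mul_E, mul_comm g f, map_mul T.emb, ← mul_assoc,
      T.tr_mul_comm]
    simp only [mul_assoc]

lemma E_one : T.E 1 = 1 := by rw [← map_one T.emb, T.E_emb]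

lemma E_nonneg {x : M} (hx : 0 ≤ x) : 0 ≤ T.E x := by
  intro ω
  let g : C(Ω, ℝ) := ⟨fun y => max (-(T.E x y)) 0, by fun_prop⟩
  have hg : 0 ≤ g := fun y => le_max_right _ _
  have h1 : 0 ≤ T.tau (g * T.E x) := by
    rw [tau_mul_E, ← csqrt_mul_self hg, map_mul T.emb, mul_assoc, T.tr_mul_comm]
    exact T.tr_nonneg ((T.emb_selfAdjoint _).conjugate_nonneg hx)
  have h2 : g * T.E x = -(g * g) := by
    ext y
    simp only [ContinuousMap.mul_apply, ContinuousMap.neg_apply, g, ContinuousMap.coe_mk]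
    rcases le_total 0 (T.E x y) with h | h
    · simp [h]
    · rw [max_eq_left (by linarith)]; ring
  rw [h2, map_neg, ← T.n2_emb_sq] at h1
  have h3 : T.n2 (T.emb g) = 0 := by
    have := sq_nonneg (T.n2 (T.emb g))
    exact pow_eq_zero_iff two_ne_zero |>.1 (le_antisymm (by linarith) this)
  have h4 := T.emb_inj ((T.eq_zero_of_n2 h3).trans (map_zero _).symm)
  have h5 : max (-(T.E x ω)) 0 = 0 := DFunLike.congr_fun h4 ω
  show 0 ≤ T.E x ω
  linarith [le_max_left (-(T.E x ω)) 0]

lemma E_mono {x y : M} (h : x ≤ y) : T.E x ≤ T.E y := by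
  have := T.E_nonneg (sub_nonneg.2 h)
  rwa [map_sub, sub_nonneg] at this

lemma E_le_norm {x : M} (hx : IsSelfAdjoint x) (ω : Ω) : |T.E x ω| ≤ ‖x‖ := by
  have h1 := T.E_mono hx.le_algebraMap_norm_self
  have h2 := T.E_mono hx.neg.le_algebraMap_norm_self
  rw [Algebra.algebraMap_eq_smul_one, map_smul, T.E_one] at h1 h2
  have h1' : T.E x ω ≤ ‖x‖ := by simpa using h1 ω
  have h2' : -(T.E x ω) ≤ ‖x‖ := by simpa using h2 ω
  exact abs_le.2 ⟨by linarith, h1'⟩

lemma norm_E_le {x : M} (hx : IsSelfAdjoint x) : ‖T.E x‖ ≤ ‖x‖ :=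
  (ContinuousMap.norm_le _ (norm_nonneg _)).2 (T.E_le_norm hx)

/-- pointwise Cauchy-Schwarz inequality -/
lemma E_schwarz (x y : M) (ω : Ω) :
    T.E (star x * y) ω ^ 2 ≤ T.E (star x * x) ω * T.E (star y * y) ω := by
  have h : ∀ t : ℝ, 0 ≤ T.E (star x * x) ω * (t * t) + (2 * T.E (star x * y) ω) * t
      + T.E (star y * y) ω := by
    intro t
    have h1 : (0 : ℝ) ≤ T.E (star (t • x + y) * (t • x + y)) ω :=
      T.E_nonneg (star_mul_self_nonneg _) ω
    have h2 : T.E (star y * x) = T.E (star x * y) := by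
      rw [← T.E_star, star_mul, star_star]
    simp [mul_add, add_mul, h2, smul_smul] at h1
    linarith
  have := discrim_le_zero h
  simp only [discrim] at this
  nlinarith

lemma tendsto_pinch {x : M} (hx : IsSelfAdjoint x) :
    T.Tendsto2 atTop (fun P => T.pinch P x) (T.emb (T.E x)) := by
  obtain ⟨f, -, hf⟩ := T.exists_pinch_limit x hx
  convert hf
  refine T.eq_of_tau_mul fun g => ?_
  have h1 := (hf.const_mul T (T.emb g)).tr_tendsto T
  simp only [T.tr_emb_mul_pinch] at h1
  rw [tau_mul_E, tau_apply, map_mul T.emb, tendsto_nhds_unique h1 tendsto_const_nhds]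

/-- the map `h ↦ E (X h Z)` -/
def K2 (X Z : M) : Module.End ℝ C(Ω, ℝ) :=
  T.E.comp (((LinearMap.mulRight ℝ Z).comp (LinearMap.mulLeft ℝ X)).comp T.emb.toLinearMap)

/-- the positive map `h ↦ E (Y h Y⋆)` -/
def K (Y : M) : Module.End ℝ C(Ω, ℝ) := T.K2 Y (star Y)

/-- multiplication operator -/
def mlt (f : C(Ω, ℝ)) : Module.End ℝ C(Ω, ℝ) := LinearMap.mulLeft ℝ f

lemma K2_apply (X Z : M) (h : C(Ω, ℝ)) : T.K2 X Z h = T.E (X * T.emb h * Z) := rfl

lemma K_apply (Y : M) (h : C(Ω, ℝ)) : T.K Y h = T.E (Y * T.emb h * star Y) := rfl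

lemma K_nonneg (Y : M) {h : C(Ω, ℝ)} (hh : 0 ≤ h) : 0 ≤ T.K Y h :=
  T.E_nonneg (star_right_conjugate_nonneg (T.emb_nonneg hh) Y)

lemma tau_mul_K (Y : M) (f h : C(Ω, ℝ)) : T.tau (f * T.K Y h) = T.tau (h * T.K (star Y) f) := by
  simp only [tau_mul_E, K_apply, star_star]
  rw [← mul_assoc, ← mul_assoc, T.tr_mul_comm, ← mul_assoc, ← mul_assoc, T.tr_mul_comm]
  

end TMasa

end Vale.Agent.P078
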