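import Mathlib

/-! Inverses of elements bounded below by a positive scalar. -/

noncomputable section

set_option linter.unusedSectionVars false

namespace Vale.Agent.P078.Res

universe u

variable {M : Type u} [CStarAlgebra M] [PartialOrder M] [StarOrderedRing M]

/-- the inverse of a positive element, by functional calculus -/
def res (Z : M) : M := cfc (fun x : ℝ => x⁻¹) Z

variable {Z : M} {γ : ℝ}

lemma isSelfAdjoint_of_gap (hγ : 0 ≤ γ) (hZ : γ • (1 : M) ≤ Z) : IsSelfAdjoint Z :=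
  IsSelfAdjoint.of_nonneg ((smul_nonneg hγ zero_le_one).trans hZ)

lemma le_spectrum (hγ : 0 ≤ γ) (hZ : γ • (1 : M) ≤ Z) : ∀ x ∈ spectrum ℝ Z, γ ≤ x := by
  rw [← algebraMap_le_iff_le_spectrum (isSelfAdjoint_of_gap hγ hZ),
    Algebra.algebraMap_eq_smul_one]
  exact hZ

lemma continuousOn_inv (hγ : 0 < γ) (hZ : γ • (1 : M) ≤ Z) :
    ContinuousOn (fun x : ℝ => x⁻¹) (spectrum ℝ Z) :=
  continuousOn_inv₀.mono fun x hx => ne_of_gt (lt_of_lt_of_le hγ (le_spectrum hγ.le hZ x hx))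

lemma mul_res (hγ : 0 < γ) (hZ : γ • (1 : M) ≤ Z) : Z * res Z = 1 := by
  have hs := isSelfAdjoint_of_gap hγ.le hZ
  have hc := continuousOn_inv hγ hZ
  conv_lhs => arg 1; rw [← cfc_id' ℝ Z hs]
  rw [res, ← cfc_mul (fun x : ℝ => x) _ Z (continuousOn_id' _) hc]
  conv_rhs => rw [← cfc_const_one ℝ Z hs]
  exact cfc_congr fun x hx =>
    mul_inv_cancel₀ (ne_of_gt (lt_of_lt_of_le hγ (le_spectrum hγ.le hZ x hx)))

lemma res_mul (hγ : 0 < γ) (hZ : γ • (1 : M) ≤ Z) : res Z * Z = 1 := by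
  have hc : Commute (res Z) Z := by
    simpa only [res, cfc_id' ℝ Z (isSelfAdjoint_of_gap hγ.le hZ)] using
      cfc_commute_cfc (fun x : ℝ => x⁻¹) (fun x : ℝ => x) Z
  rw [hc.eq, mul_res hγ hZ]

lemma isSelfAdjoint_res (Z : M) : IsSelfAdjoint (res Z) := cfc_predicate _ _

lemma res_nonneg (hγ : 0 < γ) (hZ : γ • (1 : M) ≤ Z) : 0 ≤ res Z :=
  cfc_nonneg fun x hx => inv_nonneg.2 (hγ.le.trans (le_spectrum hγ.le hZ x hx))

lemma res_le (hγ : 0 < γ) (hZ : γ • (1 : M) ≤ Z) : res Z ≤ (1 / γ) • (1 : M) := by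
  rw [← Algebra.algebraMap_eq_smul_one]
  exact cfc_le_algebraMap _ _ _ (fun x hx => by
    rw [one_div]; exact inv_anti₀ hγ (le_spectrum hγ.le hZ x hx)) (continuousOn_inv hγ hZ)
    (isSelfAdjoint_of_gap hγ.le hZ)

lemma norm_res_le (hγ : 0 < γ) (hZ : γ • (1 : M) ≤ Z) : ‖res Z‖ ≤ 1 / γ := by
  rw [CStarAlgebra.norm_le_iff_le_algebraMap _ (by positivity) (res_nonneg hγ hZ),
    Algebra.algebraMap_eq_smul_one]
  exact res_le hγ hZ

lemma eq_res (hγ : 0 < γ) (hZ : γ • (1 : M) ≤ Z) {W : M} (h : Z * W = 1) : W = res Z := by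
  calc W = res Z * Z * W := by rw [res_mul hγ hZ, one_mul]
    _ = res Z := by rw [mul_assoc, h, mul_one]

lemma commute_res (hγ : 0 < γ) (hZ : γ • (1 : M) ≤ Z) {x : M} (h : Commute x Z) :
    Commute x (res Z) := by
  have h1 : res Z * (x * Z) * res Z = res Z * (Z * x) * res Z := by rw [h.eq]
  calc x * res Z = res Z * (Z * x) * res Z := by rw [← mul_assoc (res Z), res_mul hγ hZ, one_mul]
    _ = res Z * x := by rw [← h1, mul_assoc (res Z), mul_assoc x, mul_res hγ hZ, mul_one]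

/-- inversion is antitone -/
lemma res_antitone (hγ : 0 < γ) (hZ : γ • (1 : M) ≤ Z) {Z' : M} (hle : Z ≤ Z') :
    res Z' ≤ res Z := by
  have hZ' := hZ.trans hle
  let a : Mˣ := ⟨Z, res Z, mul_res hγ hZ, res_mul hγ hZ⟩
  let b : Mˣ := ⟨Z', res Z', mul_res hγ hZ', res_mul hγ hZ'⟩
  exact CStarAlgebra.inv_le_inv (a := a) (b := b) ((smul_nonneg hγ.le zero_le_one).trans hZ) hle

/-- second order expansion of the inverse -/
lemma res_expand (hγ : 0 < γ) (hZ : γ • (1 : M) ≤ Z) {D : M} (hD : γ • (1 : M) ≤ Z - D) :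
    ‖res (Z - D) - (res Z + res Z * D * res Z + res Z * D * res Z * D * res Z)‖
      ≤ (1 / γ) ^ 4 * ‖D‖ ^ 3 := by
  set G := res Z
  set G' := res (Z - D)
  have e : G' = G + G' * D * G := by
    have h1 : G' * (Z - D) * G = G := by rw [res_mul hγ hD, one_mul]
    have h2 : G' * (Z - D) * G = G' - G' * D * G := by
      rw [mul_sub, sub_mul, mul_assoc G' Z G, mul_res hγ hZ, mul_one]
    rw [h2] at h1
    exact sub_eq_iff_eq_add.1 h1
  have e3 : G' - (G + G * D * G + G * D * G * D * G) = G' * D * G * D * G * D * G := by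
    conv_lhs => rw [e]; enter [1, 2, 1, 1]; rw [e]
    simp only [add_mul, mul_assoc]
    conv_lhs => enter [1, 2, 2, 1]; rw [e]
    simp only [add_mul, mul_assoc]
    abel
  rw [e3]
  have hG : ‖G‖ ≤ 1 / γ := norm_res_le hγ hZ
  have hG' : ‖G'‖ ≤ 1 / γ := norm_res_le hγ hD
  calc ‖G' * D * G * D * G * D * G‖
      ≤ ‖G'‖ * ‖D‖ * ‖G‖ * ‖D‖ * ‖G‖ * ‖D‖ * ‖G‖ := by
        refine (norm_mul_le _ _).trans (mul_le_mul_of_nonneg_right ?_ (norm_nonneg _))
        refine (norm_mul_le _ _).trans (mul_le_mul_of_nonneg_right ?_ (norm_nonneg _))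
        refine (norm_mul_le _ _).trans (mul_le_mul_of_nonneg_right ?_ (norm_nonneg _))
        refine (norm_mul_le _ _).trans (mul_le_mul_of_nonneg_right ?_ (norm_nonneg _))
        refine (norm_mul_le _ _).trans (mul_le_mul_of_nonneg_right ?_ (norm_nonneg _))
        exact norm_mul_le _ _
    _ ≤ (1 / γ) * ‖D‖ * (1 / γ) * ‖D‖ * (1 / γ) * ‖D‖ * (1 / γ) := by gcongr
    _ = _ := by ring

end Vale.Agent.P078.Res
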