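import Mathlib
import Vale.Agent.P078.Expect
import Vale.Agent.P078.Resolvent

/-! One channel of the walk: the band and the second order expansion. -/

noncomputable section

open scoped ComplexOrder

set_option linter.unusedSectionVars false

namespace Vale.Agent.P078

universe u v

variable {M : Type u} [CStarAlgebra M] [PartialOrder M] [StarOrderedRing M]
  {Ω : Type v} [TopologicalSpace Ω] [CompactSpace Ω] [T2Space Ω]

namespace Chan

open Res

/-- `1 - N` carries the part of `Z` below `2 γ` -/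
structure Band (γ : ℝ) (Z N : M) : Prop where
  proj : IsStarProjection N
  comm : Commute N Z
  low : (2 * γ) • N ≤ Z * N
  high : Z * (1 - N) ≤ (2 * γ) • (1 - N)
  gap : γ • (1 : M) ≤ Z
  pos : 0 < γ

/-- the regularised resolvent sandwich -/
def Xp (v Z N : M) : M := v * (res Z * N) * v

/-- the squared regularised resolvent sandwich -/
def X2 (v Z N : M) : M := v * (res Z * res Z * N) * v

/-- the banded squared resolvent sandwich -/
def Bop (v Z N : M) : M := v * (res Z * res Z * (1 - N)) * v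

/-- the update of one channel -/
def Dop (v N : M) (ρ t : ℝ) (u u2 : M) : M :=
  N * (v * (t • u + t ^ 2 • u2) * v) * N - (t ^ 2 * ρ) • (1 - N)

variable {γ : ℝ} {v Z N : M}

lemma le_norm_smul {x : M} (hx : IsSelfAdjoint x) : x ≤ ‖x‖ • (1 : M) := by
  rw [← Algebra.algebraMap_eq_smul_one]
  exact hx.le_algebraMap_norm_self

lemma norm_le_of_le_smul {x : M} (hx : 0 ≤ x) {c : ℝ} (hc : 0 ≤ c) (h : x ≤ c • (1 : M)) :
    ‖x‖ ≤ c := by
  rw [CStarAlgebra.norm_le_iff_le_algebraMap _ hc hx, Algebra.algebraMap_eq_smul_one]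
  exact h

lemma proj_norm_le {p : M} (hp : IsStarProjection p) : ‖p‖ ≤ 1 :=
  (CStarAlgebra.norm_le_one_iff_of_nonneg p hp.nonneg).2 hp.le_one

lemma norm_sandwich_le (hv : ‖v‖ ≤ 1) (x : M) : ‖v * x * v‖ ≤ ‖x‖ := by
  refine (norm_mul_le _ _).trans ?_
  refine (mul_le_mul_of_nonneg_right (norm_mul_le _ _) (norm_nonneg _)).trans ?_
  calc ‖v‖ * ‖x‖ * ‖v‖ ≤ 1 * ‖x‖ * 1 := by gcongr
    _ = ‖x‖ := by ring

namespace Band

variable (hb : Band γ Z N)

include hb

lemma sa : IsSelfAdjoint Z := isSelfAdjoint_of_gap hb.pos.le hb.gap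

lemma projC : IsStarProjection (1 - N) := hb.proj.one_sub

lemma commC : Commute (1 - N) Z := (Commute.one_left Z).sub_left hb.comm

lemma commG : Commute N (res Z) := commute_res hb.pos hb.gap hb.comm

lemma commGC : Commute (1 - N) (res Z) := commute_res hb.pos hb.gap hb.commC

lemma GN_nonneg : 0 ≤ res Z * N :=
  hb.commG.symm.mul_nonneg (res_nonneg hb.pos hb.gap) hb.proj.nonneg

lemma GC_nonneg : 0 ≤ res Z * (1 - N) :=
  hb.commGC.symm.mul_nonneg (res_nonneg hb.pos hb.gap) hb.projC.nonneg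

lemma GGN_eq : res Z * res Z * N = res Z * N * res Z := by
  rw [mul_assoc, mul_assoc, hb.commG.eq]

lemma GGN_nonneg : 0 ≤ res Z * res Z * N := by
  rw [mul_assoc]
  exact ((Commute.refl (res Z)).mul_right hb.commG.symm).mul_nonneg
    (res_nonneg hb.pos hb.gap) hb.GN_nonneg

lemma GGC_nonneg : 0 ≤ res Z * res Z * (1 - N) := by
  rw [mul_assoc]
  exact ((Commute.refl (res Z)).mul_right hb.commGC.symm).mul_nonneg
    (res_nonneg hb.pos hb.gap) hb.GC_nonneg

lemma smul_C_le : (1 - N) ≤ (2 * γ) • (res Z * (1 - N)) := by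
  have h0 : 0 ≤ (2 * γ) • (1 - N) - Z * (1 - N) := sub_nonneg.2 hb.high
  have hc : Commute (res Z) ((2 * γ) • (1 - N) - Z * (1 - N)) :=
    (hb.commGC.symm.smul_right _).sub_right
      (((commute_res hb.pos hb.gap (Commute.refl Z)).symm).mul_right hb.commGC.symm)
  have h := hc.mul_nonneg (res_nonneg hb.pos hb.gap) h0
  rw [mul_sub, mul_smul_comm, ← mul_assoc, res_mul hb.pos hb.gap, one_mul] at h
  exact sub_nonneg.1 h

lemma GC_le : res Z * (1 - N) ≤ (2 * γ) • (res Z * res Z * (1 - N)) := by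
  have h0 : 0 ≤ (2 * γ) • (res Z * (1 - N)) - (1 - N) := sub_nonneg.2 hb.smul_C_le
  have hc : Commute (res Z) ((2 * γ) • (res Z * (1 - N)) - (1 - N)) :=
    (((Commute.refl _).mul_right hb.commGC.symm).smul_right _).sub_right hb.commGC.symm
  have h := hc.mul_nonneg (res_nonneg hb.pos hb.gap) h0
  rw [mul_sub, mul_smul_comm, ← mul_assoc] at h
  exact sub_nonneg.1 h

lemma Xp_nonneg (hv : IsSelfAdjoint v) : 0 ≤ Xp v Z N := hv.conjugate_nonneg hb.GN_nonneg

lemma X2_nonneg (hv : IsSelfAdjoint v) : 0 ≤ X2 v Z N := hv.conjugate_nonneg hb.GGN_nonneg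

lemma Bop_nonneg (hv : IsSelfAdjoint v) : 0 ≤ Bop v Z N := hv.conjugate_nonneg hb.GGC_nonneg

lemma Xp_sa (hv : IsSelfAdjoint v) : IsSelfAdjoint (Xp v Z N) := .of_nonneg (hb.Xp_nonneg hv)

lemma X2_sa (hv : IsSelfAdjoint v) : IsSelfAdjoint (X2 v Z N) := .of_nonneg (hb.X2_nonneg hv)

lemma Xp_le (hv : IsSelfAdjoint v) : Xp v Z N ≤ v * res Z * v := by
  refine hv.conjugate_le_conjugate (sub_nonneg.1 ?_)
  simpa [mul_sub] using hb.GC_nonneg

lemma norm_Xp_le (hv : ‖v‖ ≤ 1) : ‖Xp v Z N‖ ≤ 1 / γ :=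
  (norm_sandwich_le hv _).trans ((norm_mul_le _ _).trans
    ((mul_le_mul_of_nonneg_left (proj_norm_le hb.proj) (norm_nonneg _)).trans
      (by simpa using norm_res_le hb.pos hb.gap)))

lemma norm_X2_le (hv : ‖v‖ ≤ 1) : ‖X2 v Z N‖ ≤ (1 / γ) ^ 2 := by
  refine (norm_sandwich_le hv _).trans ((norm_mul_le _ _).trans ?_)
  refine (mul_le_mul_of_nonneg_left (proj_norm_le hb.proj) (norm_nonneg _)).trans ?_
  rw [mul_one, pow_two]
  exact (norm_mul_le _ _).trans (mul_le_mul (norm_res_le hb.pos hb.gap)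
    (norm_res_le hb.pos hb.gap) (norm_nonneg _) (by have := hb.pos; positivity))

lemma norm_Bop_le (hv : ‖v‖ ≤ 1) : ‖Bop v Z N‖ ≤ (1 / γ) ^ 2 := by
  refine (norm_sandwich_le hv _).trans ((norm_mul_le _ _).trans ?_)
  refine (mul_le_mul_of_nonneg_left (proj_norm_le hb.projC) (norm_nonneg _)).trans ?_
  rw [mul_one, pow_two]
  exact (norm_mul_le _ _).trans (mul_le_mul (norm_res_le hb.pos hb.gap)
    (norm_res_le hb.pos hb.gap) (norm_nonneg _) (by have := hb.pos; positivity))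

/-- the update keeps the gap -/
lemma gap_sub_Dop (hv : IsSelfAdjoint v) {ρ t : ℝ} (hρ : 0 ≤ ρ) {u u2 : M}
    (hu : IsSelfAdjoint u) (hu2 : IsSelfAdjoint u2) (hn : ‖v * (t • u + t ^ 2 • u2) * v‖ ≤ γ) :
    γ • (1 : M) ≤ Z - Dop v N ρ t u u2 := by
  set Y := v * (t • u + t ^ 2 • u2) * v with hY
  have hYsa : IsSelfAdjoint Y := by
    have h : IsSelfAdjoint (t • u + t ^ 2 • u2) :=
      ((IsSelfAdjoint.all t).smul hu).add ((IsSelfAdjoint.all (t ^ 2)).smul hu2)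
    rw [hY]
    simpa [hv.star_eq] using h.conjugate v
  have hY1 : Y ≤ γ • (1 : M) :=
    (le_norm_smul hYsa).trans (smul_le_smul_of_nonneg_right hn zero_le_one)
  have hNN : N * (γ • (1 : M)) * N = γ • N := by
    rw [mul_smul_comm, smul_mul_assoc, mul_one, hb.proj.isIdempotentElem.eq]
  have h1 : N * Y * N ≤ γ • N := by
    rw [← hNN]; exact hb.proj.isSelfAdjoint.conjugate_le_conjugate hY1
  have h2 : γ • (1 - N) ≤ Z * (1 - N) := by
    have h := hb.projC.isSelfAdjoint.conjugate_le_conjugate hb.gap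
    rwa [mul_smul_comm, smul_mul_assoc, mul_one, hb.projC.isIdempotentElem.eq, hb.commC.eq,
      mul_assoc, hb.projC.isIdempotentElem.eq] at h
  have h3 : (0 : M) ≤ (t ^ 2 * ρ) • (1 - N) := smul_nonneg (by positivity) hb.projC.nonneg
  have h4 : (2 * γ) • N = γ • N + γ • N := by rw [two_mul, add_smul]
  calc γ • (1 : M) = ((2 * γ) • N - γ • N) + γ • (1 - N) + 0 := by rw [h4, smul_sub]; abel
    _ ≤ (Z * N - N * Y * N) + Z * (1 - N) + (t ^ 2 * ρ) • (1 - N) :=
        add_le_add (add_le_add (sub_le_sub hb.low h1) h2) h3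
    _ = Z - Dop v N ρ t u u2 := by rw [Dop, ← hY, mul_sub Z, mul_one]; abel

end Band

end Chan

namespace TMasa

open Res Chan

variable (T : TMasa M Ω) {γ : ℝ} {v Z N : M}

lemma exists_band (hγ : 0 < γ) (hZ : γ • (1 : M) ≤ Z)
    (h : ∀ X : M, IsSelfAdjoint X → ∀ t : ℝ, ∃ Q : M, IsStarProjection Q ∧ Commute Q X ∧
      t • Q ≤ X * Q ∧ X * (1 - Q) ≤ t • (1 - Q)) : ∃ N, Band γ Z N := by
  obtain ⟨Q, h1, h2, h3, h4⟩ := h Z (isSelfAdjoint_of_gap hγ.le hZ) (2 * γ)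
  exact ⟨Q, h1, h2, h3, h4, hZ, hγ⟩

/-- the banded part of the barrier -/
lemma E_band_le (hb : Band γ Z N) (hv : IsSelfAdjoint v) (ω : Ω) :
    T.E (v * res Z * v) ω - T.E (Xp v Z N) ω ≤ 2 * γ * T.E (Bop v Z N) ω := by
  have h := T.E_mono (hv.conjugate_le_conjugate hb.GC_le) ω
  have e : v * res Z * v - Xp v Z N = v * (res Z * (1 - N)) * v := by
    simp [Xp, mul_sub, sub_mul, mul_assoc]
  rw [mul_smul_comm, smul_mul_assoc, map_smul, ← e, map_sub] at h
  simpa [Bop] using h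

lemma tr_band_le (hb : Band γ Z N) : T.tr (1 - N) ≤ 2 * γ * T.tr (res Z) := by
  refine (T.tr_mono hb.smul_C_le).trans ?_
  rw [map_smul, smul_eq_mul]
  refine mul_le_mul_of_nonneg_left (T.tr_mono ?_) (by linarith [hb.pos])
  exact sub_nonneg.1 (by simpa [mul_sub] using hb.GN_nonneg)

lemma n2_proj {p : M} (hp : IsStarProjection p) : T.n2 p = Real.sqrt (T.tr p) := by
  rw [n2, ip, hp.isSelfAdjoint.star_eq, hp.isIdempotentElem.eq]

lemma n2_offband_le (hb : Band γ Z N) (Y : M) :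
    T.n2 (Y - N * Y * N) ≤ 2 * ‖Y‖ * Real.sqrt (T.tr (1 - N)) := by
  have e : Y - N * Y * N = (1 - N) * Y + N * Y * (1 - N) := by
    simp only [sub_mul, mul_sub, one_mul, mul_one, mul_assoc]; abel
  rw [e, ← T.n2_proj hb.projC]
  refine (T.n2_add _ _).trans ?_
  have h1 := T.n2_mul_right Y (1 - N)
  have h2 := T.n2_mul_left (N * Y) (1 - N)
  have h3 : ‖N * Y‖ ≤ ‖Y‖ := (norm_mul_le _ _).trans
    (mul_le_of_le_one_left (norm_nonneg _) (proj_norm_le hb.proj))
  nlinarith [T.n2_nonneg (1 - N)]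

/-- the second order expansion of the resolvent -/
lemma res_Dop_expand (hb : Band γ Z N) (hv1 : ‖v‖ ≤ 1) (hv : IsSelfAdjoint v) {ρ t H R₀ : ℝ}
    (hρ : 0 ≤ ρ) (hρ' : ρ ≤ R₀) (ht0 : 0 ≤ t) (ht1 : t ≤ 1) {h h2 : C(Ω, ℝ)} (hh : ‖h‖ ≤ H)
    (hh2 : ‖h2‖ ≤ H) (htH : 2 * t * H ≤ γ) :
    γ • (1 : M) ≤ Z - Dop v N ρ t (T.emb h) (T.emb h2) ∧
    ‖res (Z - Dop v N ρ t (T.emb h) (T.emb h2)) -
      (res Z + t • (res Z * (N * (v * T.emb h * v) * N) * res Z)
        + t ^ 2 • (res Z * (N * (v * T.emb h2 * v) * N - ρ • (1 - N)) * res Z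
          + res Z * (N * (v * T.emb h * v) * N) * res Z * (N * (v * T.emb h * v) * N) * res Z))‖
      ≤ 11 * (1 / γ + 1) ^ 4 * (2 * H + R₀ + 1) ^ 3 * t ^ 3 := by
  have hH : 0 ≤ H := (norm_nonneg h).trans hh
  have hγ := hb.pos
  set D1 := N * (v * T.emb h * v) * N with hD1d
  set D2 := N * (v * T.emb h2 * v) * N - ρ • (1 - N) with hD2d
  set D := Dop v N ρ t (T.emb h) (T.emb h2) with hDd
  set G := res Z
  have hn1 : ∀ f : C(Ω, ℝ), ‖N * (v * T.emb f * v) * N‖ ≤ ‖f‖ := fun f => by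
    refine (norm_mul_le _ _).trans ?_
    refine (mul_le_mul_of_nonneg_right (norm_mul_le _ _) (norm_nonneg _)).trans ?_
    have h1 := proj_norm_le hb.proj
    calc ‖N‖ * ‖v * T.emb f * v‖ * ‖N‖ ≤ 1 * ‖T.emb f‖ * 1 := by
          gcongr; exact norm_sandwich_le hv1 _
      _ = ‖f‖ := by rw [T.emb_norm]; ring
  set K := 2 * H + R₀ + 1 with hK
  have hK1 : 1 ≤ K := by linarith
  have hD1 : ‖D1‖ ≤ K := (hn1 h).trans (by linarith)
  have hD2 : ‖D2‖ ≤ K := by
    refine (norm_sub_le _ _).trans ?_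
    have h4 : ‖ρ • (1 - N)‖ ≤ ρ := by
      rw [norm_smul, Real.norm_eq_abs, abs_of_nonneg hρ]
      exact mul_le_of_le_one_right hρ (proj_norm_le hb.projC)
    linarith [hn1 h2]
  have eD : D = t • D1 + t ^ 2 • D2 := by
    rw [hDd, hD1d, hD2d, Dop]
    simp only [mul_add, add_mul, mul_smul_comm, smul_mul_assoc, smul_sub, smul_smul]
    abel
  have hgap : γ • (1 : M) ≤ Z - D := by
    refine hb.gap_sub_Dop hv hρ (T.emb_selfAdjoint h) (T.emb_selfAdjoint h2) ?_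
    refine (norm_sandwich_le hv1 _).trans ?_
    rw [← map_smul, ← map_smul, ← map_add, T.emb_norm]
    refine (norm_add_le _ _).trans ?_
    rw [norm_smul, norm_smul, Real.norm_eq_abs, Real.norm_eq_abs, abs_of_nonneg ht0,
      abs_of_nonneg (sq_nonneg t)]
    have : t ^ 2 ≤ t := by nlinarith
    nlinarith [mul_le_mul_of_nonneg_left hh ht0, mul_le_mul this hh2 (norm_nonneg _) ht0]
  refine ⟨hgap, ?_⟩
  have hexp := res_expand hb.pos hb.gap hgap
  have hGn : ‖G‖ ≤ 1 / γ := norm_res_le hb.pos hb.gap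
  have hDn : ‖D‖ ≤ 2 * K * t := by
    rw [eD]
    refine (norm_add_le _ _).trans ?_
    rw [norm_smul, norm_smul, Real.norm_eq_abs, Real.norm_eq_abs, abs_of_nonneg ht0,
      abs_of_nonneg (sq_nonneg t)]
    have : t ^ 2 ≤ t := by nlinarith
    nlinarith [mul_le_mul_of_nonneg_left hD1 ht0, mul_le_mul this hD2 (norm_nonneg _) ht0]
  have e : G + G * D * G + G * D * G * D * G -
      (G + t • (G * D1 * G) + t ^ 2 • (G * D2 * G + G * D1 * G * D1 * G))
      = t ^ 3 • (G * D1 * G * D2 * G + G * D2 * G * D1 * G) + t ^ 4 • (G * D2 * G * D2 * G) := by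
    rw [eD]
    simp only [mul_add, add_mul, mul_smul_comm, smul_mul_assoc, smul_add, smul_smul, ← pow_two,
      ← pow_succ, ← pow_succ']
    ring_nf
    module
  have hterm : ∀ A B : M, ‖A‖ ≤ K → ‖B‖ ≤ K → ‖G * A * G * B * G‖ ≤ (1 / γ) ^ 3 * K ^ 2 := by
    intro A B hA hB
    calc ‖G * A * G * B * G‖ ≤ ‖G‖ * ‖A‖ * ‖G‖ * ‖B‖ * ‖G‖ := by
          refine (norm_mul_le _ _).trans (mul_le_mul_of_nonneg_right ?_ (norm_nonneg _))
          refine (norm_mul_le _ _).trans (mul_le_mul_of_nonneg_right ?_ (norm_nonneg _))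
          refine (norm_mul_le _ _).trans (mul_le_mul_of_nonneg_right ?_ (norm_nonneg _))
          exact norm_mul_le _ _
      _ ≤ (1 / γ) * K * (1 / γ) * K * (1 / γ) := by gcongr
      _ = _ := by ring
  set q := 1 / γ + 1 with hq
  have hq1 : 1 ≤ q := by have : 0 < 1 / γ := by positivity
                         linarith
  have hqγ : 1 / γ ≤ q := by linarith
  refine (norm_sub_le_norm_sub_add_norm_sub _
    (G + G * D * G + G * D * G * D * G) _).trans ?_
  have h5 : (1 / γ) ^ 4 * ‖D‖ ^ 3 ≤ q ^ 4 * (2 * K * t) ^ 3 := by gcongr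
  have h6 : (1 / γ) ^ 3 * K ^ 2 ≤ q ^ 4 * K ^ 3 := by
    have h7 : (1 / γ) ^ 3 ≤ q ^ 4 :=
      (pow_le_pow_left₀ (by positivity) hqγ 3).trans (pow_le_pow_right₀ hq1 (by norm_num))
    have h8 : K ^ 2 ≤ K ^ 3 := pow_le_pow_right₀ hK1 (by norm_num)
    gcongr
  rw [e]
  refine le_trans (add_le_add hexp (norm_add_le _ _)) ?_
  simp only [norm_smul, Real.norm_eq_abs, abs_of_nonneg (pow_nonneg ht0 3),
    abs_of_nonneg (pow_nonneg ht0 4)]
  have h9 := (norm_add_le _ _).trans (add_le_add (hterm D1 D2 hD1 hD2) (hterm D2 D1 hD2 hD1))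
  have h10 := hterm D2 D2 hD2 hD2
  have ht4 : t ^ 4 ≤ t ^ 3 := pow_le_pow_of_le_one ht0 ht1 (by norm_num)
  have := mul_le_mul_of_nonneg_left (h9.trans (add_le_add h6 h6)) (pow_nonneg ht0 3)
  have := mul_le_mul ht4 (h10.trans h6) (norm_nonneg _) (pow_nonneg ht0 3)
  have h11 : 0 ≤ t ^ 3 * (q ^ 4 * K ^ 3) := by positivity
  nlinarith

end TMasa

end Vale.Agent.P078
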