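import Mathlib
import Vale.Agent.P078.Expect

/-! The diagonal functional. -/

noncomputable section

open Filter Topology

set_option linter.unusedSectionVars false

namespace Vale.Agent.P078

universe u v

variable {M : Type u} [CStarAlgebra M] [PartialOrder M] [StarOrderedRing M]
  {Ω : Type v} [TopologicalSpace Ω] [CompactSpace Ω] [T2Space Ω] (T : TMasa M Ω)

namespace TMasa

/-- the algebra generated by multiplications and the maps `h ↦ E (X h X)`, `X` self-adjoint -/
def TT : Subalgebra ℝ (Module.End ℝ C(Ω, ℝ)) :=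
  Algebra.adjoin ℝ (Set.range (mlt (Ω := Ω)) ∪ {W | ∃ X : M, IsSelfAdjoint X ∧ W = T.K X})

lemma mlt_mem (f : C(Ω, ℝ)) : mlt f ∈ T.TT := Algebra.subset_adjoin (Or.inl ⟨f, rfl⟩)

lemma K_mem {X : M} (hX : IsSelfAdjoint X) : T.K X ∈ T.TT :=
  Algebra.subset_adjoin (Or.inr ⟨X, hX, rfl⟩)

lemma K2_eq_polar {X Z : M} (hX : IsSelfAdjoint X) (hZ : IsSelfAdjoint Z) :
    T.K2 X Z = (1 / 2 : ℝ) • (T.K (X + Z) - T.K X - T.K Z) := by
  refine LinearMap.ext fun h => ?_
  have e : T.E (Z * T.emb h * X) = T.E (X * T.emb h * Z) := by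
    rw [← T.E_star, star_mul, star_mul, T.star_emb, hX.star_eq, hZ.star_eq, mul_assoc]
  simp only [LinearMap.smul_apply, LinearMap.sub_apply, K_apply, K2_apply, hX.star_eq, hZ.star_eq,
    (hX.add hZ).star_eq, add_mul, mul_add, map_add, e]
  rw [show ∀ a b c : C(Ω, ℝ), a + b + (b + c) - a - c = (2 : ℝ) • b from fun a b c => by
    rw [two_smul]; abel]
  rw [smul_smul]; norm_num

lemma K2_mem {X Z : M} (hX : IsSelfAdjoint X) (hZ : IsSelfAdjoint Z) : T.K2 X Z ∈ T.TT := by
  rw [T.K2_eq_polar hX hZ]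
  exact Subalgebra.smul_mem _
    (sub_mem (sub_mem (T.K_mem (hX.add hZ)) (T.K_mem hX)) (T.K_mem hZ)) _

/-- the diagonal sum of an operator over a partition -/
def omegaP (P : Part Ω) (W : Module.End ℝ C(Ω, ℝ)) : ℝ :=
  ∑ i, T.tau (P.e i * W (P.e i))

/-- the diagonal functional -/
def omega (W : Module.End ℝ C(Ω, ℝ)) : ℝ :=
  limUnder atTop fun P : Part Ω => T.omegaP P W

end TMasa

end Vale.Agent.P078
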