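import Mathlib
import Vale.Agent.P078.OmegaDefs

/-! Matrices over the diagonal algebra and the leverage inequalities. -/

noncomputable section

open Filter Topology

set_option linter.unusedSectionVars false
set_option linter.unusedSimpArgs false

namespace Vale.Agent.P078

universe u v

variable {M : Type u} [CStarAlgebra M] [PartialOrder M] [StarOrderedRing M]
  {Ω : Type v} [TopologicalSpace Ω] [CompactSpace Ω] [T2Space Ω]

/-- the properties of the diagonal functional -/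
structure TMasa.OmegaSpec (T : TMasa M Ω) : Prop where
  tendsto : ∀ W ∈ T.TT, Tendsto (fun P => T.omegaP P W) atTop (𝓝 (T.omega W))
  comm : ∀ V ∈ T.TT, ∀ W ∈ T.TT, T.omega (V * W) = T.omega (W * V)
  value_mlt : ∀ f, T.omega (TMasa.mlt f) = T.tau f
  value_mlt_mul_K2 : ∀ f X Z, IsSelfAdjoint X → IsSelfAdjoint Z →
    T.omega (TMasa.mlt f * T.K2 X Z) = T.tau (f * (T.E X * T.E Z))

/-- matrices of operators -/
abbrev Ops (Ω : Type v) [TopologicalSpace Ω] (r : ℕ) :=
  Matrix (Fin r) (Fin r) (Module.End ℝ C(Ω, ℝ))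

namespace Ops

variable {r : ℕ}

/-- action on vectors -/
def app (W : Ops Ω r) : (Fin r → C(Ω, ℝ)) →ₗ[ℝ] (Fin r → C(Ω, ℝ)) where
  toFun x i := ∑ j, W i j (x j)
  map_add' x y := by ext i : 1; simp [Finset.sum_add_distrib]
  map_smul' c x := by ext i : 1; simp [Finset.smul_sum]

lemma app_apply (W : Ops Ω r) (x : Fin r → C(Ω, ℝ)) (i : Fin r) :
    app W x i = ∑ j, W i j (x j) := rfl

lemma app_mul (V W : Ops Ω r) (x : Fin r → C(Ω, ℝ)) : app (V * W) x = app V (app W x) := by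
  ext i : 1
  simp only [app_apply, Matrix.mul_apply, LinearMap.sum_apply, Module.End.mul_apply, map_sum]
  rw [Finset.sum_comm]

lemma app_one (x : Fin r → C(Ω, ℝ)) : app (1 : Ops Ω r) x = x := by
  ext i : 1
  rw [app_apply, Finset.sum_eq_single i (fun j _ hj => by simp [Matrix.one_apply_ne' hj]) (by simp)]
  simp

lemma app_add (V W : Ops Ω r) (x) : app (V + W) x = app V x + app W x := by
  ext i : 1; simp [app_apply, Finset.sum_add_distrib]

lemma app_sub (V W : Ops Ω r) (x) : app (V - W) x = app V x - app W x := by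
  ext i : 1; simp [app_apply, Finset.sum_sub_distrib]

lemma app_smul (c : ℝ) (W : Ops Ω r) (x) : app (c • W) x = c • app W x := by
  ext i : 1; simp [app_apply, Finset.smul_sum]

end Ops

namespace TMasa

open Ops

variable (T : TMasa M Ω) {r : ℕ}

/-- inner product on vectors -/
def ipv (x y : Fin r → C(Ω, ℝ)) : ℝ := ∑ i, T.tau (x i * y i)

/-- norm on vectors -/
def nv (x : Fin r → C(Ω, ℝ)) : ℝ := Real.sqrt (T.ipv x x)

lemma ipv_comm (x y : Fin r → C(Ω, ℝ)) : T.ipv x y = T.ipv y x := by simp [ipv, mul_comm]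

lemma ipv_add_right (x y z : Fin r → C(Ω, ℝ)) : T.ipv x (y + z) = T.ipv x y + T.ipv x z := by
  simp [ipv, mul_add, Finset.sum_add_distrib]

lemma ipv_add_left (x y z : Fin r → C(Ω, ℝ)) : T.ipv (x + y) z = T.ipv x z + T.ipv y z := by
  simp [ipv, add_mul, Finset.sum_add_distrib]

lemma ipv_sub_right (x y z : Fin r → C(Ω, ℝ)) : T.ipv x (y - z) = T.ipv x y - T.ipv x z := by
  simp [ipv, mul_sub, Finset.sum_sub_distrib]

lemma ipv_smul_right (c : ℝ) (x y : Fin r → C(Ω, ℝ)) : T.ipv x (c • y) = c * T.ipv x y := by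
  simp [ipv, Finset.mul_sum]

lemma ipv_smul_left (c : ℝ) (x y : Fin r → C(Ω, ℝ)) : T.ipv (c • x) y = c * T.ipv x y := by
  simp [ipv, Finset.mul_sum]

lemma ipv_self_nonneg (x : Fin r → C(Ω, ℝ)) : 0 ≤ T.ipv x x :=
  Finset.sum_nonneg fun i _ => T.tau_nonneg fun ω => mul_self_nonneg (x i ω)

lemma nv_nonneg (x : Fin r → C(Ω, ℝ)) : 0 ≤ T.nv x := Real.sqrt_nonneg _

lemma nv_sq (x : Fin r → C(Ω, ℝ)) : T.nv x ^ 2 = T.ipv x x := Real.sq_sqrt (T.ipv_self_nonneg x)

lemma abs_ipv_le (x y : Fin r → C(Ω, ℝ)) : |T.ipv x y| ≤ T.nv x * T.nv y := by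
  have h : ∀ t : ℝ, 0 ≤ T.ipv y y * (t * t) + (2 * T.ipv x y) * t + T.ipv x x := by
    intro t
    have := T.ipv_self_nonneg (x + t • y)
    simp only [T.ipv_add_left, T.ipv_add_right, T.ipv_smul_left, T.ipv_smul_right,
      T.ipv_comm y x] at this
    linarith
  have hd := discrim_le_zero h
  simp only [discrim] at hd
  rw [nv, nv, ← Real.sqrt_mul (T.ipv_self_nonneg x)]
  exact Real.abs_le_sqrt (by nlinarith)

lemma nv_add (x y : Fin r → C(Ω, ℝ)) : T.nv (x + y) ≤ T.nv x + T.nv y := by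
  have h := (le_abs_self _).trans (T.abs_ipv_le x y)
  refine (pow_le_pow_iff_left₀ (T.nv_nonneg _) (add_nonneg (T.nv_nonneg x) (T.nv_nonneg y))
    two_ne_zero).1 ?_
  have hx := T.nv_sq x
  have hy := T.nv_sq y
  rw [T.nv_sq, T.ipv_add_left, T.ipv_add_right, T.ipv_add_right, T.ipv_comm y x]
  nlinarith

lemma nv_smul (c : ℝ) (x : Fin r → C(Ω, ℝ)) : T.nv (c • x) = |c| * T.nv x := by
  rw [nv, T.ipv_smul_left, T.ipv_smul_right, ← mul_assoc, Real.sqrt_mul (mul_self_nonneg c),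
    Real.sqrt_mul_self_eq_abs, nv]

/-- membership in the diagonal algebra -/
def MemT (W : Ops Ω r) : Prop := ∀ i j, W i j ∈ T.TT

/-- operator bound -/
def Bnd (c : ℝ) (W : Ops Ω r) : Prop := ∀ x, T.nv (app W x) ≤ c * T.nv x

/-- adjointness -/
def IsAdj (V W : Ops Ω r) : Prop := ∀ x y, T.ipv x (app W y) = T.ipv (app V x) y

variable {T}

lemma MemT.mul {V W : Ops Ω r} (hV : T.MemT V) (hW : T.MemT W) : T.MemT (V * W) := fun i k => by
  rw [Matrix.mul_apply]
  exact Subalgebra.sum_mem _ fun j _ => Subalgebra.mul_mem _ (hV i j) (hW j k)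

lemma MemT.one : T.MemT (1 : Ops Ω r) := fun i j => by
  rw [Matrix.one_apply]; split_ifs
  · exact Subalgebra.one_mem _
  · exact Subalgebra.zero_mem _

lemma MemT.sub {V W : Ops Ω r} (hV : T.MemT V) (hW : T.MemT W) : T.MemT (V - W) :=
  fun i j => Subalgebra.sub_mem _ (hV i j) (hW i j)

lemma MemT.add {V W : Ops Ω r} (hV : T.MemT V) (hW : T.MemT W) : T.MemT (V + W) :=
  fun i j => Subalgebra.add_mem _ (hV i j) (hW i j)

lemma MemT.smul {W : Ops Ω r} (hW : T.MemT W) (c : ℝ) : T.MemT (c • W) :=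
  fun i j => Subalgebra.smul_mem _ (hW i j) c

lemma MemT.pow {W : Ops Ω r} (hW : T.MemT W) : ∀ n, T.MemT (W ^ n)
  | 0 => by rw [pow_zero]; exact MemT.one
  | n + 1 => by rw [pow_succ]; exact (MemT.pow hW n).mul hW

lemma Bnd.mul {V W : Ops Ω r} {a b : ℝ} (ha : 0 ≤ a) (hV : T.Bnd a V) (hW : T.Bnd b W) :
    T.Bnd (a * b) (V * W) := fun x => by
  rw [app_mul, mul_assoc]
  exact (hV _).trans (mul_le_mul_of_nonneg_left (hW x) ha)

lemma Bnd.add {V W : Ops Ω r} {a b : ℝ} (hV : T.Bnd a V) (hW : T.Bnd b W) :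
    T.Bnd (a + b) (V + W) := fun x => by
  rw [app_add, add_mul]
  exact (T.nv_add _ _).trans (add_le_add (hV x) (hW x))

lemma Bnd.smul {W : Ops Ω r} {a : ℝ} (hW : T.Bnd a W) (c : ℝ) :
    T.Bnd (|c| * a) (c • W) := fun x => by
  rw [app_smul, T.nv_smul, mul_assoc]
  exact mul_le_mul_of_nonneg_left (hW x) (abs_nonneg c)

lemma Bnd.one : T.Bnd 1 (1 : Ops Ω r) := fun x => by simp [app_one]

lemma Bnd.mono {W : Ops Ω r} {a b : ℝ} (hW : T.Bnd a W) (h : a ≤ b) : T.Bnd b W :=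
  fun x => (hW x).trans (mul_le_mul_of_nonneg_right h (T.nv_nonneg x))

lemma IsAdj.mul {V V' W W' : Ops Ω r} (h : T.IsAdj V' V) (h' : T.IsAdj W' W) :
    T.IsAdj (W' * V') (V * W) := fun x y => by rw [app_mul, app_mul, h, h']

lemma IsAdj.one : T.IsAdj (1 : Ops Ω r) 1 := fun x y => by simp [app_one]

lemma IsAdj.sub {V V' W W' : Ops Ω r} (h : T.IsAdj V' V) (h' : T.IsAdj W' W) :
    T.IsAdj (V' - W') (V - W) := fun x y => by
  rw [app_sub, app_sub, T.ipv_sub_right, h, h', T.ipv_comm (_ - _), T.ipv_sub_right,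
    T.ipv_comm y, T.ipv_comm y]

lemma IsAdj.add {V V' W W' : Ops Ω r} (h : T.IsAdj V' V) (h' : T.IsAdj W' W) :
    T.IsAdj (V' + W') (V + W) := fun x y => by
  rw [app_add, app_add, T.ipv_add_right, h, h', T.ipv_add_left]

lemma IsAdj.smul {V W : Ops Ω r} (h : T.IsAdj V W) (c : ℝ) : T.IsAdj (c • V) (c • W) :=
  fun x y => by rw [app_smul, app_smul, T.ipv_smul_right, h, T.ipv_smul_left]

lemma IsAdj.symm {V W : Ops Ω r} (h : T.IsAdj V W) : T.IsAdj W V :=
  fun x y => by rw [T.ipv_comm, ← h, T.ipv_comm]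

lemma IsAdj.pow {W : Ops Ω r} (h : T.IsAdj W W) : ∀ n, T.IsAdj (W ^ n) (W ^ n)
  | 0 => by rw [pow_zero]; exact IsAdj.one
  | n + 1 => by
    have h1 := (IsAdj.pow h n).mul h
    rwa [← pow_succ, ← pow_succ'] at h1

lemma IsAdj.bnd_one {V W : Ops Ω r} (h : T.IsAdj V W) (hW : T.Bnd 1 W) : T.Bnd 1 V := by
  intro x
  rcases eq_or_lt_of_le (T.nv_nonneg (app V x)) with h0 | h0
  · rw [← h0, one_mul]; exact T.nv_nonneg x
  · have h1 : T.nv (app V x) ^ 2 ≤ T.nv x * T.nv (app V x) := by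
      rw [T.nv_sq, ← h]
      refine (le_abs_self _).trans ((T.abs_ipv_le _ _).trans ?_)
      exact mul_le_mul_of_nonneg_left (by simpa using hW (app V x)) (T.nv_nonneg _)
    rw [one_mul]
    nlinarith

lemma Bnd.quad_nonneg {W : Ops Ω r} (h : T.Bnd 1 W) (x : Fin r → C(Ω, ℝ)) :
    0 ≤ T.ipv x (app (1 - W) x) := by
  rw [app_sub, app_one, T.ipv_sub_right, sub_nonneg, ← T.nv_sq, pow_two]
  refine (le_abs_self _).trans ((T.abs_ipv_le _ _).trans ?_)
  exact mul_le_mul_of_nonneg_left (by simpa using h x) (T.nv_nonneg x)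

lemma tau_E_mul_E_le (T : TMasa M Ω) (x : M) : T.tau (T.E x * T.E x) ≤ T.n2 x ^ 2 := by
  have h : T.E x * T.E x ≤ T.E (star x * x) := fun ω => by
    have := T.E_schwarz 1 x ω
    simp only [star_one, one_mul, T.E_one, ContinuousMap.one_apply] at this
    show T.E x ω * T.E x ω ≤ _
    rw [← pow_two]; exact this
  rw [T.n2_sq, ip, ← T.tau_E]
  exact T.tau_mono h

lemma n2_sandwich_le (T : TMasa M Ω) (X Z y : M) :
    T.n2 (X * y * Z) ≤ ‖X‖ * T.n2 y * ‖Z‖ :=
  (T.n2_mul_right _ _).trans (mul_le_mul_of_nonneg_right (T.n2_mul_left _ _) (norm_nonneg _))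

lemma exists_bound (T : TMasa M Ω) {W : Module.End ℝ C(Ω, ℝ)} (hW : W ∈ T.TT) :
    ∃ C : ℝ, 0 ≤ C ∧ ∀ f, T.n2 (T.emb (W f)) ≤ C * T.n2 (T.emb f) := by
  induction hW using Algebra.adjoin_induction with
  | mem W hW =>
    rcases hW with ⟨g, rfl⟩ | ⟨X, hX, rfl⟩
    · refine ⟨‖g‖, norm_nonneg _, fun f => ?_⟩
      show T.n2 (T.emb (g * f)) ≤ _
      rw [map_mul, ← T.emb_norm g]
      exact T.n2_mul_left _ _
    · refine ⟨‖X‖ * ‖X‖, by positivity, fun f => ?_⟩
      refine (pow_le_pow_iff_left₀ (T.n2_nonneg _) (by have := T.n2_nonneg (T.emb f); positivity)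
        two_ne_zero).1 ?_
      rw [T.n2_emb_sq, T.K_apply, hX.star_eq]
      refine (tau_E_mul_E_le T _).trans (pow_le_pow_left₀ (T.n2_nonneg _) ?_ 2)
      exact (n2_sandwich_le T _ _ _).trans (le_of_eq (by ring))
  | algebraMap c =>
    refine ⟨|c|, abs_nonneg _, fun f => ?_⟩
    rw [Module.algebraMap_end_apply, map_smul, T.n2_smul]
  | add V W _ _ hV hW =>
    obtain ⟨a, ha, hV⟩ := hV
    obtain ⟨b, hb, hW⟩ := hW
    refine ⟨a + b, add_nonneg ha hb, fun f => ?_⟩
    rw [LinearMap.add_apply, map_add, add_mul]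
    exact (T.n2_add _ _).trans (add_le_add (hV f) (hW f))
  | mul V W _ _ hV hW =>
    obtain ⟨a, ha, hV⟩ := hV
    obtain ⟨b, hb, hW⟩ := hW
    refine ⟨a * b, mul_nonneg ha hb, fun f => ?_⟩
    rw [Module.End.mul_apply, mul_assoc]
    exact (hV _).trans (mul_le_mul_of_nonneg_left (hW f) ha)

lemma MemT.exists_bnd {W : Ops Ω r} (hW : T.MemT W) : ∃ C, 0 ≤ C ∧ T.Bnd C W := by
  choose C hC0 hC using fun p : Fin r × Fin r => exists_bound T (hW p.1 p.2)
  have hone : ∀ (x : Fin r → C(Ω, ℝ)) j, T.n2 (T.emb (x j)) ≤ T.nv x := fun x j => by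
    rw [nv, n2]
    refine Real.sqrt_le_sqrt ?_
    rw [ip, T.star_emb, ← map_mul, ← tau_apply]
    exact Finset.single_le_sum (f := fun i => T.tau (x i * x i))
      (fun i _ => T.tau_nonneg fun ω => mul_self_nonneg (x i ω)) (Finset.mem_univ j)
  refine ⟨r * ∑ p, C p, mul_nonneg (Nat.cast_nonneg r) (Finset.sum_nonneg fun p _ => hC0 p),
    fun x => ?_⟩
  have hi : ∀ i, T.n2 (T.emb (app W x i)) ≤ (∑ p, C p) * T.nv x := by
    intro i
    have hsum : T.n2 (T.emb (app W x i)) ≤ ∑ j, C (i, j) * T.nv x := by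
      rw [app_apply, map_sum]
      refine (Finset.le_sum_of_subadditive T.n2 T.n2_zero.le T.n2_add _ _).trans ?_
      exact Finset.sum_le_sum fun j _ => (hC (i, j) (x j)).trans
        (mul_le_mul_of_nonneg_left (hone x j) (hC0 _))
    refine hsum.trans ?_
    rw [← Finset.sum_mul]
    refine mul_le_mul_of_nonneg_right ?_ (T.nv_nonneg x)
    rw [Fintype.sum_prod_type]
    exact Finset.single_le_sum (f := fun i => ∑ j, C (i, j))
      (fun i _ => Finset.sum_nonneg fun j _ => hC0 _) (Finset.mem_univ i)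
  have hD : 0 ≤ (∑ p, C p) * T.nv x :=
    mul_nonneg (Finset.sum_nonneg fun p _ => hC0 p) (T.nv_nonneg x)
  refine (pow_le_pow_iff_left₀ (T.nv_nonneg _) (by rw [mul_assoc]; positivity) two_ne_zero).1 ?_
  rw [T.nv_sq, ipv]
  calc ∑ i, T.tau (app W x i * app W x i) ≤ ∑ _i : Fin r, ((∑ p, C p) * T.nv x) ^ 2 := by
        refine Finset.sum_le_sum fun i _ => ?_
        rw [← T.n2_emb_sq]
        exact pow_le_pow_left₀ (T.n2_nonneg _) (hi i) 2
    _ = (r : ℝ) * ((∑ p, C p) * T.nv x) ^ 2 := by simp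
    _ ≤ _ := by
        rw [mul_assoc, mul_pow (r : ℝ) ((∑ p, C p) * T.nv x) 2]
        refine mul_le_mul_of_nonneg_right ?_ (sq_nonneg _)
        rcases Nat.eq_zero_or_pos r with rfl | hr
        · simp
        · exact le_self_pow₀ (by exact_mod_cast hr) two_ne_zero

variable (T)

/-- the basis vector of a piece in a channel -/
def bas (P : Part Ω) {r : ℕ} (i : Fin r) (k : Fin P.n) : Fin r → C(Ω, ℝ) := Pi.single i (P.e k)

/-- diagonal sum of a matrix over a partition -/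
def omrP (P : Part Ω) (W : Ops Ω r) : ℝ := ∑ i, T.omegaP P (W i i)

/-- the diagonal functional on matrices -/
def omr (W : Ops Ω r) : ℝ := ∑ i, T.omega (W i i)

lemma omrP_eq (P : Part Ω) (W : Ops Ω r) :
    T.omrP P W = ∑ i, ∑ k, T.ipv (bas P i k) (app W (bas P i k)) := by
  refine Finset.sum_congr rfl fun i _ => Finset.sum_congr rfl fun k _ => ?_
  rw [ipv, Finset.sum_eq_single i (fun j _ hj => by simp [bas, Pi.single_eq_of_ne hj]) (by simp),
    app_apply, Finset.sum_eq_single i (fun j _ hj => by simp [bas, Pi.single_eq_of_ne hj])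
      (by simp)]
  simp [bas]

lemma ipv_bas (P : Part Ω) (i : Fin r) (k : Fin P.n) :
    T.ipv (bas P i k) (bas P i k) = T.tau (P.e k) := by
  rw [ipv, Finset.sum_eq_single i (fun j _ hj => by simp [bas, Pi.single_eq_of_ne hj]) (by simp)]
  simp [bas, P.isPartition.idem]

lemma sum_tau_part (P : Part Ω) : ∑ k, T.tau (P.e k) = 1 := by
  rw [← map_sum, P.isPartition.sum_one, T.tau_one]

lemma abs_omrP_le {W : Ops Ω r} {c : ℝ} (hW : T.Bnd c W) (P : Part Ω) :
    |T.omrP P W| ≤ c * r := by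
  rw [omrP_eq]
  refine (Finset.abs_sum_le_sum_abs _ _).trans ((Finset.sum_le_sum fun i _ => ?_).trans_eq
    (show ∑ _i : Fin r, c = c * r by simp [mul_comm]))
  refine (Finset.abs_sum_le_sum_abs _ _).trans ((Finset.sum_le_sum fun k _ => ?_).trans_eq
    (show ∑ k, c * T.tau (P.e k) = c by rw [← Finset.mul_sum, T.sum_tau_part, mul_one]))
  refine (T.abs_ipv_le _ _).trans ?_
  rw [← T.ipv_bas P i k, ← T.nv_sq, pow_two, ← mul_assoc, mul_comm c]
  exact (mul_le_mul_of_nonneg_left (hW _) (T.nv_nonneg _)).trans_eq (by ring)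

variable {T} (hT : T.OmegaSpec)

include hT

lemma tendsto_omrP {W : Ops Ω r} (hW : T.MemT W) :
    Tendsto (fun P => T.omrP P W) atTop (𝓝 (T.omr W)) :=
  tendsto_finsetSum _ fun i _ => hT.tendsto _ (hW i i)

lemma omega_add {V W : Module.End ℝ C(Ω, ℝ)} (hV : V ∈ T.TT) (hW : W ∈ T.TT) :
    T.omega (V + W) = T.omega V + T.omega W := by
  refine tendsto_nhds_unique (hT.tendsto _ (Subalgebra.add_mem _ hV hW))
    (((hT.tendsto _ hV).add (hT.tendsto _ hW)).congr fun P => ?_)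
  simp [omegaP, mul_add, Finset.sum_add_distrib]

lemma omega_sum {ι : Type*} (s : Finset ι) {W : ι → Module.End ℝ C(Ω, ℝ)}
    (hW : ∀ i, W i ∈ T.TT) : T.omega (∑ i ∈ s, W i) = ∑ i ∈ s, T.omega (W i) := by
  classical
  induction s using Finset.induction with
  | empty =>
    simp only [Finset.sum_empty]
    refine tendsto_nhds_unique (hT.tendsto _ (Subalgebra.zero_mem _)) ?_
    simp [omegaP]
  | insert a s ha ih =>
    rw [Finset.sum_insert ha, Finset.sum_insert ha,
      omega_add hT (hW a) (Subalgebra.sum_mem _ fun i _ => hW i), ih]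

lemma omr_comm {V W : Ops Ω r} (hV : T.MemT V) (hW : T.MemT W) :
    T.omr (V * W) = T.omr (W * V) := by
  simp only [omr, Matrix.mul_apply]
  rw [Finset.sum_congr rfl fun i _ => omega_sum hT _ fun j => Subalgebra.mul_mem _ (hV i j) (hW j i),
    Finset.sum_congr rfl fun i _ => omega_sum hT _ fun j => Subalgebra.mul_mem _ (hW i j) (hV j i),
    Finset.sum_comm]
  exact Finset.sum_congr rfl fun i _ => Finset.sum_congr rfl fun j _ =>
    hT.comm _ (hV j i) _ (hW i j)

lemma omr_add {V W : Ops Ω r} (hV : T.MemT V) (hW : T.MemT W) :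
    T.omr (V + W) = T.omr V + T.omr W := by
  simp only [omr, Matrix.add_apply, omega_add hT (hV _ _) (hW _ _), Finset.sum_add_distrib]

lemma omr_sub {V W : Ops Ω r} (hV : T.MemT V) (hW : T.MemT W) :
    T.omr (V - W) = T.omr V - T.omr W := by
  have := omr_add hT (hV.sub hW) hW
  rw [sub_add_cancel] at this
  linarith

lemma abs_omr_le {W : Ops Ω r} (hW : T.MemT W) {c : ℝ} (hc : T.Bnd c W) : |T.omr W| ≤ c * r :=
  le_of_tendsto' (tendsto_omrP hT hW).abs fun P => T.abs_omrP_le hc P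

lemma omr_nonneg_of_psd {W : Ops Ω r} (hW : T.MemT W) (h : ∀ x, 0 ≤ T.ipv x (app W x)) :
    0 ≤ T.omr W :=
  ge_of_tendsto' (tendsto_omrP hT hW) fun P => by
    rw [omrP_eq]
    exact Finset.sum_nonneg fun i _ => Finset.sum_nonneg fun k _ => h _

omit hT in
/-- `1 - Q` is a limit of squares of self-adjoint elements of the diagonal algebra -/
lemma exists_sqrt_approx {Q : Ops Ω r} (hQ : T.MemT Q) (hQs : T.IsAdj Q Q) (hQ1 : T.Bnd 1 Q)
    {ε : ℝ} (hε : 0 < ε) :
    ∃ p : Ops Ω r, T.MemT p ∧ T.IsAdj p p ∧ T.Bnd ε ((1 - Q) - p * p) := by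
  let p : ℕ → Ops Ω r := fun n => Nat.rec 0 (fun _ q => (1 / 2 : ℝ) • (Q + q * q)) n
  let a : ℕ → ℝ := fun n => Nat.rec 0 (fun _ b => (1 + b * b) / 2) n
  have ha01 : ∀ n, 0 ≤ a n ∧ a n ≤ 1 := by
    intro n; induction n with
    | zero => simp [a]
    | succ n ih => simp only [a] at ih ⊢; constructor <;> nlinarith
  have hamono : ∀ n, a n ≤ a (n + 1) := fun n => by
    show a n ≤ (1 + a n * a n) / 2
    nlinarith [mul_self_nonneg (a n - 1)]
  have hp : ∀ n, T.MemT (p n) ∧ T.IsAdj (p n) (p n) ∧ T.Bnd (a n) (p n) ∧ Commute (p n) Q := by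
    intro n; induction n with
    | zero =>
      refine ⟨fun i j => Subalgebra.zero_mem _, fun x y => ?_, fun x => ?_, Commute.zero_left _⟩
      · simp [p, app, ipv]
      · simp [p, a, app, nv, ipv]
    | succ n ih =>
      obtain ⟨h1, h2, h3, h4⟩ := ih
      refine ⟨(hQ.add (h1.mul h1)).smul _, (hQs.add (h2.mul h2)).smul _, ?_, ?_⟩
      · exact ((hQ1.add (h3.mul (ha01 n).1 h3)).smul _).mono (le_of_eq (by simp [a]; ring))
      · exact ((Commute.refl Q).add_left (h4.mul_left h4)).smul_left _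
  have hcomm : ∀ n, Commute (p (n + 1)) (p n) := fun n =>
    ((((hp n).2.2.2).symm).add_left ((Commute.refl (p n)).mul_left (Commute.refl (p n)))).smul_left _
  have hd : ∀ n, T.Bnd (a (n + 1) - a n) (p (n + 1) - p n) := by
    intro n; induction n with
    | zero =>
      intro x
      have h := hQ1.smul (1 / 2 : ℝ) x
      have e1 : p 1 - p 0 = (1 / 2 : ℝ) • Q := by simp [p]
      have e2 : a 1 - a 0 = |(1 / 2 : ℝ)| * 1 := by simp [a]
      rw [zero_add, e1, e2]; exact h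
    | succ n ih =>
      have e : p (n + 2) - p (n + 1) = (1 / 2 : ℝ) • ((p (n + 1) + p n) * (p (n + 1) - p n)) := by
        rw [← (hcomm n).mul_self_sub_mul_self_eq]
        show (1 / 2 : ℝ) • (Q + p (n + 1) * p (n + 1)) - (1 / 2 : ℝ) • (Q + p n * p n) = _
        module
      rw [e]
      refine ((((hp (n + 1)).2.2.1.add (hp n).2.2.1).mul
        (add_nonneg (ha01 (n + 1)).1 (ha01 n).1) ih).smul (1 / 2 : ℝ)).mono (le_of_eq ?_)
      show |(1 / 2 : ℝ)| * _ = (1 + a (n + 1) * a (n + 1)) / 2 - (1 + a n * a n) / 2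
      rw [abs_of_pos (by norm_num : (0 : ℝ) < 1 / 2)]; ring
  have hlim : Tendsto (fun n => a (n + 1) - a n) atTop (𝓝 0) := by
    have h := tendsto_atTop_ciSup (monotone_nat_of_le_succ hamono)
      ⟨1, by rintro _ ⟨n, rfl⟩; exact (ha01 n).2⟩
    simpa using Tendsto.sub (h.comp (tendsto_add_atTop_nat 1)) h
  obtain ⟨n, hn⟩ := (hlim.eventually (gt_mem_nhds (show 0 < ε / 2 by linarith))).exists
  refine ⟨1 - p n, MemT.one.sub (hp n).1, IsAdj.one.sub (hp n).2.1, ?_⟩
  have e : (1 - Q) - (1 - p n) * (1 - p n) = (-2 : ℝ) • (p (n + 1) - p n) := by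
    show _ = (-2 : ℝ) • ((1 / 2 : ℝ) • (Q + p n * p n) - p n)
    rw [show (1 - p n) * (1 - p n) = 1 - p n - p n + p n * p n by
      rw [sub_mul, one_mul, mul_sub, mul_one]; abel]
    module
  rw [e]
  exact ((hd n).smul _).mono (by norm_num; linarith)

/-- cyclic positivity of `Q (1 - Q) ^ j` against a positive form -/
lemma omr_sandwich_nonneg {Tm Ts H : Ops Ω r} (hTm : T.MemT Tm) (hTs : T.MemT Ts)
    (hH : T.MemT H) (hadj : T.IsAdj Ts Tm) (h1 : T.Bnd 1 Tm)
    (hpsd : ∀ x, 0 ≤ T.ipv x (app H x)) (j : ℕ) :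
    0 ≤ T.omr (Ts * (1 - Tm * Ts) ^ j * Tm * H) := by
  set Q' := Tm * Ts
  have hQ' : T.MemT Q' := hTm.mul hTs
  have hQs : T.IsAdj Q' Q' := hadj.mul hadj.symm
  have hQ1 : T.Bnd 1 Q' := (h1.mul zero_le_one (hadj.bnd_one h1)).mono (by norm_num)
  have hy : T.MemT (1 - Q') := MemT.one.sub hQ'
  have hys : T.IsAdj (1 - Q') (1 - Q') := IsAdj.one.sub hQs
  set B := (1 - Q') ^ (j / 2) * Tm with hB
  set B' := Ts * (1 - Q') ^ (j / 2) with hB'
  have hBT : T.MemT B := (hy.pow _).mul hTm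
  have hB'T : T.MemT B' := hTs.mul (hy.pow _)
  have hadjB : T.IsAdj B' B := (hys.pow _).mul hadj
  have hsq : ∀ p : Ops Ω r, T.MemT p → T.IsAdj p p → 0 ≤ T.omr (B' * (p * p) * B * H) := by
    intro p hp hps
    rw [show B' * (p * p) * B * H = B' * p * (p * B * H) by (simp only [sub_mul, mul_sub, add_mul, mul_add, one_mul, mul_one, mul_assoc]; try abel),
      omr_comm hT (hB'T.mul hp) ((hp.mul hBT).mul hH)]
    refine omr_nonneg_of_psd hT (((hp.mul hBT).mul hH).mul (hB'T.mul hp)) fun x => ?_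
    rw [show p * B * H * (B' * p) = (p * B) * (H * (B' * p)) by (simp only [sub_mul, mul_sub, add_mul, mul_add, one_mul, mul_one, mul_assoc]; try abel), app_mul (p * B),
      app_mul H, (hps.mul hadjB)]
    exact hpsd _
  rcases Nat.even_or_odd' j with ⟨i, rfl | rfl⟩
  · have hi : 2 * i / 2 = i := by omega
    have := hsq 1 MemT.one IsAdj.one
    rw [hB, hB', hi, one_mul, mul_one] at this
    rw [two_mul, pow_add]
    simpa [mul_assoc] using this
  · have hi : (2 * i + 1) / 2 = i := by omega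
    have e : Ts * (1 - Q') ^ (2 * i + 1) * Tm * H = B' * (1 - Q') * B * H := by
      rw [hB, hB', hi, show 2 * i + 1 = i + 1 + i by omega, pow_add, pow_succ]
      (simp only [sub_mul, mul_sub, add_mul, mul_add, one_mul, mul_one, mul_assoc]; try abel)
    rw [e]
    obtain ⟨C, hC0, hC⟩ := ((hBT.mul hH).mul hB'T).exists_bnd
    refine le_of_forall_pos_le_add fun ε hε => ?_
    obtain ⟨p, hp, hps, hpe⟩ := exists_sqrt_approx hQ' hQs hQ1
      (show 0 < ε / ((C + 1) * (r + 1)) by positivity)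
    have hd : T.MemT ((1 - Q') - p * p) := hy.sub (hp.mul hp)
    have e2 : B' * (1 - Q') * B * H = B' * (p * p) * B * H + B' * (((1 - Q') - p * p) * (B * H)) := by
      (simp only [sub_mul, mul_sub, add_mul, mul_add, one_mul, mul_one, mul_assoc]; try abel)
    rw [e2, omr_add hT (((hB'T.mul (hp.mul hp)).mul hBT).mul hH) (hB'T.mul (hd.mul (hBT.mul hH))),
      omr_comm hT hB'T (hd.mul (hBT.mul hH)), mul_assoc ((1 - Q') - p * p)]
    have h3 := abs_omr_le hT (hd.mul ((hBT.mul hH).mul hB'T)) (hpe.mul (by positivity) hC)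
    have h4 : ε / ((C + 1) * (r + 1)) * C * r ≤ ε := by
      rw [div_mul_eq_mul_div, div_mul_eq_mul_div, div_le_iff₀ (by positivity)]
      nlinarith [mul_nonneg hε.le hC0, mul_nonneg hε.le (Nat.cast_nonneg (α := ℝ) r)]
    linarith [neg_abs_le (T.omr ((1 - Q' - p * p) * (B * H * B'))), hsq p hp hps]

omit hT in
lemma one_sub_pow_eq (Tm Ts : Ops Ω r) (m : ℕ) :
    1 - (1 - Ts * Tm) ^ m = ∑ j ∈ Finset.range m, Ts * (1 - Tm * Ts) ^ j * Tm := by
  have e : ∀ j, Ts * Tm * (1 - Ts * Tm) ^ j = Ts * (1 - Tm * Ts) ^ j * Tm := by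
    intro j; induction j with
    | zero => simp
    | succ j ih =>
      rw [pow_succ, ← mul_assoc (Ts * Tm), ih, pow_succ]
      (simp only [sub_mul, mul_sub, add_mul, mul_add, one_mul, mul_one, mul_assoc]; try abel)
  induction m with
  | zero => simp
  | succ m ih =>
    rw [Finset.sum_range_succ, ← ih, ← e]
    rw [pow_succ']
    (simp only [sub_mul, mul_sub, add_mul, mul_add, one_mul, mul_one, mul_assoc]; try abel)

/-- the leverage cannot be negative -/
theorem omr_lev_nonneg {Tm Ts H : Ops Ω r} (hTm : T.MemT Tm) (hTs : T.MemT Ts)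
    (hH : T.MemT H) (hadj : T.IsAdj Ts Tm) (h1 : T.Bnd 1 Tm)
    (hpsd : ∀ x, 0 ≤ T.ipv x (app H x)) (k : ℕ) :
    0 ≤ T.omr ((1 - (1 - Ts * Tm) ^ (2 * k)) * H) := by
  rw [one_sub_pow_eq]
  have hterm : ∀ j, T.MemT (Ts * (1 - Tm * Ts) ^ j * Tm * H) := fun j =>
    ((hTs.mul ((MemT.one.sub (hTm.mul hTs)).pow j)).mul hTm).mul hH
  induction Finset.range (2 * k) using Finset.induction with
  | empty =>
    rw [Finset.sum_empty, zero_mul]
    exact omr_nonneg_of_psd hT (fun i j => Subalgebra.zero_mem _) fun x => by simp [app, ipv]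
  | insert a s ha ih =>
    have hs : T.MemT ((∑ j ∈ s, Ts * (1 - Tm * Ts) ^ j * Tm) * H) := by
      rw [Finset.sum_mul]
      intro i l
      rw [Matrix.sum_apply]
      exact Subalgebra.sum_mem _ fun j _ => hterm j i l
    rw [Finset.sum_insert ha, add_mul, omr_add hT (hterm a) hs]
    exact add_nonneg (omr_sandwich_nonneg hT hTm hTs hH hadj h1 hpsd a) ih

/-- the rank bound -/
theorem omr_lev_le {Tm Ts Pl : Ops Ω r} (hTm : T.MemT Tm) (hTs : T.MemT Ts) (hPl : T.MemT Pl)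
    (hadj : T.IsAdj Ts Tm) (hPs : T.IsAdj Pl Pl) (hPT : Pl * Tm = Tm) (hTP : Ts * Pl = Ts)
    (hPP : Pl * Pl = Pl) (k : ℕ) (hk : 1 ≤ k) :
    T.omr (1 - (1 - Ts * Tm) ^ (2 * k)) ≤ T.omr Pl := by
  set Q := Tm * Ts
  have hQ : T.MemT Q := hTm.mul hTs
  have e : T.omr (1 - (1 - Ts * Tm) ^ (2 * k)) = T.omr (1 - (1 - Q) ^ (2 * k)) := by
    rw [one_sub_pow_eq, one_sub_pow_eq Ts Tm]
    have h : ∀ m : ℕ, T.omr (∑ j ∈ Finset.range m, Ts * (1 - Tm * Ts) ^ j * Tm) =
        T.omr (∑ j ∈ Finset.range m, Tm * (1 - Ts * Tm) ^ j * Ts) := by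
      intro m; induction m with
      | zero => simp
      | succ m ih =>
        have hA : ∀ {A B : Ops Ω r}, T.MemT A → T.MemT B →
            ∀ j, T.MemT (A * (1 - B * A) ^ j * B) := fun hA hB j =>
          (hA.mul ((MemT.one.sub (hB.mul hA)).pow j)).mul hB
        have hS : ∀ {A B : Ops Ω r}, T.MemT A → T.MemT B →
            T.MemT (∑ j ∈ Finset.range m, A * (1 - B * A) ^ j * B) := fun hA' hB' i l => by
          rw [Matrix.sum_apply]; exact Subalgebra.sum_mem _ fun j _ => hA hA' hB' j i l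
        rw [Finset.sum_range_succ, Finset.sum_range_succ, omr_add hT (hS hTs hTm) (hA hTs hTm m),
          omr_add hT (hS hTm hTs) (hA hTm hTs m), ih]
        congr 1
        rw [omr_comm hT (hTs.mul ((MemT.one.sub hQ).pow m)) hTm]
        congr 1
        have : ∀ j, Tm * (1 - Ts * Tm) ^ j = (1 - Tm * Ts) ^ j * Tm := by
          intro j; induction j with
          | zero => simp
          | succ j ih => rw [pow_succ, ← mul_assoc, ih, pow_succ]; (simp only [sub_mul, mul_sub, add_mul, mul_add, one_mul, mul_one, mul_assoc]; try abel)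
        rw [this, ← mul_assoc, mul_assoc _ Tm Ts]
        exact (((Commute.one_right Q).sub_right (Commute.refl Q)).pow_right m).eq
    exact h _
  have hPQ : Pl * Q = Q := by rw [← mul_assoc, hPT]
  have hQP : Q * Pl = Q := by rw [mul_assoc, hTP]
  have hsplit : ∀ m, 1 ≤ m → (1 - Q) ^ m = (1 - Pl) + (Pl - Q) ^ m := by
    intro m hm
    induction m, hm using Nat.le_induction with
    | base => rw [pow_one, pow_one]; abel
    | succ m hm ih =>
      have h0 : (1 - Pl) * (Pl - Q) = 0 := by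
        rw [sub_mul, one_mul, mul_sub, hPP, hPQ, sub_self]
      have h1 : (Pl - Q) * (1 - Pl) = 0 := by
        rw [mul_sub, mul_one, sub_mul, hPP, hQP, sub_self]
      have h2 : (1 - Pl) * (1 - Pl) = 1 - Pl := by
        rw [sub_mul, one_mul, mul_sub, mul_one, hPP, sub_self, sub_zero]
      have h3 : (Pl - Q) ^ m * (1 - Pl) = 0 := by
        obtain ⟨l, rfl⟩ := Nat.exists_eq_succ_of_ne_zero (show m ≠ 0 by omega)
        rw [pow_succ, mul_assoc, h1, mul_zero]
      rw [pow_succ, ih, show (1 - Q) = (1 - Pl) + (Pl - Q) by abel, add_mul, mul_add, mul_add,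
        h0, h2, h3, ← pow_succ]
      abel
  have hm : T.MemT ((Pl - Q) ^ k) := (hPl.sub hQ).pow k
  rw [e, hsplit _ (by omega), sub_add_eq_sub_sub, sub_sub_cancel,
    omr_sub hT hPl ((hPl.sub hQ).pow _), sub_le_self_iff]
  rw [two_mul, pow_add]
  refine omr_nonneg_of_psd hT (hm.mul hm) fun x => ?_
  rw [app_mul, ((hPs.sub (hadj.mul hadj.symm)).pow k)]
  exact T.ipv_self_nonneg _

omit hT in
/-- the residual bound -/
theorem resid_le {Tm Ts : Ops Ω r} (hadj : T.IsAdj Ts Tm) (h1 : T.Bnd 1 Tm) (k : ℕ)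
    (x : Fin r → C(Ω, ℝ)) :
    (k : ℝ) * T.ipv (app Tm (app ((1 - Ts * Tm) ^ k) x)) (app Tm (app ((1 - Ts * Tm) ^ k) x))
      ≤ T.ipv x x := by
  set Q := Ts * Tm with hQ
  set y := (1 : Ops Ω r) - Q with hy
  have hQs : T.IsAdj Q Q := hadj.symm.mul hadj
  have hQ1 : T.Bnd 1 Q := ((hadj.bnd_one h1).mul zero_le_one h1).mono (by norm_num)
  have hys : T.IsAdj y y := IsAdj.one.sub hQs
  set c : ℕ → ℝ := fun j => T.ipv (app (y ^ j) x) (app (y ^ j) x) with hc
  set d : ℕ → ℝ := fun j => T.ipv (app (y ^ j) x) (app Q (app (y ^ j) x)) with hd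
  have hd0 : ∀ j, 0 ≤ d j := fun j => by
    simp only [hd]; rw [hQ, app_mul, hadj.symm]; exact T.ipv_self_nonneg _
  have hstep : ∀ j, d j ≤ c j - c (j + 1) ∧ d (j + 1) ≤ d j := by
    intro j
    simp only [hc, hd]
    rw [pow_succ' y j, app_mul y (y ^ j)]
    set w := app (y ^ j) x
    have e1 : app y w = w - app Q w := by rw [hy, app_sub, app_one]
    have hq : T.nv (app Q w) ^ 2 ≤ T.ipv w (app Q w) := by
      have h2 := hQ1.quad_nonneg (app Q w)
      have hw : 0 ≤ T.ipv w (app Q w) := by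
        rw [hQ, app_mul, hadj.symm]; exact T.ipv_self_nonneg _
      rw [T.nv_sq, hQ, app_mul, ← hadj]
      have hTT : T.nv (app Tm (app Ts (app Tm w))) ≤ T.nv (app Tm w) := by
        refine (by simpa using h1 (app Ts (app Tm w)) : _ ≤ T.nv (app Ts (app Tm w))).trans ?_
        simpa using hadj.bnd_one h1 (app Tm w)
      refine (le_abs_self _).trans ((T.abs_ipv_le _ _).trans ?_)
      rw [hadj.symm, ← T.nv_sq, pow_two]
      exact mul_le_mul_of_nonneg_left hTT (T.nv_nonneg _)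
    have hqq : T.ipv (app Q w) (app Q w) = T.nv (app Q w) ^ 2 := (T.nv_sq _).symm
    have hsym : T.ipv (app Q w) w = T.ipv w (app Q w) := T.ipv_comm _ _
    have hs2 : T.ipv w (app Q (app Q w)) = T.ipv (app Q w) (app Q w) := hQs _ _
    have h2 := hQ1.quad_nonneg (app Q w)
    rw [app_sub, app_one, T.ipv_sub_right] at h2
    have hsub : ∀ a b : Fin r → C(Ω, ℝ), T.ipv (a - b) (a - b)
        = T.ipv a a - T.ipv a b - T.ipv b a + T.ipv b b := by
      intro a b
      rw [T.ipv_sub_right, T.ipv_comm (a - b) a, T.ipv_comm (a - b) b, T.ipv_sub_right,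
        T.ipv_sub_right, T.ipv_comm b a]
      ring
    refine ⟨?_, ?_⟩
    · rw [e1, hsub, hsym]; linarith
    · rw [e1, map_sub (app Q), T.ipv_sub_right, T.ipv_comm (w - app Q w) (app Q w),
        T.ipv_comm (w - app Q w) (app Q (app Q w)), T.ipv_sub_right, T.ipv_sub_right,
        T.ipv_comm (app Q (app Q w)) (app Q w), T.ipv_comm (app Q (app Q w)) w, hs2, hsym]
      linarith [T.ipv_self_nonneg (app Q w)]
  have hanti : ∀ i j, i ≤ j → d j ≤ d i := fun i j hij =>
    antitone_nat_of_succ_le (fun n => (hstep n).2) hij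
  have hsum : ∀ m, ∑ j ∈ Finset.range m, d j ≤ c 0 - c m := by
    intro m; induction m with
    | zero => simp
    | succ m ih => rw [Finset.sum_range_succ]; linarith [(hstep m).1]
  have h2 : (k : ℝ) * d k ≤ ∑ j ∈ Finset.range k, d j := by
    calc (k : ℝ) * d k = ∑ _j ∈ Finset.range k, d k := by simp
      _ ≤ _ := Finset.sum_le_sum fun j hj => hanti j k (Finset.mem_range.1 hj).le
  have e3 : d k = T.ipv (app Tm (app (y ^ k) x)) (app Tm (app (y ^ k) x)) := by
    simp only [hd]; rw [hQ, app_mul, hadj.symm]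
  have h4 : c 0 = T.ipv x x := by simp [hc, app_one]
  have h5 : 0 ≤ c k := T.ipv_self_nonneg _
  rw [← e3]
  linarith [hsum k]

end TMasa

end Vale.Agent.P078
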