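import Mathlib

/-! The scalar profile of the walk. -/

noncomputable section

set_option linter.unusedSimpArgs false

namespace Vale.Agent.P078.Profile

/-- clipped square root of `1 - x` -/
def sU (η x : ℝ) : ℝ := Real.sqrt (max (1 - x) (η / 2))

/-- the profile -/
def phi (η x : ℝ) : ℝ := x * (1 - x) + η * (sU η x - (1 - x))

/-- its derivative -/
def dphi (η x : ℝ) : ℝ := 1 - 2 * x + η * (1 - 1 / (2 * sU η x))

/-- its curvature excess -/
def gex (η x : ℝ) : ℝ := η / (8 * sU η x ^ 3)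

/-- the denominator of the weight -/
def den (η x : ℝ) : ℝ := 4 * phi η x * (1 + gex η x) + dphi η x ^ 2

/-- the step weight -/
def wt (η x : ℝ) : ℝ := 4 * max (phi η x) 0 / max (den η x) (η / 4)

/-- Huber function -/
def hub (x : ℝ) : ℝ := max 0 (min x 1) * x - max 0 (min x 1) ^ 2 / 2

/-- its derivative -/
def dhub (x : ℝ) : ℝ := max 0 (min x 1)

lemma dhub_nonneg (x : ℝ) : 0 ≤ dhub x := le_max_left _ _

lemma dhub_le_one (x : ℝ) : dhub x ≤ 1 := max_le zero_le_one (min_le_right _ _)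

lemma hub_zero_of_nonpos {x : ℝ} (h : x ≤ 0) : hub x = 0 := by
  have : min x 1 = x := min_eq_left (by linarith)
  simp [hub, this, max_eq_left h]

lemma hub_add_le (x d : ℝ) : hub (x + d) ≤ hub x + dhub x * d + d ^ 2 / 2 := by
  simp only [hub, dhub]
  rcases le_total x 0 with h1 | h1 <;> rcases le_total x 1 with h2 | h2 <;>
    rcases le_total (x + d) 0 with h3 | h3 <;> rcases le_total (x + d) 1 with h4 | h4 <;>
    simp [min_eq_left, min_eq_right, max_eq_left, max_eq_right, h1, h2, h3, h4] <;> nlinarith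

lemma hub_nonneg (x : ℝ) : 0 ≤ hub x := by
  simp only [hub]
  rcases le_total x 0 with h1 | h1 <;> rcases le_total x 1 with h2 | h2 <;>
    simp [min_eq_left, min_eq_right, max_eq_left, max_eq_right, h1, h2] <;> nlinarith

lemma hub_add_le_abs (x d : ℝ) (hd : 0 ≤ d) : hub (x + d) ≤ hub x + d := by
  simp only [hub]
  rcases le_total x 0 with h1 | h1 <;> rcases le_total x 1 with h2 | h2 <;>
    rcases le_total (x + d) 0 with h3 | h3 <;> rcases le_total (x + d) 1 with h4 | h4 <;>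
    simp [min_eq_left, min_eq_right, max_eq_left, max_eq_right, h1, h2, h3, h4] <;> nlinarith

lemma hub_mono {x y : ℝ} (h : x ≤ y) : hub x ≤ hub y := by
  simp only [hub]
  rcases le_total x 0 with h1 | h1 <;> rcases le_total x 1 with h2 | h2 <;>
    rcases le_total y 0 with h3 | h3 <;> rcases le_total y 1 with h4 | h4 <;>
    simp [min_eq_left, min_eq_right, max_eq_left, max_eq_right, h1, h2, h3, h4] <;> nlinarith

lemma half_le_hub {x : ℝ} (h : 1 ≤ x) : 1 / 2 ≤ hub x := by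
  have : min x 1 = 1 := min_eq_right h
  simp [hub, this]; linarith

variable {η x : ℝ}

lemma sU_pos (hη : 0 < η) : 0 < sU η x :=
  Real.sqrt_pos.2 (lt_of_lt_of_le (by linarith) (le_max_right _ _))

lemma sU_sq (hη : 0 < η) (hx : x ≤ 1 - η / 2) : sU η x ^ 2 = 1 - x := by
  rw [sU, max_eq_left (by linarith), Real.sq_sqrt (by linarith)]

lemma sU_sq_ge (hη : 0 < η) : η / 2 ≤ sU η x ^ 2 := by
  rw [sU, Real.sq_sqrt (le_trans (by linarith) (le_max_right _ _))]
  exact le_max_right _ _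

lemma sU_le_one (hη : 0 < η) (hx0 : 0 ≤ x) (hx : x ≤ 1 - η / 2) : sU η x ≤ 1 := by
  have := sU_sq hη hx
  nlinarith [sU_pos (x := x) hη]

lemma continuous_sU : Continuous (sU η) := by unfold sU; fun_prop

@[fun_prop] lemma continuous_phi : Continuous (phi η) := by
  have := continuous_sU (η := η); unfold phi; fun_prop

lemma continuous_dphi (hη : 0 < η) : Continuous (dphi η) := by
  have := continuous_sU (η := η)
  unfold dphi
  exact ((continuous_const.sub (continuous_const.mul continuous_id)).add (continuous_const.mul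
    (continuous_const.sub (continuous_const.div (continuous_const.mul this)
      fun x => ne_of_gt (mul_pos two_pos (sU_pos hη))))))

lemma continuous_gex (hη : 0 < η) : Continuous (gex η) := by
  have := continuous_sU (η := η)
  unfold gex
  exact continuous_const.div (continuous_const.mul (this.pow 3))
    fun x => ne_of_gt (mul_pos (by norm_num) (pow_pos (sU_pos hη) 3))

lemma continuous_wt (hη : 0 < η) : Continuous (wt η) := by
  have := continuous_dphi hη
  have := continuous_gex hη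
  unfold wt den
  exact Continuous.div (by fun_prop) (by fun_prop)
    fun x => ne_of_gt (lt_of_lt_of_le (by linarith) (le_max_right _ _))

lemma phi_ge (hη : 0 < η) (hx0 : 0 ≤ x) (hx : x ≤ 1 - η / 2) :
    x * (1 - x) + η * (sU η x * (1 - sU η x)) ≤ phi η x := by
  have := sU_sq hη hx
  unfold phi
  nlinarith

lemma phi_ge' (hη : 0 < η) (hx0 : 0 ≤ x) (hx : x ≤ 1 - η / 2) : x * (1 - x) ≤ phi η x := by
  have := phi_ge hη hx0 hx
  have := sU_le_one hη hx0 hx
  have := sU_pos (x := x) hη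
  nlinarith [mul_nonneg (mul_nonneg hη.le (sU_pos (x := x) hη).le) (sub_nonneg.2 (sU_le_one hη hx0 hx))]

lemma phi_nonneg (hη : 0 < η) (hx0 : 0 ≤ x) (hx : x ≤ 1 - η / 2) : 0 ≤ phi η x :=
  le_trans (mul_nonneg hx0 (by linarith)) (phi_ge' hη hx0 hx)

lemma phi_le (hη : 0 < η) (hx0 : 0 ≤ x) (hx : x ≤ 1 - η / 2) : phi η x ≤ (1 + η) * x := by
  have h := sU_sq hη hx
  have := sU_le_one hη hx0 hx
  have := sU_pos (x := x) hη
  unfold phi
  nlinarith

lemma phi_zero (hη : 0 < η) (hη1 : η ≤ 1) : phi η 0 = 0 := by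
  simp [phi, sU, max_eq_left (show η / 2 ≤ 1 by linarith)]

lemma gex_nonneg (hη : 0 < η) : 0 ≤ gex η x := by
  have := sU_pos (x := x) hη
  unfold gex; positivity

lemma gex_le (hη : 0 < η) (hη1 : η ≤ 1) : gex η x ≤ 1 / η := by
  have hs := sU_pos (x := x) hη
  have h2 := sU_sq_ge (x := x) hη
  rw [gex, div_le_div_iff₀ (by positivity) hη]
  have h4 : η ^ 2 / 4 ≤ (sU η x ^ 2) ^ 2 := by nlinarith
  rcases le_total (sU η x) 1 with h | h
  · have h5 : (sU η x ^ 2) ^ 2 ≤ sU η x ^ 3 := by nlinarith [pow_pos hs 3]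
    nlinarith
  · have : 1 ≤ sU η x ^ 3 := one_le_pow₀ h
    nlinarith

lemma abs_dphi_le (hη : 0 < η) (hη1 : η ≤ 1) (hx0 : 0 ≤ x) (hx : x ≤ 1 - η / 2) :
    |dphi η x| ≤ 2 + 1 / η := by
  have hs := sU_pos (x := x) hη
  have h2 := sU_sq_ge (x := x) hη
  have h1 := sU_le_one hη hx0 hx
  have : η / (2 * sU η x) ≤ 1 / η := by
    rw [div_le_div_iff₀ (by positivity) hη]; nlinarith
  have e : dphi η x = 1 - 2 * x + η - η / (2 * sU η x) := by unfold dphi; ring
  have : 0 ≤ η / (2 * sU η x) := by positivity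
  rw [e, abs_le]
  constructor <;> linarith

lemma den_ge (hη : 0 < η) (hη1 : η ≤ 1 / 16) (hx0 : 0 ≤ x) (hx : x ≤ 1 - η / 2) :
    η / 4 ≤ den η x := by
  have hp := phi_nonneg hη hx0 hx
  have hg := gex_nonneg (x := x) hη
  have h4 : 4 * phi η x ≤ 4 * phi η x * (1 + gex η x) :=
    le_mul_of_one_le_right (by linarith) (by linarith)
  have hsq := sq_nonneg (dphi η x)
  unfold den
  rcases le_or_gt x (1 / 4) with h | h
  · have hs := sU_pos (x := x) hη
    have hs2 := sU_sq hη hx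
    have : η / (2 * sU η x) ≤ η := by
      rw [div_le_iff₀ (by positivity)]; nlinarith
    have e : dphi η x = 1 - 2 * x + η - η / (2 * sU η x) := by unfold dphi; ring
    have : (1 / 4 : ℝ) ≤ dphi η x := by linarith
    nlinarith
  · have := phi_ge' hη hx0 hx
    nlinarith

lemma wt_eq (hη : 0 < η) (hη1 : η ≤ 1 / 16) (hx0 : 0 ≤ x) (hx : x ≤ 1 - η / 2) :
    wt η x = 4 * phi η x / den η x := by
  rw [wt, max_eq_left (phi_nonneg hη hx0 hx), max_eq_left (den_ge hη hη1 hx0 hx)]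

lemma wt_nonneg (hη : 0 < η) : 0 ≤ wt η x :=
  div_nonneg (mul_nonneg (by norm_num) (le_max_right _ _))
    (le_trans (by linarith) (le_max_right _ _))

lemma wt_le_one (hη : 0 < η) (hη1 : η ≤ 1 / 16) (hx0 : 0 ≤ x) (hx : x ≤ 1 - η / 2) :
    wt η x ≤ 1 := by
  rw [wt_eq hη hη1 hx0 hx, div_le_one (lt_of_lt_of_le (by linarith) (den_ge hη hη1 hx0 hx))]
  have := mul_nonneg (mul_nonneg (show (0:ℝ) ≤ 4 by norm_num) (phi_nonneg hη hx0 hx))
    (gex_nonneg (x := x) hη)
  unfold den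
  nlinarith [sq_nonneg (dphi η x)]

lemma wt_le (hη : 0 < η) (hη1 : η ≤ 1 / 16) (hx0 : 0 ≤ x) (hx : x ≤ 1 - η / 2) :
    wt η x ≤ 32 / η * x := by
  have hd := den_ge hη hη1 hx0 hx
  rw [wt_eq hη hη1 hx0 hx, div_le_iff₀ (by linarith)]
  have h1 : 32 / η * x * (η / 4) ≤ 32 / η * x * den η x :=
    mul_le_mul_of_nonneg_left hd (by positivity)
  have e : 32 / η * x * (η / 4) = 8 * x := by field_simp; ring
  have := phi_le hη hx0 hx
  nlinarith

lemma dphi_wt_le (hη : 0 < η) (hη1 : η ≤ 1 / 16) (hx0 : 0 ≤ x) (hx : x ≤ 1 - η / 2) :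
    |dphi η x| * wt η x ≤ 16 * (2 + 1 / η) / η * phi η x := by
  have hd := den_ge hη hη1 hx0 hx
  have hp := phi_nonneg hη hx0 hx
  rw [wt_eq hη hη1 hx0 hx, mul_div_assoc', div_le_iff₀ (by linarith)]
  have h1 := mul_le_mul_of_nonneg_right (abs_dphi_le hη (by linarith) hx0 hx)
    (mul_nonneg (show (0:ℝ) ≤ 4 by norm_num) hp)
  have h2 : 16 * (2 + 1 / η) / η * phi η x * (η / 4)
      ≤ 16 * (2 + 1 / η) / η * phi η x * den η x :=
    mul_le_mul_of_nonneg_left hd (by positivity)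
  have e : 16 * (2 + 1 / η) / η * phi η x * (η / 4) = (2 + 1 / η) * (4 * phi η x) := by
    field_simp; ring
  linarith

/-- the gain inequality -/
lemma gain (hη : 0 < η) (hη1 : η ≤ 1 / 16) (hx0 : 0 ≤ x) (hx : x ≤ 1 - η / 2) :
    η / 32 * x ≤ gex η x * wt η x := by
  rcases eq_or_lt_of_le hx0 with rfl | hxpos
  · simpa using mul_nonneg (gex_nonneg (x := 0) hη) (wt_nonneg (x := 0) hη)
  set s := sU η x with hs_def
  have hs : 0 < s := sU_pos hη
  have hs2 : s ^ 2 = 1 - x := sU_sq hη hx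
  have hs1 : s ≤ 1 := sU_le_one hη hx0 hx
  have hsne : s < 1 := by nlinarith
  have hp := phi_nonneg hη hx0 hx
  have hphi := phi_ge hη hx0 hx
  rw [← hs_def] at hphi
  have hd := den_ge hη hη1 hx0 hx
  have hg : gex η x = η / (8 * s ^ 3) := rfl
  have hdp : dphi η x ^ 2 ≤ 2 + η ^ 2 / (2 * s ^ 2) := by
    have e : dphi η x = (1 - 2 * x) + η * ((2 * s - 1) / (2 * s)) := by
      simp only [dphi, ← hs_def]; field_simp
    have h2 : (η * ((2 * s - 1) / (2 * s))) ^ 2 ≤ η ^ 2 / (4 * s ^ 2) := by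
      rw [mul_pow, div_pow, mul_div_assoc', mul_pow, show ((2:ℝ) ^ 2) = 4 by norm_num]
      refine div_le_div_of_nonneg_right ?_ (by positivity)
      have h3 : (2 * s - 1) ^ 2 ≤ 1 := by nlinarith
      exact mul_le_of_le_one_right (sq_nonneg η) h3
    have h4 : (1 - 2 * x) ^ 2 ≤ 1 := by nlinarith
    have h5 : 2 * (η ^ 2 / (4 * s ^ 2)) = η ^ 2 / (2 * s ^ 2) := by field_simp; ring
    rw [e]
    nlinarith [sq_nonneg ((1 - 2 * x) - η * ((2 * s - 1) / (2 * s)))]
  -- it suffices that `den * σ s³ ≤ 16 φ`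
  have key : den η x * (x * s ^ 3) ≤ 16 * phi η x := by
    have e1 : 4 * phi η x * (1 + gex η x) * (x * s ^ 3)
        = 4 * phi η x * (x * s ^ 3 + x * η / 8) := by
      rw [hg]; field_simp
    have h1 : x * s ^ 3 + x * η / 8 ≤ 2 := by
      have : x * s ^ 3 ≤ 1 := mul_le_one₀ (by linarith) (by positivity) (pow_le_one₀ hs.le hs1)
      nlinarith
    have h2 : dphi η x ^ 2 * (x * s ^ 3) ≤ (2 + η ^ 2 / (2 * s ^ 2)) * (x * s ^ 3) :=
      mul_le_mul_of_nonneg_right hdp (by positivity)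
    have e2 : (2 + η ^ 2 / (2 * s ^ 2)) * (x * s ^ 3) = 2 * s * (x * s ^ 2) + η ^ 2 * x * s / 2 := by
      field_simp
    have h3 : x * s ^ 2 ≤ phi η x := by
      rw [hs2]; exact phi_ge' hη hx0 hx
    have h4 : η ^ 2 * x * s / 2 ≤ phi η x := by
      have hx2 : x ≤ 2 * (1 - s) := by nlinarith
      have : η * x * s / 2 ≤ s * (1 - s) := by nlinarith [mul_nonneg hs.le hx0]
      nlinarith [mul_nonneg hx0 (show (0:ℝ) ≤ 1 - x by linarith)]
    have h5 : 2 * s * (x * s ^ 2) ≤ 2 * phi η x := by nlinarith [mul_nonneg hx0 (sq_nonneg s)]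
    have h6 := mul_le_mul_of_nonneg_left h1 (show (0:ℝ) ≤ 4 * phi η x by linarith)
    unfold den
    nlinarith
  rw [wt_eq hη hη1 hx0 hx, mul_div_assoc', le_div_iff₀ (by linarith), hg]
  have e3 : η / (8 * s ^ 3) * (4 * phi η x) = η / (32 * s ^ 3) * (16 * phi η x) := by
    field_simp; ring
  rw [e3]
  have e4 : η / 32 * x * den η x = η / (32 * s ^ 3) * (den η x * (x * s ^ 3)) := by
    field_simp
  rw [e4]
  exact mul_le_mul_of_nonneg_left key (by positivity)

/-- second-order Taylor formula with remainder -/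
lemma phi_taylor (hη : 0 < η) (hη1 : η ≤ 1) (hx0 : 0 ≤ x) (hx : x ≤ 1 - η / 2) {d : ℝ}
    (hd : x + d ≤ 1 - η / 2) :
    |phi η (x + d) - (phi η x + dphi η x * d - (1 + gex η x) * d ^ 2)| ≤
      (4 / η ^ 3) * |d| ^ 3 := by
  set a := sU η x with ha_def
  set b := sU η (x + d) with hb_def
  have ha : 0 < a := sU_pos hη
  have hb : 0 < b := sU_pos hη
  have ha2 : a ^ 2 = 1 - x := sU_sq hη hx
  have hb2 : b ^ 2 = 1 - (x + d) := sU_sq hη hd
  have hd' : d = (a - b) * (a + b) := by nlinarith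
  have e : phi η (x + d) - (phi η x + dphi η x * d - (1 + gex η x) * d ^ 2)
      = -η * ((a - b) ^ 3 * (3 * a + b) / (8 * a ^ 3)) := by
    simp only [phi, dphi, gex, ← ha_def, ← hb_def]
    have hx' : x = 1 - a ^ 2 := by linarith
    rw [hd', hx']
    field_simp
    ring
  rw [e, abs_mul, abs_neg, abs_of_pos hη, abs_div, abs_mul, abs_pow,
    abs_of_pos (show 0 < 3 * a + b by linarith), abs_of_pos (show (0:ℝ) < 8 * a ^ 3 by positivity)]
  have habs : |d| = |a - b| * (a + b) := by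
    rw [hd', abs_mul, abs_of_pos (show 0 < a + b by linarith)]
  rw [habs, mul_pow]
  have ha5 : η ^ 3 / 8 ≤ a ^ 5 := by
    have h := sU_sq_ge (x := x) hη
    rw [← ha_def] at h
    have h1 : a ≤ 1 := sU_le_one hη hx0 hx
    have h6 : (η / 2) ^ 3 ≤ (a ^ 2) ^ 3 := pow_le_pow_left₀ (by linarith) h 3
    have : (a ^ 2) ^ 3 ≤ a ^ 5 := by
      rw [← pow_mul]; exact pow_le_pow_of_le_one ha.le h1 (by norm_num)
    nlinarith
  have h7 : η * (3 * a + b) * η ^ 3 ≤ 32 * a ^ 3 * (a + b) ^ 3 := by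
    have h8 : a ^ 2 * (3 * a + b) ≤ 4 * (a + b) ^ 3 := by nlinarith [mul_pos ha hb, pow_pos hb 3, pow_pos ha 3]
    have h9 : a ^ 5 * (3 * a + b) ≤ 4 * a ^ 3 * (a + b) ^ 3 := by
      nlinarith [mul_le_mul_of_nonneg_left h8 (pow_pos ha 3).le]
    have h10 := mul_le_mul_of_nonneg_right ha5 (show (0:ℝ) ≤ 3 * a + b by linarith)
    have : η * (η ^ 3 / 8 * (3 * a + b)) ≤ η ^ 3 / 8 * (3 * a + b) :=
      mul_le_of_le_one_left (by positivity) hη1
    nlinarith
  rw [mul_div_assoc', div_mul_eq_mul_div, div_le_div_iff₀ (by positivity) (by positivity)]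
  nlinarith [mul_le_mul_of_nonneg_left h7 (pow_nonneg (abs_nonneg (a - b)) 3)]

end Vale.Agent.P078.Profile
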