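import Mathlib
import Vale.Agent.P078.MatOp
import Vale.Agent.P078.Profile

/-! The choice of a direction and the pointwise bounds of a step. -/

noncomputable section

open Filter Topology

set_option linter.unusedSectionVars false

namespace Vale.Agent.P078

universe u v

variable {M : Type u} [CStarAlgebra M] [PartialOrder M] [StarOrderedRing M]
  {Ω : Type v} [TopologicalSpace Ω] [CompactSpace Ω] [T2Space Ω] (T : TMasa M Ω)

/-- signs making a quadratic form at most the sum of its diagonal -/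
lemma exists_signs {V : Type*} [AddCommGroup V] [Module ℝ V] {ι : Type*}
    (b : V →ₗ[ℝ] V →ₗ[ℝ] ℝ) (v : ι → V) (s : Finset ι) :
    ∃ σ : ι → ℝ, (∀ i, |σ i| = 1) ∧
      b (∑ i ∈ s, σ i • v i) (∑ i ∈ s, σ i • v i) ≤ ∑ i ∈ s, b (v i) (v i) := by
  classical
  induction s using Finset.induction with
  | empty => exact ⟨fun _ => 1, fun _ => by simp, by simp⟩
  | insert a s ha ih =>
    obtain ⟨σ, hσ, hle⟩ := ih
    have e : ∀ c : ℝ, (∑ i ∈ insert a s, Function.update σ a c i • v i) =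
        c • v a + ∑ i ∈ s, σ i • v i := by
      intro c
      rw [Finset.sum_insert ha, Function.update_self]
      congr 1
      exact Finset.sum_congr rfl fun i hi => by
        rw [Function.update_of_ne (show i ≠ a from fun h => ha (h ▸ hi))]
    set y := ∑ i ∈ s, σ i • v i with hy
    have key : b (v a + y) (v a + y) + b (-v a + y) (-v a + y) =
        2 * b (v a) (v a) + 2 * b y y := by
      simp only [map_add, map_neg, LinearMap.add_apply, LinearMap.neg_apply]; ring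
    have hup : ∀ c : ℝ, |c| = 1 → ∀ i, |Function.update σ a c i| = 1 := fun c hc i => by
      by_cases h : i = a
      · subst h; rwa [Function.update_self]
      · rw [Function.update_of_ne h]; exact hσ i
    rw [Finset.sum_insert ha]
    rcases le_total (b (v a + y) (v a + y)) (b (-v a + y) (-v a + y)) with h | h
    · refine ⟨Function.update σ a 1, hup 1 abs_one, ?_⟩
      rw [e, one_smul]; linarith
    · refine ⟨Function.update σ a (-1), hup (-1) (by norm_num), ?_⟩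
      rw [e, neg_one_smul]; linarith

namespace TMasa

/-- boundedness in the uniform norm and in the 2-norm -/
def Bnd2 (c : ℝ) (W : Module.End ℝ C(Ω, ℝ)) : Prop :=
  (∀ f, ‖W f‖ ≤ c * ‖f‖) ∧ ∀ f, T.n2 (T.emb (W f)) ≤ c * T.n2 (T.emb f)

theorem bnd2_K {X : M} (hX : IsSelfAdjoint X) {c : ℝ} (hc : ‖X‖ ≤ c) : T.Bnd2 (c ^ 2) (T.K X) := by
  have hc0 : 0 ≤ c := (norm_nonneg X).trans hc
  refine ⟨fun f => ?_, fun f => ?_⟩
  · rw [T.K_apply, hX.star_eq]
    have hsa : IsSelfAdjoint (X * T.emb f * X) := by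
      simpa [hX.star_eq] using (T.emb_selfAdjoint f).conjugate X
    refine (T.norm_E_le hsa).trans ((norm_mul_le _ _).trans ?_)
    rw [pow_two, mul_assoc, mul_comm c ‖f‖, ← mul_assoc]
    exact mul_le_mul ((norm_mul_le _ _).trans (by rw [T.emb_norm]; gcongr)) hc (norm_nonneg _)
      (by positivity)
  · refine (pow_le_pow_iff_left₀ (T.n2_nonneg _)
      (mul_nonneg (sq_nonneg c) (T.n2_nonneg _)) two_ne_zero).1 ?_
    rw [T.n2_emb_sq, T.K_apply, hX.star_eq]
    refine (tau_E_mul_E_le T _).trans (pow_le_pow_left₀ (T.n2_nonneg _) ?_ 2)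
    refine (n2_sandwich_le T _ _ _).trans ?_
    rw [pow_two, mul_assoc, mul_assoc c c, mul_comm c (T.n2 _)]
    exact mul_le_mul hc (mul_le_mul_of_nonneg_left hc (T.n2_nonneg _))
      (mul_nonneg (T.n2_nonneg _) (norm_nonneg X)) hc0

theorem bnd2_mlt {f : C(Ω, ℝ)} {c : ℝ} (hc : ‖f‖ ≤ c) : T.Bnd2 c (mlt f) := by
  refine ⟨fun g => ?_, fun g => ?_⟩
  · exact (norm_mul_le f g).trans (mul_le_mul_of_nonneg_right hc (norm_nonneg g))
  · show T.n2 (T.emb (f * g)) ≤ _
    rw [map_mul]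
    refine (T.n2_mul_left _ _).trans (mul_le_mul_of_nonneg_right ?_ (T.n2_nonneg _))
    rwa [T.emb_norm]

variable {T}

theorem Bnd2.mul {V W : Module.End ℝ C(Ω, ℝ)} {a b : ℝ} (ha : 0 ≤ a) (hV : T.Bnd2 a V)
    (hW : T.Bnd2 b W) : T.Bnd2 (a * b) (V * W) := by
  refine ⟨fun f => ?_, fun f => ?_⟩ <;> rw [Module.End.mul_apply, mul_assoc]
  · exact (hV.1 _).trans (mul_le_mul_of_nonneg_left (hW.1 f) ha)
  · exact (hV.2 _).trans (mul_le_mul_of_nonneg_left (hW.2 f) ha)

theorem Bnd2.sub {V W : Module.End ℝ C(Ω, ℝ)} {a b : ℝ} (hV : T.Bnd2 a V) (hW : T.Bnd2 b W) :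
    T.Bnd2 (a + b) (V - W) := by
  refine ⟨fun f => ?_, fun f => ?_⟩ <;> rw [LinearMap.sub_apply, add_mul]
  · exact (norm_sub_le _ _).trans (add_le_add (hV.1 f) (hW.1 f))
  · rw [map_sub, sub_eq_add_neg]
    refine (T.n2_add _ _).trans (add_le_add (hV.2 f) ?_)
    rw [T.n2_neg]
    exact hW.2 f

variable (T)

lemma mlt_mul_mlt (f g : C(Ω, ℝ)) : mlt f * mlt g = (mlt (f * g) : Module.End ℝ C(Ω, ℝ)) :=
  LinearMap.ext fun h => (mul_assoc f g h).symm

lemma n2_le_nv {r : ℕ} (x : Fin r → C(Ω, ℝ)) (j : Fin r) : T.n2 (T.emb (x j)) ≤ T.nv x := by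
  rw [nv, n2]
  refine Real.sqrt_le_sqrt ?_
  rw [ip, T.star_emb, ← map_mul, ← tau_apply]
  exact Finset.single_le_sum (f := fun i => T.tau (x i * x i))
    (fun i _ => T.tau_nonneg fun ω => mul_self_nonneg (x i ω)) (Finset.mem_univ j)

lemma app_diagonal {r : ℕ} (d : Fin r → Module.End ℝ C(Ω, ℝ)) (x : Fin r → C(Ω, ℝ)) (i : Fin r) :
    Ops.app (Matrix.diagonal d) x i = d i (x i) := by
  rw [Ops.app_apply, Finset.sum_eq_single i (fun j _ hj => by
    rw [Matrix.diagonal_apply_ne' _ hj, LinearMap.zero_apply]) (by simp), Matrix.diagonal_apply_eq]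

lemma ipv_diagonal {r : ℕ} (sd : Fin r → C(Ω, ℝ)) (W : Fin r → Module.End ℝ C(Ω, ℝ))
    (x : Fin r → C(Ω, ℝ)) :
    T.ipv x (Ops.app (Matrix.diagonal fun i => mlt (sd i) * W i * mlt (sd i)) x) =
      ∑ i, T.tau ((sd i * x i) * W i (sd i * x i)) := by
  refine Finset.sum_congr rfl fun i _ => ?_
  rw [app_diagonal]
  show T.tau (x i * (sd i * W i (sd i * x i))) = _
  congr 1
  ring

lemma memT_diagonal {r : ℕ} {d : Fin r → Module.End ℝ C(Ω, ℝ)} (h : ∀ i, d i ∈ T.TT) :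
    T.MemT (Matrix.diagonal d) := fun i j => by
  rcases eq_or_ne i j with rfl | hij
  · rw [Matrix.diagonal_apply_eq]; exact h i
  · rw [Matrix.diagonal_apply_ne _ hij]; exact Subalgebra.zero_mem _

open Ops in
/-- choice of the direction of a step -/
theorem exists_direction (hT : T.OmegaSpec) {r : ℕ} (k : ℕ) (hk : 1 ≤ k) {cJ cs ε : ℝ}
    (hε : 0 < ε) (hcJ : 0 ≤ cJ) (hcs : 0 ≤ cs)
    (hres : ((r * cJ * cs) ^ 2 + 1) * r / (2 * k) ≤ ε)
    {ℓ : C(Ω, ℝ)} (hℓ : ℓ * ℓ = ℓ) {sd : Fin r → C(Ω, ℝ)} (hsd : ∀ i, ‖sd i‖ ≤ cs)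
    {J J' P Q : Fin r → Module.End ℝ C(Ω, ℝ)} (hJ : ∀ i, J i ∈ T.TT) (hJ' : ∀ i, J' i ∈ T.TT)
    (hadj : ∀ i f g, T.tau (f * J i g) = T.tau (g * J' i f))
    (hJb : ∀ i, T.Bnd2 cJ (J i)) (hJb' : ∀ i, T.Bnd2 cJ (J' i))
    (hP : ∀ i, P i ∈ T.TT) (hQ : ∀ i, Q i ∈ T.TT)
    (hPle : ∀ i u, T.tau ((sd i * u) * P i (sd i * u)) ≤ T.tau (u * u))
    (hQnn : ∀ i g, 0 ≤ T.tau (g * Q i g)) :
    ∃ x : Fin r → C(Ω, ℝ), (∀ i, ‖x i‖ ≤ 2 ^ k) ∧
      T.tau (ℓ * ((∑ i, J i (sd i * x i)) * ∑ i, J i (sd i * x i))) / 2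
        + ∑ i, T.tau ((sd i * x i) * (Q i - P i) (sd i * x i))
      ≤ T.tau ℓ + ∑ i, T.omega (mlt (sd i * sd i) * (Q i - P i)) + 2 * ε := by
  classical
  rcases Nat.eq_zero_or_pos r with rfl | hr
  · refine ⟨fun _ => 0, fun i => i.elim0, ?_⟩
    simp
    linarith [T.tau_nonneg (idem_nonneg hℓ)]
  set i₀ : Fin r := ⟨0, hr⟩
  set B := ((r : ℝ) * cJ * cs) ^ 2 + 1 with hB
  have hB0 : 0 < B := by positivity
  set q := Real.sqrt B with hq
  have hq0 : 0 < q := Real.sqrt_pos.2 hB0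
  have hqq : q * q = B := Real.mul_self_sqrt hB0.le
  have hℓ1 : ‖ℓ‖ ≤ 1 := (ContinuousMap.norm_le _ zero_le_one).2 fun ω => by
    rcases idem_zero_or_one hℓ ω with h | h <;> simp [h]
  set Tm : Ops Ω r := Matrix.of fun i j =>
    if i = i₀ then q⁻¹ • (mlt ℓ * J j * mlt (sd j)) else 0 with hTm
  set Ts : Ops Ω r := Matrix.of fun i j =>
    if j = i₀ then q⁻¹ • (mlt (sd i) * J' i * mlt ℓ) else 0 with hTs
  have hTmT : T.MemT Tm := fun i j => by
    simp only [hTm, Matrix.of_apply]; split_ifs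
    · exact Subalgebra.smul_mem _ (mul_mem (mul_mem (T.mlt_mem _) (hJ j)) (T.mlt_mem _)) _
    · exact Subalgebra.zero_mem _
  have hTsT : T.MemT Ts := fun i j => by
    simp only [hTs, Matrix.of_apply]; split_ifs
    · exact Subalgebra.smul_mem _ (mul_mem (mul_mem (T.mlt_mem _) (hJ' i)) (T.mlt_mem _)) _
    · exact Subalgebra.zero_mem _
  have appTm : ∀ y i, app Tm y i =
      if i = i₀ then q⁻¹ • (ℓ * ∑ j, J j (sd j * y j)) else 0 := by
    intro y i
    rw [app_apply]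
    simp only [hTm, Matrix.of_apply]
    split_ifs with h
    · rw [Finset.mul_sum, Finset.smul_sum]
      exact Finset.sum_congr rfl fun j _ => rfl
    · simp
  have appTs : ∀ y i, app Ts y i = q⁻¹ • (sd i * J' i (ℓ * y i₀)) := by
    intro y i
    rw [app_apply, Finset.sum_eq_single i₀ (fun j _ hj => by simp [hTs, hj]) (by simp)]
    simp only [hTs, Matrix.of_apply, if_true]
    rfl
  have hAdj : T.IsAdj Ts Tm := by
    intro y z
    rw [ipv, Finset.sum_eq_single i₀ (fun j _ hj => by simp [appTm, hj]) (by simp), appTm,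
      if_pos rfl]
    simp only [ipv, appTs, mul_smul_comm, smul_mul_assoc, map_smul, Finset.mul_sum, map_sum,
      Finset.smul_sum]
    refine Finset.sum_congr rfl fun j _ => congrArg (q⁻¹ • ·) ?_
    rw [show y i₀ * (ℓ * J j (sd j * z j)) = ℓ * y i₀ * J j (sd j * z j) by ring, hadj]
    congr 1
    ring
  have h1 : T.Bnd 1 Tm := by
    intro y
    rw [one_mul]
    have e : T.nv (app Tm y) = T.n2 (T.emb (q⁻¹ • (ℓ * ∑ j, J j (sd j * y j)))) := by
      rw [nv, ipv, Finset.sum_eq_single i₀ (fun j _ hj => by simp [appTm, hj]) (by simp), appTm,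
        if_pos rfl, ← T.n2_emb_sq, Real.sqrt_sq (T.n2_nonneg _)]
    rw [e, map_smul, T.n2_smul, abs_inv, abs_of_pos hq0, map_mul, inv_mul_le_iff₀ hq0]
    refine (T.n2_mul_left _ _).trans ?_
    rw [T.emb_norm]
    refine (mul_le_of_le_one_left (T.n2_nonneg _) hℓ1).trans ?_
    rw [map_sum]
    refine (Finset.le_sum_of_subadditive T.n2 T.n2_zero.le T.n2_add _ _).trans ?_
    have hj : ∀ j ∈ (Finset.univ : Finset (Fin r)),
        T.n2 (T.emb (J j (sd j * y j))) ≤ cJ * (cs * T.nv y) := fun j _ =>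
      ((hJb j).2 _).trans (mul_le_mul_of_nonneg_left (((T.bnd2_mlt (hsd j)).2 (y j)).trans
        (mul_le_mul_of_nonneg_left (T.n2_le_nv y j) hcs)) hcJ)
    refine (Finset.sum_le_sum hj).trans ?_
    rw [Finset.sum_const, Finset.card_univ, Fintype.card_fin, nsmul_eq_mul, ← mul_assoc,
      ← mul_assoc]
    refine mul_le_mul_of_nonneg_right ?_ (T.nv_nonneg y)
    refine Real.le_sqrt_of_sq_le ?_
    rw [hB]; linarith
  set y₁ : Ops Ω r := 1 - Ts * Tm with hy₁
  have hy₁T : T.MemT y₁ := MemT.one.sub (hTsT.mul hTmT)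
  set S := y₁ ^ k with hS
  have hST : T.MemT S := hy₁T.pow k
  have hSs : T.IsAdj S S := (IsAdj.one.sub (hAdj.symm.mul hAdj)).pow k
  set DQ : Ops Ω r := Matrix.diagonal fun i => mlt (sd i) * Q i * mlt (sd i) with hDQ
  set DP : Ops Ω r := Matrix.diagonal fun i => mlt (sd i) * P i * mlt (sd i) with hDP
  have hDQT : T.MemT DQ := T.memT_diagonal fun i =>
    mul_mem (mul_mem (T.mlt_mem _) (hQ i)) (T.mlt_mem _)
  have hDPT : T.MemT DP := T.memT_diagonal fun i =>
    mul_mem (mul_mem (T.mlt_mem _) (hP i)) (T.mlt_mem _)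
  set W := S * (DQ - DP) * S with hW
  have hWT : T.MemT W := (hST.mul (hDQT.sub hDPT)).mul hST
  -- signs on a fine partition
  obtain ⟨P₀, hP₀⟩ := ((tendsto_omrP hT hWT).eventually
    (gt_mem_nhds (show T.omr W < T.omr W + ε by linarith))).exists
  let b : (Fin r → C(Ω, ℝ)) →ₗ[ℝ] (Fin r → C(Ω, ℝ)) →ₗ[ℝ] ℝ :=
    LinearMap.mk₂ ℝ (fun x y => T.ipv x (app W y)) (fun x y z => T.ipv_add_left _ _ _)
      (fun c x y => T.ipv_smul_left _ _ _) (fun x y z => by rw [map_add, T.ipv_add_right])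
      (fun c x y => by rw [map_smul, T.ipv_smul_right, smul_eq_mul])
  obtain ⟨σ, hσ, hσle⟩ :=
    exists_signs b (fun s : Fin r × Fin P₀.n => bas P₀ s.1 s.2) Finset.univ
  set ξ := ∑ s : Fin r × Fin P₀.n, σ s • bas P₀ s.1 s.2 with hξ
  have hξW : T.ipv ξ (app W ξ) ≤ T.omrP P₀ W := by
    refine hσle.trans (le_of_eq ?_)
    rw [omrP_eq, Fintype.sum_prod_type]
    rfl
  have hξi : ∀ i, ξ i = ∑ k', σ (i, k') • P₀.e k' := by
    intro i
    simp only [hξ, Finset.sum_apply, Fintype.sum_prod_type, Pi.smul_apply]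
    rw [Finset.sum_eq_single i (fun j _ hj => Finset.sum_eq_zero fun l _ => by
      simp [bas, Pi.single_eq_of_ne' hj]) (by simp)]
    simp [bas]
  have hξ1 : ∀ i ω, |ξ i ω| ≤ 1 := by
    intro i ω
    rw [hξi, ContinuousMap.sum_apply]
    refine (Finset.abs_sum_le_sum_abs _ _).trans (le_of_eq ?_)
    simp only [ContinuousMap.smul_apply, smul_eq_mul, abs_mul, hσ, one_mul]
    simp only [abs_of_nonneg (show (0 : ℝ) ≤ P₀.e _ ω from idem_nonneg (P₀.isPartition.idem _) ω)]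
    rw [← ContinuousMap.sum_apply, P₀.isPartition.sum_one, ContinuousMap.one_apply]
  have hξn : ∀ i, ‖ξ i‖ ≤ 1 := fun i =>
    (ContinuousMap.norm_le _ zero_le_one).2 fun ω => (Real.norm_eq_abs _).le.trans (hξ1 i ω)
  have hξξ : T.ipv ξ ξ ≤ r := by
    refine (Finset.sum_le_sum (g := fun _ => (1 : ℝ)) fun i _ => ?_).trans_eq (by simp)
    rw [← T.tau_one]
    refine T.tau_mono (ContinuousMap.le_def.2 fun ω => ?_)
    have := hξ1 i ω
    rw [abs_le] at this
    simp only [ContinuousMap.mul_apply, ContinuousMap.one_apply]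
    nlinarith
  -- uniform bound
  have hstep : ∀ (y : Fin r → C(Ω, ℝ)) (m : ℝ), (∀ i, ‖y i‖ ≤ m) → ∀ i, ‖app y₁ y i‖ ≤ 2 * m := by
    intro y m hy i
    have hm : 0 ≤ m := (norm_nonneg _).trans (hy i₀)
    rw [hy₁, app_sub, app_one, app_mul, Pi.sub_apply, appTs, appTm, if_pos rfl]
    refine (norm_sub_le _ _).trans ?_
    have a1 : ‖ℓ * ∑ j, J j (sd j * y j)‖ ≤ r * (cJ * (cs * m)) := by
      refine (norm_mul_le _ _).trans ((mul_le_of_le_one_left (norm_nonneg _) hℓ1).trans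
        ((norm_sum_le _ _).trans ((Finset.sum_le_sum fun j _ => ((hJb j).1 _).trans
          (mul_le_mul_of_nonneg_left ((norm_mul_le _ _).trans
            (mul_le_mul (hsd j) (hy j) (norm_nonneg _) hcs)) hcJ)).trans_eq ?_)))
      simp
    have a2 : ‖sd i * J' i (ℓ * q⁻¹ • (ℓ * ∑ j, J j (sd j * y j)))‖ ≤
        cs * (cJ * (q⁻¹ * (r * (cJ * (cs * m))))) := by
      refine (norm_mul_le _ _).trans (mul_le_mul (hsd i) (((hJb' i).1 _).trans
        (mul_le_mul_of_nonneg_left ((norm_mul_le _ _).trans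
          ((mul_le_of_le_one_left (norm_nonneg _) hℓ1).trans ?_)) hcJ)) (norm_nonneg _) hcs)
      rw [norm_smul, Real.norm_eq_abs, abs_inv, abs_of_pos hq0]
      exact mul_le_mul_of_nonneg_left a1 (by positivity)
    have a3 : q⁻¹ * (cs * (cJ * (q⁻¹ * (r * (cJ * (cs * m)))))) ≤ m := by
      rw [show q⁻¹ * (cs * (cJ * (q⁻¹ * (r * (cJ * (cs * m)))))) =
        (r * (cJ * cs) ^ 2 * m) / (q * q) by rw [div_eq_mul_inv, mul_inv]; ring,
        hqq, div_le_iff₀ hB0, mul_comm m B]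
      refine mul_le_mul_of_nonneg_right ?_ hm
      have : (r : ℝ) * (cJ * cs) ^ 2 ≤ (r : ℝ) ^ 2 * (cJ * cs) ^ 2 :=
        mul_le_mul_of_nonneg_right (le_self_pow₀ (by exact_mod_cast hr) two_ne_zero) (sq_nonneg _)
      rw [hB]; linarith
    rw [norm_smul, Real.norm_eq_abs, abs_inv, abs_of_pos hq0]
    have a4 := mul_le_mul_of_nonneg_left a2 (inv_nonneg.2 hq0.le)
    linarith [hy i]
  have hsup : ∀ n i, ‖app (y₁ ^ n) ξ i‖ ≤ 2 ^ n := by
    intro n
    induction n with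
    | zero => intro i; simpa [app_one] using hξn i
    | succ n ih =>
      intro i
      rw [pow_succ' y₁, app_mul, pow_succ' (2 : ℝ)]
      exact hstep _ _ ih i
  refine ⟨app S ξ, hsup k, ?_⟩
  set x := app S ξ with hx
  -- first term
  have hfirst : T.tau (ℓ * ((∑ i, J i (sd i * x i)) * ∑ i, J i (sd i * x i))) / 2 ≤ ε := by
    set F := ∑ i, J i (sd i * x i) with hF
    have e : T.ipv (app Tm x) (app Tm x) = T.tau (ℓ * (F * F)) / B := by
      rw [ipv, Finset.sum_eq_single i₀ (fun j _ hj => by simp [appTm, hj]) (by simp), appTm,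
        if_pos rfl, smul_mul_smul_comm, map_smul, smul_eq_mul, ← mul_inv, hqq, ← hF,
        mul_mul_mul_comm, hℓ]
      ring
    have hr' := resid_le hAdj h1 k ξ
    rw [← hy₁, ← hS, ← hx, e] at hr'
    have h3 : (k : ℝ) * (T.tau (ℓ * (F * F)) / B) ≤ r := hr'.trans hξξ
    rw [mul_div_assoc', div_le_iff₀ hB0] at h3
    refine le_trans ?_ hres
    rw [le_div_iff₀ (by positivity : (0 : ℝ) < 2 * k)]
    linarith
  -- second term
  have hsecond : ∑ i, T.tau ((sd i * x i) * (Q i - P i) (sd i * x i)) ≤ T.omr W + ε := by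
    refine le_trans (le_of_eq ?_) (hξW.trans hP₀.le)
    rw [hW, app_mul, app_mul, hSs, ← hx, app_sub, T.ipv_sub_right, hDQ, hDP, T.ipv_diagonal,
      T.ipv_diagonal, ← Finset.sum_sub_distrib]
    exact Finset.sum_congr rfl fun i _ => by rw [LinearMap.sub_apply, mul_sub, map_sub]
  -- the trace
  set lev := 1 - y₁ ^ (2 * k) with hlev
  have hlevT : T.MemT lev := MemT.one.sub (hy₁T.pow _)
  have hW1 : T.omr W = T.omr (DQ - DP) - T.omr (lev * (DQ - DP)) := by
    rw [hW, omr_comm hT (hST.mul (hDQT.sub hDPT)) hST, ← mul_assoc, hS, ← pow_add, ← two_mul,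
      ← omr_sub hT (hDQT.sub hDPT) (hlevT.mul (hDQT.sub hDPT)), hlev, sub_mul, one_mul,
      sub_sub_cancel]
  have hD : T.omr (DQ - DP) = ∑ i, T.omega (mlt (sd i * sd i) * (Q i - P i)) := by
    refine Finset.sum_congr rfl fun i _ => ?_
    rw [Matrix.sub_apply, hDQ, hDP, Matrix.diagonal_apply_eq, Matrix.diagonal_apply_eq, ← sub_mul,
      ← mul_sub, hT.comm _ (mul_mem (T.mlt_mem _) (sub_mem (hQ i) (hP i))) _ (T.mlt_mem _),
      ← mul_assoc, mlt_mul_mlt]
  have hlow : - T.tau ℓ ≤ T.omr (lev * (DQ - DP)) := by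
    set Pl : Ops Ω r := Matrix.diagonal fun i => if i = i₀ then mlt ℓ else 0 with hPl
    have hPlT : T.MemT Pl := T.memT_diagonal fun i => by
      split_ifs
      · exact T.mlt_mem _
      · exact Subalgebra.zero_mem _
    have appPl : ∀ y i, app Pl y i = if i = i₀ then ℓ * y i else 0 := by
      intro y i
      rw [hPl, app_diagonal]
      split_ifs <;> simp [mlt]
    have hPs : T.IsAdj Pl Pl := by
      intro y z
      refine Finset.sum_congr rfl fun i _ => ?_
      rw [appPl, appPl]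
      split_ifs
      · congr 1; ring
      · simp
    have hPT : Pl * Tm = Tm := by
      ext i j : 2
      rw [hPl, Matrix.diagonal_mul]
      simp only [hTm, Matrix.of_apply]
      split_ifs
      · rw [mul_smul_comm, ← mul_assoc, ← mul_assoc, mlt_mul_mlt, hℓ]
      · rw [zero_mul]
    have hTP : Ts * Pl = Ts := by
      ext i j : 2
      rw [hPl, Matrix.mul_diagonal]
      simp only [hTs, Matrix.of_apply]
      split_ifs
      · rw [smul_mul_assoc, mul_assoc, mlt_mul_mlt, hℓ]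
      · rw [zero_mul]
    have hPP : Pl * Pl = Pl := by
      rw [hPl, Matrix.diagonal_mul_diagonal]
      congr 1
      funext i
      split_ifs
      · rw [mlt_mul_mlt, hℓ]
      · rw [zero_mul]
    have h2 := omr_lev_le hT hTmT hTsT hPlT hAdj hPs hPT hTP hPP k hk
    have hω0 : T.omega (0 : Module.End ℝ C(Ω, ℝ)) = 0 :=
      tendsto_nhds_unique (hT.tendsto _ (Subalgebra.zero_mem _)) (by simp [omegaP])
    have h3 : T.omr Pl = T.tau ℓ := by
      rw [omr, Finset.sum_eq_single i₀ (fun j _ hj => by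
        rw [hPl, Matrix.diagonal_apply_eq, if_neg hj, hω0]) (by simp), hPl,
        Matrix.diagonal_apply_eq, if_pos rfl, hT.value_mlt]
    have h4 := omr_lev_nonneg hT hTmT hTsT hDQT hAdj h1 (fun y => by
      rw [hDQ, T.ipv_diagonal]; exact Finset.sum_nonneg fun i _ => hQnn i _) k
    have h5 := omr_lev_nonneg hT hTmT hTsT (MemT.one.sub hDPT) hAdj h1 (fun y => by
      rw [app_sub, app_one, T.ipv_sub_right, hDP, T.ipv_diagonal, sub_nonneg]
      exact Finset.sum_le_sum fun i _ => hPle i _) k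
    rw [← hy₁, ← hlev] at h2 h4 h5
    have e : lev * (DQ - DP) = lev * DQ + lev * (1 - DP) - lev := by
      rw [mul_sub, mul_sub, mul_one]; abel
    rw [e, omr_sub hT ((hlevT.mul hDQT).add (hlevT.mul (MemT.one.sub hDPT))) hlevT,
      omr_add hT (hlevT.mul hDQT) (hlevT.mul (MemT.one.sub hDPT))]
    linarith
  linarith

/-- the quadratic upper bound -/
theorem quad_pointwise {η x a ap lam h k c u wι : ℝ} (hη : 0 < η) (hη1 : η ≤ 1 / 16) (hx0 : 0 ≤ x)
    (hx : x ≤ 1 - η / 2) (hlam : 0 ≤ lam) (ha : 0 ≤ a) (hap : 0 ≤ ap) (hle : ap ≤ a)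
    (hc : 0 ≤ c) (hcs : k ^ 2 ≤ ap * c) (hw : lam * (a * wι) ≤ 1) (hwι : 0 ≤ wι)
    (hh : h ^ 2 = Profile.wt η x * wι * u ^ 2) :
    lam * ((1 + Profile.gex η x) * a * h ^ 2 - Profile.dphi η x * h * k - Profile.phi η x * c)
      ≤ u ^ 2 := by
  have hwt := Profile.wt_eq hη hη1 hx0 hx
  rcases eq_or_lt_of_le (Profile.phi_nonneg hη hx0 hx) with hφ | hφ
  · have h0 : h = 0 := by
      have : h ^ 2 = 0 := by rw [hh, hwt, ← hφ]; simp
      simpa using this
    rw [h0, ← hφ]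
    simpa using sq_nonneg u
  set g := Profile.gex η x
  set p := Profile.dphi η x
  set φ := Profile.phi η x
  have key : 4 * φ * (-(p * h * k) - φ * c) ≤ p ^ 2 * h ^ 2 * ap := by
    rcases eq_or_lt_of_le hap with h1 | h1
    · have hk : k = 0 := by
        have : k ^ 2 ≤ 0 := by rw [← h1, zero_mul] at hcs; exact hcs
        nlinarith [sq_nonneg k]
      rw [hk, ← h1]; nlinarith [mul_nonneg (mul_nonneg hφ.le hφ.le) hc]
    · have h2 : 0 ≤ ap * (p ^ 2 * h ^ 2 * ap + 4 * φ * (p * h * k) + 4 * φ * φ * c) := by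
        nlinarith [sq_nonneg (p * h * ap + 2 * φ * k),
          mul_nonneg (sq_nonneg φ) (sub_nonneg.2 hcs)]
      have := (mul_nonneg_iff_of_pos_left h1).1 h2
      linarith
  have hden : 0 < Profile.den η x := lt_of_lt_of_le (by linarith) (Profile.den_ge hη hη1 hx0 hx)
  have e1 : 4 * φ * ((1 + g) * a * h ^ 2) + p ^ 2 * h ^ 2 * a = 4 * φ * (a * wι * u ^ 2) := by
    rw [hh, hwt]
    field_simp
    unfold Profile.den
    ring
  have e2 : p ^ 2 * h ^ 2 * ap ≤ p ^ 2 * h ^ 2 * a := mul_le_mul_of_nonneg_left hle (by positivity)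
  have h3 : (1 + g) * a * h ^ 2 - p * h * k - φ * c ≤ a * wι * u ^ 2 := by
    refine le_of_mul_le_mul_left (a := 4 * φ) ?_ (by positivity)
    linarith
  refine (mul_le_mul_of_nonneg_left h3 hlam).trans ?_
  calc lam * (a * wι * u ^ 2) = lam * (a * wι) * u ^ 2 := by ring
    _ ≤ 1 * u ^ 2 := mul_le_mul_of_nonneg_right hw (sq_nonneg u)
    _ = u ^ 2 := one_mul _

/-- Schwarz inequality for the pointwise bound -/
theorem K_sq_le {X : M} (hX : 0 ≤ X) (h : C(Ω, ℝ)) (ω : Ω) :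
    T.K X h ω ^ 2 ≤ T.E X ω * T.E (X * T.emb h * X * T.emb h * X) ω := by
  have hs : IsSelfAdjoint (CFC.sqrt X) := IsSelfAdjoint.of_nonneg (CFC.sqrt_nonneg _)
  have hXs : IsSelfAdjoint X := IsSelfAdjoint.of_nonneg hX
  have e := CFC.sqrt_mul_sqrt_self X hX
  have := T.E_schwarz (CFC.sqrt X) (CFC.sqrt X * T.emb h * X) ω
  simp only [star_mul, hs.star_eq, hXs.star_eq, T.star_emb, e] at this
  rw [T.K_apply, hXs.star_eq]
  have e1 : CFC.sqrt X * (CFC.sqrt X * T.emb h * X) = X * T.emb h * X := by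
    rw [← mul_assoc, ← mul_assoc, e]
  have e2 : X * (T.emb h * CFC.sqrt X) * (CFC.sqrt X * T.emb h * X) =
      X * T.emb h * X * T.emb h * X := by
    calc _ = X * T.emb h * (CFC.sqrt X * CFC.sqrt X) * T.emb h * X := by simp only [mul_assoc]
      _ = _ := by rw [e]
  rwa [e1, e2] at this

end TMasa

end Vale.Agent.P078
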