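import Mathlib
import Vale.Agent.P078.Expect
import Vale.Agent.P078.Profile

/-! States of the walk, the potential, and the one-step specification. -/

noncomputable section

set_option linter.unusedSectionVars false

namespace Vale.Agent.P078

universe u v

variable {M : Type u} [CStarAlgebra M] [PartialOrder M] [StarOrderedRing M]
  {Ω : Type v} [TopologicalSpace Ω] [CompactSpace Ω] [T2Space Ω]

/-- fixed parameters of the walk -/
structure Params where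
  η : ℝ
  z : ℝ
  r : ℕ
  K₀ : ℝ

/-- small parameters of the walk -/
structure Smalls where
  μ : ℝ
  ι : ℝ
  γ : ℝ
  A : ℝ
  ς : ℝ

/-- the target value of the constraint -/
def Params.L (P : Params) : ℝ := 1 + 256 / P.η

/-- the constant of the band correction -/
def Params.C1 (P : Params) : ℝ := 16 * (2 + 1 / P.η) / P.η

/-- composition of the profile with a function -/
def cphi (η : ℝ) (σ : C(Ω, ℝ)) : C(Ω, ℝ) :=
  ⟨fun ω => Profile.phi η (σ ω), Profile.continuous_phi.comp σ.continuous⟩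

/-- composition of the Huber function with a function -/
def chub (f : C(Ω, ℝ)) : C(Ω, ℝ) :=
  ⟨fun ω => Profile.hub (f ω), by unfold Profile.hub; fun_prop⟩

/-- a state of the walk -/
structure St (M : Type u) (Ω : Type v) [TopologicalSpace Ω] (r : ℕ) where
  sig : Fin r → C(Ω, ℝ)
  R : Fin r → M
  live : C(Ω, ℝ)

namespace TMasa

variable (T : TMasa M Ω) (P : Params) (y : M)

/-- the square root of `y` -/
def vop (y : M) : M := CFC.sqrt y

/-- the shifted operator of a channel -/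
def Zop (st : St M Ω P.r) (i : Fin P.r) : M :=
  P.z • (1 : M) - vop y * T.emb (st.sig i) * vop y + st.R i

/-- the resolvent of a channel -/
def Gop (st : St M Ω P.r) (i : Fin P.r) : M := cfc (fun x : ℝ => x⁻¹) (T.Zop P y st i)

/-- the barrier of a channel -/
def aval (st : St M Ω P.r) (i : Fin P.r) : C(Ω, ℝ) := T.E (vop y * T.Gop P y st i * vop y)

/-- the constraint function -/
def Fval (st : St M Ω P.r) : C(Ω, ℝ) :=
  ∑ i, (st.sig i - cphi P.η (st.sig i) * T.aval P y st i)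

/-- the potential -/
def Wpot (S : Smalls) (st : St M Ω P.r) : ℝ :=
  T.tau (st.live * chub (ContinuousMap.const Ω P.L - T.Fval P y st))
    + S.μ / P.η * (∑ i, T.tau (st.sig i)) + S.μ * (∑ i, T.tr (T.Gop P y st i))
    + S.A * S.μ * (∑ i, T.n2 (st.R i) ^ 2) + S.ς * (∑ i, T.tau (T.pos (st.sig i)))

/-- the invariant -/
structure StInv (S : Smalls) (st : St M Ω P.r) : Prop where
  live_idem : st.live * st.live = st.live
  sig_nonneg : ∀ i, 0 ≤ st.sig i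
  sig_le : ∀ i ω, st.sig i ω ≤ 1 - P.η
  assigned : ∀ ω, st.live ω = 0 → ∃ i, st.sig i ω = 1 - P.η ∧ ∀ j, j ≠ i → st.sig j ω = 0
  R_sa : ∀ i, IsSelfAdjoint (st.R i)
  gap : ∀ i, S.γ • (1 : M) ≤ T.Zop P y st i

/-- the smallness conditions -/
structure SmallOK (S : Smalls) (c ηf : ℝ) : Prop where
  μ_pos : 0 < S.μ
  μ_le : S.μ ≤ 1
  ι_pos : 0 < S.ι
  ι_le : S.ι ≤ 1
  γ_pos : 0 < S.γ
  γ_le : S.γ ≤ 1
  A_ge : P.K₀ ≤ S.A
  A_pos : 0 < S.A
  hμ : 32 * S.μ * P.K₀ ≤ ηf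
  hι : 12 * P.r * S.ι ≤ ηf * c ^ 2
  hγ : 4 * P.r * (4 * S.A * S.γ * P.K₀ / S.ι
      + 4 * (2 + 4 * P.C1) * P.K₀ * Real.sqrt (S.A * S.γ)) ≤ ηf

/-- The one-step property. -/
def StepSpec : Prop :=
  ∀ (μ ι γ A c ηf : ℝ), 0 < c → 0 < ηf → 0 ≤ y → y ≤ 1 → (∀ ω, c ≤ T.E y ω) →
    SmallOK P ⟨μ, ι, γ, A, 0⟩ c ηf →
    ∃ ς c₀ : ℝ, 0 < ς ∧ ς ≤ μ ∧ 0 < c₀ ∧
      ∀ st : St M Ω P.r, T.StInv P y ⟨μ, ι, γ, A, ς⟩ st →
        T.Wpot P y ⟨μ, ι, γ, A, ς⟩ st ≤ μ * P.K₀ → ηf ≤ T.tau st.live →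
          ∃ st' : St M Ω P.r, T.StInv P y ⟨μ, ι, γ, A, ς⟩ st' ∧
            T.Wpot P y ⟨μ, ι, γ, A, ς⟩ st' ≤ T.Wpot P y ⟨μ, ι, γ, A, ς⟩ st - c₀

end TMasa

end Vale.Agent.P078
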