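import Mathlib
import Vale.Agent.P078.State
import Vale.Agent.P078.Resolvent

/-! The cleanup moves of the walk: lowering channels never costs potential. -/

noncomputable section

set_option linter.unusedSectionVars false

namespace Vale.Agent.P078

universe u v

variable {M : Type u} [CStarAlgebra M] [PartialOrder M] [StarOrderedRing M]
  {Ω : Type v} [TopologicalSpace Ω] [CompactSpace Ω] [T2Space Ω] (T : TMasa M Ω)

namespace TMasa

lemma pos_le_of_pos {g h : C(Ω, ℝ)} (hh : h * h = h) (hg : ∀ ω, 0 < g ω → h ω = 1) :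
    T.pos g ≤ h := by
  refine ContinuousMap.le_def.2 fun ω => ?_
  by_cases hm : ω ∈ hull g
  · have : h ω = 1 := closure_minimal hg (isClosed_eq h.continuous continuous_const) hm
    simp [pos_apply, hm, this]
  · rw [pos_apply, Set.indicator_of_notMem hm]
    exact idem_nonneg hh ω

lemma pos_eq_one_of_pos {g : C(Ω, ℝ)} {ω : Ω} (h : 0 < g ω) : T.pos g ω = 1 := by
  have hm : ω ∈ hull g := subset_closure h
  simp [pos_apply, hm]

lemma nonneg_of_pos_eq_one {g : C(Ω, ℝ)} {ω : Ω} (h : T.pos g ω = 1) : 0 ≤ g ω := by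
  refine nonneg_of_mem_hull ?_
  by_contra hm
  simp [pos_apply, hm] at h

lemma nonpos_of_pos_eq_zero {g : C(Ω, ℝ)} {ω : Ω} (h : T.pos g ω = 0) : g ω ≤ 0 := by
  refine nonpos_of_not_mem_hull fun hm => ?_
  simp [pos_apply, hm] at h

variable (P : Params) (y : M)

lemma isSelfAdjoint_vop : IsSelfAdjoint (vop y) := (CFC.sqrt_nonneg y).isSelfAdjoint

variable {T P y}

lemma Zop_mono {st st' : St M Ω P.r} (hR : st'.R = st.R) (hσ : ∀ i, st'.sig i ≤ st.sig i)
    (i : Fin P.r) : T.Zop P y st i ≤ T.Zop P y st' i := by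
  rw [Zop, Zop, hR]
  exact add_le_add (sub_le_sub_left
    ((isSelfAdjoint_vop y).conjugate_le_conjugate (T.emb_mono (hσ i))) _) le_rfl

lemma aval_mono {st st' : St M Ω P.r} {γ : ℝ} (hγ : 0 < γ) (hR : st'.R = st.R)
    (hσ : ∀ i, st'.sig i ≤ st.sig i) (i : Fin P.r) (hgap : γ • (1 : M) ≤ T.Zop P y st i) :
    T.aval P y st' i ≤ T.aval P y st i :=
  T.E_mono ((isSelfAdjoint_vop y).conjugate_le_conjugate
    (Res.res_antitone hγ hgap (Zop_mono hR hσ i)))

lemma aval_nonneg {st : St M Ω P.r} {γ : ℝ} (hγ : 0 < γ) (i : Fin P.r)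
    (hgap : γ • (1 : M) ≤ T.Zop P y st i) (ω : Ω) : 0 ≤ T.aval P y st i ω :=
  T.E_nonneg ((isSelfAdjoint_vop y).conjugate_nonneg (Res.res_nonneg hγ hgap)) ω

/-- Lowering channels. -/
theorem Wpot_lower {S : Smalls} (hη : 0 < P.η) (hη1 : P.η ≤ 1) (hμ : 0 ≤ S.μ) (hγ : 0 < S.γ)
    {st st' : St M Ω P.r} (hgap : ∀ i, S.γ • (1 : M) ≤ T.Zop P y st i) (hR : st'.R = st.R)
    (hσ : ∀ i, st'.sig i ≤ st.sig i) (hl : st.live * st.live = st.live)
    (hl' : st'.live * st'.live = st'.live) (hll : st'.live ≤ st.live) (d : Fin P.r → C(Ω, ℝ))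
    (hd : ∀ i, 0 ≤ d i)
    (hdiff : ∀ ω, st'.live ω = 1 → ∀ i, 0 ≤ st.sig i ω ∧ st.sig i ω ≤ 1 - P.η / 2 ∧
      (st'.sig i ω = st.sig i ω ∨ st'.sig i ω = 0 ∧ st.sig i ω ≤ d i ω))
    (hpay : (∑ i, T.tau (d i)) + S.ς * (∑ i, T.tau (T.pos (st'.sig i)))
      ≤ S.ς * (∑ i, T.tau (T.pos (st.sig i)))) :
    T.Wpot P y S st' ≤ T.Wpot P y S st := by
  have hub_le : st'.live * chub (ContinuousMap.const Ω P.L - T.Fval P y st')
      ≤ st.live * chub (ContinuousMap.const Ω P.L - T.Fval P y st) + ∑ i, d i := by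
    refine ContinuousMap.le_def.2 fun ω => ?_
    have hsum : 0 ≤ ∑ i, d i ω := Finset.sum_nonneg fun i _ => hd i ω
    have hhub : ∀ f : C(Ω, ℝ), 0 ≤ chub f ω := fun f => Profile.hub_nonneg _
    simp only [ContinuousMap.mul_apply, ContinuousMap.add_apply, ContinuousMap.sum_apply]
    rcases idem_zero_or_one hl' ω with h0 | h1
    · rw [h0, zero_mul]
      exact add_nonneg (mul_nonneg (idem_nonneg hl ω) (hhub _)) hsum
    · have hl1 : st.live ω = 1 := le_antisymm (idem_le_one hl ω) (h1 ▸ hll ω)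
      rw [h1, hl1, one_mul, one_mul]
      have hF : T.Fval P y st ω ≤ T.Fval P y st' ω + ∑ i, d i ω := by
        simp only [Fval, ContinuousMap.sum_apply, ← Finset.sum_add_distrib]
        refine Finset.sum_le_sum fun i _ => ?_
        obtain ⟨h0, h2, h3⟩ := hdiff ω h1 i
        have hphi := Profile.phi_nonneg hη h0 h2
        have ha := aval_mono hγ hR hσ i (hgap i) ω
        have ha0 := aval_nonneg hγ i (hgap i) ω
        simp only [ContinuousMap.sub_apply, ContinuousMap.mul_apply, cphi, ContinuousMap.coe_mk]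
        rcases h3 with h3 | ⟨h3, h4⟩
        · rw [h3]
          linarith [mul_le_mul_of_nonneg_left (show T.aval P y st' i ω ≤ T.aval P y st i ω from ha)
            hphi, show (0 : ℝ) ≤ d i ω from hd i ω]
        · rw [h3, Profile.phi_zero hη hη1, zero_mul, sub_zero, zero_add]
          linarith [mul_nonneg hphi ha0]
      simp only [chub, ContinuousMap.coe_mk, ContinuousMap.sub_apply, ContinuousMap.const_apply]
      exact (Profile.hub_mono (by linarith)).trans (Profile.hub_add_le_abs _ _ hsum)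
  have h1 := T.tau_mono hub_le
  rw [map_add, map_sum] at h1
  have h2 : S.μ / P.η * (∑ i, T.tau (st'.sig i)) ≤ S.μ / P.η * (∑ i, T.tau (st.sig i)) :=
    mul_le_mul_of_nonneg_left (Finset.sum_le_sum fun i _ => T.tau_mono (hσ i))
      (div_nonneg hμ hη.le)
  have h3 : S.μ * (∑ i, T.tr (T.Gop P y st' i)) ≤ S.μ * (∑ i, T.tr (T.Gop P y st i)) :=
    mul_le_mul_of_nonneg_left (Finset.sum_le_sum fun i _ => T.tr_mono
      (Res.res_antitone hγ (hgap i) (Zop_mono hR hσ i))) hμ
  rw [Wpot, Wpot, hR]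
  linarith

/-- Channels below the threshold are removed. -/
theorem exists_clean {S : Smalls} (hη : 0 < P.η) (hη1 : P.η ≤ 1) (hμ : 0 ≤ S.μ) (hγ : 0 < S.γ)
    {st : St M Ω P.r} (hst : T.StInv P y S st) (hς : 0 < S.ς) (hς1 : S.ς < 1 - P.η) :
    ∃ st₀ : St M Ω P.r, T.StInv P y S st₀ ∧ T.Wpot P y S st₀ ≤ T.Wpot P y S st ∧
      st₀.live = st.live ∧ ∀ i ω, st₀.sig i ω = 0 ∨ S.ς ≤ st₀.sig i ω := by
  set e : Fin P.r → C(Ω, ℝ) := fun i =>
    T.pos (st.sig i) * (1 - T.pos (st.sig i - ContinuousMap.const Ω S.ς)) with he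
  have hee : ∀ i, e i * e i = e i := fun i => by
    simp only [he]
    have hidem : ∀ p : C(Ω, ℝ), p * p = p → (1 - p) * (1 - p) = 1 - p := fun p hp => by
      rw [sub_mul, one_mul, mul_sub, mul_one, hp, sub_self, sub_zero]
    rw [mul_mul_mul_comm, T.pos_mul_self, hidem _ (T.pos_mul_self _)]
  -- the small part
  have hsmall : ∀ i ω, e i ω = 1 → st.sig i ω ≤ S.ς ∧ T.pos (st.sig i) ω = 1 := by
    intro i ω h
    simp only [he, ContinuousMap.mul_apply, ContinuousMap.sub_apply, ContinuousMap.one_apply] at h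
    rcases idem_zero_or_one (T.pos_mul_self (st.sig i)) ω with h1 | h1
    · rw [h1, zero_mul] at h; exact absurd h zero_ne_one
    · rw [h1, one_mul] at h
      have := T.nonpos_of_pos_eq_zero (show T.pos (st.sig i - ContinuousMap.const Ω S.ς) ω = 0 by
        linarith)
      simp only [ContinuousMap.sub_apply, ContinuousMap.const_apply] at this
      exact ⟨by linarith, h1⟩
  have hbig : ∀ i ω, e i ω = 0 → st.sig i ω = 0 ∨ S.ς ≤ st.sig i ω := by
    intro i ω h
    rcases eq_or_lt_of_le (show 0 ≤ st.sig i ω from hst.sig_nonneg i ω) with h1 | h1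
    · exact .inl h1.symm
    · right
      simp only [he, ContinuousMap.mul_apply, ContinuousMap.sub_apply, ContinuousMap.one_apply,
        T.pos_eq_one_of_pos h1, one_mul] at h
      have := T.nonneg_of_pos_eq_one (show T.pos (st.sig i - ContinuousMap.const Ω S.ς) ω = 1 by
        linarith)
      simp only [ContinuousMap.sub_apply, ContinuousMap.const_apply] at this
      linarith
  set σ' : Fin P.r → C(Ω, ℝ) := fun i => st.sig i * (1 - e i) with hσ'
  have hval : ∀ i ω, σ' i ω = st.sig i ω * (1 - e i ω) := fun i ω => rfl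
  have hcases : ∀ i ω, (e i ω = 0 ∧ σ' i ω = st.sig i ω) ∨ (e i ω = 1 ∧ σ' i ω = 0) := by
    intro i ω
    rcases idem_zero_or_one (hee i) ω with h | h <;> simp [hval, h]
  have hle : ∀ i, σ' i ≤ st.sig i := fun i => ContinuousMap.le_def.2 fun ω => by
    rcases hcases i ω with ⟨-, h⟩ | ⟨-, h⟩ <;> rw [h]
    exact hst.sig_nonneg i ω
  refine ⟨⟨σ', st.R, st.live⟩, ?_, ?_, rfl, fun i ω => ?_⟩
  · refine ⟨hst.live_idem, fun i => ContinuousMap.le_def.2 fun ω => ?_, fun i ω => ?_,
      fun ω h => ?_, hst.R_sa, fun i => (hst.gap i).trans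
        (Zop_mono (T := T) (y := y) (st := st) (st' := ⟨σ', st.R, st.live⟩) rfl hle i)⟩
    · rcases hcases i ω with ⟨-, h⟩ | ⟨-, h⟩ <;> show (0 : ℝ) ≤ σ' i ω <;> rw [h]
      exact hst.sig_nonneg i ω
    · exact le_trans (hle i ω) (hst.sig_le i ω)
    · obtain ⟨i, hi, hj⟩ := hst.assigned ω h
      refine ⟨i, ?_, fun j hij => ?_⟩
      · rcases hcases i ω with ⟨-, h'⟩ | ⟨h', -⟩
        · exact h'.trans hi
        · have := (hsmall i ω h').1
          linarith
      · show σ' j ω = 0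
        simp [hval, hj j hij]
  · refine Wpot_lower hη hη1 hμ hγ hst.gap rfl hle hst.live_idem hst.live_idem le_rfl
      (fun i => S.ς • e i) (fun i => ?_) (fun ω _ i => ?_) ?_
    · exact smul_nonneg hς.le (idem_nonneg (hee i))
    · refine ⟨hst.sig_nonneg i ω, by linarith [hst.sig_le i ω], ?_⟩
      rcases hcases i ω with ⟨-, h⟩ | ⟨h', h⟩
      · exact .inl h
      · exact .inr ⟨h, by simpa [h'] using (hsmall i ω h').1⟩
    · simp only [map_smul, smul_eq_mul, ← Finset.mul_sum, ← mul_add, ← Finset.sum_add_distrib]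
      refine mul_le_mul_of_nonneg_left (Finset.sum_le_sum fun i _ => ?_) hς.le
      have hkey : T.pos (σ' i) ≤ T.pos (st.sig i) - e i := by
        refine T.pos_le_of_pos ?_ fun ω hω => ?_
        · ext ω
          rcases idem_zero_or_one (hee i) ω with h | h
          · rcases idem_zero_or_one (T.pos_mul_self (st.sig i)) ω with h' | h' <;> simp [h, h']
          · simp [h, (hsmall i ω h).2]
        · rcases hcases i ω with ⟨h', h⟩ | ⟨-, h⟩
          · rw [h] at hω
            simp [h', T.pos_eq_one_of_pos hω]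
          · linarith
      have := T.tau_mono hkey
      rw [map_sub] at this
      linarith
  · rcases hcases i ω with ⟨h', h⟩ | ⟨-, h⟩
    · show σ' i ω = 0 ∨ S.ς ≤ σ' i ω
      rw [h]; exact hbig i ω h'
    · exact .inl h

/-- Channels that reached the top are assigned. -/
theorem exists_assign {S : Smalls} (hη : 0 < P.η) (hη1 : P.η ≤ 1) (hμ : 0 ≤ S.μ) (hγ : 0 < S.γ)
    (hς : 0 ≤ S.ς) {st : St M Ω P.r} (hl : st.live * st.live = st.live)
    (h0 : ∀ i, 0 ≤ st.sig i)
    (hoff : ∀ ω, st.live ω = 0 → ∃ i, st.sig i ω = 1 - P.η ∧ ∀ j, j ≠ i → st.sig j ω = 0)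
    (hR : ∀ i, IsSelfAdjoint (st.R i)) (hgap : ∀ i, S.γ • (1 : M) ≤ T.Zop P y st i) :
    ∃ st' : St M Ω P.r, T.StInv P y S st' ∧ T.Wpot P y S st' ≤ T.Wpot P y S st := by
  set U : Fin P.r → C(Ω, ℝ) := fun i =>
    T.pos (st.sig i - ContinuousMap.const Ω (1 - P.η)) * st.live with hU
  set V : Fin P.r → C(Ω, ℝ) := fun i => U i * ∏ j ∈ Finset.Iio i, (1 - U j) with hV
  set W : C(Ω, ℝ) := ∑ i, V i with hW
  have hUU : ∀ i, U i * U i = U i := fun i => by
    simp only [hU]; rw [mul_mul_mul_comm, T.pos_mul_self, hl]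
  have hUlive : ∀ i ω, U i ω = 1 → st.live ω = 1 ∧ 1 - P.η ≤ st.sig i ω := by
    intro i ω h
    simp only [hU, ContinuousMap.mul_apply] at h
    rcases idem_zero_or_one hl ω with h1 | h1
    · rw [h1, mul_zero] at h; exact absurd h zero_ne_one
    · rw [h1, mul_one] at h
      have := T.nonneg_of_pos_eq_one h
      simp only [ContinuousMap.sub_apply, ContinuousMap.const_apply] at this
      exact ⟨h1, by linarith⟩
  have hfree : ∀ i ω, U i ω = 0 → st.live ω = 1 → st.sig i ω ≤ 1 - P.η := by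
    intro i ω h h1
    simp only [hU, ContinuousMap.mul_apply, h1, mul_one] at h
    have := T.nonpos_of_pos_eq_zero h
    simp only [ContinuousMap.sub_apply, ContinuousMap.const_apply] at this
    linarith
  -- at each point either nothing is assigned or exactly one channel
  have hpt : ∀ ω, (W ω = 0 ∧ (∀ i, V i ω = 0) ∧ ∀ i, U i ω = 0) ∨
      (W ω = 1 ∧ ∃ i, U i ω = 1 ∧ V i ω = 1 ∧ ∀ j, j ≠ i → V j ω = 0) := by
    intro ω
    have hVω : ∀ i, V i ω = U i ω * ∏ j ∈ Finset.Iio i, (1 - U j ω) := fun i => by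
      simp [hV, ContinuousMap.prod_apply]
    by_cases hex : ∃ i, U i ω = 1
    · right
      set s := Finset.univ.filter fun i => U i ω = 1 with hs
      have hne : s.Nonempty := by
        obtain ⟨i, hi⟩ := hex
        exact ⟨i, by simp [hs, hi]⟩
      set i := s.min' hne
      have hi : U i ω = 1 := by
        have := s.min'_mem hne
        simpa [hs] using this
      have hlt : ∀ j, j < i → U j ω = 0 := fun j hj =>
        (idem_zero_or_one (hUU j) ω).resolve_right fun h =>
          absurd (s.min'_le j (by simp [hs, h])) (not_le.2 hj)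
      have hVi : V i ω = 1 := by
        rw [hVω, hi, one_mul]
        exact Finset.prod_eq_one fun j hj => by simp [hlt j (Finset.mem_Iio.1 hj)]
      have hVj : ∀ j, j ≠ i → V j ω = 0 := fun j hj => by
        rcases lt_or_gt_of_ne hj with h | h
        · rw [hVω, hlt j h, zero_mul]
        · rw [hVω, Finset.prod_eq_zero (Finset.mem_Iio.2 h) (by simp [hi]), mul_zero]
      refine ⟨?_, i, hi, hVi, hVj⟩
      rw [hW, ContinuousMap.sum_apply, Finset.sum_eq_single i (fun j _ hj => hVj j hj) (by simp),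
        hVi]
    · left
      have hU0 : ∀ i, U i ω = 0 := fun i =>
        (idem_zero_or_one (hUU i) ω).resolve_right fun h => hex ⟨i, h⟩
      have hV0 : ∀ i, V i ω = 0 := fun i => by rw [hVω, hU0, zero_mul]
      exact ⟨by simp [hW, ContinuousMap.sum_apply, hV0], hV0, hU0⟩
  set σ' : Fin P.r → C(Ω, ℝ) := fun i => (1 - P.η) • V i + (1 - W) * st.sig i with hσ'
  set l' : C(Ω, ℝ) := st.live * (1 - W) with hl'
  have hval : ∀ i ω, σ' i ω = (1 - P.η) * V i ω + (1 - W ω) * st.sig i ω := fun i ω => rfl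
  have hlval : ∀ ω, l' ω = st.live ω * (1 - W ω) := fun ω => rfl
  have hbnd : ∀ i ω, 0 ≤ σ' i ω ∧ σ' i ω ≤ st.sig i ω ∧ σ' i ω ≤ 1 - P.η := by
    intro i ω
    have hs : 0 ≤ st.sig i ω := h0 i ω
    rcases hpt ω with ⟨hW0, hV0, hU0⟩ | ⟨hW1, i₀, hU1, hV1, hVj⟩
    · rw [hval, hW0, hV0]
      refine ⟨by simpa using hs, by simp, ?_⟩
      rcases idem_zero_or_one hl ω with h1 | h1
      · obtain ⟨k, hk, hk'⟩ := hoff ω h1
        rcases eq_or_ne i k with rfl | hne
        · simp [hk]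
        · simp [hk' i hne]; linarith
      · simpa using hfree i ω (hU0 i) h1
    · rw [hval, hW1]
      rcases eq_or_ne i i₀ with rfl | hne
      · rw [hV1]
        refine ⟨by linarith, by linarith [(hUlive i ω hU1).2], by linarith⟩
      · rw [hVj i hne]
        refine ⟨by simp, by simpa using hs, by linarith⟩
  have hle : ∀ i, σ' i ≤ st.sig i := fun i => ContinuousMap.le_def.2 fun ω => (hbnd i ω).2.1
  have hl'l' : l' * l' = l' := by
    ext ω
    rcases idem_zero_or_one hl ω with h | h <;> rcases hpt ω with ⟨h', -⟩ | ⟨h', -⟩ <;>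
      simp [hlval, h, h']
  have hll : l' ≤ st.live := ContinuousMap.le_def.2 fun ω => by
    rcases idem_zero_or_one hl ω with h | h <;> rcases hpt ω with ⟨h', -⟩ | ⟨h', -⟩ <;>
      simp [hlval, h, h']
  refine ⟨⟨σ', st.R, l'⟩, ⟨hl'l', fun i => ContinuousMap.le_def.2 fun ω => (hbnd i ω).1,
    fun i ω => (hbnd i ω).2.2, fun ω h => ?_, hR,
    fun i => (hgap i).trans
      (Zop_mono (T := T) (y := y) (st := st) (st' := ⟨σ', st.R, l'⟩) rfl hle i)⟩, ?_⟩
  · have h : l' ω = 0 := h
    rcases hpt ω with ⟨hW0, hV0, -⟩ | ⟨hW1, i₀, -, hV1, hVj⟩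
    · rw [hlval, hW0, sub_zero, mul_one] at h
      obtain ⟨k, hk, hk'⟩ := hoff ω h
      exact ⟨k, by simp [hval, hW0, hV0, hk], fun j hj => by simp [hval, hW0, hV0, hk' j hj]⟩
    · exact ⟨i₀, by simp [hval, hW1, hV1], fun j hj => by simp [hval, hW1, hVj j hj]⟩
  · refine Wpot_lower hη hη1 hμ hγ hgap rfl hle hl hl'l' hll (fun _ => 0) (fun _ => le_rfl)
      (fun ω h i => ?_) ?_
    · have h : l' ω = 1 := h
      rcases hpt ω with ⟨hW0, hV0, hU0⟩ | ⟨hW1, -⟩
      · rw [hlval, hW0, sub_zero, mul_one] at h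
        refine ⟨h0 i ω, by linarith [hfree i ω (hU0 i) h], .inl ?_⟩
        show σ' i ω = st.sig i ω
        simp [hval, hW0, hV0]
      · rw [hlval, hW1, sub_self, mul_zero] at h
        exact absurd h zero_ne_one
    · simp only [map_zero, Finset.sum_const_zero, zero_add]
      refine mul_le_mul_of_nonneg_left (Finset.sum_le_sum fun i _ => T.tau_mono ?_) hς
      refine T.pos_le_of_pos (T.pos_mul_self _) fun ω hω => ?_
      exact T.pos_eq_one_of_pos (lt_of_lt_of_le hω (hle i ω))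

end TMasa

end Vale.Agent.P078
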