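import Mathlib
import Vale.Agent.P078.Chan
import Vale.Agent.P078.State

/-! The second order expansion of the potential along a move. -/

noncomputable section

open scoped ComplexOrder

set_option linter.unusedSectionVars false

namespace Vale.Agent.P078

universe u v

variable {M : Type u} [CStarAlgebra M] [PartialOrder M] [StarOrderedRing M]
  {Ω : Type v} [TopologicalSpace Ω] [CompactSpace Ω] [T2Space Ω]

/-- second order expansion in `t` -/
structure Exp3 (C t x x0 x1 x2 : ℝ) : Prop where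
  h0 : |x0| ≤ C
  h1 : |x1| ≤ C
  h2 : |x2| ≤ C
  err : |x - (x0 + t * x1 + t ^ 2 * x2)| ≤ C * t ^ 3

lemma Exp3.sub_mul {Cs C t s s0 s1 s2 x x0 x1 x2 y y0 y1 y2 : ℝ} (ht0 : 0 ≤ t) (ht1 : t ≤ 1)
    (hs : |s - (s0 + t * s1 + t ^ 2 * s2)| ≤ Cs * t ^ 3)
    (hx : Exp3 C t x x0 x1 x2) (hy : Exp3 C t y y0 y1 y2) :
    |(s - x * y) - ((s0 - x0 * y0) + t * (s1 - (x1 * y0 + x0 * y1))
      + t ^ 2 * (s2 - (x2 * y0 + x1 * y1 + x0 * y2)))| ≤ (Cs + 12 * C ^ 2) * t ^ 3 := by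
  obtain ⟨a0, a1, a2, ae⟩ := hx
  obtain ⟨b0, b1, b2, be⟩ := hy
  have hC : 0 ≤ C := (abs_nonneg _).trans a0
  set X := x0 + t * x1 + t ^ 2 * x2 with hX
  set Y := y0 + t * y1 + t ^ 2 * y2 with hY
  set ex := x - X
  set ey := y - Y
  have ht2 : t ^ 2 ≤ 1 := pow_le_one₀ ht0 ht1
  have ht3 : t ^ 3 ≤ 1 := pow_le_one₀ ht0 ht1
  have hXb : |X| ≤ 3 * C := by
    refine (abs_add_three _ _ _).trans ?_
    rw [abs_mul, abs_mul, abs_of_nonneg ht0, abs_of_nonneg (sq_nonneg t)]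
    nlinarith [mul_le_mul ht1 a1 (abs_nonneg _) zero_le_one,
      mul_le_mul ht2 a2 (abs_nonneg _) zero_le_one]
  have hyb : |y| ≤ 4 * C := by
    have e : y = ey + (y0 + t * y1 + t ^ 2 * y2) := by simp only [ey, hY]; ring
    rw [e]
    refine (abs_add_le _ _).trans ?_
    refine (add_le_add be (abs_add_three _ _ _)).trans ?_
    rw [abs_mul, abs_mul, abs_of_nonneg ht0, abs_of_nonneg (sq_nonneg t)]
    nlinarith [mul_le_mul ht1 b1 (abs_nonneg _) zero_le_one,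
      mul_le_mul ht2 b2 (abs_nonneg _) zero_le_one, mul_le_mul_of_nonneg_left ht3 hC]
  have e : (s - x * y) - ((s0 - x0 * y0) + t * (s1 - (x1 * y0 + x0 * y1))
      + t ^ 2 * (s2 - (x2 * y0 + x1 * y1 + x0 * y2)))
      = (s - (s0 + t * s1 + t ^ 2 * s2))
        - (ex * y + X * ey + t ^ 3 * (x1 * y2 + x2 * y1 + t * (x2 * y2))) := by
    simp only [ex, ey, hX, hY]; ring
  rw [e]
  refine (abs_sub _ _).trans ?_
  refine (add_le_add hs (abs_add_three _ _ _)).trans ?_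
  have p1 : |ex * y| ≤ C * t ^ 3 * (4 * C) := by
    rw [abs_mul]; exact mul_le_mul ae hyb (abs_nonneg _) (by positivity)
  have p2 : |X * ey| ≤ 3 * C * (C * t ^ 3) := by
    rw [abs_mul]; exact mul_le_mul hXb be (abs_nonneg _) (by positivity)
  have p3 : |t ^ 3 * (x1 * y2 + x2 * y1 + t * (x2 * y2))| ≤ t ^ 3 * (3 * (C * C)) := by
    rw [abs_mul, abs_of_nonneg (pow_nonneg ht0 3)]
    refine mul_le_mul_of_nonneg_left ((abs_add_three _ _ _).trans ?_) (by positivity)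
    rw [abs_mul, abs_mul, abs_mul, abs_mul, abs_of_nonneg ht0]
    have q1 := mul_le_mul a1 b2 (abs_nonneg _) hC
    have q2 := mul_le_mul a2 b1 (abs_nonneg _) hC
    have q3 := mul_le_mul ht1 (mul_le_mul a2 b2 (abs_nonneg _) hC) (by positivity) zero_le_one
    linarith
  nlinarith [mul_nonneg (mul_nonneg hC hC) (pow_nonneg ht0 3)]

/-- expansion of the profile along a move -/
lemma Profile.phi_move {η x h h2 H t : ℝ} (hη : 0 < η) (hη1 : η ≤ 1) (hx0 : 0 ≤ x)
    (hx : x ≤ 1 - η / 2) (ht0 : 0 ≤ t) (ht1 : t ≤ 1) (hh : |h| ≤ H) (hh2 : |h2| ≤ H)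
    (hd : x + (t * h + t ^ 2 * h2) ≤ 1 - η / 2) :
    Exp3 (4 + (2 + 1 / η) * H + (1 + 1 / η) * (3 * H ^ 2) + (4 / η ^ 3) * (2 * H) ^ 3
        + (2 + 1 / η) * H + (1 + 1 / η) * H ^ 2) t
      (Profile.phi η (x + (t * h + t ^ 2 * h2))) (Profile.phi η x) (Profile.dphi η x * h)
      (Profile.dphi η x * h2 - (1 + Profile.gex η x) * h ^ 2) := by
  have hH : 0 ≤ H := (abs_nonneg _).trans hh
  have hg0 := Profile.gex_nonneg (x := x) hη
  have hg1 := Profile.gex_le (x := x) hη hη1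
  have hd1 := Profile.abs_dphi_le hη hη1 hx0 hx
  have hp0 := Profile.phi_nonneg hη hx0 hx
  have hp1 := Profile.phi_le hη hx0 hx
  have hu : (0 : ℝ) ≤ 2 + 1 / η := by positivity
  have hg' : (0 : ℝ) ≤ 1 + 1 / η := by positivity
  have hK : 0 ≤ (4 / η ^ 3) * (2 * H) ^ 3 := by positivity
  have n1 : |Profile.dphi η x * h| ≤ (2 + 1 / η) * H := by
    rw [abs_mul]; exact mul_le_mul hd1 hh (abs_nonneg _) hu
  have n2 : |Profile.dphi η x * h2| ≤ (2 + 1 / η) * H := by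
    rw [abs_mul]; exact mul_le_mul hd1 hh2 (abs_nonneg _) hu
  have n3 : |(1 + Profile.gex η x) * h ^ 2| ≤ (1 + 1 / η) * H ^ 2 := by
    rw [abs_mul, abs_of_nonneg (by linarith : 0 ≤ 1 + Profile.gex η x), abs_pow]
    exact mul_le_mul (by linarith) (pow_le_pow_left₀ (abs_nonneg _) hh 2) (by positivity) hg'
  have n4 : 0 ≤ (1 + 1 / η) * (3 * H ^ 2) := by positivity
  have n5 : (2 + 1 / η) * H ≥ 0 := by positivity
  have n6 : 0 ≤ (1 + 1 / η) * H ^ 2 := by positivity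
  have hT := Profile.phi_taylor hη hη1 hx0 hx hd
  refine ⟨?_, n1.trans (by linarith), (abs_sub _ _).trans ?_, ?_⟩
  · rw [abs_of_nonneg hp0]
    nlinarith
  · linarith
  set d := t * h + t ^ 2 * h2 with hdd
  have ht2 : t ^ 2 ≤ t := by nlinarith
  have hdb : |d| ≤ 2 * H * t := by
    refine (abs_add_le _ _).trans ?_
    rw [abs_mul, abs_mul, abs_of_nonneg ht0, abs_of_nonneg (sq_nonneg t)]
    nlinarith [mul_le_mul_of_nonneg_left hh ht0, mul_le_mul ht2 hh2 (abs_nonneg _) ht0]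
  have e : Profile.phi η (x + d) - (Profile.phi η x + t * (Profile.dphi η x * h)
        + t ^ 2 * (Profile.dphi η x * h2 - (1 + Profile.gex η x) * h ^ 2))
      = (Profile.phi η (x + d) - (Profile.phi η x + Profile.dphi η x * d
          - (1 + Profile.gex η x) * d ^ 2))
        - t ^ 3 * ((1 + Profile.gex η x) * (2 * (h * h2) + t * h2 ^ 2)) := by
    simp only [hdd]; ring
  rw [e]
  refine (abs_sub _ _).trans ?_
  have p1 : 4 / η ^ 3 * |d| ^ 3 ≤ (4 / η ^ 3) * (2 * H) ^ 3 * t ^ 3 := by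
    rw [mul_assoc, ← mul_pow]; gcongr
  have p2 : |t ^ 3 * ((1 + Profile.gex η x) * (2 * (h * h2) + t * h2 ^ 2))|
      ≤ (1 + 1 / η) * (3 * H ^ 2) * t ^ 3 := by
    rw [abs_mul, abs_mul, abs_of_nonneg (pow_nonneg ht0 3),
      abs_of_nonneg (by linarith : 0 ≤ 1 + Profile.gex η x), mul_comm]
    refine mul_le_mul_of_nonneg_right ?_ (by positivity)
    refine mul_le_mul (by linarith) ?_ (abs_nonneg _) hg'
    refine (abs_add_le _ _).trans ?_
    rw [abs_mul, abs_mul, abs_mul, abs_of_nonneg ht0, abs_two, abs_pow]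
    have q1 := mul_le_mul hh hh2 (abs_nonneg _) hH
    have q2 := mul_le_mul ht1 (pow_le_pow_left₀ (abs_nonneg _) hh2 2) (by positivity) zero_le_one
    nlinarith
  have ht3 := pow_nonneg ht0 3
  nlinarith [mul_nonneg n5 ht3, mul_nonneg n6 ht3, mul_nonneg ht3 (by norm_num : (0:ℝ) ≤ 4)]

/-- composition of a continuous function with an element of the diagonal algebra -/
def comp1 (f : ℝ → ℝ) (σ : C(Ω, ℝ)) : C(Ω, ℝ) :=
  open Classical in if h : Continuous f then ⟨fun ω => f (σ ω), h.comp σ.continuous⟩ else 0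

lemma comp1_apply {f : ℝ → ℝ} (hf : Continuous f) (σ : C(Ω, ℝ)) (ω : Ω) :
    comp1 f σ ω = f (σ ω) := by simp [comp1, hf]

namespace TMasa

open Chan Res

variable (T : TMasa M Ω) (P : Params) (y : M)

/-- the derivative of the Huber term -/
def lam (st : St M Ω P.r) : C(Ω, ℝ) :=
  comp1 Profile.dhub (ContinuousMap.const Ω P.L - T.Fval P y st)

/-- the derivative of the constraint in one channel -/
def Jop (st : St M Ω P.r) (N : Fin P.r → M) (i : Fin P.r) : Module.End ℝ C(Ω, ℝ) :=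
  mlt (1 - comp1 (Profile.dphi P.η) (st.sig i) * T.aval P y st i)
    - mlt (cphi P.η (st.sig i)) * T.K (Xp (vop y) (T.Zop P y st i) (N i))

/-- the deterministic second order part of the constraint -/
def Fdet (st : St M Ω P.r) (N : Fin P.r → M) (ρ : ℝ) (h2 : Fin P.r → C(Ω, ℝ)) (i : Fin P.r) :
    C(Ω, ℝ) :=
  h2 i - comp1 (Profile.dphi P.η) (st.sig i) * T.aval P y st i * h2 i
    - cphi P.η (st.sig i) * (T.K (Xp (vop y) (T.Zop P y st i) (N i)) (h2 i)
        - ρ • T.E (Bop (vop y) (T.Zop P y st i) (N i)))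

/-- the quadratic second order part of the constraint -/
def Fquad (st : St M Ω P.r) (N : Fin P.r → M) (h : Fin P.r → C(Ω, ℝ)) (i : Fin P.r) :
    C(Ω, ℝ) :=
  (1 + comp1 (Profile.gex P.η) (st.sig i)) * T.aval P y st i * (h i * h i)
    - comp1 (Profile.dphi P.η) (st.sig i) * (h i * T.K (Xp (vop y) (T.Zop P y st i) (N i)) (h i))
    - cphi P.η (st.sig i) * T.E (Xp (vop y) (T.Zop P y st i) (N i) * T.emb (h i)
        * Xp (vop y) (T.Zop P y st i) (N i) * T.emb (h i) * Xp (vop y) (T.Zop P y st i) (N i))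

/-- the off-band part of a perturbation -/
def offband (y N : M) (h : C(Ω, ℝ)) : M :=
  vop y * T.emb h * vop y - N * (vop y * T.emb h * vop y) * N

/-- the linear part of a move -/
def linPart (S : Smalls) (st : St M Ω P.r) (N : Fin P.r → M) (h : Fin P.r → C(Ω, ℝ)) : ℝ :=
  - T.tau (st.live * (T.lam P y st * ∑ i, T.Jop P y st N i (h i)))
    + ∑ i, (S.μ / P.η * T.tau (h i)
      + S.μ * T.tau (h i * T.E (X2 (vop y) (T.Zop P y st i) (N i)))
      + 2 * S.A * S.μ * T.ip (st.R i) (T.offband y (N i) (h i)))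

/-- the quadratic part of a move -/
def quadPart (S : Smalls) (st : St M Ω P.r) (N : Fin P.r → M) (h : Fin P.r → C(Ω, ℝ)) : ℝ :=
  T.tau (st.live * ((∑ i, T.Jop P y st N i (h i)) * ∑ i, T.Jop P y st N i (h i))) / 2
    + ∑ i, (- T.tau (st.live * (T.lam P y st * T.Fquad P y st N h i))
      + S.μ * T.tau (h i * T.K2 (Xp (vop y) (T.Zop P y st i) (N i))
          (X2 (vop y) (T.Zop P y st i) (N i)) (h i))
      + S.A * S.μ * T.n2 (T.offband y (N i) (h i)) ^ 2)

/-- the deterministic part of a move -/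
def detPart (S : Smalls) (st : St M Ω P.r) (N : Fin P.r → M) (ρ : ℝ) (h2 : Fin P.r → C(Ω, ℝ)) :
    ℝ :=
  ∑ i, (- T.tau (st.live * (T.lam P y st * T.Fdet P y st N ρ h2 i))
      + S.μ / P.η * T.tau (h2 i)
      + S.μ * T.tau (h2 i * T.E (X2 (vop y) (T.Zop P y st i) (N i)))
      + 2 * S.A * S.μ * (T.n2 (st.R i) * ((2 * ‖h2 i‖ + ρ) * Real.sqrt (T.tr (1 - N i)))))

/-- the state after a move -/
def move (st : St M Ω P.r) (N : Fin P.r → M) (ρ t : ℝ) (h h2 : Fin P.r → C(Ω, ℝ)) :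
    St M Ω P.r where
  sig i := st.sig i + (t • h i + t ^ 2 • h2 i)
  R i := st.R i + (vop y * (t • T.emb (h i) + t ^ 2 • T.emb (h2 i)) * vop y
    - Dop (vop y) (N i) ρ t (T.emb (h i)) (T.emb (h2 i)))
  live := st.live

lemma abs_E_le (x : M) (ω : Ω) : |T.E x ω| ≤ ‖x‖ := by
  have e : T.E x = T.E ((1 / 2 : ℝ) • (x + star x)) := by
    rw [map_smul, map_add, T.E_star]
    module
  rw [e]
  refine (T.E_le_norm ((IsSelfAdjoint.all (1 / 2 : ℝ)).smul (IsSelfAdjoint.add_star_self x)) ω).trans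
    ?_
  rw [norm_smul, Real.norm_eq_abs, abs_of_pos (by norm_num : (0:ℝ) < 1 / 2)]
  have := norm_add_le x (star x)
  rw [norm_star] at this
  linarith

lemma tau_abs_le {f : C(Ω, ℝ)} {c : ℝ} (hf : ∀ ω, |f ω| ≤ c) : |T.tau f| ≤ c := by
  have h1 : T.tau f ≤ T.tau (c • 1) := T.tau_mono fun ω => by simpa using (abs_le.1 (hf ω)).2
  have h2 : T.tau ((-c) • 1) ≤ T.tau f := T.tau_mono fun ω => by simpa using (abs_le.1 (hf ω)).1
  rw [map_smul, T.tau_one, smul_eq_mul, mul_one] at h1 h2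
  exact abs_le.2 ⟨h2, h1⟩

variable {P y}

lemma vop_props (hy0 : 0 ≤ y) (hy1 : y ≤ 1) :
    IsSelfAdjoint (vop y) ∧ ‖vop y‖ ≤ 1 ∧ vop y * vop y = y := by
  have h := CFC.sqrt_mul_sqrt_self y hy0
  have hs : IsSelfAdjoint (vop y) := IsSelfAdjoint.of_nonneg (CFC.sqrt_nonneg _)
  refine ⟨hs, ?_, h⟩
  have h1 : ‖star (vop y) * vop y‖ ≤ 1 := by
    rw [hs.star_eq, show vop y * vop y = y from h]
    exact (CStarAlgebra.norm_le_one_iff_of_nonneg y hy0).2 hy1
  rw [CStarRing.norm_star_mul_self] at h1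
  nlinarith [norm_nonneg (vop y)]

lemma Zop_move (st : St M Ω P.r) (N : Fin P.r → M) (ρ t : ℝ) (h h2 : Fin P.r → C(Ω, ℝ))
    (i : Fin P.r) : T.Zop P y (T.move P y st N ρ t h h2) i =
      T.Zop P y st i - Dop (vop y) (N i) ρ t (T.emb (h i)) (T.emb (h2 i)) := by
  simp only [Zop, move, map_add, map_smul, mul_add, add_mul]
  abel

lemma pos_le_pos {f g : C(Ω, ℝ)} (h : ∀ ω, 0 < f ω → 0 < g ω) : T.pos f ≤ T.pos g := fun ω => by
  show T.pos f ω ≤ T.pos g ω
  rw [pos_apply, pos_apply]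
  exact Set.indicator_le_indicator_of_subset (closure_mono h) (fun _ => zero_le_one) ω

variable {T}

/-- expansion of the barrier -/
lemma aval_expand {γ : ℝ} {v Z N : M} (hb : Band γ Z N) (hv1 : ‖v‖ ≤ 1) (hv : IsSelfAdjoint v)
    {ρ t H R₀ : ℝ} (hρ : 0 ≤ ρ) (hρ' : ρ ≤ R₀) (ht0 : 0 ≤ t) (ht1 : t ≤ 1) {h h2 : C(Ω, ℝ)}
    (hh : ‖h‖ ≤ H) (hh2 : ‖h2‖ ≤ H) (htH : 2 * t * H ≤ γ) (ω : Ω) :
    Exp3 (11 * (1 / γ + 1) ^ 4 * (2 * H + R₀ + 1) ^ 3) t
        (T.E (v * res (Z - Dop v N ρ t (T.emb h) (T.emb h2)) * v) ω)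
        (T.E (v * res Z * v) ω) (T.K (Xp v Z N) h ω)
        (T.K (Xp v Z N) h2 ω - ρ * T.E (Bop v Z N) ω
          + T.E (Xp v Z N * T.emb h * Xp v Z N * T.emb h * Xp v Z N) ω) := by
  obtain ⟨-, hexp⟩ := T.res_Dop_expand hb hv1 hv hρ hρ' ht0 ht1 hh hh2 htH

  set C := 11 * (1 / γ + 1) ^ 4 * (2 * H + R₀ + 1) ^ 3
  have hH : 0 ≤ H := (norm_nonneg h).trans hh
  have hγ := hb.pos
  have hR : 0 ≤ R₀ := hρ.trans hρ'
  set q := 1 / γ + 1 with hq
  have hqγ : 1 / γ ≤ q := by linarith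
  have hq1 : 1 ≤ q := by have : 0 < 1 / γ := by positivity
                         linarith
  set K := 2 * H + R₀ + 1 with hK
  have hK1 : 1 ≤ K := by linarith
  have hC : q ^ 2 * K ≤ C / 3 ∧ q ^ 3 * K ^ 2 ≤ C / 3 ∧ q ≤ C := by
    have e : C = 11 * (q ^ 4 * K ^ 3) := by simp only [C, ← hq, ← hK]; ring
    have b1 : q ^ 2 * K ≤ q ^ 4 * K ^ 3 := mul_le_mul (pow_le_pow_right₀ hq1 (by norm_num))
      (le_self_pow₀ hK1 (by norm_num)) (by linarith) (by positivity)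
    have b2 : q ^ 3 * K ^ 2 ≤ q ^ 4 * K ^ 3 := mul_le_mul (pow_le_pow_right₀ hq1 (by norm_num))
      (pow_le_pow_right₀ hK1 (by norm_num)) (by positivity) (by positivity)
    have b3 : q ≤ q ^ 4 * K ^ 3 :=
      (le_self_pow₀ hq1 (by norm_num)).trans (le_mul_of_one_le_right (by positivity)
        (one_le_pow₀ hK1))
    refine ⟨?_, ?_, ?_⟩ <;> rw [e] <;> linarith
  have hX : ‖Xp v Z N‖ ≤ q := (hb.norm_Xp_le hv1).trans hqγ
  have hKb : ∀ f : C(Ω, ℝ), ‖f‖ ≤ K → |T.K (Xp v Z N) f ω| ≤ q ^ 2 * K := fun f hf => by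
    rw [K_apply, (hb.Xp_sa hv).star_eq]
    refine (T.abs_E_le _ _).trans ((norm_mul_le _ _).trans ?_)
    refine (mul_le_mul (norm_mul_le _ _) hX (norm_nonneg _) (by positivity)).trans ?_
    rw [T.emb_norm]
    calc ‖Xp v Z N‖ * ‖f‖ * q ≤ q * K * q := by gcongr
      _ = _ := by ring
  refine ⟨?_, ?_, ?_, ?_⟩
  · refine (T.abs_E_le _ _).trans ((norm_sandwich_le hv1 _).trans ?_)
    exact ((norm_res_le hb.pos hb.gap).trans hqγ).trans hC.2.2
  · have h0 : 0 ≤ q ^ 2 * K := by positivity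
    linarith [hKb h (hh.trans (by linarith))]
  · have a1 := hKb h2 (hh2.trans (by linarith))
    have a2 : |ρ * T.E (Bop v Z N) ω| ≤ q ^ 2 * K := by
      rw [abs_mul, abs_of_nonneg hρ, mul_comm]
      refine mul_le_mul ((T.abs_E_le _ _).trans ((hb.norm_Bop_le hv1).trans ?_)) (by linarith) hρ
        (by positivity)
      exact pow_le_pow_left₀ (by positivity) hqγ 2
    have a3 : |T.E (Xp v Z N * T.emb h * Xp v Z N * T.emb h * Xp v Z N) ω| ≤ q ^ 3 * K ^ 2 := by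
      refine (T.abs_E_le _ _).trans ((norm_mul_le _ _).trans ?_)
      refine (mul_le_mul ((norm_mul_le _ _).trans (mul_le_mul ((norm_mul_le _ _).trans
        (mul_le_mul (norm_mul_le _ _) hX (norm_nonneg _) (by positivity))) le_rfl (norm_nonneg _)
        (by positivity))) hX (norm_nonneg _) (by positivity)).trans ?_
      rw [T.emb_norm]
      have hhK : ‖h‖ ≤ K := hh.trans (by linarith)
      calc ‖Xp v Z N‖ * ‖h‖ * q * ‖h‖ * q ≤ q * K * q * K * q := by gcongr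
        _ = _ := by ring
    refine (abs_add_le _ _).trans ((add_le_add (abs_sub _ _) le_rfl).trans ?_)
    linarith [hC.1, hC.2.1]
  have hc := hb.commG
  have hcc := hb.commGC
  have hNN := hb.proj.isIdempotentElem.eq
  have hGNG : v * res Z * N = v * (res Z * N) := mul_assoc _ _ _
  have s1 : v * (res Z * (N * (v * T.emb h * v) * N) * res Z) * v
      = Xp v Z N * T.emb h * Xp v Z N := by
    simp only [Xp, mul_assoc]
    rw [← mul_assoc N (res Z) v, hc.eq, mul_assoc]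
  have s2 : ∀ f : C(Ω, ℝ), v * (res Z * (N * (v * T.emb f * v) * N - ρ • (1 - N)) * res Z) * v
      = Xp v Z N * T.emb f * Xp v Z N - ρ • Bop v Z N := by
    intro f
    simp only [mul_sub, sub_mul, mul_smul_comm, smul_mul_assoc]
    congr 1
    · simp only [Xp, mul_assoc]
      rw [← mul_assoc N (res Z) v, hc.eq, mul_assoc]
    · rw [← sub_mul, ← mul_sub, ← sub_mul, ← mul_sub]
      congr 1
      simp only [Bop, mul_assoc]
      rw [← mul_assoc (1 - N) (res Z) v, hcc.eq, mul_assoc]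
  have s3 : v * (res Z * (N * (v * T.emb h * v) * N) * res Z * (N * (v * T.emb h * v) * N) * res Z)
      * v = Xp v Z N * T.emb h * Xp v Z N * T.emb h * Xp v Z N := by
    simp only [Xp, mul_assoc]
    rw [← mul_assoc N (res Z) (N * _), hc.eq, mul_assoc, ← mul_assoc N N, hNN,
      ← mul_assoc N (res Z) v, hc.eq, mul_assoc]
  have key : T.K (Xp v Z N) h ω = T.E (Xp v Z N * T.emb h * Xp v Z N) ω ∧
      T.K (Xp v Z N) h2 ω = T.E (Xp v Z N * T.emb h2 * Xp v Z N) ω := by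
    simp only [K_apply, (hb.Xp_sa hv).star_eq, and_self]
  rw [key.1, key.2]
  set W := res Z + t • (res Z * (N * (v * T.emb h * v) * N) * res Z)
        + t ^ 2 • (res Z * (N * (v * T.emb h2 * v) * N - ρ • (1 - N)) * res Z
          + res Z * (N * (v * T.emb h * v) * N) * res Z * (N * (v * T.emb h * v) * N) * res Z) with hW
  have hWe : T.E (v * W * v) ω = T.E (v * res Z * v) ω
      + t * T.E (Xp v Z N * T.emb h * Xp v Z N) ω
      + t ^ 2 * (T.E (Xp v Z N * T.emb h2 * Xp v Z N) ω - ρ * T.E (Bop v Z N) ω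
        + T.E (Xp v Z N * T.emb h * Xp v Z N * T.emb h * Xp v Z N) ω) := by
    rw [hW, mul_add, add_mul, mul_add, add_mul, mul_smul_comm, smul_mul_assoc, mul_smul_comm,
      smul_mul_assoc, mul_add, add_mul, s1, s2, s3]
    simp
    ring
  rw [← hWe, ← ContinuousMap.sub_apply, ← map_sub, ← sub_mul, ← mul_sub]
  exact (T.abs_E_le _ _).trans ((norm_sandwich_le hv1 _).trans hexp)

end TMasa

end Vale.Agent.P078
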