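import Mathlib
import Vale.Agent.P078.Expand

/-! The effect of a move on the potential. -/

noncomputable section

open scoped ComplexOrder

set_option linter.unusedSectionVars false

namespace Vale.Agent.P078

universe u v

variable {M : Type u} [CStarAlgebra M] [PartialOrder M] [StarOrderedRing M]
  {Ω : Type v} [TopologicalSpace Ω] [CompactSpace Ω] [T2Space Ω]

lemma continuous_dhub : Continuous Profile.dhub := by unfold Profile.dhub; fun_prop

/-- second order expansion of the Huber term -/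
lemma hub_expand {x d t f1 f2 B l : ℝ} (hl0 : 0 ≤ l) (hl1 : l ≤ 1) (ht0 : 0 ≤ t) (ht1 : t ≤ 1)
    (he : |d - (t * f1 + t ^ 2 * f2)| ≤ B * t ^ 3) (hf1 : |f1| ≤ B) (hf2 : |f2| ≤ B) :
    l * Profile.hub (x - d) ≤ l * Profile.hub x - t * (l * (Profile.dhub x * f1))
      - t ^ 2 * (l * (Profile.dhub x * f2)) + t ^ 2 * (l * (f1 * f1)) / 2
      + (2 * B + 4 * B ^ 2) * t ^ 3 := by
  have hB : 0 ≤ B := (abs_nonneg _).trans hf1
  have hlam0 := Profile.dhub_nonneg x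
  have hlam1 := Profile.dhub_le_one x
  have ht3 : 0 ≤ t ^ 3 := pow_nonneg ht0 3
  set e := d - (t * f1 + t ^ 2 * f2) with hed
  have hd : d = t * f1 + t ^ 2 * f2 + e := by rw [hed]; ring
  have p1 : -(Profile.dhub x * e) ≤ B * t ^ 3 := by nlinarith [abs_le.1 he]
  have ht2' : t ^ 2 ≤ t := by nlinarith
  have q1 : |d| ≤ 3 * B * t := by
    rw [hd]
    refine (abs_add_three _ _ _).trans ?_
    rw [abs_mul, abs_mul, abs_of_nonneg ht0, abs_of_nonneg (sq_nonneg t)]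
    have : t ^ 3 ≤ t := pow_le_of_le_one ht0 ht1 (by norm_num)
    nlinarith
  have q2 : |d - t * f1| ≤ 2 * B * t ^ 2 := by
    rw [show d - t * f1 = t ^ 2 * f2 + e by rw [hd]; ring]
    refine (abs_add_le _ _).trans ?_
    rw [abs_mul, abs_of_nonneg (sq_nonneg t)]
    have : t ^ 3 ≤ t ^ 2 := pow_le_pow_of_le_one ht0 ht1 (by norm_num)
    nlinarith
  have q3 : |d + t * f1| ≤ 4 * B * t := by
    refine (abs_add_le _ _).trans ?_
    rw [abs_mul, abs_of_nonneg ht0]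
    nlinarith
  have q4 : d ^ 2 - (t * f1) ^ 2 ≤ 2 * B * t ^ 2 * (4 * B * t) := by
    rw [sq_sub_sq, mul_comm]
    refine (le_abs_self _).trans ?_
    rw [abs_mul]
    exact mul_le_mul q2 q3 (abs_nonneg _) (by positivity)
  have hub := Profile.hub_add_le x (-d)
  rw [← sub_eq_add_neg, neg_sq] at hub
  have p3 : Profile.hub (x - d) ≤ Profile.hub x - t * (Profile.dhub x * f1)
      - t ^ 2 * (Profile.dhub x * f2) + t ^ 2 * (f1 * f1) / 2 + (B + 4 * B ^ 2) * t ^ 3 := by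
    have : Profile.dhub x * -d = -(t * (Profile.dhub x * f1)) - t ^ 2 * (Profile.dhub x * f2)
        - Profile.dhub x * e := by rw [hd]; ring
    nlinarith
  have p4 := mul_le_mul_of_nonneg_left p3 hl0
  have p5 : l * ((B + 4 * B ^ 2) * t ^ 3) ≤ (2 * B + 4 * B ^ 2) * t ^ 3 := by
    refine (mul_le_of_le_one_left (by positivity) hl1).trans ?_
    nlinarith [mul_nonneg hB ht3]
  nlinarith

namespace TMasa

open Chan Res

variable (T : TMasa M Ω)

/-- expansion of the trace of the resolvent -/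
lemma tr_res_le {γ : ℝ} {v Z N : M} (hb : Band γ Z N) (hv1 : ‖v‖ ≤ 1) (hv : IsSelfAdjoint v)
    {ρ t H R₀ : ℝ} (hρ : 0 ≤ ρ) (hρ' : ρ ≤ R₀) (ht0 : 0 ≤ t) (ht1 : t ≤ 1) {h h2 : C(Ω, ℝ)}
    (hh : ‖h‖ ≤ H) (hh2 : ‖h2‖ ≤ H) (htH : 2 * t * H ≤ γ) :
    T.tr (res (Z - Dop v N ρ t (T.emb h) (T.emb h2))) ≤ T.tr (res Z)
      + t * T.tau (h * T.E (X2 v Z N))
      + t ^ 2 * (T.tau (h2 * T.E (X2 v Z N)) + T.tau (h * T.K2 (Xp v Z N) (X2 v Z N) h))
      + 11 * (1 / γ + 1) ^ 4 * (2 * H + R₀ + 1) ^ 3 * t ^ 3 := by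
  obtain ⟨-, hexp⟩ := T.res_Dop_expand hb hv1 hv hρ hρ' ht0 ht1 hh hh2 htH
  set W := res Z + t • (res Z * (N * (v * T.emb h * v) * N) * res Z)
        + t ^ 2 • (res Z * (N * (v * T.emb h2 * v) * N - ρ • (1 - N)) * res Z
          + res Z * (N * (v * T.emb h * v) * N) * res Z * (N * (v * T.emb h * v) * N) * res Z) with hW
  have h1 := (T.abs_tr_le_n2 _).trans ((T.n2_le_norm _).trans hexp)
  rw [map_sub, abs_le] at h1
  have hc := hb.commG
  have hNN := hb.proj.isIdempotentElem.eq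
  have hcN : ∀ w : M, N * (res Z * w) = res Z * (N * w) := fun w => by
    rw [← mul_assoc, hc.eq, mul_assoc]
  have hNw : ∀ w : M, N * (N * w) = N * w := fun w => by rw [← mul_assoc, hNN]
  have hP : T.tr (res Z * (1 - N) * res Z) = T.tr (res Z * res Z * (1 - N)) := by
    rw [mul_assoc (res Z) (1 - N), hb.commGC.eq, mul_assoc]
  have e1 : ∀ f : C(Ω, ℝ), T.tr (res Z * (N * (v * T.emb f * v) * N) * res Z)
      = T.tau (f * T.E (X2 v Z N)) := by
    intro f
    rw [tau_mul_E, X2]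
    have : res Z * (N * (v * T.emb f * v) * N) * res Z
        = (res Z * N * v) * (T.emb f * (v * (N * res Z))) := by simp only [mul_assoc]
    rw [this, T.tr_mul_comm]
    congr 1
    simp only [mul_assoc, hcN, hNw]
  have e2 : T.tr (res Z * (N * (v * T.emb h * v) * N) * res Z * (N * (v * T.emb h * v) * N) * res Z)
      = T.tau (h * T.K2 (Xp v Z N) (X2 v Z N) h) := by
    rw [K2_apply, tau_mul_E, Xp, X2]
    have : res Z * (N * (v * T.emb h * v) * N) * res Z * (N * (v * T.emb h * v) * N) * res Z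
        = (res Z * N * v) * (T.emb h * v * N * res Z * N * v * T.emb h * v * N * res Z) := by
      simp only [mul_assoc]
    rw [this, T.tr_mul_comm]
    congr 1
    simp only [mul_assoc, hcN, hNw]
  have hWle : T.tr W ≤ T.tr (res Z) + t * T.tau (h * T.E (X2 v Z N))
      + t ^ 2 * (T.tau (h2 * T.E (X2 v Z N)) + T.tau (h * T.K2 (Xp v Z N) (X2 v Z N) h)) := by
    have h3 : 0 ≤ ρ * T.tr (res Z * (1 - N) * res Z) := by
      rw [hP]; exact mul_nonneg hρ (T.tr_nonneg hb.GGC_nonneg)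
    rw [hW]
    simp only [mul_sub (res Z), sub_mul _ _ (res Z), mul_smul_comm, smul_mul_assoc, map_add, map_smul,
      map_sub, smul_eq_mul, e1, e2]
    rw [show T.tr (res Z * 1 * res Z) - T.tr (res Z * N * res Z)
        = T.tr (res Z * (1 - N) * res Z) by rw [mul_sub, sub_mul, map_sub]]
    nlinarith [mul_nonneg (sq_nonneg t) h3]
  linarith [h1.2]

/-- splitting of the off-band perturbation -/
lemma n2_R_le {v N : M} (hv1 : ‖v‖ ≤ 1) (hN : IsStarProjection N) {ρ t H R₀ : ℝ} (hρ : 0 ≤ ρ)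
    (hρ' : ρ ≤ R₀) (ht0 : 0 ≤ t) (ht1 : t ≤ 1) {h h2 : C(Ω, ℝ)} (hh : ‖h‖ ≤ H) (hh2 : ‖h2‖ ≤ H)
    {γ : ℝ} {Z : M} (hb : Band γ Z N) (R : M) :
    T.n2 (R + (v * (t • T.emb h + t ^ 2 • T.emb h2) * v
        - Dop v N ρ t (T.emb h) (T.emb h2))) ^ 2
      ≤ T.n2 R ^ 2 + t * (2 * T.ip R (v * T.emb h * v - N * (v * T.emb h * v) * N))
        + t ^ 2 * (T.n2 (v * T.emb h * v - N * (v * T.emb h * v) * N) ^ 2
          + 2 * (T.n2 R * ((2 * ‖h2‖ + ρ) * Real.sqrt (T.tr (1 - N)))))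
        + 12 * (2 * H + R₀) ^ 2 * t ^ 3 := by
  set R1 := v * T.emb h * v - N * (v * T.emb h * v) * N with hR1
  set R2 := v * T.emb h2 * v - N * (v * T.emb h2 * v) * N + ρ • (1 - N) with hR2
  have e : v * (t • T.emb h + t ^ 2 • T.emb h2) * v - Dop v N ρ t (T.emb h) (T.emb h2)
      = t • R1 + t ^ 2 • R2 := by
    simp only [hR1, hR2, Dop, mul_add, add_mul, mul_smul_comm, smul_mul_assoc, smul_sub, smul_add,
      smul_smul]
    abel
  rw [e, T.n2_sq, T.n2_sq]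
  simp only [T.ip_add_left, T.ip_add_right, T.ip_smul_left, T.ip_smul_right, T.ip_comm R1 R,
    T.ip_comm R2 R, T.ip_comm R2 R1, ← T.n2_sq]
  have hH : 0 ≤ H := (norm_nonneg h).trans hh
  have hR : 0 ≤ R₀ := hρ.trans hρ'
  have hs : Real.sqrt (T.tr (1 - N)) = T.n2 (1 - N) := (T.n2_proj hN.one_sub).symm
  have hp1 : T.n2 (1 - N) ≤ 1 := (T.n2_le_norm _).trans (proj_norm_le hN.one_sub)
  have hb2 : T.n2 R2 ≤ (2 * ‖h2‖ + ρ) * Real.sqrt (T.tr (1 - N)) := by
    refine (T.n2_add _ _).trans ?_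
    rw [T.n2_smul, abs_of_nonneg hρ, hs, add_mul]
    refine add_le_add_left ((T.n2_offband_le hb _).trans ?_) _
    rw [hs]
    refine mul_le_mul_of_nonneg_right ?_ (T.n2_nonneg _)
    have := norm_sandwich_le hv1 (T.emb h2)
    rw [T.emb_norm] at this
    linarith
  have h1 : T.ip R R2 ≤ T.n2 R * ((2 * ‖h2‖ + ρ) * Real.sqrt (T.tr (1 - N))) :=
    (le_abs_self _).trans ((T.abs_ip_le _ _).trans (mul_le_mul_of_nonneg_left hb2 (T.n2_nonneg _)))
  have h2' : T.n2 R2 ≤ 2 * H + R₀ := hb2.trans (by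
    rw [hs]
    calc _ ≤ (2 * ‖h2‖ + ρ) * 1 := mul_le_mul_of_nonneg_left hp1 (by positivity)
      _ ≤ _ := by linarith)
  have h3' : T.n2 R1 ≤ 2 * H + R₀ := by
    refine (T.n2_offband_le hb _).trans ?_
    rw [hs]
    have := norm_sandwich_le hv1 (T.emb h)
    rw [T.emb_norm] at this
    calc _ ≤ (2 * ‖v * T.emb h * v‖) * 1 := mul_le_mul_of_nonneg_left hp1 (by positivity)
      _ ≤ _ := by linarith
  have h4 : T.ip R1 R2 ≤ (2 * H + R₀) * (2 * H + R₀) :=
    (le_abs_self _).trans ((T.abs_ip_le _ _).trans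
      (mul_le_mul h3' h2' (T.n2_nonneg _) (by linarith)))
  have h5 : T.n2 R2 ^ 2 ≤ (2 * H + R₀) ^ 2 := pow_le_pow_left₀ (T.n2_nonneg _) h2' 2
  have ht4 : t ^ 4 ≤ t ^ 3 := pow_le_pow_of_le_one ht0 ht1 (by norm_num)
  nlinarith [mul_le_mul_of_nonneg_left h1 (sq_nonneg t),
    mul_le_mul_of_nonneg_left h4 (pow_nonneg ht0 3),
    mul_le_mul ht4 h5 (sq_nonneg _) (pow_nonneg ht0 3),
    mul_nonneg (sq_nonneg (2 * H + R₀)) (pow_nonneg ht0 3)]

lemma linPart_eq (P : Params) (y : M) (S : Smalls) (st : St M Ω P.r) (N : Fin P.r → M)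
    (h : Fin P.r → C(Ω, ℝ)) :
    T.linPart P y S st N h = - T.tau (st.live * (T.lam P y st * ∑ i, T.Jop P y st N i (h i)))
      + S.μ / P.η * ∑ i, T.tau (h i)
      + S.μ * ∑ i, T.tau (h i * T.E (X2 (vop y) (T.Zop P y st i) (N i)))
      + S.A * S.μ * ∑ i, 2 * T.ip (st.R i) (T.offband y (N i) (h i)) := by
  rw [linPart, Finset.mul_sum (a := S.μ / P.η), Finset.mul_sum (a := S.μ),
    Finset.mul_sum (a := S.A * S.μ), add_assoc, add_assoc,
    ← Finset.sum_add_distrib, ← Finset.sum_add_distrib]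
  simp only [add_assoc]
  exact congrArg _ (Finset.sum_congr rfl fun i _ => by ring)

lemma quad_det_eq (P : Params) (y : M) (S : Smalls) (st : St M Ω P.r) (N : Fin P.r → M) (ρ : ℝ)
    (h h2 : Fin P.r → C(Ω, ℝ)) :
    T.quadPart P y S st N h + T.detPart P y S st N ρ h2
      = T.tau (st.live * ((∑ i, T.Jop P y st N i (h i)) * ∑ i, T.Jop P y st N i (h i))) / 2
        - T.tau (st.live * (T.lam P y st * ∑ i, (T.Fdet P y st N ρ h2 i + T.Fquad P y st N h i)))
        + S.μ / P.η * ∑ i, T.tau (h2 i)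
        + S.μ * ∑ i, (T.tau (h2 i * T.E (X2 (vop y) (T.Zop P y st i) (N i)))
          + T.tau (h i * T.K2 (Xp (vop y) (T.Zop P y st i) (N i))
            (X2 (vop y) (T.Zop P y st i) (N i)) (h i)))
        + S.A * S.μ * ∑ i, (T.n2 (T.offband y (N i) (h i)) ^ 2
          + 2 * (T.n2 (st.R i) * ((2 * ‖h2 i‖ + ρ) * Real.sqrt (T.tr (1 - N i))))) := by
  have e : T.tau (st.live * (T.lam P y st * ∑ i, (T.Fdet P y st N ρ h2 i + T.Fquad P y st N h i)))
      = ∑ i, T.tau (st.live * (T.lam P y st * (T.Fdet P y st N ρ h2 i + T.Fquad P y st N h i))) := by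
    rw [Finset.mul_sum, Finset.mul_sum, map_sum]
  rw [quadPart, detPart, e, sub_eq_add_neg, ← Finset.sum_neg_distrib,
    Finset.mul_sum (a := S.μ / P.η), Finset.mul_sum (a := S.μ),
    Finset.mul_sum (a := S.A * S.μ), add_assoc, add_assoc, add_assoc, add_assoc,
    ← Finset.sum_add_distrib, ← Finset.sum_add_distrib, ← Finset.sum_add_distrib,
    ← Finset.sum_add_distrib]
  refine congrArg _ (Finset.sum_congr rfl fun i _ => ?_)
  rw [mul_add (T.lam P y st), mul_add st.live, map_add]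
  ring

/-- the constant of the pointwise expansion -/
def moveConst (η γ H R₀ : ℝ) : ℝ :=
  max (4 + (2 + 1 / η) * H + (1 + 1 / η) * (3 * H ^ 2) + (4 / η ^ 3) * (2 * H) ^ 3
        + (2 + 1 / η) * H + (1 + 1 / η) * H ^ 2) (11 * (1 / γ + 1) ^ 4 * (2 * H + R₀ + 1) ^ 3)

/-- expansion of the constraint along a move -/
lemma Fval_move {P : Params} {y : M} (hη : 0 < P.η) (hη1 : P.η ≤ 1 / 16) {S : Smalls}
    {γ H R₀ ρ t : ℝ} (hγ : 0 < γ) (hy0 : 0 ≤ y) (hy1 : y ≤ 1) {st : St M Ω P.r} {N : Fin P.r → M}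
    (hinv : T.StInv P y S st) (hb : ∀ i, Band γ (T.Zop P y st i) (N i))
    {h h2 : Fin P.r → C(Ω, ℝ)} (hρ : 0 ≤ ρ) (hρ' : ρ ≤ R₀) (ht0 : 0 ≤ t) (ht1 : t ≤ 1)
    (htγ : 2 * t * H ≤ γ) (htη : 2 * t * H ≤ P.η / 2) (hH : 0 ≤ H) (hh : ∀ i, ‖h i‖ ≤ H)
    (hh2 : ∀ i, ‖h2 i‖ ≤ H) (ω : Ω) :
    |T.Fval P y (T.move P y st N ρ t h h2) ω - (T.Fval P y st ω
        + t * (∑ i, T.Jop P y st N i (h i)) ω
        + t ^ 2 * (∑ i, (T.Fdet P y st N ρ h2 i + T.Fquad P y st N h i)) ω)|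
      ≤ (P.r : ℝ) * (H + 16 * moveConst P.η γ H R₀ ^ 2) * t ^ 3 ∧
    |(∑ i, T.Jop P y st N i (h i)) ω| ≤ (P.r : ℝ) * (H + 16 * moveConst P.η γ H R₀ ^ 2) ∧
    |(∑ i, (T.Fdet P y st N ρ h2 i + T.Fquad P y st N h i)) ω|
      ≤ (P.r : ℝ) * (H + 16 * moveConst P.η γ H R₀ ^ 2) := by
  obtain ⟨hv, hv1, -⟩ := vop_props hy0 hy1
  set st' := T.move P y st N ρ t h h2 with hst'
  set Cm := moveConst P.η γ H R₀ with hCmdef
  have hR : 0 ≤ R₀ := hρ.trans hρ'
  have hCm : 0 ≤ Cm := le_max_of_le_right (by positivity)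
  set Cf := 12 * Cm ^ 2 with hCf
  have habs : ∀ i ω, |h i ω| ≤ H ∧ |h2 i ω| ≤ H := fun i ω =>
    ⟨((h i).norm_coe_le_norm ω).trans (hh i), ((h2 i).norm_coe_le_norm ω).trans (hh2 i)⟩
  have ht2 : t ^ 2 ≤ t := by nlinarith
  have hd : ∀ i ω, |t * h i ω + t ^ 2 * h2 i ω| ≤ 2 * t * H := fun i ω => by
    refine (abs_add_le _ _).trans ?_
    rw [abs_mul, abs_mul, abs_of_nonneg ht0, abs_of_nonneg (sq_nonneg t)]
    nlinarith [mul_le_mul_of_nonneg_left (habs i ω).1 ht0,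
      mul_le_mul ht2 (habs i ω).2 (abs_nonneg _) ht0]
  have hsig : ∀ i ω, st'.sig i ω = st.sig i ω + (t * h i ω + t ^ 2 * h2 i ω) := fun i ω => by
    simp [hst', move]
  have hphi : ∀ i, Exp3 Cm t (Profile.phi P.η (st'.sig i ω)) (Profile.phi P.η (st.sig i ω))
      (Profile.dphi P.η (st.sig i ω) * h i ω)
      (Profile.dphi P.η (st.sig i ω) * h2 i ω
        - (1 + Profile.gex P.η (st.sig i ω)) * h i ω ^ 2) := fun i => by
    have h0 : 0 ≤ st.sig i ω := hinv.sig_nonneg i ω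
    have h1 := hinv.sig_le i ω
    have := Profile.phi_move (H := H) hη (by linarith) h0 (by linarith) ht0 ht1 (habs i ω).1
      (habs i ω).2 (by linarith [(abs_le.1 (hd i ω)).2])
    rw [hsig]
    exact ⟨this.h0.trans (le_max_left _ _), this.h1.trans (le_max_left _ _),
      this.h2.trans (le_max_left _ _), this.err.trans
        (mul_le_mul_of_nonneg_right (le_max_left _ _) (pow_nonneg ht0 3))⟩
  have haval : ∀ i, Exp3 Cm t (T.aval P y st' i ω) (T.aval P y st i ω)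
      (T.K (Xp (vop y) (T.Zop P y st i) (N i)) (h i) ω)
      (T.K (Xp (vop y) (T.Zop P y st i) (N i)) (h2 i) ω
        - ρ * T.E (Bop (vop y) (T.Zop P y st i) (N i)) ω
        + T.E (Xp (vop y) (T.Zop P y st i) (N i) * T.emb (h i) * Xp (vop y) (T.Zop P y st i) (N i)
            * T.emb (h i) * Xp (vop y) (T.Zop P y st i) (N i)) ω) := fun i => by
    have := aval_expand (T := T) (hb i) hv1 hv hρ hρ' ht0 ht1 (hh i) (hh2 i) htγ ω
    rw [← T.Zop_move] at this
    exact ⟨this.h0.trans (le_max_right _ _), this.h1.trans (le_max_right _ _),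
      this.h2.trans (le_max_right _ _), this.err.trans
        (mul_le_mul_of_nonneg_right (le_max_right _ _) (pow_nonneg ht0 3))⟩
  set F1 : Fin P.r → C(Ω, ℝ) := fun i => T.Jop P y st N i (h i) with hF1
  set F2 : Fin P.r → C(Ω, ℝ) := fun i => T.Fdet P y st N ρ h2 i + T.Fquad P y st N h i with hF2
  have hap : ∀ i, F1 i ω = h i ω - (Profile.dphi P.η (st.sig i ω) * h i ω * T.aval P y st i ω
        + Profile.phi P.η (st.sig i ω) * T.K (Xp (vop y) (T.Zop P y st i) (N i)) (h i) ω)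
      ∧ F2 i ω = h2 i ω - ((Profile.dphi P.η (st.sig i ω) * h2 i ω
        - (1 + Profile.gex P.η (st.sig i ω)) * h i ω ^ 2) * T.aval P y st i ω
        + Profile.dphi P.η (st.sig i ω) * h i ω
          * T.K (Xp (vop y) (T.Zop P y st i) (N i)) (h i) ω
        + Profile.phi P.η (st.sig i ω) * (T.K (Xp (vop y) (T.Zop P y st i) (N i)) (h2 i) ω
        - ρ * T.E (Bop (vop y) (T.Zop P y st i) (N i)) ω
        + T.E (Xp (vop y) (T.Zop P y st i) (N i) * T.emb (h i) * Xp (vop y) (T.Zop P y st i) (N i)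
            * T.emb (h i) * Xp (vop y) (T.Zop P y st i) (N i)) ω)) := fun i => by
    constructor
    · simp [hF1, Jop, mlt, cphi, comp1_apply (Profile.continuous_dphi hη)]
      ring
    · simp [hF2, Fdet, Fquad, cphi, comp1_apply (Profile.continuous_dphi hη),
        comp1_apply (Profile.continuous_gex hη)]
      ring
  simp only [Fval, ContinuousMap.coe_sum, Finset.sum_apply, ContinuousMap.sub_apply,
    ContinuousMap.mul_apply]
  have hb1 : ∀ i, |F1 i ω| ≤ H + 2 * Cm ^ 2 := fun i => by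
    rw [(hap i).1]
    refine (abs_sub _ _).trans (add_le_add (habs i ω).1 ((abs_add_le _ _).trans ?_))
    have q1 : |Profile.dphi P.η (st.sig i ω) * h i ω * T.aval P y st i ω| ≤ Cm * Cm := by
      rw [abs_mul]; exact mul_le_mul (hphi i).h1 (haval i).h0 (abs_nonneg _) hCm
    have q2 : |Profile.phi P.η (st.sig i ω) * T.K (Xp (vop y) (T.Zop P y st i) (N i)) (h i) ω|
        ≤ Cm * Cm := by
      rw [abs_mul]; exact mul_le_mul (hphi i).h0 (haval i).h1 (abs_nonneg _) hCm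
    linarith [pow_two Cm]
  have hb2 : ∀ i, |F2 i ω| ≤ H + 2 * Cm ^ 2 + 2 * Cm ^ 2 := fun i => by
    rw [(hap i).2]
    refine (abs_sub _ _).trans ?_
    refine (add_le_add (habs i ω).2 (abs_add_three _ _ _)).trans ?_
    have q1 := mul_le_mul (hphi i).h2 (haval i).h0 (abs_nonneg _) hCm
    have q2 := mul_le_mul (hphi i).h1 (haval i).h1 (abs_nonneg _) hCm
    have q3 := mul_le_mul (hphi i).h0 (haval i).h2 (abs_nonneg _) hCm
    rw [← abs_mul] at q1 q2 q3
    nlinarith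
  refine ⟨?_, ?_, ?_⟩
  · rw [Finset.mul_sum, Finset.mul_sum, ← Finset.sum_add_distrib, ← Finset.sum_add_distrib,
      ← Finset.sum_sub_distrib]
    refine (Finset.abs_sum_le_sum_abs _ _).trans ((Finset.sum_le_sum fun i _ => ?_).trans
      (le_of_eq (show ∑ _i : Fin P.r, Cf * t ^ 3 = P.r * Cf * t ^ 3 by simp; ring) |>.trans ?_))
    · have := Exp3.sub_mul (Cs := 0) (s := st'.sig i ω) (s0 := st.sig i ω) (s1 := h i ω)
        (s2 := h2 i ω) ht0 ht1 (by rw [hsig]; simp [add_assoc]) (hphi i) (haval i)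
      rw [(hap i).1, (hap i).2]
      simpa [cphi, hCf] using this
    · refine mul_le_mul_of_nonneg_right (mul_le_mul_of_nonneg_left ?_ (Nat.cast_nonneg _))
        (by positivity)
      nlinarith
  · refine (Finset.abs_sum_le_sum_abs _ _).trans ((Finset.sum_le_sum fun i _ => hb1 i).trans ?_)
    simp only [Finset.sum_const, Finset.card_univ, Fintype.card_fin, nsmul_eq_mul]
    refine mul_le_mul_of_nonneg_left ?_ (Nat.cast_nonneg _)
    nlinarith
  · refine (Finset.abs_sum_le_sum_abs _ _).trans ((Finset.sum_le_sum fun i _ => hb2 i).trans ?_)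
    simp only [Finset.sum_const, Finset.card_univ, Fintype.card_fin, nsmul_eq_mul]
    refine mul_le_mul_of_nonneg_left ?_ (Nat.cast_nonneg _)
    nlinarith

/-- a move changes the potential by its linear, quadratic and deterministic parts -/
theorem exists_move_bound (P : Params) (hη : 0 < P.η) (hη1 : P.η ≤ 1 / 16) (μ ι γ A ς : ℝ)
    (hμ : 0 < μ) (hγ : 0 < γ) (hA : 0 ≤ A) (hς : 0 ≤ ς) (H R₀ : ℝ) (hH : 0 ≤ H) (hR : 0 ≤ R₀) :
    ∃ C : ℝ, 0 ≤ C ∧ ∀ (y : M), 0 ≤ y → y ≤ 1 → ∀ (st : St M Ω P.r) (N : Fin P.r → M),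
      T.StInv P y ⟨μ, ι, γ, A, ς⟩ st → (∀ i, Band γ (T.Zop P y st i) (N i)) →
      (∀ i ω, st.sig i ω = 0 ∨ ς ≤ st.sig i ω) →
      ∀ (ρ t : ℝ) (h h2 : Fin P.r → C(Ω, ℝ)), 0 ≤ ρ → ρ ≤ R₀ → 0 ≤ t → t ≤ 1 →
        2 * t * H ≤ γ → 2 * t * H ≤ ς → 2 * t * H ≤ P.η / 2 →
        (∀ i, ‖h i‖ ≤ H) → (∀ i, ‖h2 i‖ ≤ H) →
        (∀ i ω, (st.sig i ω = 0 ∨ st.live ω = 0) → h i ω = 0 ∧ h2 i ω = 0) →
        ((∀ i, 0 ≤ (T.move P y st N ρ t h h2).sig i) ∧
         (∀ ω, st.live ω = 0 → ∃ i, (T.move P y st N ρ t h h2).sig i ω = 1 - P.η ∧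
            ∀ j, j ≠ i → (T.move P y st N ρ t h h2).sig j ω = 0) ∧
         (∀ i, IsSelfAdjoint ((T.move P y st N ρ t h h2).R i)) ∧
         (∀ i, γ • (1 : M) ≤ T.Zop P y (T.move P y st N ρ t h h2) i) ∧
         T.Wpot P y ⟨μ, ι, γ, A, ς⟩ (T.move P y st N ρ t h h2) ≤
           T.Wpot P y ⟨μ, ι, γ, A, ς⟩ st + t * T.linPart P y ⟨μ, ι, γ, A, ς⟩ st N h
            + t ^ 2 * (T.quadPart P y ⟨μ, ι, γ, A, ς⟩ st N h
                + T.detPart P y ⟨μ, ι, γ, A, ς⟩ st N ρ h2)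
            + C * t ^ 3) := by
  set CA := 11 * (1 / γ + 1) ^ 4 * (2 * H + R₀ + 1) ^ 3 with hCA
  set B := (P.r : ℝ) * (H + 16 * moveConst P.η γ H R₀ ^ 2) with hB
  set CR := 12 * (2 * H + R₀) ^ 2 with hCR
  refine ⟨2 * B + 4 * B ^ 2 + P.r * (μ * CA + A * μ * CR), by positivity, ?_⟩
  intro y hy0 hy1 st N hinv hb hclean ρ t h h2 hρ hρ' ht0 ht1 htγ htς htη hh hh2 hzero
  obtain ⟨hv, hv1, -⟩ := vop_props hy0 hy1
  set S : Smalls := ⟨μ, ι, γ, A, ς⟩ with hS
  set st' := T.move P y st N ρ t h h2 with hst'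
  have habs : ∀ i ω, |h i ω| ≤ H ∧ |h2 i ω| ≤ H := fun i ω =>
    ⟨((h i).norm_coe_le_norm ω).trans (hh i), ((h2 i).norm_coe_le_norm ω).trans (hh2 i)⟩
  have ht2 : t ^ 2 ≤ t := by nlinarith
  have hd : ∀ i ω, |t * h i ω + t ^ 2 * h2 i ω| ≤ 2 * t * H := fun i ω => by
    refine (abs_add_le _ _).trans ?_
    rw [abs_mul, abs_mul, abs_of_nonneg ht0, abs_of_nonneg (sq_nonneg t)]
    nlinarith [mul_le_mul_of_nonneg_left (habs i ω).1 ht0,
      mul_le_mul ht2 (habs i ω).2 (abs_nonneg _) ht0]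
  have hsig : ∀ i ω, st'.sig i ω = st.sig i ω + (t * h i ω + t ^ 2 * h2 i ω) := fun i ω => by
    simp [hst', move]
  have hdead : ∀ i ω, (st.sig i ω = 0 ∨ st.live ω = 0) → st'.sig i ω = st.sig i ω := fun i ω hc => by
    rw [hsig, (hzero i ω hc).1, (hzero i ω hc).2]; ring
  have hsnn : ∀ i ω, 0 ≤ st'.sig i ω := fun i ω => by
    rcases hclean i ω with hc | hc
    · rw [hdead i ω (Or.inl hc), hc]
    · rw [hsig]; linarith [(abs_le.1 (hd i ω)).1]
  have hgap : ∀ i, γ • (1 : M) ≤ T.Zop P y st' i := fun i => by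
    rw [hst', T.Zop_move]
    exact (T.res_Dop_expand (hb i) hv1 hv hρ hρ' ht0 ht1 (hh i) (hh2 i) htγ).1
  have hRsa : ∀ i, IsSelfAdjoint (st'.R i) := fun i => by
    have hu : ∀ f : C(Ω, ℝ), IsSelfAdjoint (vop y * T.emb f * vop y) := fun f => by
      simpa [hv.star_eq] using (T.emb_selfAdjoint f).conjugate (vop y)
    show IsSelfAdjoint (st.R i + _)
    refine (hinv.R_sa i).add (IsSelfAdjoint.sub ?_ ?_)
    · rw [← map_smul, ← map_smul, ← map_add]; exact hu _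
    · unfold Dop
      refine IsSelfAdjoint.sub ?_ ((IsSelfAdjoint.all _).smul (hb i).proj.one_sub.isSelfAdjoint)
      rw [← map_smul, ← map_smul, ← map_add]
      have h3 := (hu (t • h i + t ^ 2 • h2 i)).conjugate (N i)
      rwa [(hb i).proj.isSelfAdjoint.star_eq] at h3
  refine ⟨fun i ω => hsnn i ω, ?_, hRsa, hgap, ?_⟩
  · intro ω hω
    obtain ⟨i, hi, hj⟩ := hinv.assigned ω hω
    exact ⟨i, by rw [hdead i ω (Or.inr hω), hi], fun j hji => by
      rw [hdead j ω (Or.inr hω), hj j hji]⟩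
  set F1 : Fin P.r → C(Ω, ℝ) := fun i => T.Jop P y st N i (h i) with hF1
  set F2 : Fin P.r → C(Ω, ℝ) := fun i => T.Fdet P y st N ρ h2 i + T.Fquad P y st N h i with hF2
  have hF := fun ω => T.Fval_move (S := S) hη hη1 hγ hy0 hy1 hinv hb hρ hρ' ht0 ht1 htγ htη hH hh
    hh2 ω
  have hhub : T.tau (st'.live * chub (ContinuousMap.const Ω P.L - T.Fval P y st'))
      ≤ T.tau (st.live * chub (ContinuousMap.const Ω P.L - T.Fval P y st))
        - t * T.tau (st.live * (T.lam P y st * ∑ i, F1 i))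
        - t ^ 2 * T.tau (st.live * (T.lam P y st * ∑ i, F2 i))
        + t ^ 2 * (T.tau (st.live * ((∑ i, F1 i) * ∑ i, F1 i)) / 2)
        + (2 * B + 4 * B ^ 2) * t ^ 3 := by
    have key : st'.live * chub (ContinuousMap.const Ω P.L - T.Fval P y st') ≤
        st.live * chub (ContinuousMap.const Ω P.L - T.Fval P y st)
        + ((-t) • (st.live * (T.lam P y st * ∑ i, F1 i))
        + ((-(t ^ 2)) • (st.live * (T.lam P y st * ∑ i, F2 i))
        + ((t ^ 2 / 2) • (st.live * ((∑ i, F1 i) * ∑ i, F1 i))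
        + ((2 * B + 4 * B ^ 2) * t ^ 3) • (1 : C(Ω, ℝ))))) := by
      intro ω
      show st.live ω * Profile.hub (P.L - T.Fval P y st' ω) ≤ _
      simp only [ContinuousMap.toFun_eq_coe, ContinuousMap.add_apply, ContinuousMap.mul_apply,
        ContinuousMap.smul_apply, smul_eq_mul, ContinuousMap.one_apply, lam,
        comp1_apply continuous_dhub, ContinuousMap.sub_apply, ContinuousMap.const_apply, chub,
        ContinuousMap.coe_mk]
      obtain ⟨he, hf1, hf2⟩ := hF ω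
      set f1 := (∑ i, F1 i) ω
      set f2 := (∑ i, F2 i) ω
      set l := st.live ω with hl
      have hl0 : 0 ≤ l := idem_nonneg hinv.live_idem ω
      have hl1 : l ≤ 1 := idem_le_one hinv.live_idem ω
      set x := P.L - T.Fval P y st ω
      set d := T.Fval P y st' ω - T.Fval P y st ω
      set e := d - (t * f1 + t ^ 2 * f2) with hed
      have he' : |e| ≤ B * t ^ 3 := by
        simp only [hed, d]; convert he using 2; ring
      have hexp := hub_expand (x := x) (d := d) hl0 hl1 ht0 ht1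
        (by simpa only [hed, d] using he') hf1 hf2
      rw [show x - d = P.L - T.Fval P y st' ω by simp only [x, d]; ring] at hexp
      linarith
    have := T.tau_mono key
    simp only [map_add, map_smul, smul_eq_mul, T.tau_one] at this
    linarith
  have hsum : ∑ i, T.tau (st'.sig i) = ∑ i, T.tau (st.sig i) + t * ∑ i, T.tau (h i)
      + t ^ 2 * ∑ i, T.tau (h2 i) := by
    simp only [hst', move, map_add, map_smul, smul_eq_mul, Finset.sum_add_distrib, Finset.mul_sum]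
    ring
  have htr : ∀ i, T.tr (T.Gop P y st' i) ≤ T.tr (T.Gop P y st i)
      + t * T.tau (h i * T.E (X2 (vop y) (T.Zop P y st i) (N i)))
      + t ^ 2 * (T.tau (h2 i * T.E (X2 (vop y) (T.Zop P y st i) (N i)))
        + T.tau (h i * T.K2 (Xp (vop y) (T.Zop P y st i) (N i))
            (X2 (vop y) (T.Zop P y st i) (N i)) (h i))) + CA * t ^ 3 := fun i => by
    show T.tr (res (T.Zop P y st' i)) ≤ _
    rw [hst', T.Zop_move]
    exact T.tr_res_le (hb i) hv1 hv hρ hρ' ht0 ht1 (hh i) (hh2 i) htγ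
  have hRle : ∀ i, T.n2 (st'.R i) ^ 2 ≤ T.n2 (st.R i) ^ 2
      + t * (2 * T.ip (st.R i) (T.offband y (N i) (h i)))
      + t ^ 2 * (T.n2 (T.offband y (N i) (h i)) ^ 2
        + 2 * (T.n2 (st.R i) * ((2 * ‖h2 i‖ + ρ) * Real.sqrt (T.tr (1 - N i))))) + CR * t ^ 3 :=
    fun i => T.n2_R_le hv1 (hb i).proj hρ hρ' ht0 ht1 (hh i) (hh2 i) (hb i) (st.R i)
  have hpos : ∑ i, T.tau (T.pos (st'.sig i)) ≤ ∑ i, T.tau (T.pos (st.sig i)) :=
    Finset.sum_le_sum fun i _ => T.tau_mono (T.pos_le_pos fun ω hω => by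
      rcases hclean i ω with hc | hc
      · rw [hdead i ω (Or.inl hc), hc] at hω; exact absurd hω (lt_irrefl 0)
      · exact lt_of_le_of_ne (hinv.sig_nonneg i ω) fun he => by
          rw [hdead i ω (Or.inl he.symm)] at hω; linarith)
  have htrs := Finset.sum_le_sum fun i (_ : i ∈ Finset.univ) => htr i
  have hRs := Finset.sum_le_sum fun i (_ : i ∈ Finset.univ) => hRle i
  simp only [Finset.sum_add_distrib, ← Finset.mul_sum, Finset.sum_const, Finset.card_univ,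
    Fintype.card_fin, nsmul_eq_mul] at htrs hRs
  have hlin := T.linPart_eq P y S st N h
  have hqd := T.quad_det_eq P y S st N ρ h h2
  rw [hlin, hqd]
  show T.tau (st'.live * chub (ContinuousMap.const Ω P.L - T.Fval P y st'))
      + μ / P.η * (∑ i, T.tau (st'.sig i)) + μ * (∑ i, T.tr (T.Gop P y st' i))
      + A * μ * (∑ i, T.n2 (st'.R i) ^ 2) + ς * (∑ i, T.tau (T.pos (st'.sig i))) ≤
    (T.tau (st.live * chub (ContinuousMap.const Ω P.L - T.Fval P y st))
      + μ / P.η * (∑ i, T.tau (st.sig i)) + μ * (∑ i, T.tr (T.Gop P y st i))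
      + A * μ * (∑ i, T.n2 (st.R i) ^ 2) + ς * (∑ i, T.tau (T.pos (st.sig i)))) + _ + _ + _
  simp only [hS, hF1, hF2, Finset.sum_add_distrib, ← Finset.mul_sum] at hRs htrs hhub ⊢
  rw [hsum]
  linarith [mul_le_mul_of_nonneg_left htrs hμ.le, mul_le_mul_of_nonneg_left hRs (mul_nonneg hA hμ.le),
    mul_le_mul_of_nonneg_left hpos hς]

end TMasa

end Vale.Agent.P078
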