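import Mathlib
import Vale.Agent.P078.Masa

/-! The diagonal trace of positive maps of the subalgebra and its invariance under partial
isometries normalising the subalgebra. -/

noncomputable section

open scoped ComplexOrder
open Filter Topology

set_option linter.unusedSectionVars false

namespace Vale.Agent.P078

universe u v

variable {M : Type u} [CStarAlgebra M] [PartialOrder M] [StarOrderedRing M]
  {Ω : Type v} [TopologicalSpace Ω] [CompactSpace Ω] [T2Space Ω] (T : TMasa M Ω)

/-- linear maps of the subalgebra -/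
abbrev MasaOp (Ω : Type v) [TopologicalSpace Ω] := C(Ω, ℝ) →ₗ[ℝ] C(Ω, ℝ)

/-- a positivity preserving map -/
def IsPosMap (S : MasaOp Ω) : Prop := ∀ h, 0 ≤ h → 0 ≤ S h

/-- multiplication by a function -/
def multOp (f : C(Ω, ℝ)) : MasaOp Ω := LinearMap.mulLeft ℝ f

@[simp] lemma multOp_apply (f h : C(Ω, ℝ)) : multOp f h = f * h := rfl

lemma isPosMap_multOp {f : C(Ω, ℝ)} (hf : 0 ≤ f) : IsPosMap (multOp f) := fun h hh ω => by
  simpa using mul_nonneg (hf ω) (hh ω)

lemma IsPosMap.comp {S R : MasaOp Ω} (hS : IsPosMap S) (hR : IsPosMap R) :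
    IsPosMap (S.comp R) := fun h hh => hS _ (hR h hh)

lemma IsPosMap.mono {S : MasaOp Ω} (hS : IsPosMap S) {g h : C(Ω, ℝ)} (hgh : g ≤ h) :
    S g ≤ S h := by
  have := hS _ (sub_nonneg.2 hgh)
  rwa [map_sub, sub_nonneg] at this

lemma mul_nonneg' {f g : C(Ω, ℝ)} (hf : 0 ≤ f) (hg : 0 ≤ g) : 0 ≤ f * g := fun ω => by
  simpa using mul_nonneg (hf ω) (hg ω)

lemma mul_mono' {f g h : C(Ω, ℝ)} (hh : 0 ≤ h) (hfg : f ≤ g) : h * f ≤ h * g := fun ω => by
  simpa using mul_le_mul_of_nonneg_left (hfg ω) (hh ω)

lemma le_norm_one (f : C(Ω, ℝ)) : f ≤ ‖f‖ • (1 : C(Ω, ℝ)) := fun ω => by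
  simpa using (le_abs_self (f ω)).trans (f.norm_coe_le_norm ω)

namespace Part

/-- A function vanishing at zero, summed over the traces of a piece on a coarser partition. -/
lemma sum_parent {E : Type*} [AddCommMonoid E] {P Q : Part Ω} (h : P ≤ Q) (i : Fin Q.n)
    (φ : C(Ω, ℝ) → E) (h0 : φ 0 = 0) : ∑ j, φ (Q.e i * P.e j) = φ (Q.e i) := by
  by_cases hi : Q.e i = 0
  · simp [hi, h0]
  · obtain ⟨j, hj, hk⟩ := exists_parent h hi
    rw [Finset.sum_eq_single j (fun k _ hk' => by rw [hk k hk', h0]) (by simp), hj]

lemma nonneg (P : Part Ω) (i : Fin P.n) : 0 ≤ P.e i := idem_nonneg (P.isPartition.idem i)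

lemma le_one (P : Part Ω) (i : Fin P.n) : P.e i ≤ 1 := idem_le_one (P.isPartition.idem i)

end Part

namespace TMasa

/-- the diagonal sum of a map along a partition -/
def diag (P : Part Ω) (S : MasaOp Ω) : ℝ := ∑ i, T.tau (P.e i * S (P.e i))

lemma diag_add (P : Part Ω) (S R : MasaOp Ω) : T.diag P (S + R) = T.diag P S + T.diag P R := by
  simp [diag, mul_add, Finset.sum_add_distrib]

lemma diag_sub (P : Part Ω) (S R : MasaOp Ω) : T.diag P (S - R) = T.diag P S - T.diag P R := by
  simp [diag, mul_sub, Finset.sum_sub_distrib]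

lemma diag_smul (P : Part Ω) (c : ℝ) (S : MasaOp Ω) : T.diag P (c • S) = c * T.diag P S := by
  simp [diag, Finset.mul_sum]

lemma diag_nonneg (P : Part Ω) {S : MasaOp Ω} (hS : IsPosMap S) : 0 ≤ T.diag P S :=
  Finset.sum_nonneg fun i _ => T.tau_nonneg (mul_nonneg' (P.nonneg i) (hS _ (P.nonneg i)))

/-- `∑ τ(eᵢ Sᵢ) ≤ τ(∑ Sᵢ)` for nonnegative `Sᵢ` -/
lemma diag_le_tau (P : Part Ω) {S : MasaOp Ω} (hS : IsPosMap S) : T.diag P S ≤ T.tau (S 1) := by
  rw [← P.isPartition.sum_one, map_sum, map_sum]
  refine Finset.sum_le_sum fun i _ => T.tau_mono fun ω => ?_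
  simpa using mul_le_of_le_one_left (hS _ (P.nonneg i) ω) (P.le_one i ω)

/-- positivity preserving maps have decreasing diagonal sums -/
lemma diag_anti {S : MasaOp Ω} (hS : IsPosMap S) {P Q : Part Ω} (h : P ≤ Q) :
    T.diag Q S ≤ T.diag P S := by
  have e : T.diag Q S = ∑ j, ∑ i, T.tau (Q.e i * P.e j * S (Q.e i * P.e j)) := by
    rw [Finset.sum_comm]
    refine Finset.sum_congr rfl fun i _ => ?_
    rw [Part.sum_parent h i (fun g => T.tau (g * S g)) (by simp)]
  rw [e, diag]
  refine Finset.sum_le_sum fun j _ => ?_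
  calc ∑ i, T.tau (Q.e i * P.e j * S (Q.e i * P.e j))
      ≤ ∑ i, T.tau (Q.e i * P.e j * S (P.e j)) := by
        refine Finset.sum_le_sum fun i _ => T.tau_mono (mul_mono'
          (mul_nonneg' (Q.nonneg i) (P.nonneg j)) (hS.mono fun ω => ?_))
        simpa using mul_le_of_le_one_left (P.nonneg j ω) (Q.le_one i ω)
    _ = T.tau (P.e j * S (P.e j)) := by
        rw [← map_sum, ← Finset.sum_mul, Part.sum_mul_eq]

/-- the diagonal sums of a positivity preserving map converge -/
lemma diag_tendsto {S : MasaOp Ω} (hS : IsPosMap S) :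
    ∃ l, Tendsto (fun P : Part Ω => T.diag P S) atTop (𝓝 l) :=
  ⟨_, tendsto_atTop_ciInf (fun _ _ h => T.diag_anti hS h)
    ⟨0, by rintro _ ⟨P, rfl⟩; exact T.diag_nonneg P hS⟩⟩

/-- `S` and `R` have asymptotically equal diagonal sums -/
def DiagEquiv (S R : MasaOp Ω) : Prop :=
  Tendsto (fun P : Part Ω => T.diag P S - T.diag P R) atTop (𝓝 0)

variable {T}

lemma DiagEquiv.rfl' (S : MasaOp Ω) : T.DiagEquiv S S := by simp [DiagEquiv]

lemma DiagEquiv.symm {S R : MasaOp Ω} (h : T.DiagEquiv S R) : T.DiagEquiv R S := by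
  simpa [DiagEquiv] using h.neg

lemma DiagEquiv.trans {S R Q : MasaOp Ω} (h : T.DiagEquiv S R) (h' : T.DiagEquiv R Q) :
    T.DiagEquiv S Q := by
  simpa [DiagEquiv] using h.add h'

lemma DiagEquiv.add {S S' R R' : MasaOp Ω} (h : T.DiagEquiv S R) (h' : T.DiagEquiv S' R') :
    T.DiagEquiv (S + S') (R + R') := by
  have := Tendsto.add h h'
  simp only [add_zero] at this
  refine this.congr fun P => ?_
  rw [T.diag_add, T.diag_add]
  ring

lemma DiagEquiv.of_approx {S R : MasaOp Ω}
    (h : ∀ ε > 0, ∀ᶠ P in atTop, |T.diag P S - T.diag P R| ≤ ε) : T.DiagEquiv S R := by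
  rw [DiagEquiv, Metric.tendsto_nhds]
  intro ε hε
  filter_upwards [h (ε / 2) (half_pos hε)] with P hP
  rw [Real.dist_eq, sub_zero]
  linarith

variable (T)

/-- multiplications commute under the diagonal sum -/
theorem diagEquiv_mult {S : MasaOp Ω} (hS : IsPosMap S) (f : C(Ω, ℝ)) :
    T.DiagEquiv (S.comp (multOp f)) ((multOp f).comp S) := by
  refine DiagEquiv.of_approx fun ε hε => ?_
  set D := T.tau (S 1) with hD
  have hD0 : 0 ≤ D := T.tau_nonneg (hS _ fun ω => by simp)
  set η := ε / (2 * (D + 1)) with hη
  have hη0 : 0 < η := by positivity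
  obtain ⟨P₀, c, hc, -⟩ := T.exists_step f hη0
  filter_upwards [eventually_ge_atTop P₀] with Q hQ
  have key : ∀ i, ∃ r : ℝ, f * Q.e i ≤ (r + η) • Q.e i ∧ (r - η) • Q.e i ≤ f * Q.e i := by
    intro i
    by_cases hi : Q.e i = 0
    · exact ⟨0, by simp [hi], by simp [hi]⟩
    obtain ⟨j, hj, hk⟩ := Part.exists_parent hQ hi
    have hb := (ContinuousMap.norm_le _ hη0.le).1 hc
    have hfi : ∀ ω, Q.e i ω = 1 → |f ω - c j| ≤ η := by
      intro ω hω
      have h1 := hb ω
      rw [ContinuousMap.sub_apply, ContinuousMap.sum_apply, Finset.sum_eq_single j] at h1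
      · have h2 : P₀.e j ω = 1 := by simpa [hω] using DFunLike.congr_fun hj ω
        simpa [h2] using h1
      · intro k _ hk'
        have h2 : P₀.e k ω = 0 := by simpa [hω] using DFunLike.congr_fun (hk k hk') ω
        simp [h2]
      · simp
    refine ⟨c j, fun ω => ?_, fun ω => ?_⟩ <;>
      rcases idem_zero_or_one (Q.isPartition.idem i) ω with hω | hω <;>
        simp [hω]
    · linarith [(abs_le.1 (hfi ω hω)).2]
    · linarith [(abs_le.1 (hfi ω hω)).1]
  choose r hr1 hr2 using key
  have hterm : ∀ i, |T.tau (Q.e i * S (f * Q.e i)) - T.tau (Q.e i * (f * S (Q.e i)))| ≤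
      2 * η * T.tau (Q.e i * S (Q.e i)) := by
    intro i
    have h0 : 0 ≤ S (Q.e i) := hS _ (Q.nonneg i)
    have hQ0 := Q.nonneg i
    have a1 := T.tau_mono (mul_mono' hQ0 (hS.mono (hr1 i)))
    have a2 := T.tau_mono (mul_mono' hQ0 (hS.mono (hr2 i)))
    have a3 := T.tau_mono (mul_mono' h0 (hr1 i))
    have a4 := T.tau_mono (mul_mono' h0 (hr2 i))
    rw [show S (Q.e i) * (f * Q.e i) = Q.e i * (f * S (Q.e i)) by ring] at a3 a4
    simp only [map_smul, mul_smul_comm, smul_eq_mul, mul_comm (S (Q.e i)) (Q.e i)] at a1 a2 a3 a4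
    rw [abs_le]
    constructor <;> linarith
  calc |T.diag Q (S.comp (multOp f)) - T.diag Q ((multOp f).comp S)|
      = |∑ i, (T.tau (Q.e i * S (f * Q.e i)) - T.tau (Q.e i * (f * S (Q.e i))))| := by
        rw [Finset.sum_sub_distrib]; rfl
    _ ≤ ∑ i, |T.tau (Q.e i * S (f * Q.e i)) - T.tau (Q.e i * (f * S (Q.e i)))| :=
        Finset.abs_sum_le_sum_abs _ _
    _ ≤ ∑ i, 2 * η * T.tau (Q.e i * S (Q.e i)) := Finset.sum_le_sum fun i _ => hterm i
    _ = 2 * η * T.diag Q S := by rw [diag, Finset.mul_sum]
    _ ≤ 2 * η * D := mul_le_mul_of_nonneg_left (T.diag_le_tau Q hS) (by positivity)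
    _ ≤ ε := by rw [hη]; field_simp; nlinarith

/-- `W` normalises the subalgebra -/
def Normalises (W : M) : Prop :=
  (∀ f, ∃ g, T.emb g = W * T.emb f * star W) ∧ ∀ f, ∃ g, T.emb g = star W * T.emb f * W

variable {T}

lemma Normalises.star {W : M} (h : T.Normalises W) : T.Normalises (star W) :=
  ⟨by simpa using h.2, by simpa using h.1⟩

lemma Normalises.emb_mul {W : M} (h : T.Normalises W) (c : C(Ω, ℝ)) :
    T.Normalises (T.emb c * W) := by
  refine ⟨fun f => ?_, fun f => ?_⟩
  · obtain ⟨g, hg⟩ := h.1 f
    refine ⟨c * g * c, ?_⟩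
    simp only [map_mul, hg, star_mul, T.star_emb, mul_assoc]
  · obtain ⟨g, hg⟩ := h.2 (c * f * c)
    refine ⟨g, ?_⟩
    simp only [hg, map_mul, star_mul, T.star_emb, mul_assoc]

/-- conjugation by a normalising element, as a map of the subalgebra -/
def Normalises.conjOp {W : M} (h : T.Normalises W) : MasaOp Ω where
  toFun f := (h.1 f).choose
  map_add' f g := T.emb_inj (by
    rw [(h.1 (f + g)).choose_spec, map_add, map_add, (h.1 f).choose_spec, (h.1 g).choose_spec,
      mul_add, add_mul])
  map_smul' c f := T.emb_inj (by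
    rw [(h.1 (c • f)).choose_spec, RingHom.id_apply, map_smul, map_smul, (h.1 f).choose_spec,
      mul_smul_comm, smul_mul_assoc])

lemma Normalises.emb_conjOp {W : M} (h : T.Normalises W) (f : C(Ω, ℝ)) :
    T.emb (h.conjOp f) = W * T.emb f * Star.star W := (h.1 f).choose_spec

variable (T)

lemma nonneg_of_emb_nonneg {f : C(Ω, ℝ)} (h : 0 ≤ T.emb f) : 0 ≤ f := by
  let n : C(Ω, ℝ) := ⟨fun ω => max (-f ω) 0, by fun_prop⟩
  have hn : 0 ≤ n := fun ω => le_max_right _ _
  have h1 : 0 ≤ T.emb (n * f * n) := by
    have := star_left_conjugate_nonneg h (T.emb n)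
    rwa [T.star_emb, ← map_mul, ← map_mul] at this
  have h2 : n * f * n ≤ 0 := by
    intro ω
    show max (-f ω) 0 * f ω * max (-f ω) 0 ≤ (0 : ℝ)
    rcases le_total (-f ω) 0 with h' | h'
    · simp [max_eq_right h']
    · rw [max_eq_left h']; nlinarith [mul_self_nonneg (f ω), mul_nonneg (mul_self_nonneg (f ω)) h']
  have h3 : T.emb (n * f * n) = 0 := le_antisymm (by simpa using T.emb_mono h2) h1
  have h4 := T.emb_inj (h3.trans (map_zero T.emb).symm)
  intro ω
  have h5 := DFunLike.congr_fun h4 ω
  simp only [n, ContinuousMap.mul_apply, ContinuousMap.coe_mk, ContinuousMap.zero_apply] at h5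
  show (0 : ℝ) ≤ f ω
  by_contra hneg
  simp only [not_le] at hneg
  rw [max_eq_left (by linarith)] at h5
  nlinarith [mul_pos (neg_pos.2 hneg) (neg_pos.2 hneg)]

variable {T}

lemma Normalises.conjOp_pos {W : M} (h : T.Normalises W) : IsPosMap h.conjOp := by
  intro f hf
  refine T.nonneg_of_emb_nonneg ?_
  rw [h.emb_conjOp]
  exact star_right_conjugate_nonneg (T.emb_nonneg hf) W

/-- transposes of conjugations -/
lemma Normalises.tau_mul_conjOp {W : M} (h : T.Normalises W) (g f : C(Ω, ℝ)) :
    T.tau (g * h.conjOp f) = T.tau (h.star.conjOp g * f) := by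
  rw [T.tau_apply, T.tau_apply, map_mul T.emb, map_mul T.emb, h.emb_conjOp, h.star.emb_conjOp, star_star,
    T.tr_mul_comm (T.emb g), ← T.tr_mul_comm (T.emb f)]
  calc T.tr (W * T.emb f * Star.star W * T.emb g)
      = T.tr (W * (T.emb f * Star.star W * T.emb g)) := by simp only [mul_assoc]
    _ = T.tr (T.emb f * Star.star W * T.emb g * W) := T.tr_mul_comm _ _
    _ = _ := by simp only [mul_assoc]

/-- Conjugation by a partial isometry normalising the subalgebra commutes with positive maps
under the diagonal sum. -/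
theorem diagEquiv_partialIsometry {v : M} (h : T.Normalises v) {p s : C(Ω, ℝ)}
    (hp : T.emb p = v * Star.star v) (hs : T.emb s = Star.star v * v) (hpp : p * p = p)
    (hss : s * s = s) (hvs : v * T.emb s = v) (hpv : T.emb p * v = v)
    {S : MasaOp Ω} (hS : IsPosMap S) :
    T.DiagEquiv (h.conjOp.comp S) (S.comp h.conjOp) := by
  set V := h.conjOp with hV
  set V' := h.star.conjOp with hV'
  have hVp : (multOp p).comp V = V := by
    refine LinearMap.ext fun f => T.emb_inj ?_
    simp only [LinearMap.comp_apply, multOp_apply, map_mul, hV, h.emb_conjOp, ← mul_assoc, hpv]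
  -- `ω(V S) = ω(V S p)`
  have step1 : T.DiagEquiv (V.comp S) ((V.comp S).comp (multOp p)) := by
    have := T.diagEquiv_mult (h.conjOp_pos.comp hS) p
    rw [← LinearMap.comp_assoc, hVp] at this
    exact this.symm
  refine step1.trans ?_
  have hV'mul : ∀ a b, V' (a * b) = V' a * V' b := by
    intro a b
    refine T.emb_inj ?_
    simp only [map_mul, hV', h.star.emb_conjOp, star_star]
    have hva : T.emb a * v = T.emb a * v := rfl
    calc Star.star v * (T.emb a * T.emb b) * v
        = Star.star v * (T.emb a * T.emb b) * (T.emb p * v) := by rw [hpv]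
      _ = Star.star v * T.emb a * (T.emb b * T.emb p) * v := by simp only [mul_assoc]
      _ = Star.star v * T.emb a * (T.emb p * T.emb b) * v := by rw [(T.emb_comm b p).eq]
      _ = Star.star v * T.emb a * (v * Star.star v * T.emb b) * v := by rw [hp]
      _ = _ := by simp only [mul_assoc]
  have hV'1 : V' 1 = s := T.emb_inj (by rw [hV', h.star.emb_conjOp, map_one, mul_one, star_star, hs])
  have hsV' : ∀ a, s * V' a = V' a := fun a => by rw [← hV'1, ← hV'mul, one_mul]
  have hVV' : ∀ a, V (V' a) = p * a := by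
    intro a
    refine T.emb_inj ?_
    rw [hV, h.emb_conjOp, hV', h.star.emb_conjOp, star_star, map_mul, hp]
    calc v * (Star.star v * T.emb a * v) * Star.star v
        = T.emb p * (T.emb a * T.emb p) := by rw [hp]; simp only [mul_assoc]
      _ = T.emb p * (T.emb p * T.emb a) := by rw [(T.emb_comm a p).eq]
      _ = v * Star.star v * T.emb a := by rw [← mul_assoc, ← map_mul, hpp, hp]
  have hVs : ∀ a, s * a = 0 → V a = 0 := by
    intro a ha
    refine T.emb_inj ?_
    rw [map_zero, hV, h.emb_conjOp]
    calc v * T.emb a * Star.star v = v * T.emb s * T.emb a * Star.star v := by rw [hvs]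
      _ = v * T.emb (s * a) * Star.star v := by rw [map_mul]; simp only [mul_assoc]
      _ = 0 := by rw [ha, map_zero, mul_zero, zero_mul]
  -- pulled back partitions
  let pull : Part Ω → Part Ω := fun P =>
    { n := P.n + P.n
      e := Fin.append (fun i => V' (P.e i)) (fun i => (1 - s) * P.e i)
      isPartition := by
        refine ⟨fun i => ?_, fun i j hij => ?_, ?_⟩
        · induction i using Fin.addCases with
          | left i => simp only [Fin.append_left]; rw [← hV'mul, P.isPartition.idem]
          | right i =>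
            simp only [Fin.append_right]
            rw [mul_mul_mul_comm, P.isPartition.idem]
            simp [sub_mul, mul_sub, hss]
        · induction i using Fin.addCases with
          | left i =>
            induction j using Fin.addCases with
            | left j =>
              simp only [Fin.append_left]
              rw [← hV'mul, P.isPartition.orth i j (fun hh => hij (by rw [hh])), map_zero]
            | right j =>
              simp only [Fin.append_left, Fin.append_right]
              rw [← hsV' (P.e i), show s * V' (P.e i) * ((1 - s) * P.e j) =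
                (s * (1 - s)) * (V' (P.e i) * P.e j) by ring]
              simp [mul_sub, hss]
          | right i =>
            induction j using Fin.addCases with
            | left j =>
              simp only [Fin.append_left, Fin.append_right]
              rw [← hsV' (P.e j), show (1 - s) * P.e i * (s * V' (P.e j)) =
                (s * (1 - s)) * (V' (P.e j) * P.e i) by ring]
              simp [mul_sub, hss]
            | right j =>
              simp only [Fin.append_right]
              rw [mul_mul_mul_comm, P.isPartition.orth i j (fun hh => hij (by rw [hh])), mul_zero]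
        · rw [Fin.sum_univ_add]
          simp only [Fin.append_left, Fin.append_right, ← Finset.mul_sum, ← map_sum,
            P.isPartition.sum_one, hV'1]
          ring }
  have hexact : ∀ P : Part Ω, T.diag (pull P) (S.comp V) =
      T.diag P ((V.comp S).comp (multOp p)) := by
    intro P
    unfold diag
    rw [show ∀ F : Fin (P.n + P.n) → ℝ, (∑ i : Fin (pull P).n, F i) =
      (∑ i, F (Fin.castAdd P.n i)) + ∑ i, F (Fin.natAdd P.n i) from fun F => Fin.sum_univ_add F]
    simp only [pull, Fin.append_left, Fin.append_right, LinearMap.comp_apply, multOp_apply]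
    have hz : ∀ i, V ((1 - s) * P.e i) = 0 := fun i => hVs _ (by
      rw [← mul_assoc, mul_sub, mul_one, hss, sub_self, zero_mul])
    simp only [hz, map_zero, mul_zero, Finset.sum_const_zero, add_zero, hVV']
    exact Finset.sum_congr rfl fun i _ => (h.tau_mul_conjOp _ _).symm
  have hpull : Tendsto pull atTop atTop := by
    rw [tendsto_atTop]
    intro R₀
    -- the image of `R₀` under `V`, completed by `1 - p`
    let img : Part Ω :=
      { n := R₀.n + 1
        e := Fin.append (fun i => V (R₀.e i)) (fun _ : Fin 1 => 1 - p)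
        isPartition := by
          have hmul : ∀ a b, V (a * b) = V a * V b := by
            intro a b
            refine T.emb_inj ?_
            simp only [map_mul, hV, h.emb_conjOp]
            calc v * (T.emb a * T.emb b) * Star.star v
                = v * T.emb s * (T.emb a * T.emb b) * Star.star v := by rw [hvs]
              _ = v * (T.emb s * T.emb a) * T.emb b * Star.star v := by simp only [mul_assoc]
              _ = v * (T.emb a * T.emb s) * T.emb b * Star.star v := by rw [(T.emb_comm s a).eq]
              _ = v * (T.emb a * (Star.star v * v)) * T.emb b * Star.star v := by rw [hs]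
              _ = _ := by simp only [mul_assoc]
          have hV1 : V 1 = p := T.emb_inj (by rw [hV, h.emb_conjOp, map_one, mul_one, hp])
          have hpV : ∀ a, p * V a = V a := fun a => by rw [← hV1, ← hmul, one_mul]
          refine ⟨fun i => ?_, fun i j hij => ?_, ?_⟩
          · induction i using Fin.addCases with
            | left i => simp only [Fin.append_left]; rw [← hmul, R₀.isPartition.idem]
            | right i => simp only [Fin.append_right]; simp [sub_mul, mul_sub, hpp]
          · induction i using Fin.addCases with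
            | left i =>
              induction j using Fin.addCases with
              | left j =>
                simp only [Fin.append_left]
                rw [← hmul, R₀.isPartition.orth i j (fun hh => hij (by rw [hh])), map_zero]
              | right j =>
                simp only [Fin.append_left, Fin.append_right]
                rw [← hpV (R₀.e i), mul_sub, mul_one, mul_comm (p * _) p, ← mul_assoc, hpp,
                  sub_self]
            | right i =>
              induction j using Fin.addCases with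
              | left j =>
                simp only [Fin.append_left, Fin.append_right]
                rw [← hpV (R₀.e j), ← mul_assoc, sub_mul, one_mul, hpp, sub_self, zero_mul]
              | right j => exact absurd (by rw [Subsingleton.elim i j]) hij
          · rw [Fin.sum_univ_add]
            simp only [Fin.append_left, Fin.append_right, ← map_sum, R₀.isPartition.sum_one, hV1,
              Finset.univ_unique, Finset.sum_singleton]
            ring }
    filter_upwards [eventually_ge_atTop (R₀.inter img)] with P hP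
    have hP1 : R₀ ≤ P := (Part.le_inter_left _ _).trans hP
    have hP2 : img ≤ P := (Part.le_inter_right _ _).trans hP
    intro i j
    revert i
    change ∀ i : Fin (P.n + P.n), _
    intro i
    induction i using Fin.addCases with
    | left i =>
      have h2 := hP2 i (Fin.castAdd 1 j)
      simp only [img, Fin.append_left] at h2
      simp only [pull, Fin.append_left]
      have key : V' (P.e i) * R₀.e j = V' (P.e i * V (R₀.e j)) := by
        rw [hV'mul]
        have : V' (V (R₀.e j)) = s * R₀.e j := by
          refine T.emb_inj ?_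
          rw [hV', h.star.emb_conjOp, hV, h.emb_conjOp, star_star, map_mul, hs]
          calc Star.star v * (v * T.emb (R₀.e j) * Star.star v) * v
              = T.emb s * (T.emb (R₀.e j) * T.emb s) := by rw [hs]; simp only [mul_assoc]
            _ = T.emb s * (T.emb s * T.emb (R₀.e j)) := by rw [(T.emb_comm _ s).eq]
            _ = Star.star v * v * T.emb (R₀.e j) := by rw [← mul_assoc, ← map_mul, hss, hs]
        rw [this, ← mul_assoc, mul_comm _ s, hsV']
      rw [key]
      rcases h2 with h2 | h2 <;> rw [h2]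
      · exact .inl rfl
      · exact .inr (map_zero _)
    | right i =>
      simp only [pull, Fin.append_right, mul_assoc]
      rcases hP1 i j with h1 | h1 <;> rw [h1]
      · exact .inl rfl
      · exact .inr (mul_zero _)
  obtain ⟨l, hl⟩ := T.diag_tendsto (hS.comp h.conjOp_pos)
  have h0 := (hl.comp hpull).sub hl
  rw [sub_self] at h0
  refine h0.congr fun P => ?_
  simp only [Function.comp_apply]
  rw [← hV, hexact P]

/-- Conjugation by a normalising element commutes with positive maps under the diagonal sum. -/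
theorem diagEquiv_conjOp {W : M} (h : T.Normalises W) {S : MasaOp Ω} (hS : IsPosMap S) :
    T.DiagEquiv (h.conjOp.comp S) (S.comp h.conjOp) := by
  refine DiagEquiv.of_approx fun ε hε => ?_
  set U := h.conjOp with hU
  set B := ‖S 1‖ + |T.tau (S 1)| + 1 with hB
  have hB0 : 0 < B := by positivity
  set η := ε / (4 * B) with hη
  have hη0 : 0 < η := by positivity
  let a := U 1
  have ha0 : 0 ≤ a := h.conjOp_pos _ fun ω => by simp
  have hea : T.emb a = W * Star.star W := by simp [a, hU, h.emb_conjOp]
  let g : C(Ω, ℝ) := a - ContinuousMap.const Ω η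
  let q := T.pos g
  have hq01 : ∀ ω, q ω = 0 ∨ q ω = 1 := fun ω => idem_zero_or_one (T.pos_mul_self g) ω
  have hq1 : ∀ ω, q ω = 1 → η ≤ a ω := by
    intro ω hω
    by_cases hm : ω ∈ hull g
    · simpa [g] using nonneg_of_mem_hull hm
    · simp [q, pos_apply, hm] at hω
  have hq0 : ∀ ω, q ω = 0 → a ω ≤ η := by
    intro ω hω
    by_cases hm : ω ∈ hull g
    · simp [q, pos_apply, hm] at hω
    · simpa [g] using nonpos_of_not_mem_hull hm
  let c : C(Ω, ℝ) := ⟨fun ω => q ω / Real.sqrt (max (a ω) η), by
    refine q.continuous.div₀ (by fun_prop) fun ω => ?_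
    exact (Real.sqrt_pos.2 (lt_max_of_lt_right hη0)).ne'⟩
  have hcac : c * a * c = q := by
    ext ω
    simp only [c, ContinuousMap.mul_apply, ContinuousMap.coe_mk]
    rcases hq01 ω with hω | hω <;> rw [hω]
    · simp
    · have h1 := hq1 ω hω
      have h2 : 0 < a ω := hη0.trans_le h1
      rw [max_eq_left h1]
      field_simp
      rw [Real.sq_sqrt h2.le]
  have hqc : q * c = c := by
    ext ω
    simp only [c, ContinuousMap.mul_apply, ContinuousMap.coe_mk]
    rcases hq01 ω with hω | hω <;> simp [hω]
  have hv : T.Normalises (T.emb c * W) := h.emb_mul c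
  have hvp : T.emb q = T.emb c * W * Star.star (T.emb c * W) := by
    rw [← hcac, map_mul, map_mul, hea, star_mul, T.star_emb]
    simp only [mul_assoc]
  obtain ⟨σ, hσ⟩ := hv.2 1
  rw [map_one, mul_one] at hσ
  have hqv : T.emb q * (T.emb c * W) = T.emb c * W := by rw [← mul_assoc, ← map_mul, hqc]
  have hvσ : T.emb c * W * T.emb σ = T.emb c * W := by
    rw [hσ, ← mul_assoc, ← hvp, hqv]
  have hσσ : σ * σ = σ := by
    refine T.emb_inj ?_
    rw [map_mul]
    nth_rewrite 1 [hσ]
    rw [mul_assoc, hvσ, ← hσ]
  have main : ∀ {R : MasaOp Ω}, IsPosMap R → T.DiagEquiv (hv.conjOp.comp R) (R.comp hv.conjOp) :=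
    fun hR => diagEquiv_partialIsometry hv hvp hσ (T.pos_mul_self g) hσσ hvσ hqv hR
  set V := hv.conjOp with hV
  have hVU : ∀ f, V f = c * c * U f := by
    intro f
    refine T.emb_inj ?_
    rw [hV, hv.emb_conjOp, map_mul, map_mul, hU, h.emb_conjOp, star_mul, T.star_emb]
    have hc : Commute (W * T.emb f * Star.star W) (T.emb c) := by
      rw [← h.emb_conjOp]; exact T.emb_comm _ _
    calc T.emb c * W * T.emb f * (Star.star W * T.emb c)
        = T.emb c * ((W * T.emb f * Star.star W) * T.emb c) := by simp only [mul_assoc]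
      _ = T.emb c * (T.emb c * (W * T.emb f * Star.star W)) := by rw [hc.eq]
      _ = _ := by simp only [mul_assoc]
  set f0 := a * q with hf0
  set U₂ := (multOp (1 - q)).comp U with hU₂
  have hsplit : U = (multOp f0).comp V + U₂ := by
    refine LinearMap.ext fun f => ?_
    simp only [LinearMap.add_apply, LinearMap.comp_apply, multOp_apply, hVU, hU₂, hf0]
    rw [show a * q * (c * c * U f) = q * (c * a * c) * U f by ring, hcac]
    have : q * q = q := T.pos_mul_self g
    rw [this]
    ring
  have hU₂pos : IsPosMap U₂ := (isPosMap_multOp (fun ω => by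
    rcases hq01 ω with hω | hω <;> simp [hω])).comp h.conjOp_pos
  have hsmall : ∀ f : C(Ω, ℝ), U₂ f ≤ (η * ‖f‖) • (1 : C(Ω, ℝ)) := by
    intro f
    refine (hU₂pos.mono (le_norm_one f)).trans ?_
    rw [map_smul, mul_comm η, ← smul_smul]
    intro ω
    show ‖f‖ * ((1 - q ω) * a ω) ≤ ‖f‖ * (η * (1 : ℝ))
    refine mul_le_mul_of_nonneg_left ?_ (norm_nonneg f)
    rw [mul_one]
    rcases hq01 ω with hω | hω
    · rw [hω, sub_zero, one_mul]; exact hq0 ω hω
    · rw [hω, sub_self, zero_mul]; exact hη0.le
  have herr1 : ∀ P, |T.diag P (U₂.comp S)| ≤ η * B := by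
    intro P
    rw [abs_of_nonneg (T.diag_nonneg P (hU₂pos.comp hS))]
    refine (T.diag_le_tau P (hU₂pos.comp hS)).trans ((T.tau_mono (hsmall _)).trans ?_)
    rw [map_smul, T.tau_one, smul_eq_mul, mul_one]
    exact mul_le_mul_of_nonneg_left (by rw [hB]; linarith [abs_nonneg (T.tau (S 1))]) hη0.le
  have herr2 : ∀ P, |T.diag P (S.comp U₂)| ≤ η * B := by
    intro P
    rw [abs_of_nonneg (T.diag_nonneg P (hS.comp hU₂pos))]
    refine (T.diag_le_tau P (hS.comp hU₂pos)).trans ?_
    have h1 : U₂ 1 ≤ η • (1 : C(Ω, ℝ)) := by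
      refine (hsmall 1).trans fun ω => ?_
      show η * ‖(1 : C(Ω, ℝ))‖ * (1 : ℝ) ≤ η * (1 : ℝ)
      rw [mul_one, mul_one]
      exact mul_le_of_le_one_right hη0.le ((ContinuousMap.norm_le _ zero_le_one).2 fun x => by simp)
    refine (T.tau_mono (hS.mono h1)).trans ?_
    rw [map_smul, map_smul, smul_eq_mul]
    exact mul_le_mul_of_nonneg_left
      (by rw [hB]; linarith [norm_nonneg (S 1), le_abs_self (T.tau (S 1))]) hη0.le
  have hVpos : IsPosMap V := hv.conjOp_pos
  have e1 : T.DiagEquiv (((multOp f0).comp V).comp S) (S.comp ((multOp f0).comp V)) := by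
    have a1 := (T.diagEquiv_mult (hVpos.comp hS) f0).symm
    have a2 := main (hS.comp (isPosMap_multOp (mul_nonneg' ha0 (idem_nonneg (T.pos_mul_self g)))))
    rw [← LinearMap.comp_assoc] at a1
    rw [← LinearMap.comp_assoc, LinearMap.comp_assoc V (multOp f0) S] at a2
    exact a1.trans a2
  filter_upwards [Metric.tendsto_nhds.1 e1 (ε / 4) (by linarith)] with P hP
  rw [Real.dist_eq, sub_zero] at hP
  have e2 : T.diag P (U.comp S) - T.diag P (S.comp U) =
      (T.diag P (((multOp f0).comp V).comp S) - T.diag P (S.comp ((multOp f0).comp V))) +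
        T.diag P (U₂.comp S) - T.diag P (S.comp U₂) := by
    conv_lhs => rw [hsplit, LinearMap.add_comp, LinearMap.comp_add, T.diag_add, T.diag_add]
    ring
  rw [e2]
  have hηB : η * B = ε / 4 := by rw [hη]; field_simp
  calc |_ + T.diag P (U₂.comp S) - T.diag P (S.comp U₂)|
      ≤ |_ + T.diag P (U₂.comp S)| + |T.diag P (S.comp U₂)| := abs_sub _ _
    _ ≤ (|_| + |T.diag P (U₂.comp S)|) + |T.diag P (S.comp U₂)| :=
        add_le_add (abs_add_le _ _) le_rfl
    _ ≤ ε / 4 + η * B + η * B := add_le_add (add_le_add hP.le (herr1 P)) (herr2 P)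
    _ ≤ ε := by rw [hηB]; linarith

end TMasa

end Vale.Agent.P078
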