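import Mathlib
import Vale.Agent.P078.Expect
import Vale.Agent.P078.OmegaBasic

/-! Up to a map with small diagonal square, the map `h ↦ E (X h X)` is a finite sum of
conjugations by elements normalising the subalgebra. -/

noncomputable section

open scoped ComplexOrder
open Filter Topology

set_option linter.unusedSectionVars false

namespace Vale.Agent.P078

universe u v

variable {M : Type u} [CStarAlgebra M] [PartialOrder M] [StarOrderedRing M]
  {Ω : Type v} [TopologicalSpace Ω] [CompactSpace Ω] [T2Space Ω] (T : TMasa M Ω)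

namespace TMasa

lemma pos_mul_pos_of_le {a b : C(Ω, ℝ)} (h : a ≤ b) : T.pos a * T.pos b = T.pos a := by
  ext ω
  by_cases ha : ω ∈ hull a
  · have hb : ω ∈ hull b := closure_mono (fun y (hy : 0 < a y) => hy.trans_le (h y)) ha
    simp [pos_apply, ha, hb]
  · simp [pos_apply, ha]

lemma pos_mul_pos_eq_zero {a b : C(Ω, ℝ)} (h : ∀ ω, 0 < a ω → b ω ≤ 0) :
    T.pos a * T.pos b = 0 := by
  have h0 : Disjoint {ω | 0 < a ω} {ω | 0 < b ω} :=
    Set.disjoint_left.2 fun ω ha hb => absurd (h ω ha) (not_le.2 hb)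
  have h1 : Disjoint (hull a) {ω | 0 < b ω} :=
    h0.closure_left (isOpen_lt continuous_const b.continuous)
  have h2 : Disjoint (hull a) (hull b) := h1.closure_right (T.isClopen_hull a).isOpen
  ext ω
  by_cases ha : ω ∈ hull a
  · simp [pos_apply, Set.disjoint_left.1 h2 ha]
  · simp [pos_apply, ha]

/-- A selfadjoint element commuting with the idempotents of the subalgebra belongs to it. -/
lemma mem_range_of_comm_idem {y : M} (hsa : IsSelfAdjoint y)
    (hc : ∀ e : C(Ω, ℝ), e * e = e → Commute y (T.emb e)) : ∃ f, T.emb f = y := by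
  refine T.maximal y hsa fun g => ?_
  have hcl : IsClosed {z : M | Commute y z} :=
    isClosed_eq (continuous_const.mul continuous_id) (continuous_id.mul continuous_const)
  refine hcl.closure_subset (Metric.mem_closure_iff.2 fun ε hε => ?_)
  obtain ⟨P, c, hP, -⟩ := T.exists_step g (half_pos hε)
  refine ⟨T.emb (∑ i, c i • P.e i), ?_, ?_⟩
  · simp only [Set.mem_ofPred_eq, map_sum, map_smul]
    exact Commute.sum_right _ _ _ fun i _ => (hc _ (P.isPartition.idem i)).smul_right _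
  · rw [dist_eq_norm, ← map_sub, T.emb_norm]
    linarith

lemma tau_E_sq_le (y : M) : T.tau (T.E y * T.E y) ≤ T.n2 y ^ 2 := by
  have h1 : T.tau (T.E y * T.E y) = T.ip (T.emb (T.E y)) y := by
    rw [T.tau_mul_E, ip, T.star_emb]
  have h2 := (le_abs_self _).trans (T.abs_ip_le (T.emb (T.E y)) y)
  rw [← h1, ← T.n2_emb_sq] at h2
  rw [← T.n2_emb_sq]
  nlinarith [T.n2_nonneg (T.emb (T.E y)), T.n2_nonneg y, sq_nonneg (T.n2 (T.emb (T.E y)) - T.n2 y)]

lemma n2_sq_star_mul_self (z : M) : T.n2 (star z * z) ^ 2 = T.n2 (z * star z) ^ 2 := by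
  simp only [T.n2_sq, ip, star_mul, star_star]
  calc T.tr (star z * z * (star z * z)) = T.tr (star z * (z * star z * z)) := by
        simp only [mul_assoc]
    _ = T.tr (z * star z * z * star z) := T.tr_mul_comm _ _
    _ = _ := by simp only [mul_assoc]

lemma sum_n2_mul_emb_sq (Q : Part Ω) (d : M) :
    ∑ i, T.n2 (d * T.emb (Q.e i)) ^ 2 = T.n2 d ^ 2 := by
  have h : ∀ i, T.n2 (d * T.emb (Q.e i)) ^ 2 = T.tr (star d * d * T.emb (Q.e i)) := by
    intro i
    rw [T.n2_sq, ip, star_mul, T.star_emb]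
    calc T.tr (T.emb (Q.e i) * star d * (d * T.emb (Q.e i)))
        = T.tr (T.emb (Q.e i) * (star d * d * T.emb (Q.e i))) := by simp only [mul_assoc]
      _ = T.tr (star d * d * T.emb (Q.e i) * T.emb (Q.e i)) := T.tr_mul_comm _ _
      _ = _ := by rw [mul_assoc _ (T.emb (Q.e i)), ← map_mul, Q.isPartition.idem]
  simp only [h]
  rw [← map_sum, ← Finset.mul_sum, ← map_sum, Q.isPartition.sum_one, map_one, mul_one, T.n2_sq, ip]

lemma sum_n2_sandwich_sq (Q : Part Ω) (Y : M) :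
    ∑ i, T.n2 (T.emb (Q.e i) * Y * T.emb (Q.e i)) ^ 2 = T.ip Y (T.pinch Q Y) := by
  rw [ip, pinch_apply, Finset.mul_sum, map_sum]
  refine Finset.sum_congr rfl fun i _ => ?_
  set p := T.emb (Q.e i) with hp
  have hpp : p * p = p := by rw [hp, ← map_mul, Q.isPartition.idem]
  rw [T.n2_sq, ip, star_mul, star_mul, hp, T.star_emb, ← hp]
  calc T.tr (p * (star Y * p) * (p * Y * p)) = T.tr (p * (star Y * (p * p * Y * p))) := by
        simp only [mul_assoc]
    _ = T.tr (star Y * (p * Y * p) * p) := by rw [hpp, T.tr_mul_comm]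
    _ = T.tr (star Y * (p * Y * (p * p))) := by simp only [mul_assoc]
    _ = _ := by rw [hpp]

/-! ### blocks -/

/-- `∑ l X r` -/
def blk (X : M) {ι : Type*} [Fintype ι] (l r : ι → C(Ω, ℝ)) : M :=
  ∑ k, T.emb (l k) * X * T.emb (r k)

variable {X : M}

lemma star_blk (hX : IsSelfAdjoint X) {ι : Type*} [Fintype ι] (l r : ι → C(Ω, ℝ)) :
    star (T.blk X l r) = T.blk X r l := by
  simp [blk, hX.star_eq, T.star_emb, mul_assoc]

lemma blk_conj (hX : IsSelfAdjoint X) {ι : Type*} [Fintype ι] (l r : ι → C(Ω, ℝ))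
    (hr : ∀ k m, k ≠ m → r k * r m = 0) (hr2 : ∀ k, r k * r k = r k) (g : C(Ω, ℝ)) :
    T.blk X l r * T.emb g * star (T.blk X l r) =
      ∑ k, T.emb (l k) * (X * T.emb (r k * g) * X) * T.emb (l k) := by
  rw [T.star_blk hX]
  simp only [blk, Finset.sum_mul, Finset.mul_sum]
  refine Finset.sum_congr rfl fun k _ => ?_
  have e : ∀ m, T.emb (l m) * X * T.emb (r m) * T.emb g * (T.emb (r k) * X * T.emb (l k)) =
      T.emb (l m) * X * T.emb (r m * r k * g) * X * T.emb (l k) := by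
    intro m
    rw [show r m * r k * g = r m * g * r k by ring, map_mul, map_mul]
    simp only [mul_assoc]
  simp only [e]
  rw [Finset.sum_eq_single k (fun m _ hm => by simp [hr m k hm]) (by simp), hr2]
  simp only [mul_assoc]

lemma ip_blk (hX : IsSelfAdjoint X) {ι κ : Type*} [Fintype ι] [Fintype κ] (l r : ι → C(Ω, ℝ))
    (l' r' : κ → C(Ω, ℝ))
    (h : ∀ m, (l' m = 0 ∨ r' m = 0) ∨ ∃ k₀, l k₀ * l' m = l' m ∧ r k₀ * r' m = r' m ∧
      ∀ k, k ≠ k₀ → l k * l' m = 0 ∨ r k * r' m = 0) :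
    T.ip (T.blk X l r) (T.blk X l' r') = ∑ m, T.tr (X * T.emb (l' m) * X * T.emb (r' m)) := by
  rw [ip, T.star_blk hX]
  simp only [blk, Finset.sum_mul, Finset.mul_sum, map_sum]
  refine Finset.sum_congr rfl fun m _ => ?_
  have e : ∀ k, T.tr (T.emb (r k) * X * T.emb (l k) * (T.emb (l' m) * X * T.emb (r' m))) =
      T.tr (X * T.emb (l k * l' m) * X * T.emb (r k * r' m)) := by
    intro k
    calc _ = T.tr (T.emb (r k) * (X * T.emb (l k) * T.emb (l' m) * X * T.emb (r' m))) := by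
          simp only [mul_assoc]
      _ = T.tr (X * T.emb (l k) * T.emb (l' m) * X * T.emb (r' m) * T.emb (r k)) :=
          T.tr_mul_comm _ _
      _ = _ := by rw [mul_comm (r k) (r' m), map_mul T.emb, map_mul T.emb]; simp only [mul_assoc]
  simp only [e]
  rcases h m with h0 | ⟨k₀, h1, h2, h3⟩
  · rcases h0 with h0 | h0 <;> simp [h0]
  · rw [Finset.sum_eq_single k₀ (fun k _ hk => by rcases h3 k hk with h4 | h4 <;> simp [h4])
      (by simp), h1, h2]

lemma norm_blk_le (hX : IsSelfAdjoint X) {ι : Type*} [Fintype ι] (l r : ι → C(Ω, ℝ))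
    (hl : ∀ k m, k ≠ m → l k * l m = 0) (hl2 : ∀ k, l k * l k = l k)
    (hr : ∀ k m, k ≠ m → r k * r m = 0) (hr2 : ∀ k, r k * r k = r k) :
    ‖T.blk X l r‖ ≤ ‖X‖ := by
  have : Nontrivial M := ⟨0, 1, fun h => by simpa [← h] using T.tr_one⟩
  have hr1 : (∑ k, r k) * (∑ k, r k) = ∑ k, r k := by
    rw [Finset.sum_mul_sum]
    refine Finset.sum_congr rfl fun k _ => ?_
    rw [Finset.sum_eq_single k (fun m _ hm => hr k m hm.symm) (by simp), hr2]
  have e : star (T.blk X l r) * T.blk X l r =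
      ∑ k, T.emb (r k) * (X * T.emb (l k) * X) * T.emb (r k) := by
    have := T.blk_conj hX r l hl hl2 1
    rw [map_one, mul_one, T.star_blk hX r l] at this
    rw [T.star_blk hX]
    simpa using this
  have hb : ∀ k, X * T.emb (l k) * X ≤ algebraMap ℝ M (‖X‖ ^ 2) := by
    intro k
    have h1 := star_left_conjugate_le_conjugate (T.emb_mono (idem_le_one (hl2 k))) X
    rw [map_one, mul_one, hX.star_eq] at h1
    refine h1.trans ?_
    have := (IsSelfAdjoint.star_mul_self X).le_algebraMap_norm_self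
    rwa [CStarRing.norm_star_mul_self, ← pow_two, hX.star_eq] at this
  have key : star (T.blk X l r) * T.blk X l r ≤ algebraMap ℝ M (‖X‖ ^ 2) := by
    rw [e]
    calc _ ≤ ∑ k, T.emb (r k) * algebraMap ℝ M (‖X‖ ^ 2) * T.emb (r k) :=
          Finset.sum_le_sum fun k _ => (T.emb_selfAdjoint _).conjugate_le_conjugate (hb k)
      _ = ‖X‖ ^ 2 • T.emb (∑ k, r k) := by
          simp [Algebra.algebraMap_eq_smul_one, Finset.smul_sum, ← map_mul, hr2]
      _ ≤ ‖X‖ ^ 2 • T.emb 1 :=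
          smul_le_smul_of_nonneg_left (T.emb_mono (idem_le_one hr1)) (sq_nonneg _)
      _ = _ := by rw [map_one, Algebra.algebraMap_eq_smul_one]
  have h := CStarAlgebra.norm_le_norm_of_nonneg_of_le (star_mul_self_nonneg _) key
  rw [CStarRing.norm_star_mul_self, norm_algebraMap', Real.norm_eq_abs,
    abs_of_nonneg (sq_nonneg _), ← pow_two] at h
  exact (pow_le_pow_iff_left₀ (norm_nonneg _) (norm_nonneg _) two_ne_zero).1 h

/-! ### the threshold projections -/

lemma K_pos' (X : M) : IsPosMap (T.K X) := fun _ hh => T.K_nonneg X hh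

/-- where `K u` is more than half of `K f` and the latter is above the threshold -/
def chi (X : M) (η : ℝ) (f u : C(Ω, ℝ)) : C(Ω, ℝ) :=
  T.pos (T.K X u - (1 / 2 : ℝ) • T.K X f) * T.pos (T.K X f - η • (1 : C(Ω, ℝ)))

variable {η : ℝ}

lemma chi_idem (X : M) (η : ℝ) (f u : C(Ω, ℝ)) :
    T.chi X η f u * T.chi X η f u = T.chi X η f u := by
  unfold chi
  rw [mul_mul_mul_comm, T.pos_mul_self, T.pos_mul_self]

lemma chi_mono {f u u' : C(Ω, ℝ)} (h : u' ≤ u) :
    T.chi X η f u * T.chi X η f u' = T.chi X η f u' := by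
  unfold chi
  rw [mul_mul_mul_comm, T.pos_mul_self, mul_comm (T.pos _) (T.pos (T.K X u' - _)),
    T.pos_mul_pos_of_le]
  exact sub_le_sub_right ((T.K_pos' X).mono h) _

lemma chi_disjoint {f u u' : C(Ω, ℝ)} (h : u + u' ≤ f) :
    T.chi X η f u * T.chi X η f u' = 0 := by
  unfold chi
  rw [mul_mul_mul_comm, T.pos_mul_pos_eq_zero, zero_mul]
  intro ω hω
  have h1 : T.K X (u + u') ω ≤ T.K X f ω := (T.K_pos' X).mono h ω
  simp only [map_add, ContinuousMap.add_apply, ContinuousMap.sub_apply, ContinuousMap.smul_apply,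
    smul_eq_mul] at h1 hω ⊢
  linarith

variable (P₀ : Part Ω)

/-- pieces of the common refinement -/
def piece (Q : Part Ω) (i : Fin Q.n) (j : Fin P₀.n) : C(Ω, ℝ) := Q.e i * P₀.e j

lemma piece_idem (Q : Part Ω) (i : Fin Q.n) (j : Fin P₀.n) :
    piece P₀ Q i j * piece P₀ Q i j = piece P₀ Q i j := by
  rw [piece, mul_mul_mul_comm, Q.isPartition.idem, P₀.isPartition.idem]

lemma sum_piece (Q : Part Ω) : ∑ s : Fin Q.n × Fin P₀.n, piece P₀ Q s.1 s.2 = 1 := by
  simp only [piece, Fintype.sum_prod_type, ← Finset.mul_sum, P₀.isPartition.sum_one, mul_one,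
    Q.isPartition.sum_one]

/-- threshold projection of a piece -/
def cc (X : M) (η : ℝ) (Q : Part Ω) (i : Fin Q.n) (j : Fin P₀.n) : C(Ω, ℝ) :=
  T.chi X η (P₀.e j) (piece P₀ Q i j)

/-- left projections of a block -/
def Lf (X : M) (η : ℝ) (Q : Part Ω) (j j' : Fin P₀.n) (k : Fin Q.n × Fin Q.n) : C(Ω, ℝ) :=
  piece P₀ Q k.2 j' * T.cc P₀ X η Q k.1 j

/-- right projections of a block -/
def Rf (X : M) (η : ℝ) (Q : Part Ω) (j j' : Fin P₀.n) (k : Fin Q.n × Fin Q.n) : C(Ω, ℝ) :=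
  T.Lf P₀ X η Q j' j k.swap

/-- the block of a pair of pieces of `P₀` -/
def pblk (X : M) (η : ℝ) (Q : Part Ω) (j j' : Fin P₀.n) : M :=
  T.blk X (T.Lf P₀ X η Q j j') (T.Rf P₀ X η Q j j')

lemma Lf_idem (Q : Part Ω) (j j' : Fin P₀.n) (k : Fin Q.n × Fin Q.n) :
    T.Lf P₀ X η Q j j' k * T.Lf P₀ X η Q j j' k = T.Lf P₀ X η Q j j' k := by
  rw [Lf, mul_mul_mul_comm, piece_idem, cc, T.chi_idem]

lemma Lf_orth (Q : Part Ω) (j j' : Fin P₀.n) (k m : Fin Q.n × Fin Q.n) (h : k ≠ m) :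
    T.Lf P₀ X η Q j j' k * T.Lf P₀ X η Q j j' m = 0 := by
  rw [Lf, Lf, mul_mul_mul_comm]
  by_cases h2 : k.2 = m.2
  · have h1 : k.1 ≠ m.1 := fun h1 => h (Prod.ext h1 h2)
    rw [cc, cc, T.chi_disjoint (X := X), mul_zero]
    intro ω
    have ha := Q.isPartition.orth _ _ h1
    have := DFunLike.congr_fun ha ω
    simp only [piece, ContinuousMap.add_apply, ContinuousMap.mul_apply,
      ContinuousMap.zero_apply] at this ⊢
    rcases idem_zero_or_one (Q.isPartition.idem k.1) ω with a | a <;>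
      rcases idem_zero_or_one (Q.isPartition.idem m.1) ω with b | b <;>
      rcases idem_zero_or_one (P₀.isPartition.idem j) ω with c | c <;>
      simp_all
  · rw [piece, piece, mul_mul_mul_comm (Q.e k.2), Q.isPartition.orth _ _ h2, zero_mul, zero_mul]

lemma pblk_star (hX : IsSelfAdjoint X) (Q : Part Ω) (j j' : Fin P₀.n) :
    star (T.pblk P₀ X η Q j j') = T.pblk P₀ X η Q j' j := by
  rw [pblk, T.star_blk hX, pblk, blk, blk, ← (Equiv.prodComm (Fin Q.n) (Fin Q.n)).sum_comp]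
  rfl

lemma norm_pblk_le (hX : IsSelfAdjoint X) (Q : Part Ω) (j j' : Fin P₀.n) :
    ‖T.pblk P₀ X η Q j j'‖ ≤ ‖X‖ :=
  T.norm_blk_le hX _ _ (T.Lf_orth P₀ Q j j') (T.Lf_idem P₀ Q j j')
    (fun k m h => T.Lf_orth P₀ Q j' j _ _ fun e => h (Prod.swap_injective e))
    (fun k => T.Lf_idem P₀ Q j' j _)

lemma ip_pblk (hX : IsSelfAdjoint X) {Q Q' : Part Ω} (hQ : Q ≤ Q') (j j' : Fin P₀.n) :
    T.ip (T.pblk P₀ X η Q j j') (T.pblk P₀ X η Q' j j') =
      ∑ m, T.tr (X * T.emb (T.Lf P₀ X η Q' j j' m) * X * T.emb (T.Rf P₀ X η Q' j j' m)) := by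
  refine T.ip_blk hX _ _ _ _ fun m => ?_
  by_cases h1 : Q'.e m.1 = 0
  · exact .inl (.inr (by simp [Rf, Lf, piece, h1]))
  by_cases h2 : Q'.e m.2 = 0
  · exact .inl (.inl (by simp [Lf, piece, h2]))
  obtain ⟨a, ha, ha'⟩ := Part.exists_parent hQ h1
  obtain ⟨b, hb, hb'⟩ := Part.exists_parent hQ h2
  have hsub : ∀ (i : Fin Q'.n) (c : Fin Q.n), Q'.e i * Q.e c = Q'.e i → ∀ l,
      piece P₀ Q c l * piece P₀ Q' i l = piece P₀ Q' i l ∧ piece P₀ Q' i l ≤ piece P₀ Q c l := by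
    intro i c hc l
    have e : piece P₀ Q c l * piece P₀ Q' i l = piece P₀ Q' i l := by
      rw [piece, piece, mul_mul_mul_comm, P₀.isPartition.idem, mul_comm (Q.e c), hc]
    refine ⟨e, fun ω => ?_⟩
    have e' := DFunLike.congr_fun e ω
    simp only [ContinuousMap.mul_apply] at e'
    rcases idem_zero_or_one (piece_idem P₀ Q c l) ω with u | u <;>
      rcases idem_zero_or_one (piece_idem P₀ Q' i l) ω with w | w <;>
      simp_all
  refine .inr ⟨(a, b), ?_, ?_, fun k hk => ?_⟩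
  · rw [Lf, Lf, mul_mul_mul_comm, (hsub m.2 b hb j').1, cc, cc,
      T.chi_mono (hsub m.1 a ha j).2]
  · rw [Rf, Rf, Lf, Lf, mul_mul_mul_comm]
    simp only [Prod.fst_swap, Prod.snd_swap]
    rw [(hsub m.1 a ha j).1, cc, cc, T.chi_mono (hsub m.2 b hb j').2]
  · by_cases hkb : k.2 = b
    · have hka : k.1 ≠ a := fun e => hk (Prod.ext e hkb)
      right
      simp only [Rf, Lf, Prod.snd_swap, piece]
      rw [mul_mul_mul_comm, mul_mul_mul_comm (Q.e k.1), mul_comm (Q.e k.1), ha' _ hka, zero_mul,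
        zero_mul]
    · left
      simp only [Lf, piece]
      rw [mul_mul_mul_comm, mul_mul_mul_comm (Q.e k.2), mul_comm (Q.e k.2), hb' _ hkb, zero_mul,
        zero_mul]

/-- limit blocks -/
lemma exists_pblk_limit (hX : IsSelfAdjoint X) (j j' : Fin P₀.n) :
    ∃ W : M, ‖W‖ ≤ ‖X‖ ∧ T.Tendsto2 atTop (fun Q => T.pblk P₀ X η Q j j') W := by
  have hdiff : ∀ Q Q' : Part Ω, Q ≤ Q' →
      T.n2 (T.pblk P₀ X η Q' j j' - T.pblk P₀ X η Q j j') ^ 2 =
        T.n2 (T.pblk P₀ X η Q j j') ^ 2 - T.n2 (T.pblk P₀ X η Q' j j') ^ 2 := by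
    intro Q Q' h
    have e1 := T.ip_pblk (η := η) P₀ hX h j j'
    have e2 := T.ip_pblk (η := η) P₀ hX (le_refl Q') j j'
    simp only [T.n2_sq, T.ip_sub_left, T.ip_sub_right, T.ip_comm (T.pblk P₀ X η Q' j j')
      (T.pblk P₀ X η Q j j'), e1, ← e2]
    ring
  have hbdd : BddBelow (Set.range fun Q => T.n2 (T.pblk P₀ X η Q j j') ^ 2) :=
    ⟨0, by rintro _ ⟨Q, rfl⟩; positivity⟩
  refine T.exists_limit _ ‖X‖ (fun Q => T.norm_pblk_le P₀ hX Q j j') fun ε hε => ?_
  obtain ⟨P, hP⟩ := exists_lt_of_ciInf_lt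
    (show (⨅ Q, T.n2 (T.pblk P₀ X η Q j j') ^ 2) <
        (⨅ Q, T.n2 (T.pblk P₀ X η Q j j') ^ 2) + ε ^ 2 by
      have : 0 < ε ^ 2 := pow_pos hε 2
      linarith)
  refine ⟨P, fun Q hQ => (pow_le_pow_iff_left₀ (T.n2_nonneg _) hε.le two_ne_zero).1 ?_⟩
  rw [hdiff P Q hQ]
  have := ciInf_le hbdd Q
  linarith

lemma pblk_conj (hX : IsSelfAdjoint X) (Q : Part Ω) (j j' : Fin P₀.n) (g : C(Ω, ℝ)) :
    T.pblk P₀ X η Q j j' * T.emb g * star (T.pblk P₀ X η Q j j') =
      ∑ k, T.emb (T.Lf P₀ X η Q j j' k) * (X * T.emb (T.Rf P₀ X η Q j j' k * g) * X) *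
        T.emb (T.Lf P₀ X η Q j j' k) :=
  T.blk_conj hX _ _ (fun k m h => T.Lf_orth P₀ Q j' j _ _ fun e => h (Prod.swap_injective e))
    (fun k => T.Lf_idem P₀ Q j' j _) g

lemma limit_conj_mem (hX : IsSelfAdjoint X) {j j' : Fin P₀.n} {W : M}
    (hW : T.Tendsto2 atTop (fun Q => T.pblk P₀ X η Q j j') W) (g : C(Ω, ℝ)) :
    ∃ f, T.emb f = W * T.emb g * star W := by
  refine T.mem_range_of_comm_idem ((T.emb_selfAdjoint g).conjugate W) fun p hp => ?_
  have hC : ∀ Q, ‖T.pblk P₀ X η Q j j' * T.emb g‖ ≤ ‖X‖ * ‖g‖ := fun Q =>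
    (norm_mul_le _ _).trans (by rw [T.emb_norm]; gcongr; exact T.norm_pblk_le P₀ hX Q j j')
  have hlim := (hW.mul_const T (T.emb g)).mul T (hW.star' T) hC
  refine (hlim.mul_const T (T.emb p)).unique T ((hlim.const_mul T (T.emb p)).congr' T ?_)
  filter_upwards [eventually_ge_atTop (Part.split p hp)] with Q hQ
  simp only [T.pblk_conj P₀ hX, Finset.mul_sum, Finset.sum_mul]
  refine Finset.sum_congr rfl fun k _ => ?_
  have hl : T.Lf P₀ X η Q j j' k * p = T.Lf P₀ X η Q j j' k ∨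
      T.Lf P₀ X η Q j j' k * p = 0 := by
    unfold Lf piece
    rw [show Q.e k.2 * P₀.e j' * T.cc P₀ X η Q k.1 j * p =
      Q.e k.2 * p * (P₀.e j' * T.cc P₀ X η Q k.1 j) by ring]
    rcases Part.eq_or_zero_of_split hQ k.2 with h | h <;> rw [h]
    · exact .inl (mul_assoc _ _ _).symm
    · exact .inr (zero_mul _)
  set l := T.Lf P₀ X η Q j j' k with hl_def
  rw [← mul_assoc, ← mul_assoc, ← map_mul, mul_comm p, mul_assoc _ (T.emb l) (T.emb p), ← map_mul]
  rcases hl with h | h <;> rw [h] <;> simp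

/-! ### the decomposition -/

lemma tau_K_comp_K (hX : IsSelfAdjoint X) (P : Part Ω) :
    T.diag P ((T.K X).comp (T.K X)) = ∑ i, T.tau (T.K X (P.e i) * T.K X (P.e i)) := by
  refine Finset.sum_congr rfl fun i _ => ?_
  rw [LinearMap.comp_apply, T.tau_mul_K, hX.star_eq]

lemma sum_loss_le (hη : 0 ≤ η) (Q : Part Ω) :
    ∑ s : Fin Q.n × Fin P₀.n, T.tau (((1 - T.cc P₀ X η Q s.1 s.2) * T.K X (piece P₀ Q s.1 s.2)) *
      ((1 - T.cc P₀ X η Q s.1 s.2) * T.K X (piece P₀ Q s.1 s.2))) ≤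
    (∑ j, T.tau (T.K X (P₀.e j) * T.K X (P₀.e j))) -
      (∑ s : Fin Q.n × Fin P₀.n,
        T.tau (T.K X (piece P₀ Q s.1 s.2) * T.K X (piece P₀ Q s.1 s.2))) +
      η * T.tau (T.K X 1) := by
  have h1 : T.K X 1 = ∑ j, T.K X (P₀.e j) := by rw [← map_sum, P₀.isPartition.sum_one]
  rw [h1, map_sum, Finset.mul_sum, Fintype.sum_prod_type_right,
    Fintype.sum_prod_type_right, ← Finset.sum_sub_distrib, ← Finset.sum_add_distrib]
  refine Finset.sum_le_sum fun j _ => ?_
  simp only [← map_sum T.tau]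
  rw [← map_sub T.tau, show η * T.tau (T.K X (P₀.e j)) = T.tau (η • T.K X (P₀.e j)) by
    rw [map_smul, smul_eq_mul], ← map_add T.tau]
  refine T.tau_mono (ContinuousMap.le_def.2 fun ω => ?_)
  simp only [ContinuousMap.add_apply, ContinuousMap.sub_apply, ContinuousMap.sum_apply,
    ContinuousMap.mul_apply, ContinuousMap.one_apply, ContinuousMap.smul_apply, smul_eq_mul]
  have hsum : T.K X (P₀.e j) ω = ∑ i, T.K X (piece P₀ Q i j) ω := by
    rw [← ContinuousMap.sum_apply, ← map_sum]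
    unfold piece
    rw [Part.sum_mul_eq]
  have hb : ∀ i, 0 ≤ T.K X (piece P₀ Q i j) ω := fun i =>
    T.K_nonneg X (idem_nonneg (piece_idem P₀ Q i j)) ω
  have hc : ∀ i, T.cc P₀ X η Q i j ω = 0 ∨ T.cc P₀ X η Q i j ω = 1 := fun i =>
    idem_zero_or_one (T.chi_idem X η _ _) ω
  set B := T.K X (P₀.e j) ω with hB
  have hle : ∀ i, T.K X (piece P₀ Q i j) ω ≤ B := fun i => by
    rw [hsum]; exact Finset.single_le_sum (fun k _ => hb k) (Finset.mem_univ i)
  have hB0 : 0 ≤ B := by rw [hsum]; exact Finset.sum_nonneg fun k _ => hb k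
  have hsq : ∑ i, T.K X (piece P₀ Q i j) ω * B = B * B := by rw [← Finset.sum_mul, ← hsum]
  rcases le_or_gt B η with hBη | hBη
  · have h1 : ∀ i, (1 - T.cc P₀ X η Q i j ω) * T.K X (piece P₀ Q i j) ω *
        ((1 - T.cc P₀ X η Q i j ω) * T.K X (piece P₀ Q i j) ω) ≤
        T.K X (piece P₀ Q i j) ω * T.K X (piece P₀ Q i j) ω := fun i => by
      rcases hc i with h | h <;> rw [h] <;> nlinarith [hb i]
    have h2 : ∀ i, T.K X (piece P₀ Q i j) ω * T.K X (piece P₀ Q i j) ω ≤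
        T.K X (piece P₀ Q i j) ω * B := fun i => mul_le_mul_of_nonneg_left (hle i) (hb i)
    have h3 := Finset.sum_le_sum (s := Finset.univ) fun i _ => h1 i
    have h4 := Finset.sum_le_sum (s := Finset.univ) fun i _ => h2 i
    have h5 : B * B ≤ η * B := mul_le_mul_of_nonneg_right hBη hB0
    linarith
  · have hpos : T.pos (T.K X (P₀.e j) - η • (1 : C(Ω, ℝ))) ω = 1 := by
      have : ω ∈ hull (T.K X (P₀.e j) - η • (1 : C(Ω, ℝ))) :=
        subset_closure (show 0 < (T.K X (P₀.e j) - η • (1 : C(Ω, ℝ))) ω by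
          simp only [ContinuousMap.sub_apply, ContinuousMap.smul_apply, ContinuousMap.one_apply,
            smul_eq_mul]
          linarith)
      simp [pos_apply, this]
    have h1 : ∀ i, (1 - T.cc P₀ X η Q i j ω) * T.K X (piece P₀ Q i j) ω *
        ((1 - T.cc P₀ X η Q i j ω) * T.K X (piece P₀ Q i j) ω) ≤
        T.K X (piece P₀ Q i j) ω * B - T.K X (piece P₀ Q i j) ω * T.K X (piece P₀ Q i j) ω := by
      intro i
      rcases hc i with h | h
      · rw [h]
        have hhalf : T.K X (piece P₀ Q i j) ω ≤ 1 / 2 * B := by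
          simp only [cc, chi, ContinuousMap.mul_apply, hpos, mul_one] at h
          by_cases hm : ω ∈ hull (T.K X (piece P₀ Q i j) - (1 / 2 : ℝ) • T.K X (P₀.e j))
          · rw [pos_apply, Set.indicator_of_mem hm] at h
            simp at h
          · simpa [sub_nonpos] using nonpos_of_not_mem_hull hm
        nlinarith [hb i]
      · rw [h]
        nlinarith [hb i, hle i]
    have h3 := Finset.sum_le_sum (s := Finset.univ) fun i _ => h1 i
    rw [Finset.sum_sub_distrib, hsq] at h3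
    nlinarith

/-- the conjugations by the blocks, followed by the expectation -/
def atomic (X : M) (η : ℝ) (Q : Part Ω) (h : C(Ω, ℝ)) : C(Ω, ℝ) :=
  ∑ k : Fin P₀.n × Fin P₀.n,
    T.E (T.pblk P₀ X η Q k.1 k.2 * T.emb h * star (T.pblk P₀ X η Q k.1 k.2))

lemma atomic_eq (hX : IsSelfAdjoint X) (Q : Part Ω) (h : C(Ω, ℝ)) :
    T.atomic P₀ X η Q h = ∑ s : Fin Q.n × Fin P₀.n, ∑ s' : Fin Q.n × Fin P₀.n,
      piece P₀ Q s'.1 s'.2 * (T.cc P₀ X η Q s.1 s.2 *
        T.K X (piece P₀ Q s.1 s.2 * T.cc P₀ X η Q s'.1 s'.2 * h)) := by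
  unfold atomic
  have e : ∀ j j', T.E (T.pblk P₀ X η Q j j' * T.emb h * star (T.pblk P₀ X η Q j j')) =
      ∑ i, ∑ i', piece P₀ Q i' j' * (T.cc P₀ X η Q i j *
        T.K X (piece P₀ Q i j * T.cc P₀ X η Q i' j' * h)) := by
    intro j j'
    rw [T.pblk_conj P₀ hX, map_sum, Fintype.sum_prod_type]
    refine Finset.sum_congr rfl fun i _ => Finset.sum_congr rfl fun i' _ => ?_
    rw [T.E_mul_emb, T.E_emb_mul, ← mul_assoc, T.Lf_idem, T.K_apply, hX.star_eq]
    simp only [Lf, Rf, Prod.swap_prod_mk, mul_assoc]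
  simp only [e, Fintype.sum_prod_type]
  refine (Finset.sum_congr rfl fun j _ => Finset.sum_comm).trans (Finset.sum_comm.trans ?_)
  exact Finset.sum_congr rfl fun i _ => Finset.sum_congr rfl fun j _ => Finset.sum_comm

lemma atomic_bounds (hX : IsSelfAdjoint X) (Q : Part Ω) {h : C(Ω, ℝ)} (hh : 0 ≤ h) :
    T.atomic P₀ X η Q h ≤ T.K X h ∧ T.K X h - T.atomic P₀ X η Q h ≤
      (∑ s : Fin Q.n × Fin P₀.n,
        (1 - T.cc P₀ X η Q s.1 s.2) * T.K X (piece P₀ Q s.1 s.2 * h)) +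
      ∑ s : Fin Q.n × Fin P₀.n,
        piece P₀ Q s.1 s.2 * T.K X ((1 - T.cc P₀ X η Q s.1 s.2) * h) := by
  set u := fun s : Fin Q.n × Fin P₀.n => piece P₀ Q s.1 s.2 with hu
  set c := fun s : Fin Q.n × Fin P₀.n => T.cc P₀ X η Q s.1 s.2 with hc
  have hu0 : ∀ s, 0 ≤ u s := fun s => idem_nonneg (piece_idem P₀ Q s.1 s.2)
  have hc0 : ∀ s, 0 ≤ c s := fun s => idem_nonneg (T.chi_idem X η _ _)
  have hc1 : ∀ s, c s ≤ 1 := fun s => idem_le_one (T.chi_idem X η _ _)
  have hsum : ∑ s, u s = 1 := sum_piece P₀ Q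
  have hK : T.K X h = ∑ s, ∑ s', u s' * T.K X (u s * h) := by
    simp only [← Finset.sum_mul, hsum, one_mul]
    rw [← map_sum, ← Finset.sum_mul, hsum, one_mul]
  have hA : T.atomic P₀ X η Q h = ∑ s, ∑ s', u s' * (c s * T.K X (u s * c s' * h)) :=
    T.atomic_eq P₀ hX Q h
  have hR : (∑ s, (1 - c s) * T.K X (u s * h)) + ∑ s', u s' * T.K X ((1 - c s') * h) =
      ∑ s, ∑ s', u s' * ((1 - c s) * T.K X (u s * h) + T.K X (u s * (1 - c s') * h)) := by
    simp only [mul_add, Finset.sum_add_distrib]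
    congr 1
    · simp only [← Finset.sum_mul, hsum, one_mul]
    · rw [Finset.sum_comm]
      refine Finset.sum_congr rfl fun s' _ => ?_
      rw [← Finset.mul_sum, ← map_sum]
      simp only [mul_assoc]
      rw [← Finset.sum_mul, hsum, one_mul]
  have hpt : ∀ s s', c s * T.K X (u s * c s' * h) ≤ T.K X (u s * h) ∧
      T.K X (u s * h) - c s * T.K X (u s * c s' * h) ≤
        (1 - c s) * T.K X (u s * h) + T.K X (u s * (1 - c s') * h) := by
    intro s s'
    have hb : 0 ≤ T.K X (u s * c s' * h) :=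
      T.K_nonneg X (mul_nonneg' (mul_nonneg' (hu0 s) (hc0 s')) hh)
    have hd : 0 ≤ T.K X (u s * (1 - c s') * h) :=
      T.K_nonneg X (mul_nonneg' (mul_nonneg' (hu0 s) (sub_nonneg.2 (hc1 s'))) hh)
    have hsplit : T.K X (u s * (1 - c s') * h) = T.K X (u s * h) - T.K X (u s * c s' * h) := by
      rw [← map_sub]; congr 1; ring
    rw [hsplit] at hd ⊢
    refine ⟨fun ω => ?_, fun ω => ?_⟩
    · show c s ω * T.K X (u s * c s' * h) ω ≤ T.K X (u s * h) ω
      have b1 : (0 : ℝ) ≤ T.K X (u s * c s' * h) ω := hb ω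
      have b2 : (0 : ℝ) ≤ T.K X (u s * h) ω - T.K X (u s * c s' * h) ω := hd ω
      have b4 : c s ω ≤ (1 : ℝ) := hc1 s ω
      nlinarith
    · show T.K X (u s * h) ω - c s ω * T.K X (u s * c s' * h) ω ≤
        (1 - c s ω) * T.K X (u s * h) ω + (T.K X (u s * h) ω - T.K X (u s * c s' * h) ω)
      have b2 : (0 : ℝ) ≤ T.K X (u s * h) ω - T.K X (u s * c s' * h) ω := hd ω
      have b4 : c s ω ≤ (1 : ℝ) := hc1 s ω
      nlinarith [mul_nonneg (sub_nonneg.2 b4) b2]
  constructor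
  · rw [hK, hA]
    exact Finset.sum_le_sum fun s _ => Finset.sum_le_sum fun s' _ =>
      mul_mono' (hu0 s') (hpt s s').1
  · show _ ≤ (∑ s, (1 - c s) * T.K X (u s * h)) + ∑ s, u s * T.K X ((1 - c s) * h)
    rw [hR, hK, hA, ← Finset.sum_sub_distrib]
    refine Finset.sum_le_sum fun s _ => ?_
    rw [← Finset.sum_sub_distrib]
    refine Finset.sum_le_sum fun s' _ => ?_
    rw [← mul_sub]
    exact mul_mono' (hu0 s') (hpt s s').2

lemma piece_orth (Q : Part Ω) (s t : Fin Q.n × Fin P₀.n) (h : s ≠ t) :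
    piece P₀ Q s.1 s.2 * piece P₀ Q t.1 t.2 = 0 := by
  rw [piece, piece, mul_mul_mul_comm]
  by_cases h1 : s.1 = t.1
  · rw [P₀.isPartition.orth _ _ (fun h2 => h (Prod.ext h1 h2)), mul_zero]
  · rw [Q.isPartition.orth _ _ h1, zero_mul]

/-- first error term -/
def lossL (X : M) (η : ℝ) (Q : Part Ω) (h : C(Ω, ℝ)) : C(Ω, ℝ) :=
  ∑ s : Fin Q.n × Fin P₀.n, (1 - T.cc P₀ X η Q s.1 s.2) * T.K X (piece P₀ Q s.1 s.2 * h)

/-- second error term -/
def lossR (X : M) (η : ℝ) (Q : Part Ω) (h : C(Ω, ℝ)) : C(Ω, ℝ) :=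
  ∑ s : Fin Q.n × Fin P₀.n, piece P₀ Q s.1 s.2 * T.K X ((1 - T.cc P₀ X η Q s.1 s.2) * h)

/-- total loss at a partition -/
def loss (X : M) (η : ℝ) (Q : Part Ω) : ℝ :=
  ∑ s : Fin Q.n × Fin P₀.n, T.tau (((1 - T.cc P₀ X η Q s.1 s.2) * T.K X (piece P₀ Q s.1 s.2)) *
    ((1 - T.cc P₀ X η Q s.1 s.2) * T.K X (piece P₀ Q s.1 s.2)))

lemma loss_le (hη : 0 ≤ η) (Q : Part Ω) :
    T.loss P₀ X η Q ≤ (∑ j, T.tau (T.K X (P₀.e j) * T.K X (P₀.e j))) -
      (∑ j, T.tau (T.K X ((Q.inter P₀).e j) * T.K X ((Q.inter P₀).e j))) +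
      η * T.tau (T.K X 1) := by
  have e : ∑ j, T.tau (T.K X ((Q.inter P₀).e j) * T.K X ((Q.inter P₀).e j)) =
      ∑ s : Fin Q.n × Fin P₀.n,
        T.tau (T.K X (piece P₀ Q s.1 s.2) * T.K X (piece P₀ Q s.1 s.2)) :=
    finProdFinEquiv.symm.sum_comp (fun s : Fin Q.n × Fin P₀.n =>
      T.tau (T.K X (piece P₀ Q s.1 s.2) * T.K X (piece P₀ Q s.1 s.2)))
  rw [e]
  exact T.sum_loss_le P₀ hη Q

lemma sum_lossL_sq_le {Q R : Part Ω} (hR : Q.inter P₀ ≤ R) :
    ∑ i, T.tau (T.lossL P₀ X η Q (R.e i) * T.lossL P₀ X η Q (R.e i)) ≤ T.loss P₀ X η Q := by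
  set a := fun (s : Fin Q.n × Fin P₀.n) (i : Fin R.n) =>
    (1 - T.cc P₀ X η Q s.1 s.2) * T.K X (piece P₀ Q s.1 s.2 * R.e i) with ha
  have h1 : ∀ i, T.lossL P₀ X η Q (R.e i) * T.lossL P₀ X η Q (R.e i) = ∑ s, a s i * a s i := by
    intro i
    show (∑ s, a s i) * (∑ s, a s i) = _
    by_cases hi : R.e i = 0
    · simp [ha, hi]
    obtain ⟨k, -, hk⟩ := Part.exists_parent hR hi
    have hz : ∀ s, s ≠ finProdFinEquiv.symm k → a s i = 0 := by
      intro s hs
      have h2 := hk (finProdFinEquiv s) fun e => hs (by rw [← e, Equiv.symm_apply_apply])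
      simp only [Part.inter, Equiv.symm_apply_apply] at h2
      simp only [ha, piece]
      rw [mul_comm (Q.e s.1 * P₀.e s.2), h2, map_zero, mul_zero]
    rw [Finset.sum_eq_single (finProdFinEquiv.symm k) (fun s _ hs => hz s hs) (by simp),
      Finset.sum_eq_single (finProdFinEquiv.symm k) (fun s _ hs => by simp [hz s hs]) (by simp)]
  have h2 : ∀ s, ∑ i, a s i = (1 - T.cc P₀ X η Q s.1 s.2) * T.K X (piece P₀ Q s.1 s.2) := by
    intro s
    simp only [ha]
    rw [← Finset.mul_sum, ← map_sum, ← Finset.mul_sum, R.isPartition.sum_one, mul_one]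
  simp only [h1, map_sum]
  rw [Finset.sum_comm, loss]
  refine Finset.sum_le_sum fun s _ => ?_
  rw [← h2, ← map_sum T.tau]
  refine T.tau_mono (ContinuousMap.le_def.2 fun ω => ?_)
  simp only [← pow_two, ContinuousMap.sum_apply, ContinuousMap.pow_apply]
  refine Finset.sum_sq_le_sq_sum_of_nonneg (f := fun i => a s i ω) fun i _ => ?_
  exact mul_nonneg' (sub_nonneg.2 (idem_le_one (T.chi_idem X η _ _)))
    (T.K_nonneg X (mul_nonneg' (idem_nonneg (piece_idem P₀ Q s.1 s.2)) (R.nonneg i))) ω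

lemma sum_lossR_sq_le (hX : IsSelfAdjoint X) (Q : Part Ω) {ε : ℝ} (hε : 0 < ε) :
    ∀ᶠ R : Part Ω in atTop,
      ∑ i, T.tau (T.lossR P₀ X η Q (R.e i) * T.lossR P₀ X η Q (R.e i)) ≤
        T.loss P₀ X η Q + ε := by
  set u := fun s : Fin Q.n × Fin P₀.n => piece P₀ Q s.1 s.2 with hu
  set o := fun s : Fin Q.n × Fin P₀.n => 1 - T.cc P₀ X η Q s.1 s.2 with ho
  have huu : ∀ s, u s * u s = u s := fun s => piece_idem P₀ Q s.1 s.2
  have hoo : ∀ s, o s * o s = o s := fun s => by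
    have := T.chi_idem X η (P₀.e s.2) (piece P₀ Q s.1 s.2)
    simp only [ho, cc, sub_mul, mul_sub, one_mul, mul_one, this]
    ring
  set Y := fun s => T.emb (o s) * (X * T.emb (u s) * X) * T.emb (o s) with hY
  have hYsa : ∀ s, IsSelfAdjoint (Y s) := fun s => by
    simp [hY, isSelfAdjoint_iff, T.star_emb, hX.star_eq, mul_assoc]
  have hEY : ∀ s, T.E (Y s) = o s * T.K X (u s) := fun s => by
    simp only [hY]
    rw [T.E_mul_emb, T.E_emb_mul, ← mul_assoc, hoo, T.K_apply, hX.star_eq]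
  have hbound : ∀ R : Part Ω, ∑ i, T.tau (T.lossR P₀ X η Q (R.e i) * T.lossR P₀ X η Q (R.e i)) ≤
      ∑ s, T.ip (Y s) (T.pinch R (Y s)) := by
    intro R
    have e : ∀ i, T.lossR P₀ X η Q (R.e i) * T.lossR P₀ X η Q (R.e i) =
        ∑ s, (u s * T.K X (o s * R.e i)) * (u s * T.K X (o s * R.e i)) := by
      intro i
      show (∑ s, u s * T.K X (o s * R.e i)) * (∑ s, u s * T.K X (o s * R.e i)) = _
      rw [Finset.sum_mul_sum]
      refine Finset.sum_congr rfl fun s _ => ?_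
      rw [Finset.sum_eq_single s (fun t _ ht => ?_) (by simp)]
      rw [mul_mul_mul_comm, piece_orth P₀ Q s t ht.symm, zero_mul]
    simp only [e, map_sum]
    rw [Finset.sum_comm]
    refine Finset.sum_le_sum fun s _ => ?_
    rw [← T.sum_n2_sandwich_sq]
    refine Finset.sum_le_sum fun i _ => ?_
    set z := T.emb (o s * R.e i) * X * T.emb (u s) with hz
    have hidem : o s * R.e i * (o s * R.e i) = o s * R.e i := by
      rw [mul_mul_mul_comm, hoo, R.isPartition.idem]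
    have hzz : star z * z = T.emb (u s) * (X * T.emb (o s * R.e i) * X) * T.emb (u s) := by
      rw [hz, star_mul, star_mul, T.star_emb, T.star_emb, hX.star_eq]
      conv_rhs => rw [← hidem, map_mul]
      simp only [mul_assoc]
    have hzz' : z * star z = T.emb (R.e i) * Y s * T.emb (R.e i) := by
      rw [hz, star_mul, star_mul, T.star_emb, T.star_emb, hX.star_eq]
      have hu2 : T.emb (u s) * T.emb (u s) = T.emb (u s) := by rw [← map_mul, huu]
      calc T.emb (o s * R.e i) * X * T.emb (u s) * (T.emb (u s) * (X * T.emb (o s * R.e i)))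
          = T.emb (o s * R.e i) * (X * (T.emb (u s) * T.emb (u s)) * X) *
              T.emb (o s * R.e i) := by simp only [mul_assoc]
        _ = _ := by
          rw [hu2, map_mul T.emb (o s)]
          nth_rw 1 [(T.emb_comm (o s) (R.e i)).eq]
          simp only [hY, mul_assoc]
    have hEz : T.E (star z * z) = u s * T.K X (o s * R.e i) := by
      rw [hzz, T.E_mul_emb, T.E_emb_mul, ← mul_assoc, huu, T.K_apply, hX.star_eq]
    rw [← hEz, ← hzz', ← T.n2_sq_star_mul_self]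
    exact T.tau_E_sq_le _
  have hlim : Tendsto (fun R => ∑ s, T.ip (Y s) (T.pinch R (Y s))) atTop
      (𝓝 (T.loss P₀ X η Q)) := by
    refine tendsto_finsetSum _ fun s _ => ?_
    have h := (T.tendsto_pinch (hYsa s)).ip_tendsto T (Y s)
    convert h using 2
    rw [T.ip_comm, ip, T.star_emb, ← T.tau_mul_E, hEY]
  filter_upwards [hlim.eventually (gt_mem_nhds (show T.loss P₀ X η Q < T.loss P₀ X η Q + ε by
    linarith))] with R hR
  exact (hbound R).trans hR.le

lemma sum_diff_sq_le {d d' : M} {C : ℝ} (hd : ‖d‖ ≤ C) (hd' : ‖d'‖ ≤ C) (R : Part Ω) :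
    ∑ i, T.n2 (d * T.emb (R.e i) * star d - d' * T.emb (R.e i) * star d') ^ 2 ≤
      4 * C ^ 2 * T.n2 (d - d') ^ 2 := by
  rw [← T.sum_n2_mul_emb_sq R, Finset.mul_sum]
  refine Finset.sum_le_sum fun i _ => ?_
  have e : d * T.emb (R.e i) * star d - d' * T.emb (R.e i) * star d' =
      (d - d') * T.emb (R.e i) * star d + d' * star ((d - d') * T.emb (R.e i)) := by
    simp only [star_mul, star_sub, T.star_emb, sub_mul, mul_sub, mul_assoc]
    abel
  have h : T.n2 (d * T.emb (R.e i) * star d - d' * T.emb (R.e i) * star d') ≤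
      2 * C * T.n2 ((d - d') * T.emb (R.e i)) := by
    rw [e]
    refine (T.n2_add _ _).trans ?_
    have a1 := T.n2_mul_right (star d) ((d - d') * T.emb (R.e i))
    have a2 := T.n2_mul_left d' (star ((d - d') * T.emb (R.e i)))
    rw [norm_star] at a1
    rw [T.n2_star] at a2
    nlinarith [T.n2_nonneg ((d - d') * T.emb (R.e i))]
  refine (pow_le_pow_left₀ (T.n2_nonneg _) h 2).trans (le_of_eq ?_)
  ring

lemma diagEquiv_sum {ι : Type*} [DecidableEq ι] (s : Finset ι) (A B : ι → MasaOp Ω)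
    (h : ∀ k ∈ s, T.DiagEquiv (A k) (B k)) : T.DiagEquiv (∑ k ∈ s, A k) (∑ k ∈ s, B k) := by
  induction s using Finset.induction with
  | empty => simpa using DiagEquiv.rfl' (T := T) (0 : MasaOp Ω)
  | insert a t ha ih =>
    rw [Finset.sum_insert ha, Finset.sum_insert ha]
    exact (h a (Finset.mem_insert_self a t)).add (ih fun k hk => h k (Finset.mem_insert_of_mem hk))

/-- Up to a map with small diagonal square, `h ↦ E (X h X)` is a symmetric map commuting with
positive maps under the diagonal sum. -/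
theorem exists_atomic (hX : IsSelfAdjoint X) {δ : ℝ} (hδ : 0 < δ) :
    ∃ U : MasaOp Ω, (∀ S, IsPosMap S → T.DiagEquiv (U.comp S) (S.comp U)) ∧
      (∀ g h, T.tau (g * U h) = T.tau (U g * h)) ∧
      ∀ᶠ R : Part Ω in atTop,
        ∑ i, T.tau ((T.K X (R.e i) - U (R.e i)) * (T.K X (R.e i) - U (R.e i))) ≤ δ := by
  set D : Part Ω → ℝ := fun P => ∑ i, T.tau (T.K X (P.e i) * T.K X (P.e i)) with hD
  have hbdd : BddBelow (Set.range D) := ⟨0, by
    rintro _ ⟨P, rfl⟩
    exact Finset.sum_nonneg fun i _ => T.tau_nonneg (mul_nonneg'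
      (T.K_nonneg X (P.nonneg i)) (T.K_nonneg X (P.nonneg i)))⟩
  obtain ⟨P₀, hP₀⟩ := exists_lt_of_ciInf_lt (show (⨅ P, D P) < (⨅ P, D P) + δ / 32 by linarith)
  have hK1 : 0 ≤ T.tau (T.K X 1) := T.tau_nonneg (T.K_nonneg X fun ω => by simp)
  set η := δ / (32 * (T.tau (T.K X 1) + 1)) with hη
  have hη0 : 0 < η := by positivity
  have hloss : ∀ Q, T.loss P₀ X η Q ≤ δ / 16 := by
    intro Q
    refine (T.loss_le P₀ hη0.le Q).trans ?_
    have h1 : η * T.tau (T.K X 1) ≤ δ / 32 := by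
      rw [hη, div_mul_eq_mul_div, div_le_iff₀ (by positivity)]
      nlinarith
    have h2 := ciInf_le hbdd (Q.inter P₀)
    show D P₀ - D (Q.inter P₀) + _ ≤ _
    linarith
  choose W hWn hWl using fun k : Fin P₀.n × Fin P₀.n =>
    T.exists_pblk_limit (η := η) P₀ hX k.1 k.2
  have hWstar : ∀ k, star (W k) = W k.swap := by
    intro k
    have h := (hWl k).star' T
    simp only [T.pblk_star P₀ hX] at h
    exact h.unique T (hWl k.swap)
  have hnorm : ∀ k, T.Normalises (W k) := by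
    intro k
    refine ⟨T.limit_conj_mem P₀ hX (hWl k), fun g => ?_⟩
    obtain ⟨f, hf⟩ := T.limit_conj_mem P₀ hX (hWl k.swap) g
    exact ⟨f, by rw [hf, ← hWstar, star_star]⟩
  set U : MasaOp Ω := ∑ k, (hnorm k).conjOp with hU
  have hUe : ∀ h, T.emb (U h) = ∑ k, W k * T.emb h * star (W k) := fun h => by
    simp [hU, LinearMap.sum_apply, Normalises.emb_conjOp]
  refine ⟨U, fun S hS => ?_, fun g h => ?_, ?_⟩
  · have e1 : U.comp S = ∑ k, (hnorm k).conjOp.comp S := by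
      refine LinearMap.ext fun f => ?_
      simp [hU, LinearMap.sum_apply]
    have e2 : S.comp U = ∑ k, S.comp (hnorm k).conjOp := by
      refine LinearMap.ext fun f => ?_
      simp [hU, LinearMap.sum_apply, map_sum]
    rw [e1, e2]
    exact T.diagEquiv_sum _ _ _ fun k _ => diagEquiv_conjOp (hnorm k) hS
  · have e : U g = ∑ k, (hnorm k).star.conjOp g := by
      refine T.emb_inj ?_
      rw [hUe, map_sum]
      simp only [Normalises.emb_conjOp, star_star]
      rw [← (Equiv.prodComm (Fin P₀.n) (Fin P₀.n)).sum_comp]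
      refine Finset.sum_congr rfl fun k _ => ?_
      rw [Equiv.prodComm_apply, ← hWstar, star_star]
    rw [e, Finset.sum_mul, map_sum]
    simp only [hU, LinearMap.sum_apply, Finset.mul_sum, map_sum]
    exact Finset.sum_congr rfl fun k _ => (hnorm k).tau_mul_conjOp g h
  · set N : ℝ := (Fintype.card (Fin P₀.n × Fin P₀.n) : ℝ) with hN
    have hN0 : 0 ≤ N := Nat.cast_nonneg _
    set b := δ / (32 * (N + 1) ^ 2 * (‖X‖ ^ 2 + 1)) with hb
    have hb0 : 0 < b := by positivity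
    have hev : ∀ᶠ Q : Part Ω in atTop,
        ∀ k, T.n2 (T.pblk P₀ X η Q k.1 k.2 - W k) ^ 2 ≤ b := by
      refine eventually_all.2 fun k => ?_
      have h := Tendsto.pow (hWl k) 2
      rw [zero_pow two_ne_zero] at h
      exact (h.eventually (gt_mem_nhds hb0)).mono fun Q hQ => hQ.le
    obtain ⟨Q, hQ⟩ := hev.exists
    filter_upwards [eventually_ge_atTop (Q.inter P₀),
      T.sum_lossR_sq_le (η := η) P₀ hX Q (show 0 < δ / 32 by linarith)] with R hR hR2
    set z := fun (k : Fin P₀.n × Fin P₀.n) (i : Fin R.n) =>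
      T.E (T.pblk P₀ X η Q k.1 k.2 * T.emb (R.e i) * star (T.pblk P₀ X η Q k.1 k.2) -
        W k * T.emb (R.e i) * star (W k)) with hz
    have hsplit : ∀ i, T.K X (R.e i) - U (R.e i) =
        (T.K X (R.e i) - T.atomic P₀ X η Q (R.e i)) + ∑ k, z k i := by
      intro i
      have : T.E (T.emb (U (R.e i))) = U (R.e i) := T.E_emb _
      rw [hUe, map_sum] at this
      simp only [hz, map_sub, Finset.sum_sub_distrib, this, atomic]
      abel
    have hterm : ∀ i, T.tau ((T.K X (R.e i) - U (R.e i)) * (T.K X (R.e i) - U (R.e i))) ≤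
        4 * T.tau (T.lossL P₀ X η Q (R.e i) * T.lossL P₀ X η Q (R.e i)) +
        4 * T.tau (T.lossR P₀ X η Q (R.e i) * T.lossR P₀ X η Q (R.e i)) +
        2 * N * ∑ k, T.tau (z k i * z k i) := by
      intro i
      obtain ⟨b1, b2⟩ := T.atomic_bounds (η := η) P₀ hX Q (R.nonneg i)
      simp only [← smul_eq_mul, ← map_smul T.tau, ← map_sum T.tau, ← map_add T.tau]
      refine T.tau_mono (ContinuousMap.le_def.2 fun ω => ?_)
      rw [hsplit]
      simp only [smul_eq_mul, ContinuousMap.add_apply, ContinuousMap.mul_apply,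
        ContinuousMap.smul_apply, ContinuousMap.sum_apply, ContinuousMap.sub_apply]
      have c1 : T.atomic P₀ X η Q (R.e i) ω ≤ T.K X (R.e i) ω := b1 ω
      have c2 : T.K X (R.e i) ω - T.atomic P₀ X η Q (R.e i) ω ≤
          T.lossL P₀ X η Q (R.e i) ω + T.lossR P₀ X η Q (R.e i) ω := b2 ω
      have c3 := sq_sum_le_card_mul_sum_sq (s := Finset.univ) (f := fun k => z k i ω)
      simp only [Finset.card_univ, ← hN, pow_two] at c3
      nlinarith [sq_nonneg (T.lossL P₀ X η Q (R.e i) ω - T.lossR P₀ X η Q (R.e i) ω),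
        sq_nonneg ((T.K X (R.e i) ω - T.atomic P₀ X η Q (R.e i) ω) - ∑ k, z k i ω)]
    refine (Finset.sum_le_sum fun i _ => hterm i).trans ?_
    rw [Finset.sum_add_distrib, Finset.sum_add_distrib, ← Finset.mul_sum, ← Finset.mul_sum,
      ← Finset.mul_sum, Finset.sum_comm]
    have hz2 : ∀ k, ∑ i, T.tau (z k i * z k i) ≤ 4 * ‖X‖ ^ 2 * b := by
      intro k
      refine (Finset.sum_le_sum fun i _ => T.tau_E_sq_le _).trans ?_
      exact (T.sum_diff_sq_le (T.norm_pblk_le P₀ hX Q k.1 k.2) (hWn k) R).trans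
        (mul_le_mul_of_nonneg_left (hQ k) (by positivity))
    have hz3 : ∑ k, ∑ i, T.tau (z k i * z k i) ≤ N * (4 * ‖X‖ ^ 2 * b) := by
      refine (Finset.sum_le_sum fun k _ => hz2 k).trans ?_
      simp [hN]
    have hz4 : 2 * N * (N * (4 * ‖X‖ ^ 2 * b)) ≤ δ / 4 := by
      rw [hb]
      have : (N * N) * ‖X‖ ^ 2 ≤ (N + 1) ^ 2 * (‖X‖ ^ 2 + 1) :=
        mul_le_mul (by nlinarith) (by linarith) (sq_nonneg _) (sq_nonneg _)
      field_simp
      nlinarith
    have h1 := (T.sum_lossL_sq_le (X := X) (η := η) P₀ hR).trans (hloss Q)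
    have h3 := mul_le_mul_of_nonneg_left hz3 (by positivity : 0 ≤ 2 * N)
    have h4 := hloss Q
    linarith

end TMasa

end Vale.Agent.P078
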