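import Mathlib
import Vale.Agent.P078.OmegaDefs
import Vale.Agent.P078.OmegaAtom

/-! The diagonal functional on the generated algebra is a trace. -/

noncomputable section

open scoped ComplexOrder
open Filter Topology

set_option linter.unusedSectionVars false

namespace Vale.Agent.P078

universe u v

variable {M : Type u} [CStarAlgebra M] [PartialOrder M] [StarOrderedRing M]
  {Ω : Type v} [TopologicalSpace Ω] [CompactSpace Ω] [T2Space Ω] (T : TMasa M Ω)

namespace TMasa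

/-- positive maps having a positive transpose -/
def Good (S : MasaOp Ω) : Prop :=
  IsPosMap S ∧ ∃ S', IsPosMap S' ∧ ∀ f g, T.tau (f * S g) = T.tau (S' f * g)

/-- differences of positive maps having positive transposes -/
def IsDiff (W : MasaOp Ω) : Prop := ∃ S R, T.Good S ∧ T.Good R ∧ W = S - R

variable {T}

lemma Good.add {S R : MasaOp Ω} (hS : T.Good S) (hR : T.Good R) : T.Good (S + R) := by
  obtain ⟨h1, S', h2, h3⟩ := hS
  obtain ⟨k1, R', k2, k3⟩ := hR
  refine ⟨fun h hh => add_nonneg (h1 h hh) (k1 h hh), S' + R',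
    fun h hh => add_nonneg (h2 h hh) (k2 h hh), fun f g => ?_⟩
  simp only [LinearMap.add_apply, mul_add, add_mul, map_add, h3, k3]

lemma Good.mul {S R : MasaOp Ω} (hS : T.Good S) (hR : T.Good R) : T.Good (S * R) := by
  obtain ⟨h1, S', h2, h3⟩ := hS
  obtain ⟨k1, R', k2, k3⟩ := hR
  exact ⟨h1.comp k1, R' * S', k2.comp h2, fun f g => (h3 f _).trans (k3 _ g)⟩

lemma IsDiff.add {W W' : MasaOp Ω} (h : T.IsDiff W) (h' : T.IsDiff W') : T.IsDiff (W + W') := by
  obtain ⟨S, R, hS, hR, rfl⟩ := h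
  obtain ⟨S', R', hS', hR', rfl⟩ := h'
  exact ⟨S + S', R + R', hS.add hS', hR.add hR', by abel⟩

lemma IsDiff.mul {W W' : MasaOp Ω} (h : T.IsDiff W) (h' : T.IsDiff W') : T.IsDiff (W * W') := by
  obtain ⟨S, R, hS, hR, rfl⟩ := h
  obtain ⟨S', R', hS', hR', rfl⟩ := h'
  refine ⟨S * S' + R * R', S * R' + R * S', (hS.mul hS').add (hR.mul hR'),
    (hS.mul hR').add (hR.mul hS'), ?_⟩
  rw [sub_mul, mul_sub, mul_sub]
  abel

variable (T)

lemma good_mlt {f : C(Ω, ℝ)} (hf : 0 ≤ f) : T.Good (mlt f) :=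
  ⟨isPosMap_multOp hf, mlt f, isPosMap_multOp hf, fun g h => congrArg T.tau (by
    show g * (f * h) = f * g * h
    ring)⟩

lemma good_K {X : M} (hX : IsSelfAdjoint X) : T.Good (T.K X) :=
  ⟨T.K_pos' X, T.K X, T.K_pos' X, fun f g => by rw [T.tau_mul_K, hX.star_eq, mul_comm g]⟩

lemma isDiff_mlt (f : C(Ω, ℝ)) : T.IsDiff (mlt f) := by
  let p : C(Ω, ℝ) := ⟨fun ω => max (f ω) 0, by fun_prop⟩
  let n : C(Ω, ℝ) := ⟨fun ω => max (-f ω) 0, by fun_prop⟩
  refine ⟨mlt p, mlt n, T.good_mlt fun ω => le_max_right _ _, T.good_mlt fun ω => le_max_right _ _,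
    LinearMap.ext fun h => ContinuousMap.ext fun ω => ?_⟩
  show f ω * h ω = max (f ω) 0 * h ω - max (-f ω) 0 * h ω
  rw [← sub_mul]
  congr 1
  rcases le_total (f ω) 0 with h' | h'
  · rw [max_eq_right h', max_eq_left (neg_nonneg.2 h')]; ring
  · rw [max_eq_left h', max_eq_right (neg_nonpos.2 h')]; ring

lemma isDiff_K {X : M} (hX : IsSelfAdjoint X) : T.IsDiff (T.K X) :=
  ⟨T.K X, mlt 0, T.good_K hX, T.good_mlt le_rfl,
    LinearMap.ext fun h => by simp [mlt]⟩

lemma mlt_algebraMap (c : ℝ) :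
    algebraMap ℝ (Module.End ℝ C(Ω, ℝ)) c = mlt (c • (1 : C(Ω, ℝ))) :=
  LinearMap.ext fun h => by simp [mlt, Module.algebraMap_end_apply]

lemma isDiff_of_mem {W : Module.End ℝ C(Ω, ℝ)} (hW : W ∈ T.TT) : T.IsDiff W := by
  induction hW using Algebra.adjoin_induction with
  | mem x hx =>
    rcases hx with ⟨f, rfl⟩ | ⟨X, hX, rfl⟩
    · exact T.isDiff_mlt f
    · exact T.isDiff_K hX
  | algebraMap r =>
    rw [mlt_algebraMap]
    exact T.isDiff_mlt _
  | add x y _ _ hx hy => exact hx.add hy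
  | mul x y _ _ hx hy => exact hx.mul hy

/-- Every element of the algebra has a transpose in the algebra. -/
theorem exists_adjoint {W : Module.End ℝ C(Ω, ℝ)} (hW : W ∈ T.TT) :
    ∃ V ∈ T.TT, ∀ f g, T.tau (f * W g) = T.tau (V f * g) := by
  induction hW using Algebra.adjoin_induction with
  | mem x hx =>
    rcases hx with ⟨f, rfl⟩ | ⟨X, hX, rfl⟩
    · exact ⟨mlt f, T.mlt_mem f, fun g h => congrArg T.tau (by
        show g * (f * h) = f * g * h
        ring)⟩
    · exact ⟨T.K X, T.K_mem hX, fun f g => by rw [T.tau_mul_K, hX.star_eq, mul_comm g]⟩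
  | algebraMap r =>
    refine ⟨algebraMap ℝ _ r, T.TT.algebraMap_mem r, fun f g => ?_⟩
    simp [Module.algebraMap_end_apply]
  | add x y _ _ hx hy =>
    obtain ⟨V, hV, h⟩ := hx
    obtain ⟨V', hV', h'⟩ := hy
    refine ⟨V + V', add_mem hV hV', fun f g => ?_⟩
    simp only [LinearMap.add_apply, mul_add, add_mul, map_add, h, h']
  | mul x y _ _ hx hy =>
    obtain ⟨V, hV, h⟩ := hx
    obtain ⟨V', hV', h'⟩ := hy
    exact ⟨V' * V, mul_mem hV' hV, fun f g => (h f _).trans (h' _ g)⟩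

/-- The diagonal sums converge on the algebra. -/
theorem omega_tendsto {W : Module.End ℝ C(Ω, ℝ)} (hW : W ∈ T.TT) :
    Tendsto (fun P => T.omegaP P W) atTop (nhds (T.omega W)) := by
  obtain ⟨S, R, hS, hR, rfl⟩ := T.isDiff_of_mem hW
  obtain ⟨a, ha⟩ := T.diag_tendsto hS.1
  obtain ⟨b, hb⟩ := T.diag_tendsto hR.1
  exact tendsto_nhds_limUnder ⟨a - b, (ha.sub hb).congr fun P => (T.diag_sub P S R).symm⟩

lemma abs_sum_tau_mul_le {P : Part Ω} (a b : Fin P.n → C(Ω, ℝ)) {t : ℝ} (ht : 0 < t) :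
    |∑ i, T.tau (a i * b i)| ≤
      t * (∑ i, T.tau (a i * a i)) + t⁻¹ * ∑ i, T.tau (b i * b i) := by
  rw [Finset.mul_sum, Finset.mul_sum, ← Finset.sum_add_distrib]
  refine (Finset.abs_sum_le_sum_abs _ _).trans (Finset.sum_le_sum fun i _ => ?_)
  rw [← smul_eq_mul t, ← smul_eq_mul t⁻¹, ← map_smul, ← map_smul, ← map_add, abs_le, ← map_neg]
  have key : ∀ ω, |a i ω * b i ω| ≤ t * (a i ω * a i ω) + t⁻¹ * (b i ω * b i ω) := by
    intro ω
    have h1 := mul_nonneg (inv_nonneg.2 ht.le) (sq_nonneg (t * |a i ω| - |b i ω|))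
    have h2 : t⁻¹ * (t * |a i ω| - |b i ω|) ^ 2 =
        t * (a i ω * a i ω) - 2 * |a i ω * b i ω| + t⁻¹ * (b i ω * b i ω) := by
      rw [← abs_mul_abs_self (a i ω), ← abs_mul_abs_self (b i ω), abs_mul]
      field_simp
      ring
    linarith [abs_nonneg (a i ω * b i ω)]
  exact ⟨T.tau_mono (ContinuousMap.le_def.2 fun ω => by simpa using neg_le.1 ((neg_le_abs _).trans (key ω))),
    T.tau_mono (ContinuousMap.le_def.2 fun ω => by simpa using (le_abs_self _).trans (key ω))⟩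

lemma sum_tau_sq_le {S : MasaOp Ω} (hS : IsPosMap S) (P : Part Ω) :
    ∑ i, T.tau (S (P.e i) * S (P.e i)) ≤ ‖S 1‖ * T.tau (S 1) := by
  have e : T.tau (‖S 1‖ • S 1) = ∑ i, T.tau (‖S 1‖ • S (P.e i)) := by
    rw [← map_sum T.tau, ← Finset.smul_sum, ← map_sum S, P.isPartition.sum_one]
  rw [← smul_eq_mul, ← map_smul, e]
  refine Finset.sum_le_sum fun i _ => T.tau_mono (ContinuousMap.le_def.2 fun ω => ?_)
  have h0 : (0 : ℝ) ≤ S (P.e i) ω := hS _ (P.nonneg i) ω
  have h1 : S (P.e i) ω ≤ S 1 ω := hS.mono (P.le_one i) ω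
  have h2 := (le_abs_self _).trans ((S 1).norm_coe_le_norm ω)
  exact mul_le_mul_of_nonneg_right (h1.trans h2) h0

/-- `K X` commutes with positive maps having positive transposes under the diagonal sum. -/
theorem diagEquiv_K {X : M} (hX : IsSelfAdjoint X) {S : MasaOp Ω} (hS : T.Good S) :
    T.DiagEquiv ((T.K X).comp S) (S.comp (T.K X)) := by
  obtain ⟨hS1, S', hS2, hS3⟩ := hS
  refine DiagEquiv.of_approx fun ε hε => ?_
  set B := |‖S 1‖ * T.tau (S 1)| + |‖S' 1‖ * T.tau (S' 1)| + 1 with hB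
  have hB0 : 0 < B := by positivity
  set t := 8 * B / ε with ht
  have ht0 : 0 < t := by positivity
  obtain ⟨U, hU1, hU2, hU3⟩ := T.exists_atomic hX (show 0 < ε / (8 * t) by positivity)
  filter_upwards [Metric.tendsto_nhds.1 (hU1 S hS1) (ε / 2) (half_pos hε), hU3] with P hP hP3
  rw [Real.dist_eq, sub_zero] at hP
  set r := fun i => T.K X (P.e i) - U (P.e i) with hr
  have e1 : T.diag P ((T.K X).comp S) - T.diag P (U.comp S) = ∑ i, T.tau (r i * S (P.e i)) := by
    rw [← T.diag_sub]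
    refine Finset.sum_congr rfl fun i _ => ?_
    show T.tau (P.e i * (T.K X (S (P.e i)) - U (S (P.e i)))) =
      T.tau ((T.K X (P.e i) - U (P.e i)) * S (P.e i))
    rw [mul_sub, map_sub, sub_mul, map_sub, T.tau_mul_K, hX.star_eq, hU2, mul_comm (S _)]
  have e2 : T.diag P (S.comp (T.K X)) - T.diag P (S.comp U) = ∑ i, T.tau (r i * S' (P.e i)) := by
    rw [← T.diag_sub]
    refine Finset.sum_congr rfl fun i _ => ?_
    simp only [hr, LinearMap.sub_apply, LinearMap.comp_apply, mul_sub, sub_mul, map_sub, hS3]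
    rw [mul_comm (T.K X _), mul_comm (U _)]
  have htB : t⁻¹ * B = ε / 8 := by rw [ht]; field_simp
  have htd : t * (ε / (8 * t)) = ε / 8 := by field_simp
  have hti : 0 ≤ t⁻¹ := inv_nonneg.2 ht0.le
  have b1 : |∑ i, T.tau (r i * S (P.e i))| ≤ ε / 4 := by
    refine (T.abs_sum_tau_mul_le r _ ht0).trans ?_
    have a1 := mul_le_mul_of_nonneg_left hP3 ht0.le
    have a2 := mul_le_mul_of_nonneg_left
      (((T.sum_tau_sq_le hS1 P).trans (le_abs_self _)).trans
        (show _ ≤ B by rw [hB]; linarith [abs_nonneg (‖S' 1‖ * T.tau (S' 1))])) hti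
    linarith
  have b2 : |∑ i, T.tau (r i * S' (P.e i))| ≤ ε / 4 := by
    refine (T.abs_sum_tau_mul_le r _ ht0).trans ?_
    have a1 := mul_le_mul_of_nonneg_left hP3 ht0.le
    have a2 := mul_le_mul_of_nonneg_left
      (((T.sum_tau_sq_le hS2 P).trans (le_abs_self _)).trans
        (show _ ≤ B by rw [hB]; linarith [abs_nonneg (‖S 1‖ * T.tau (S 1))])) hti
    linarith
  rw [← e1] at b1
  rw [← e2] at b2
  rw [abs_le] at b1 b2 ⊢
  constructor <;> linarith [(abs_lt.1 hP).1, (abs_lt.1 hP).2, b1.1, b1.2, b2.1, b2.2]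

lemma omega_eq_of_diagEquiv {V W : Module.End ℝ C(Ω, ℝ)} (hV : V ∈ T.TT) (hW : W ∈ T.TT)
    (h : T.DiagEquiv V W) : T.omega V = T.omega W :=
  sub_eq_zero.1 (tendsto_nhds_unique ((T.omega_tendsto hV).sub (T.omega_tendsto hW)) h)

lemma omega_add_of_mem {V W : Module.End ℝ C(Ω, ℝ)} (hV : V ∈ T.TT) (hW : W ∈ T.TT) :
    T.omega (V + W) = T.omega V + T.omega W :=
  tendsto_nhds_unique (T.omega_tendsto (add_mem hV hW))
    (((T.omega_tendsto hV).add (T.omega_tendsto hW)).congr fun P => (T.diag_add P V W).symm)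

lemma diagEquiv_generator {g W : Module.End ℝ C(Ω, ℝ)} (hW : W ∈ T.TT)
    (h : ∀ S, T.Good S → T.DiagEquiv (g * S) (S * g)) : T.DiagEquiv (g * W) (W * g) := by
  obtain ⟨S, R, hS, hR, rfl⟩ := T.isDiff_of_mem hW
  have h1 := (h S hS).sub (h R hR)
  rw [sub_zero] at h1
  refine h1.congr fun P => ?_
  rw [mul_sub, sub_mul, T.diag_sub, T.diag_sub]
  ring

/-- The diagonal functional is a trace on the algebra. -/
theorem omega_mul_comm {V W : Module.End ℝ C(Ω, ℝ)} (hV : V ∈ T.TT) (hW : W ∈ T.TT) :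
    T.omega (V * W) = T.omega (W * V) := by
  induction hV using Algebra.adjoin_induction generalizing W with
  | mem x hx =>
    refine T.omega_eq_of_diagEquiv (mul_mem (Algebra.subset_adjoin hx) hW)
      (mul_mem hW (Algebra.subset_adjoin hx)) (T.diagEquiv_generator hW fun S hS => ?_)
    rcases hx with ⟨f, rfl⟩ | ⟨X, hX, rfl⟩
    · exact (T.diagEquiv_mult hS.1 f).symm
    · exact T.diagEquiv_K hX hS
  | algebraMap r => rw [Algebra.commutes]
  | add x y hx hy ihx ihy =>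
    rw [add_mul, mul_add, T.omega_add_of_mem (mul_mem hx hW) (mul_mem hy hW),
      T.omega_add_of_mem (mul_mem hW hx) (mul_mem hW hy), ihx hW, ihy hW]
  | mul x y hx hy ihx ihy =>
    rw [mul_assoc, ihx (mul_mem hy hW), mul_assoc, ihy (mul_mem hW hx), mul_assoc]

/-- The diagonal functional on multiplications. -/
theorem omega_mlt (f : C(Ω, ℝ)) : T.omega (mlt f) = T.tau f := by
  refine tendsto_nhds_unique (T.omega_tendsto (T.mlt_mem f))
    (tendsto_const_nhds.congr fun P => ?_)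
  show T.tau f = ∑ i, T.tau (P.e i * (f * P.e i))
  rw [← map_sum]
  simp only [mul_comm f, ← mul_assoc, P.isPartition.idem]
  rw [← Finset.sum_mul, P.isPartition.sum_one, one_mul]

/-- The diagonal functional on `h ↦ f * E (X h Z)`. -/
theorem omega_mlt_mul_K2 (f : C(Ω, ℝ)) {X Z : M} (hX : IsSelfAdjoint X) (hZ : IsSelfAdjoint Z) :
    T.omega (mlt f * T.K2 X Z) = T.tau (f * (T.E X * T.E Z)) := by
  refine tendsto_nhds_unique (T.omega_tendsto (mul_mem (T.mlt_mem f) (T.K2_mem hX hZ))) ?_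
  have h := (((T.tendsto_pinch hX).const_mul T (T.emb f)).mul_const T Z).tr_tendsto T
  rw [← map_mul T.emb, ← T.tau_mul_E, mul_assoc] at h
  refine h.congr fun P => ?_
  show _ = ∑ i, T.tau (P.e i * (f * T.E (X * T.emb (P.e i) * Z)))
  simp only [← mul_assoc (P.e _), T.tau_mul_E, T.pinch_apply, Finset.mul_sum, Finset.sum_mul,
    map_sum, mul_comm (P.e _) f, map_mul T.emb]
  simp only [mul_assoc]

end TMasa

end Vale.Agent.P078
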