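import Mathlib
import Vale.Agent.P078.Omega
import Vale.Agent.P078.MatOp

/-! The diagonal functional has the properties used for matrices. -/

noncomputable section

namespace Vale.Agent.P078

universe u v

variable {M : Type u} [CStarAlgebra M] [PartialOrder M] [StarOrderedRing M]
  {Ω : Type v} [TopologicalSpace Ω] [CompactSpace Ω] [T2Space Ω]

/-- the properties of the diagonal functional hold for every `TMasa` -/
theorem TMasa.omegaSpec (T : TMasa M Ω) : T.OmegaSpec :=
  ⟨fun _ h => T.omega_tendsto h, fun _ hV _ hW => T.omega_mul_comm hV hW, T.omega_mlt,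
    fun f _ _ hX hZ => T.omega_mlt_mul_K2 f hX hZ⟩

end Vale.Agent.P078
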