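import Mathlib
import Vale.Agent.P078.Trace

/-! Spectral projections from 2-norm completeness. -/

noncomputable section

open scoped ComplexOrder
open Filter Topology

set_option linter.unusedSectionVars false

namespace Vale.Agent.P078

universe u v

variable {M : Type u} [CStarAlgebra M] [PartialOrder M] [StarOrderedRing M]
  {Ω : Type v} [TopologicalSpace Ω] [CompactSpace Ω] [T2Space Ω] (T : TMasa M Ω)

namespace TMasa

/-- positivity passes to 2-norm limits -/
lemma nonneg_of_tendsto2 {α : Type*} {l : Filter α} [l.NeBot] {u : α → M} {x : M}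
    (h : T.Tendsto2 l u x) (hu : ∀ᶠ a in l, 0 ≤ u a) : 0 ≤ x := by
  have hx : IsSelfAdjoint x := by
    refine (h.star' T).unique T (h.congr' T ?_)
    filter_upwards [hu] with a ha
    rw [(IsSelfAdjoint.of_nonneg ha).star_eq]
  set m := x⁻ with hm
  have hmnn : 0 ≤ m := CFC.negPart_nonneg x
  have hms : IsSelfAdjoint m := IsSelfAdjoint.of_nonneg hmnn
  have h1 : 0 ≤ T.tr (m * x * m) := by
    refine ge_of_tendsto (((h.const_mul T m).mul_const T m).tr_tendsto T) ?_
    filter_upwards [hu] with a ha
    exact T.tr_nonneg (hms.conjugate_nonneg ha)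
  have h2 : m * x * m = -(m * m * m) := by
    conv_lhs => rw [← CFC.posPart_sub_negPart x hx]
    rw [← hm, mul_sub, sub_mul, hm, CFC.negPart_mul_posPart, zero_mul, zero_sub]
  have h3 : 0 ≤ m * m * m := hms.conjugate_nonneg hmnn
  have h4 : m * m * m = 0 := by
    refine T.eq_zero_of_tr_eq_zero h3 (le_antisymm ?_ (T.tr_nonneg h3))
    rw [h2, map_neg] at h1
    linarith
  have h5 : m * m = 0 := by
    refine T.tr_faithful _ ?_
    rw [star_mul, hms.star_eq, ← mul_assoc, h4, zero_mul, map_zero]
  have h6 : m = 0 := T.tr_faithful _ (by rw [hms.star_eq, h5, map_zero])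
  exact (CFC.negPart_eq_zero_iff x hx).1 h6

lemma le_of_tendsto2 {α : Type*} {l : Filter α} [l.NeBot] {u w : α → M} {x y : M}
    (hu : T.Tendsto2 l u x) (hw : T.Tendsto2 l w y) (h : ∀ᶠ a in l, u a ≤ w a) : x ≤ y := by
  have hn : T.Tendsto2 l (fun a => (-1 : M) * u a) ((-1 : M) * x) := hu.const_mul T _
  have := hw.add T hn
  simp only [neg_one_mul, ← sub_eq_add_neg] at this
  exact sub_nonneg.1 (T.nonneg_of_tendsto2 this (h.mono fun a ha => sub_nonneg.2 ha))

/-- the ramp functions -/
def ramp (t : ℝ) (n : ℕ) (x : ℝ) : ℝ := min 1 (max 0 ((n : ℝ) * (x - t)))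

lemma ramp_nonneg (t : ℝ) (n : ℕ) (x : ℝ) : 0 ≤ ramp t n x :=
  le_min zero_le_one (le_max_left _ _)

lemma ramp_le_one (t : ℝ) (n : ℕ) (x : ℝ) : ramp t n x ≤ 1 := min_le_left _ _

lemma ramp_mono (t x : ℝ) {m n : ℕ} (h : m ≤ n) : ramp t m x ≤ ramp t n x := by
  unfold ramp
  refine min_le_min le_rfl (max_le (le_max_left _ _) ?_)
  rcases le_total 0 (x - t) with h' | h'
  · exact (mul_le_mul_of_nonneg_right (Nat.cast_le.2 h) h').trans (le_max_right _ _)
  · exact le_trans (mul_nonpos_of_nonneg_of_nonpos (Nat.cast_nonneg m) h') (le_max_left _ _)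

@[fun_prop]
lemma continuous_ramp (t : ℝ) (n : ℕ) : Continuous (ramp t n) := by
  unfold ramp; fun_prop

/-- A spectral projection for `(t, ∞)`. -/
theorem exists_spectralProjection (T : TMasa M Ω) {X : M} (hX : IsSelfAdjoint X) (t : ℝ) :
    ∃ Q : M, IsStarProjection Q ∧ (∀ b, Commute b X → Commute b Q) ∧
      t • Q ≤ X * Q ∧ X * (1 - Q) ≤ t • (1 - Q) := by
  let u : ℕ → M := fun n => cfc (ramp t n) X
  have hu0 : ∀ n, 0 ≤ u n := fun n => cfc_nonneg fun x _ => ramp_nonneg t n x
  have humono : ∀ m n, m ≤ n → u m ≤ u n := fun m n h => cfc_mono fun x _ => ramp_mono t x h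
  have hu1 : ∀ n, u n ≤ 1 := fun n => cfc_le_one _ _ fun x _ => ramp_le_one t n x
  have hnorm : ∀ n, ‖u n‖ ≤ 1 := fun n => norm_cfc_le zero_le_one fun x _ => by
    rw [Real.norm_eq_abs, abs_of_nonneg (ramp_nonneg t n x)]
    exact ramp_le_one t n x
  have hbdd : BddAbove (Set.range fun n => T.tr (u n)) :=
    ⟨1, by rintro _ ⟨n, rfl⟩; simpa [T.tr_one] using T.tr_mono (hu1 n)⟩
  obtain ⟨Q, -, hQ⟩ := T.exists_limit u 1 hnorm (by
    intro ε hε
    obtain ⟨N, hN⟩ := exists_lt_of_lt_ciSup
      (show (⨆ n, T.tr (u n)) - ε ^ 2 < ⨆ n, T.tr (u n) by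
        have : 0 < ε ^ 2 := pow_pos hε 2
        linarith)
    refine ⟨N, fun m hm => (pow_le_pow_iff_left₀ (T.n2_nonneg _) hε.le two_ne_zero).1 ?_⟩
    have hs : star (u m - u N) * (u m - u N) ≤ u m - u N := by
      rw [((IsSelfAdjoint.of_nonneg (hu0 m)).sub (IsSelfAdjoint.of_nonneg (hu0 N))).star_eq]
      simp only [u]
      rw [← cfc_sub _ _ X, ← cfc_mul _ _ X]
      refine cfc_mono fun x _ => ?_
      nlinarith [ramp_mono t x hm, ramp_nonneg t N x, ramp_le_one t m x]
    have h1 := T.tr_mono hs
    rw [map_sub] at h1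
    have h3 : T.tr (u m) ≤ ⨆ n, T.tr (u n) := le_ciSup hbdd m
    rw [T.n2_sq]
    exact h1.trans (by linarith))
  have hsa : IsSelfAdjoint Q := by
    have h1 := hQ.star' T
    simp only [(IsSelfAdjoint.of_nonneg (hu0 _)).star_eq] at h1
    exact h1.unique T hQ
  have hid : Q * Q = Q := by
    have hsq : Tendsto (fun n : ℕ => n * n) atTop atTop :=
      tendsto_atTop_mono (fun n => Nat.le_mul_self n) tendsto_id
    have h1 : T.Tendsto2 atTop (fun n => u n * u (n * n)) (Q * Q) :=
      hQ.mul T (show T.Tendsto2 atTop (fun n => u (n * n)) Q from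
        (show Tendsto (fun a => T.n2 (u a - Q)) atTop (𝓝 0) from hQ).comp hsq) hnorm
    refine h1.unique T ?_
    refine squeeze_zero' (.of_forall fun n => T.n2_nonneg _) ?_
      (by simpa using Tendsto.add hQ (tendsto_one_div_atTop_nhds_zero_nat (𝕜 := ℝ)))
    filter_upwards [eventually_ge_atTop 1] with n hn
    have h2 : T.n2 (u n * u (n * n) - u n) ≤ 1 / n := by
      refine (T.n2_le_norm _).trans ?_
      simp only [u]
      rw [← cfc_mul _ _ X, ← cfc_sub _ _ X]
      refine norm_cfc_le (by positivity) fun x _ => ?_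
      have hn' : (0 : ℝ) < n := by exact_mod_cast hn
      rw [Real.norm_eq_abs, abs_le]
      have h0 := ramp_nonneg t n x
      have h1' := ramp_nonneg t (n * n) x
      have h2' := ramp_le_one t (n * n) x
      refine ⟨?_, ?_⟩
      · rcases le_or_gt (1 : ℝ) ((n * n : ℕ) * (x - t)) with h | h
        · have e : ramp t (n * n) x = 1 := by
            unfold ramp; rw [max_eq_right (by linarith), min_eq_left h]
          rw [e]
          have : (0 : ℝ) ≤ 1 / n := by positivity
          linarith
        · have h' : ramp t n x ≤ 1 / n := by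
            refine le_trans (min_le_right _ _) (max_le (by positivity) ?_)
            rw [le_div_iff₀ hn']
            push_cast at h
            nlinarith
          nlinarith
      · have : ramp t n x * ramp t (n * n) x ≤ ramp t n x := mul_le_of_le_one_right h0 h2'
        have : (0 : ℝ) ≤ 1 / n := by positivity
        linarith
    calc T.n2 (u n * u (n * n) - Q) ≤ T.n2 (u n * u (n * n) - u n) + T.n2 (u n - Q) :=
          T.n2_triangle _ _ _
      _ ≤ _ := by rw [one_div] at h2; linarith
  refine ⟨Q, ⟨hid, hsa⟩, fun b hb => ?_, ?_, ?_⟩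
  · have h1 := hQ.const_mul T b
    have h2 := hQ.mul_const T b
    have h3 : ∀ n, b * u n = u n * b := fun n => (hb.symm.cfc_real (ramp t n)).symm.eq
    simp only [h3] at h1
    exact h1.unique T h2
  · refine T.le_of_tendsto2 (u := fun n => t • u n) (w := fun n => X * u n) ?_
      (hQ.const_mul T X) (.of_forall fun n => ?_)
    · simpa [Algebra.smul_def] using hQ.const_mul T (algebraMap ℝ M t)
    · simp only [u]
      nth_rewrite 2 [← cfc_id' ℝ X]
      rw [← cfc_mul _ _ X, ← cfc_smul _ _ X]
      refine cfc_mono fun x _ => ?_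
      show t * ramp t n x ≤ x * ramp t n x
      rcases le_total t x with h | h
      · exact mul_le_mul_of_nonneg_right h (ramp_nonneg t n x)
      · have : ramp t n x = 0 := by
          unfold ramp
          rw [max_eq_left (mul_nonpos_of_nonneg_of_nonpos (Nat.cast_nonneg n) (by linarith)),
            min_eq_right zero_le_one]
        rw [this]; simp
  · have h1 : T.Tendsto2 atTop (fun n => (X - algebraMap ℝ M t) * (1 + (-1 : M) * u n))
        ((X - algebraMap ℝ M t) * (1 + (-1 : M) * Q)) :=
      ((T.tendsto2_const).add T (hQ.const_mul T _)).const_mul T _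
    have hc : T.Tendsto2 atTop (fun n : ℕ => algebraMap ℝ M (1 / (n : ℝ))) 0 := by
      refine squeeze_zero (fun n => T.n2_nonneg _) (fun n => ?_)
        (tendsto_one_div_atTop_nhds_zero_nat (𝕜 := ℝ))
      beta_reduce
      rw [sub_zero, Algebra.algebraMap_eq_smul_one, T.n2_smul, T.n2_one, mul_one,
        abs_of_nonneg (by positivity)]
    have hle := T.le_of_tendsto2 h1 hc (by
      filter_upwards [eventually_ge_atTop 1] with n hn
      have hn' : (0 : ℝ) < n := by exact_mod_cast hn
      simp only [neg_one_mul, ← sub_eq_add_neg, u]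
      rw [← map_one (algebraMap ℝ M), ← cfc_const (1 : ℝ) X, ← cfc_const t X,
        ← cfc_sub _ _ X]
      nth_rewrite 1 [← cfc_id' ℝ X]
      rw [← cfc_sub _ _ X, ← cfc_mul _ _ X]
      refine cfc_le_algebraMap _ _ _ fun x _ => ?_
      rcases le_or_gt (x - t) 0 with h | h
      · have := mul_nonpos_of_nonpos_of_nonneg h (sub_nonneg.2 (ramp_le_one t n x))
        have : (0 : ℝ) ≤ 1 / n := by positivity
        linarith
      · rcases le_or_gt (1 : ℝ) (n * (x - t)) with h' | h'
        · have e : ramp t n x = 1 := by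
            unfold ramp; rw [max_eq_right (by linarith), min_eq_left h']
          rw [e]; simp
        · have h2 : x - t ≤ 1 / n := by rw [le_div_iff₀ hn']; linarith
          have := mul_le_of_le_one_right h.le (show 1 - ramp t n x ≤ 1 by
            linarith [ramp_nonneg t n x])
          linarith)
    simp only [neg_one_mul, ← sub_eq_add_neg, sub_mul, sub_nonpos] at hle
    simpa [Algebra.smul_def] using hle

end TMasa

end Vale.Agent.P078
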