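import Mathlib
import Vale.Agent.P078.Move
import Vale.Agent.P078.Forms
import Vale.Agent.P078.Lower
import Vale.Agent.P078.OmegaSpec
import Vale.Agent.P078.Spectral

/-! One step of the walk. -/

noncomputable section

open scoped ComplexOrder

set_option linter.unusedSectionVars false

namespace Vale.Agent.P078

universe u v

variable {M : Type u} [CStarAlgebra M] [PartialOrder M] [StarOrderedRing M]
  {Ω : Type v} [TopologicalSpace Ω] [CompactSpace Ω] [T2Space Ω]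

/-- pointwise bound for the deterministic and diagonal second order terms -/
lemma det_pointwise {η μ ι ρ l lam g p dp a ap b D k e2 wt : ℝ} (hη : 0 < η) (hμ : 0 < μ)
    (hι : 0 < ι) (hl : l = 0 ∨ l = 1) (hlam : 0 ≤ lam) (hg : 0 ≤ g)
    (hgη : g ≤ 1 / η) (hp : 0 ≤ p) (ha : 0 ≤ a) (hap : 0 ≤ ap) (hle : ap ≤ a) (hk : 0 ≤ k)
    (he : 0 ≤ e2) (hwt : 0 ≤ wt) {C1 γ : ℝ} (hγ : 0 ≤ γ) (hC : |dp| * wt ≤ C1 * p)
    (hband : a - ap ≤ 2 * γ * b) (hρ : ρ = 4 * γ * C1 / μ)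
    (hD : D = wt * l / ((lam + μ) * (a + ι))) :
    l * lam * a * D - l * lam * (1 + g) * a * D + l * lam * dp * D * (ap * ap - a * a)
      + D * ap * k - a * D * k - ρ * (l * lam * p * b) + μ * (D * ap * e2) - μ * (a * D * e2)
      - μ / η * (a * D) ≤ -(l * g * wt * a / (a + ι)) := by
  rcases hl with rfl | rfl
  · subst hD; simp
  have hden : 0 < (lam + μ) * (a + ι) := by positivity
  have hDnn : 0 ≤ D := by rw [hD]; positivity
  have h1 : D * ap * k ≤ a * D * k := by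
    rw [mul_comm a D]; exact mul_le_mul_of_nonneg_right (mul_le_mul_of_nonneg_left hle hDnn) hk
  have h2 : μ * (D * ap * e2) ≤ μ * (a * D * e2) := by
    rw [mul_comm a D]
    exact mul_le_mul_of_nonneg_left
      (mul_le_mul_of_nonneg_right (mul_le_mul_of_nonneg_left hle hDnn) he) hμ.le
  have hb : 0 ≤ b ∨ γ = 0 := by
    rcases eq_or_lt_of_le hγ with h | h
    · exact Or.inr h.symm
    · exact Or.inl (by nlinarith)
  have hDa : D * (a + ap) ≤ 2 * wt / μ := by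
    rw [hD, mul_one, div_mul_eq_mul_div, div_le_div_iff₀ hden hμ]
    have : (a + ap) * μ ≤ 2 * ((lam + μ) * (a + ι)) := by
      nlinarith [mul_nonneg hlam ha, mul_nonneg hlam hι.le, mul_pos hμ hι]
    nlinarith [mul_le_mul_of_nonneg_left this hwt]
  have h3 : lam * dp * D * (ap * ap - a * a) ≤ ρ * (lam * p * b) := by
    have e : lam * dp * D * (ap * ap - a * a) = lam * ((-dp) * ((D * (a + ap)) * (a - ap))) := by
      ring
    rw [e]
    have q0 : 0 ≤ D * (a + ap) := mul_nonneg hDnn (by linarith)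
    have q2 : |dp| * ((D * (a + ap)) * (a - ap)) ≤ 4 * γ * C1 / μ * (p * b) := by
      rcases hb with hb | hb
      · calc |dp| * ((D * (a + ap)) * (a - ap)) ≤ |dp| * ((2 * wt / μ) * (2 * γ * b)) := by
              refine mul_le_mul_of_nonneg_left ?_ (abs_nonneg _)
              exact mul_le_mul hDa hband (by linarith) (by positivity)
          _ = 4 * γ * b / μ * (|dp| * wt) := by ring
          _ ≤ 4 * γ * b / μ * (C1 * p) := mul_le_mul_of_nonneg_left hC (by positivity)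
          _ = _ := by ring
      · subst hb
        have h0 : a - ap = 0 := by linarith
        simp [h0]
    have q3 : (-dp) * ((D * (a + ap)) * (a - ap)) ≤ |dp| * ((D * (a + ap)) * (a - ap)) :=
      mul_le_mul_of_nonneg_right (neg_le_abs dp) (mul_nonneg q0 (by linarith))
    calc lam * ((-dp) * ((D * (a + ap)) * (a - ap))) ≤ lam * (4 * γ * C1 / μ * (p * b)) :=
          mul_le_mul_of_nonneg_left (q3.trans q2) hlam
      _ = _ := by rw [hρ]; ring
  have h4 : μ * g * (a * D) ≤ μ / η * (a * D) := by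
    refine mul_le_mul_of_nonneg_right ?_ (mul_nonneg ha hDnn)
    calc μ * g ≤ μ * (1 / η) := mul_le_mul_of_nonneg_left hgη hμ.le
      _ = μ / η := by ring
  have h5 : (lam + μ) * g * (a * D) = g * wt * a / (a + ι) := by
    rw [hD]; field_simp
  simp only [one_mul]
  nlinarith

lemma gain_pointwise {x a ι c ev : ℝ} (hι : 0 ≤ ι) (hc : 0 < c) (hx : x ≤ 1) (ha : 0 ≤ a)
    (hev : 0 ≤ ev) (hev2 : c ^ 2 ≤ a * ev) : x ≤ x * a / (a + ι) + ι / c ^ 2 * ev := by
  have ha' : 0 < a := lt_of_le_of_ne ha fun h => by rw [← h] at hev2; nlinarith [pow_pos hc 2]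
  have h1 : x - x * a / (a + ι) = x * (ι / (a + ι)) := by field_simp; ring
  have h2 : x * (ι / (a + ι)) ≤ 1 * (ι / (a + ι)) :=
    mul_le_mul_of_nonneg_right hx (by positivity)
  have h3 : ι / (a + ι) ≤ ι / a := div_le_div_of_nonneg_left hι ha' (by linarith)
  have h4 : ι / a ≤ ι / c ^ 2 * ev := by
    rw [div_mul_eq_mul_div, div_le_div_iff₀ ha' (pow_pos hc 2)]
    calc ι * c ^ 2 ≤ ι * (a * ev) := mul_le_mul_of_nonneg_left hev2 hι
      _ = _ := by ring
  linarith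

lemma step_arith {η μ ι K₀ c ηf rr τl hb Ld det om sG g1 g2 : ℝ} (hη : 0 < η) (hη1 : η ≤ 1 / 16)
    (hι : 0 < ι) (hc : 0 < c) (hηf : 0 < ηf) (hsμ : 32 * μ * K₀ ≤ ηf)
    (hsι : 12 * rr * ι ≤ ηf * c ^ 2) (hdir : Ld ≤ τl + om + 2 * ηf)
    (hdet : det + om ≤ -sG + g1 + g2) (hsum : g1 + g2 ≤ ηf / 4)
    (hgain : 8 * (τl - 2 * hb) - η / 16 * (rr * (ι / c ^ 2)) ≤ sG) (hhub : hb ≤ μ * K₀)
    (hlive : ηf ≤ τl) : Ld + det ≤ -2 * ηf := by
  have h5 : rr * (ι / c ^ 2) ≤ ηf / 12 := by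
    rw [mul_div_assoc', div_le_div_iff₀ (pow_pos hc 2) (by norm_num)]
    linarith
  have h6 : η / 16 * (rr * (ι / c ^ 2)) ≤ ηf / 12 := by
    rcases le_total 0 (rr * (ι / c ^ 2)) with h | h
    · nlinarith
    · nlinarith [mul_nonpos_of_nonneg_of_nonpos hη.le h]
  linarith

namespace TMasa

open Chan Res

variable (T : TMasa M Ω)

lemma omega_sub' (hT : T.OmegaSpec) {V W : Module.End ℝ C(Ω, ℝ)} (hV : V ∈ T.TT) (hW : W ∈ T.TT) :
    T.omega (V - W) = T.omega V - T.omega W := by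
  have h := omega_add hT (Subalgebra.sub_mem _ hV hW) hW
  rw [sub_add_cancel] at h
  linarith

lemma omega_smul' (hT : T.OmegaSpec) {W : Module.End ℝ C(Ω, ℝ)} (hW : W ∈ T.TT) (c : ℝ) :
    T.omega (c • W) = c * T.omega W := by
  refine tendsto_nhds_unique (hT.tendsto _ (Subalgebra.smul_mem _ hW c))
    (((hT.tendsto _ hW).const_mul c).congr fun P => ?_)
  simp [omegaP, Finset.mul_sum]

lemma K_eq_K2 {X : M} (hX : IsSelfAdjoint X) : T.K X = T.K2 X X := by
  rw [K, hX.star_eq]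

lemma tr_conj_proj_le {p y v : M} (hp : IsStarProjection p) (hy1 : y ≤ 1) (hv : v * v = y) :
    T.tr (v * p * v) ≤ T.tr p := by
  rw [T.tr_mul_comm, ← mul_assoc, hv, T.tr_mul_comm, ← hp.isIdempotentElem.eq]
  rw [mul_assoc, T.tr_mul_comm]
  refine le_of_le_of_eq (T.tr_mono (hp.isSelfAdjoint.conjugate_le_conjugate hy1)) ?_
  rw [mul_one, hp.isIdempotentElem.eq]

lemma n2_offband_sq {y N : M} (hy0 : 0 ≤ y) (hy1 : y ≤ 1) (hN : IsStarProjection N)
    (h : C(Ω, ℝ)) : T.n2 (T.offband y N h) ^ 2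
      = T.tau (h * (T.K y h - T.K (vop y * N * vop y) h)) := by
  obtain ⟨hv, -, hvv⟩ := vop_props hy0 hy1
  have hX0 : IsSelfAdjoint (vop y * N * vop y) := by
    simpa [hv.star_eq] using hN.isSelfAdjoint.conjugate (vop y)
  have hY : IsSelfAdjoint (vop y * T.emb h * vop y) := by
    simpa [hv.star_eq] using (T.emb_selfAdjoint h).conjugate (vop y)
  have hNYN : IsSelfAdjoint (N * (vop y * T.emb h * vop y) * N) := by
    simpa [hN.isSelfAdjoint.star_eq] using hY.conjugate N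
  rw [mul_sub, map_sub, K_apply, K_apply, (IsSelfAdjoint.of_nonneg hy0).star_eq, hX0.star_eq,
    tau_mul_E, tau_mul_E, T.n2_sq, ip, offband, (hY.sub hNYN).star_eq]
  simp only [sub_mul, mul_sub, map_sub]
  set Y := vop y * T.emb h * vop y
  have e1 : T.tr (Y * Y) = T.tr (T.emb h * (y * T.emb h * y)) := by
    rw [show Y * Y = vop y * (T.emb h * (vop y * vop y) * T.emb h * vop y) by
      simp only [Y, mul_assoc], T.tr_mul_comm,
      show T.emb h * (vop y * vop y) * T.emb h * vop y * vop y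
        = T.emb h * ((vop y * vop y) * T.emb h * (vop y * vop y)) by simp only [mul_assoc], hvv]
  have e2 : T.tr (Y * (N * Y * N)) = T.tr (T.emb h * (vop y * N * vop y * T.emb h * (vop y * N * vop y))) := by
    simp only [Y, mul_assoc]
    rw [T.tr_mul_comm]
    simp only [mul_assoc]
  have e3 : T.tr (N * Y * N * Y) = T.tr (Y * (N * Y * N)) := T.tr_mul_comm _ _
  have e4 : T.tr (N * Y * N * (N * Y * N)) = T.tr (Y * (N * Y * N)) := by
    rw [mul_assoc (N * Y) N, ← mul_assoc N (N * Y), ← mul_assoc N N, hN.isIdempotentElem.eq,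
      mul_assoc N Y, T.tr_mul_comm N]
    simp only [mul_assoc, hN.isIdempotentElem.eq]
  rw [e3, e4, e1, e2]
  ring

/-- the positive part of the second order operator -/
def Qop (μ A : ℝ) (y Z N : M) : Module.End ℝ C(Ω, ℝ) :=
  μ • T.K2 (Xp (vop y) Z N) (X2 (vop y) Z N) + (A * μ) • (T.K y - T.K (vop y * N * vop y))

/-- the favourable part of the second order operator -/
def Pop (a ll g dp ψ : C(Ω, ℝ)) (y Z N : M) : Module.End ℝ C(Ω, ℝ) :=
  mlt (ll * (1 + g) * a) - mlt (ll * dp) * T.K (Xp (vop y) Z N)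
    - T.K2 (Xp (vop y) Z N) (Xp (vop y) Z N * T.emb ψ * Xp (vop y) Z N)

variable {T}

lemma conj_sa {X Y : M} (hX : IsSelfAdjoint X) (hY : IsSelfAdjoint Y) :
    IsSelfAdjoint (X * Y * X) := by simpa [hX.star_eq] using hY.conjugate X

lemma Qop_nonneg {μ A γ : ℝ} {y Z N : M} (hμ : 0 ≤ μ) (hA : 0 ≤ A) (hy0 : 0 ≤ y) (hy1 : y ≤ 1)
    (hb : Band γ Z N) (g : C(Ω, ℝ)) : 0 ≤ T.tau (g * T.Qop μ A y Z N g) := by
  obtain ⟨hv, -, -⟩ := vop_props hy0 hy1
  simp only [Qop, LinearMap.add_apply, LinearMap.smul_apply, LinearMap.sub_apply, mul_add, map_add,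
    mul_smul_comm, map_smul, smul_eq_mul, ← T.n2_offband_sq hy0 hy1 hb.proj]
  refine add_nonneg (mul_nonneg hμ ?_) (mul_nonneg (mul_nonneg hA hμ) (sq_nonneg _))
  rw [K2_apply, tau_mul_E]
  set X := Xp (vop y) Z N
  set W := CFC.sqrt (X2 (vop y) Z N)
  have hW : W * W = X2 (vop y) Z N := CFC.sqrt_mul_sqrt_self _ (hb.X2_nonneg hv)
  rw [← hW, show T.emb g * (X * T.emb g * (W * W)) = T.emb g * X * T.emb g * W * W by
    simp only [mul_assoc], T.tr_mul_comm,
    show W * (T.emb g * X * T.emb g * W) = W * (T.emb g * X * T.emb g) * W by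
    simp only [mul_assoc]]
  exact T.tr_nonneg ((IsSelfAdjoint.of_nonneg (CFC.sqrt_nonneg _)).conjugate_nonneg
    ((T.emb_selfAdjoint g).conjugate_nonneg (hb.Xp_nonneg hv)))

lemma omega_step (hT : T.OmegaSpec) {μ A γ : ℝ} {y Z N : M} (hy0 : 0 ≤ y) (hy1 : y ≤ 1)
    (hb : Band γ Z N) (D a ll g dp ψ : C(Ω, ℝ)) :
    T.omega (mlt D * (T.Qop μ A y Z N - T.Pop a ll g dp ψ y Z N)) =
      μ * T.tau (D * (T.E (Xp (vop y) Z N) * T.E (X2 (vop y) Z N)))
      + A * μ * (T.tau (D * (T.E y * T.E y))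
          - T.tau (D * (T.E (vop y * N * vop y) * T.E (vop y * N * vop y))))
      - (T.tau (D * (ll * (1 + g) * a))
          - T.tau (D * (ll * dp) * (T.E (Xp (vop y) Z N) * T.E (Xp (vop y) Z N)))
          - T.tau (D * (T.E (Xp (vop y) Z N) * T.K (Xp (vop y) Z N) ψ))) := by
  obtain ⟨hv, -, -⟩ := vop_props hy0 hy1
  have hys : IsSelfAdjoint y := .of_nonneg hy0
  have hX0 : IsSelfAdjoint (vop y * N * vop y) := conj_sa hv hb.proj.isSelfAdjoint
  set X := Xp (vop y) Z N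
  set X' := X2 (vop y) Z N
  have hX : IsSelfAdjoint X := hb.Xp_sa hv
  have hX' : IsSelfAdjoint X' := hb.X2_sa hv
  have hZ : IsSelfAdjoint (X * T.emb ψ * X) := conj_sa hX (T.emb_selfAdjoint ψ)
  have hD : mlt D ∈ T.TT := T.mlt_mem D
  have m1 := Subalgebra.mul_mem _ hD (T.K2_mem hX hX')
  have m2 := Subalgebra.mul_mem _ hD (T.K_mem hys)
  have m3 := Subalgebra.mul_mem _ hD (T.K_mem hX0)
  have m4 := Subalgebra.mul_mem _ hD (T.mlt_mem (ll * (1 + g) * a))
  have m5 := Subalgebra.mul_mem _ (T.mlt_mem (D * (ll * dp))) (T.K_mem hX)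
  have m6 := Subalgebra.mul_mem _ hD (T.K2_mem hX hZ)
  have e : mlt D * (T.Qop μ A y Z N - T.Pop a ll g dp ψ y Z N)
      = μ • (mlt D * T.K2 X X') + (A * μ) • (mlt D * T.K y - mlt D * T.K (vop y * N * vop y))
        - (mlt D * mlt (ll * (1 + g) * a) - mlt (D * (ll * dp)) * T.K X
          - mlt D * T.K2 X (X * T.emb ψ * X)) := by
    simp only [Qop, Pop, ← mlt_mul_mlt, mul_sub, mul_add, mul_smul_comm, mul_assoc]
    rfl
  rw [e, T.omega_sub' hT (add_mem (Subalgebra.smul_mem _ m1 _)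
      (Subalgebra.smul_mem _ (sub_mem m2 m3) _)) (sub_mem (sub_mem m4 m5) m6),
    omega_add hT (Subalgebra.smul_mem _ m1 _) (Subalgebra.smul_mem _ (sub_mem m2 m3) _),
    T.omega_smul' hT m1, T.omega_smul' hT (sub_mem m2 m3), T.omega_sub' hT m2 m3,
    T.omega_sub' hT (sub_mem m4 m5) m6, T.omega_sub' hT m4 m5, mlt_mul_mlt,
    T.K_eq_K2 hys, T.K_eq_K2 hX0]
  conv_lhs => rw [T.K_eq_K2 hX]
  rw [hT.value_mlt, hT.value_mlt_mul_K2 _ _ _ hX hX', hT.value_mlt_mul_K2 _ _ _ hys hys,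
    hT.value_mlt_mul_K2 _ _ _ hX0 hX0, hT.value_mlt_mul_K2 _ _ _ hX hX,
    hT.value_mlt_mul_K2 _ _ _ hX hZ]
  rw [show T.E (X * T.emb ψ * X) = T.K X ψ by rw [K_apply, hX.star_eq]]

lemma tau_tilt {X : M} (hX : IsSelfAdjoint X) (ψ h : C(Ω, ℝ)) :
    T.tau (h * T.K2 X (X * T.emb ψ * X) h)
      = T.tau (ψ * T.E (X * T.emb h * X * T.emb h * X)) := by
  rw [K2_apply, tau_mul_E, tau_mul_E,
    show T.emb h * (X * T.emb h * (X * T.emb ψ * X)) = (T.emb h * X * T.emb h * X) * (T.emb ψ * X) by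
      simp only [mul_assoc],
    T.tr_mul_comm]
  simp only [mul_assoc]

lemma exists_sign_choice {r : ℕ} (lin : (Fin r → C(Ω, ℝ)) → ℝ)
    (hodd : ∀ h, lin (-h) = -lin h) (h : Fin r → C(Ω, ℝ)) :
    lin h ≤ 0 ∨ lin (-h) ≤ 0 := by
  rw [hodd]; rcases le_total (lin h) 0 with h1 | h1
  · exact Or.inl h1
  · exact Or.inr (by linarith)

variable {P : Params} {y : M}

lemma Wpot_components (hy0 : 0 ≤ y) (hη : 0 < P.η) {S : Smalls} (hμ : 0 < S.μ) (hA : 0 < S.A)
    (hς : 0 ≤ S.ς) (hγ : 0 < S.γ) {st : St M Ω P.r} (hinv : T.StInv P y S st)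
    (hW : T.Wpot P y S st ≤ S.μ * P.K₀) :
    T.tau (st.live * chub (ContinuousMap.const Ω P.L - T.Fval P y st)) ≤ S.μ * P.K₀ ∧
    ∑ i, T.tr (T.Gop P y st i) ≤ P.K₀ ∧ ∑ i, T.n2 (st.R i) ^ 2 ≤ P.K₀ / S.A := by
  have h1 : 0 ≤ T.tau (st.live * chub (ContinuousMap.const Ω P.L - T.Fval P y st)) :=
    T.tau_nonneg fun ω => mul_nonneg (idem_nonneg hinv.live_idem ω) (Profile.hub_nonneg _)
  have h2 : 0 ≤ S.μ / P.η * ∑ i, T.tau (st.sig i) :=
    mul_nonneg (by positivity) (Finset.sum_nonneg fun i _ => T.tau_nonneg (hinv.sig_nonneg i))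
  have h3 : 0 ≤ ∑ i, T.tr (T.Gop P y st i) :=
    Finset.sum_nonneg fun i _ => T.tr_nonneg (res_nonneg hγ (hinv.gap i))
  have h4 : 0 ≤ ∑ i, T.n2 (st.R i) ^ 2 := Finset.sum_nonneg fun i _ => sq_nonneg _
  have h5 : 0 ≤ S.ς * ∑ i, T.tau (T.pos (st.sig i)) :=
    mul_nonneg hς (Finset.sum_nonneg fun i _ => T.tau_nonneg (idem_nonneg (T.pos_mul_self _)))
  unfold Wpot at hW
  have h6 : 0 ≤ S.μ * ∑ i, T.tr (T.Gop P y st i) := mul_nonneg hμ.le h3
  have h7 : 0 ≤ S.A * S.μ * ∑ i, T.n2 (st.R i) ^ 2 := mul_nonneg (by positivity) h4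
  refine ⟨by linarith, le_of_mul_le_mul_left (by linarith) hμ, ?_⟩
  rw [le_div_iff₀ hA]
  exact le_of_mul_le_mul_left (a := S.μ) (by linarith) hμ

lemma tr_sandwich_Z_le (hy0 : 0 ≤ y) (hy1 : y ≤ 1) (hz : P.z ≤ 1) (hz0 : 0 ≤ P.z)
    (st : St M Ω P.r) (i : Fin P.r) (hσ : 0 ≤ st.sig i) (hR : T.n2 (st.R i) ≤ 1) :
    T.tr (vop y * T.Zop P y st i * vop y) ≤ 2 := by
  obtain ⟨hv, hv1, hvv⟩ := vop_props hy0 hy1
  simp only [Zop, mul_add, add_mul, mul_sub, sub_mul, mul_smul_comm, smul_mul_assoc, mul_one,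
    map_add, map_sub, map_smul, smul_eq_mul]
  have h1 : T.tr (vop y * vop y) ≤ 1 := by rw [hvv]; simpa [T.tr_one] using T.tr_mono hy1
  have h1' : 0 ≤ T.tr (vop y * vop y) := by rw [hvv]; exact T.tr_nonneg hy0
  have h2 : 0 ≤ T.tr (vop y * (vop y * T.emb (st.sig i) * vop y) * vop y) :=
    T.tr_nonneg (hv.conjugate_nonneg (hv.conjugate_nonneg (T.emb_nonneg hσ)))
  have h3 : T.tr (vop y * st.R i * vop y) ≤ 1 := by
    refine (le_abs_self _).trans ((T.abs_tr_le_n2 _).trans ((T.n2_mul_right _ _).trans ?_))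
    calc T.n2 (vop y * st.R i) * ‖vop y‖ ≤ 1 * 1 := by
          refine mul_le_mul ((T.n2_mul_left _ _).trans ?_) hv1 (norm_nonneg _) zero_le_one
          calc ‖vop y‖ * T.n2 (st.R i) ≤ 1 * 1 := mul_le_mul hv1 hR (T.n2_nonneg _) zero_le_one
            _ = 1 := one_mul 1
      _ = 1 := one_mul 1
  nlinarith

/-- the gain of a step -/
lemma gain_total (hη : 0 < P.η) (hη1 : P.η ≤ 1 / 16) (hy0 : 0 ≤ y) (hy1 : y ≤ 1) (hz : P.z ≤ 1)
    (hz0 : 0 ≤ P.z) {S : Smalls} (hι : 0 < S.ι) {c : ℝ} (hc : 0 < c) (hE : ∀ ω, c ≤ T.E y ω)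
    (hγ : 0 < S.γ) {st : St M Ω P.r} (hinv : T.StInv P y S st)
    (hR : ∀ i, T.n2 (st.R i) ≤ 1) (G : Fin P.r → C(Ω, ℝ))
    (hG : ∀ i ω, G i ω = st.live ω * Profile.gex P.η (st.sig i ω) * Profile.wt P.η (st.sig i ω)
      * T.aval P y st i ω / (T.aval P y st i ω + S.ι)) :
    8 * (T.tau st.live
        - 2 * T.tau (st.live * chub (ContinuousMap.const Ω P.L - T.Fval P y st)))
      - P.η / 16 * ((P.r : ℝ) * (S.ι / c ^ 2)) ≤ ∑ i, T.tau (G i) := by
  obtain ⟨hv, hv1, hvv⟩ := vop_props hy0 hy1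
  have ha : ∀ i ω, 0 ≤ T.aval P y st i ω := fun i ω =>
    T.E_nonneg (hv.conjugate_nonneg (res_nonneg hγ (hinv.gap i))) ω
  set ev : Fin P.r → C(Ω, ℝ) := fun i => T.E (vop y * T.Zop P y st i * vop y) with hev
  have hZ : ∀ i, 0 ≤ T.Zop P y st i := fun i => (smul_nonneg hγ.le zero_le_one).trans (hinv.gap i)
  have hev0 : ∀ i ω, 0 ≤ ev i ω := fun i ω => T.E_nonneg (hv.conjugate_nonneg (hZ i)) ω
  have hev2 : ∀ i ω, c ^ 2 ≤ T.aval P y st i ω * ev i ω := fun i ω => by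
    set G' := T.Gop P y st i with hG'
    set W := CFC.sqrt G'
    have hW : W * W = G' := CFC.sqrt_mul_sqrt_self _ (res_nonneg hγ (hinv.gap i))
    have hWs : IsSelfAdjoint W := .of_nonneg (CFC.sqrt_nonneg _)
    have hZs : IsSelfAdjoint (T.Zop P y st i) := .of_nonneg (hZ i)
    have h := T.E_schwarz (W * vop y) (W * (T.Zop P y st i * vop y)) ω
    simp only [star_mul, hWs.star_eq, hv.star_eq, hZs.star_eq] at h
    have hWW : ∀ x : M, W * (W * x) = G' * x := fun x => by rw [← mul_assoc, hW]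
    simp only [mul_assoc, hWW] at h
    have hGZ : G' * (T.Zop P y st i * vop y) = vop y := by
      rw [← mul_assoc, show G' * T.Zop P y st i = 1 from res_mul hγ (hinv.gap i), one_mul]
    rw [hGZ, hvv] at h
    refine le_trans (pow_le_pow_left₀ hc.le (hE ω) 2) (h.trans_eq ?_)
    simp only [aval, hev, mul_assoc, hG']
  set Hb := chub (ContinuousMap.const Ω P.L - T.Fval P y st) with hHb
  have key : (8 : ℝ) • (st.live * (1 - (2 : ℝ) • Hb)) ≤
      ∑ i, (G i + (P.η / 32 * (S.ι / c ^ 2)) • ev i) := by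
    intro ω
    show (8 : ℝ) * (st.live ω * (1 - 2 * Profile.hub (P.L - T.Fval P y st ω))) ≤ _
    simp only [ContinuousMap.toFun_eq_coe, ContinuousMap.coe_sum, Finset.sum_apply,
      ContinuousMap.add_apply, ContinuousMap.smul_apply, smul_eq_mul, Finset.sum_add_distrib]
    have hge : ∀ i, st.live ω * (P.η / 32 * st.sig i ω)
        ≤ G i ω + P.η / 32 * (S.ι / c ^ 2) * ev i ω := by
      intro i
      have h0 : 0 ≤ st.sig i ω := hinv.sig_nonneg i ω
      have h1 := hinv.sig_le i ω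
      rw [hG]
      set a := T.aval P y st i ω
      have g1 := gain_pointwise hι.le hc (show st.sig i ω ≤ 1 by linarith) (ha i ω) (hev0 i ω)
        (hev2 i ω)
      have g2 : P.η / 32 * (st.sig i ω * a / (a + S.ι)) ≤
          Profile.gex P.η (st.sig i ω) * Profile.wt P.η (st.sig i ω) * a / (a + S.ι) := by
        have := Profile.gain hη hη1 h0 (show st.sig i ω ≤ 1 - P.η / 2 by linarith)
        rw [mul_div_assoc, mul_div_assoc, ← mul_assoc]
        exact mul_le_mul_of_nonneg_right this (div_nonneg (ha i ω) (by linarith [ha i ω]))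
      have g3 := mul_le_mul_of_nonneg_left g1 (show 0 ≤ P.η / 32 by linarith)
      rcases idem_zero_or_one hinv.live_idem ω with hl | hl
      · rw [hl]; simp
        exact mul_nonneg (mul_nonneg (by linarith) (div_nonneg hι.le (sq_nonneg c))) (hev0 i ω)
      · rw [hl]; simp only [one_mul]
        nlinarith
    have h2 := Finset.sum_le_sum fun i (_ : i ∈ Finset.univ) => hge i
    rw [← Finset.mul_sum, Finset.sum_add_distrib, ← Finset.mul_sum] at h2
    refine le_trans ?_ h2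
    have hF : T.Fval P y st ω ≤ ∑ i, st.sig i ω := by
      simp only [Fval, ContinuousMap.coe_sum, Finset.sum_apply]
      refine Finset.sum_le_sum fun i _ => ?_
      simp only [ContinuousMap.sub_apply, ContinuousMap.mul_apply, cphi, ContinuousMap.coe_mk,
        sub_le_self_iff]
      exact mul_nonneg (Profile.phi_nonneg hη (hinv.sig_nonneg i ω)
        (by linarith [hinv.sig_le i ω])) (ha i ω)
    set s := ∑ i, st.sig i ω
    have hs : 0 ≤ s := Finset.sum_nonneg fun i _ => hinv.sig_nonneg i ω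
    have hl := idem_nonneg hinv.live_idem ω
    have hL : P.η * (P.L - 1) = 256 := by unfold Params.L; field_simp; ring
    have hm : 8 * (1 - 2 * Profile.hub (P.L - T.Fval P y st ω)) ≤ P.η / 32 * s := by
      rcases le_total 1 (P.L - T.Fval P y st ω) with h | h
      · have := Profile.half_le_hub h
        nlinarith [mul_nonneg hη.le hs]
      · have := Profile.hub_nonneg (P.L - T.Fval P y st ω)
        nlinarith [mul_le_mul_of_nonneg_left (show P.L - 1 ≤ s by linarith) hη.le]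
    calc (8 : ℝ) * (st.live ω * (1 - 2 * Profile.hub (P.L - T.Fval P y st ω)))
        = st.live ω * (8 * (1 - 2 * Profile.hub (P.L - T.Fval P y st ω))) := by ring
      _ ≤ _ := mul_le_mul_of_nonneg_left hm hl
  have h := T.tau_mono key
  rw [map_sum] at h
  simp only [map_add, map_smul, smul_eq_mul, Finset.sum_add_distrib, ← Finset.mul_sum] at h
  rw [mul_sub, mul_smul_comm, map_sub, map_smul, mul_one, smul_eq_mul] at h
  have h5 : ∑ i, T.tau (ev i) ≤ (P.r : ℝ) * 2 := by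
    refine (Finset.sum_le_sum fun i _ => ?_).trans_eq (show ∑ _i : Fin P.r, (2 : ℝ) = _ by simp)
    simp only [hev, T.tau_E]
    exact tr_sandwich_Z_le hy0 hy1 hz hz0 st i (hinv.sig_nonneg i) (hR i)
  have h6 := mul_le_mul_of_nonneg_left h5
    (show 0 ≤ P.η / 32 * (S.ι / c ^ 2) by positivity)
  linarith

lemma linPart_neg (S : Smalls) (st : St M Ω P.r) (N : Fin P.r → M) (h : Fin P.r → C(Ω, ℝ)) :
    T.linPart P y S st N (-h) = -T.linPart P y S st N h := by
  have ho : ∀ i, T.offband y (N i) (-h i) = -T.offband y (N i) (h i) := fun i => by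
    simp only [offband, map_neg, mul_neg, neg_mul]; abel
  have hi : ∀ a b : M, T.ip a (-b) = -T.ip a b := fun a b => by simp [ip]
  simp only [linPart, Pi.neg_apply, map_neg, mul_neg, neg_mul, ho, hi, Finset.sum_neg_distrib]
  rw [neg_add, neg_neg, ← Finset.sum_neg_distrib]
  congr 1
  exact Finset.sum_congr rfl fun i _ => by ring

/-- the quadratic part as a quadratic form -/
lemma quadPart_eq (hη : 0 < P.η) (hy0 : 0 ≤ y) (hy1 : y ≤ 1) (S : Smalls) {γ : ℝ}
    (st : St M Ω P.r) (N : Fin P.r → M) (hb : ∀ i, Band γ (T.Zop P y st i) (N i))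
    (h : Fin P.r → C(Ω, ℝ)) :
    T.quadPart P y S st N h =
      T.tau (st.live * ((∑ i, T.Jop P y st N i (h i)) * ∑ i, T.Jop P y st N i (h i))) / 2
      + ∑ i, T.tau (h i * (T.Qop S.μ S.A y (T.Zop P y st i) (N i)
          - T.Pop (T.aval P y st i) (st.live * T.lam P y st)
              (comp1 (Profile.gex P.η) (st.sig i)) (comp1 (Profile.dphi P.η) (st.sig i))
              (st.live * T.lam P y st * cphi P.η (st.sig i)) y (T.Zop P y st i) (N i)) (h i)) := by
  obtain ⟨hv, -, -⟩ := vop_props hy0 hy1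
  rw [quadPart]
  refine congrArg _ (Finset.sum_congr rfl fun i _ => ?_)
  simp only [Qop, Pop, LinearMap.sub_apply, LinearMap.add_apply, LinearMap.smul_apply,
    Module.End.mul_apply, mul_sub, mul_add, mul_smul_comm, map_sub, map_add, map_smul, smul_eq_mul,
    tau_tilt ((hb i).Xp_sa hv)]
  rw [T.n2_offband_sq hy0 hy1 (hb i).proj, mul_sub, map_sub]
  simp only [Fquad, mlt, LinearMap.mulLeft_apply, mul_sub, map_sub]
  set X := Xp (vop y) (T.Zop P y st i) (N i)
  set a := T.aval P y st i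
  set l := st.live
  set w := T.lam P y st
  set g := comp1 (Profile.gex P.η) (st.sig i)
  set dp := comp1 (Profile.dphi P.η) (st.sig i)
  set p := cphi P.η (st.sig i)
  rw [show h i * ((l * w * 1 + l * w * g) * a * h i) = l * (w * ((1 + g) * a * (h i * h i))) by ring,
    show h i * (l * w * dp * T.K X (h i)) = l * (w * (dp * (h i * T.K X (h i)))) by ring,
    show l * w * p * T.E (X * T.emb (h i) * X * T.emb (h i) * X)
      = l * (w * (p * T.E (X * T.emb (h i) * X * T.emb (h i) * X))) by ring]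
  ring

lemma Jop_facts (hη : 0 < P.η) (hη1 : P.η ≤ 1 / 16) (hy0 : 0 ≤ y) (hy1 : y ≤ 1) {S : Smalls}
    {st : St M Ω P.r} (hinv : T.StInv P y S st) {γ : ℝ} {N : Fin P.r → M}
    (hb : ∀ i, Band γ (T.Zop P y st i) (N i)) (i : Fin P.r) :
    T.Jop P y st N i ∈ T.TT ∧
    (mlt (1 - comp1 (Profile.dphi P.η) (st.sig i) * T.aval P y st i)
      - T.K (Xp (vop y) (T.Zop P y st i) (N i)) * mlt (cphi P.η (st.sig i))) ∈ T.TT ∧
    (∀ f g, T.tau (f * T.Jop P y st N i g) = T.tau (g *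
      ((mlt (1 - comp1 (Profile.dphi P.η) (st.sig i) * T.aval P y st i)
        - T.K (Xp (vop y) (T.Zop P y st i) (N i)) * mlt (cphi P.η (st.sig i)) :
          Module.End ℝ C(Ω, ℝ)) f))) ∧
    T.Bnd2 (1 + (2 + 1 / P.η) * (1 / γ) + 2 * (1 / γ) ^ 2) (T.Jop P y st N i) ∧
    T.Bnd2 (1 + (2 + 1 / P.η) * (1 / γ) + 2 * (1 / γ) ^ 2)
      (mlt (1 - comp1 (Profile.dphi P.η) (st.sig i) * T.aval P y st i)
        - T.K (Xp (vop y) (T.Zop P y st i) (N i)) * mlt (cphi P.η (st.sig i))) := by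
  obtain ⟨hv, hv1, -⟩ := vop_props hy0 hy1
  have hγ : 0 < γ := (hb i).pos
  have hX : IsSelfAdjoint (Xp (vop y) (T.Zop P y st i) (N i)) := (hb i).Xp_sa hv
  have m1 := T.mlt_mem (1 - comp1 (Profile.dphi P.η) (st.sig i) * T.aval P y st i)
  have m2 := T.mlt_mem (cphi P.η (st.sig i))
  have h0 : ∀ ω, 0 ≤ st.sig i ω := fun ω => hinv.sig_nonneg i ω
  have h1 : ∀ ω, st.sig i ω ≤ 1 - P.η / 2 := fun ω => by linarith [hinv.sig_le i ω]
  have bf : ‖1 - comp1 (Profile.dphi P.η) (st.sig i) * T.aval P y st i‖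
      ≤ 1 + (2 + 1 / P.η) * (1 / γ) := by
    refine (ContinuousMap.norm_le _ (by positivity)).2 fun ω => ?_
    simp only [ContinuousMap.sub_apply, ContinuousMap.one_apply, ContinuousMap.mul_apply,
      comp1_apply (Profile.continuous_dphi hη), Real.norm_eq_abs]
    refine (abs_sub _ _).trans (add_le_add (by simp) ?_)
    rw [abs_mul]
    refine mul_le_mul (Profile.abs_dphi_le hη (by linarith) (h0 ω) (h1 ω)) ?_ (abs_nonneg _)
      (by positivity)
    exact (T.abs_E_le _ _).trans ((norm_sandwich_le hv1 _).trans (norm_res_le hγ (hb i).gap))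
  have bp : ‖cphi P.η (st.sig i)‖ ≤ 2 := by
    refine (ContinuousMap.norm_le _ (by norm_num)).2 fun ω => ?_
    show |Profile.phi P.η (st.sig i ω)| ≤ 2
    rw [abs_of_nonneg (Profile.phi_nonneg hη (h0 ω) (h1 ω))]
    refine (Profile.phi_le hη (h0 ω) (h1 ω)).trans ?_
    nlinarith [h0 ω, h1 ω]
  have bK := T.bnd2_K hX ((hb i).norm_Xp_le hv1)
  refine ⟨sub_mem m1 (mul_mem m2 (T.K_mem hX)), sub_mem m1 (mul_mem (T.K_mem hX) m2), ?_,
    Bnd2.sub (T.bnd2_mlt bf) (Bnd2.mul (by norm_num) (T.bnd2_mlt bp) bK), ?_⟩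
  · intro f g
    simp only [Jop, LinearMap.sub_apply, Module.End.mul_apply, mlt, LinearMap.mulLeft_apply,
      mul_sub, map_sub]
    congr 1
    · congr 1; ring
    · rw [← mul_assoc f, T.tau_mul_K, hX.star_eq, mul_comm f]
  · have h := Bnd2.sub (T.bnd2_mlt bf) (Bnd2.mul (by positivity) bK (T.bnd2_mlt bp))
    rwa [mul_comm ((1 / γ) ^ 2) 2] at h

/-- the deterministic terms of one channel -/
lemma det_channel (hT : T.OmegaSpec) (hη : 0 < P.η) (hη1 : P.η ≤ 1 / 16) (hy0 : 0 ≤ y) (hy1 : y ≤ 1)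
    {S : Smalls} (hμ : 0 < S.μ) (hι : 0 < S.ι) (hA : 0 < S.A) (hγ : 0 < S.γ) (hγ1 : S.γ ≤ 1)
    {st : St M Ω P.r} (hinv : T.StInv P y S st) {N : Fin P.r → M}
    (hb : ∀ i, Band S.γ (T.Zop P y st i) (N i)) (i : Fin P.r) (D G : C(Ω, ℝ))
    (hD : ∀ ω, D ω = Profile.wt P.η (st.sig i ω) * st.live ω
      / ((T.lam P y st ω + S.μ) * (T.aval P y st i ω + S.ι)))
    (hG : ∀ ω, G ω = st.live ω * Profile.gex P.η (st.sig i ω) * Profile.wt P.η (st.sig i ω)
      * T.aval P y st i ω / (T.aval P y st i ω + S.ι)) :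
    T.omega (mlt (Ω := Ω) D * (T.Qop S.μ S.A y (T.Zop P y st i) (N i)
          - T.Pop (T.aval P y st i) (st.live * T.lam P y st)
              (comp1 (Profile.gex P.η) (st.sig i)) (comp1 (Profile.dphi P.η) (st.sig i))
              (st.live * T.lam P y st * cphi P.η (st.sig i)) y (T.Zop P y st i) (N i)))
      + (- T.tau (st.live * (T.lam P y st * T.Fdet P y st N (4 * S.γ * P.C1 / S.μ)
            (fun j => -(T.aval P y st j) * (if j = i then D else 0)) i))
        + S.μ / P.η * T.tau (-(T.aval P y st i) * D)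
        + S.μ * T.tau (-(T.aval P y st i) * D * T.E (X2 (vop y) (T.Zop P y st i) (N i)))
        + 2 * S.A * S.μ * (T.n2 (st.R i) * ((2 * ‖-(T.aval P y st i) * D‖ + 4 * S.γ * P.C1 / S.μ)
            * Real.sqrt (T.tr (1 - N i)))))
      ≤ - T.tau G + 4 * S.A * S.γ / S.ι * T.tr (T.Gop P y st i)
        + 2 * S.A * (2 + 4 * P.C1) * (2 * Real.sqrt S.γ)
            * (T.n2 (st.R i) * Real.sqrt (T.tr (T.Gop P y st i))) := by
  obtain ⟨hv, hv1, hvv⟩ := vop_props hy0 hy1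
  set X := Xp (vop y) (T.Zop P y st i) (N i) with hXdef
  have hX : IsSelfAdjoint X := (hb i).Xp_sa hv
  set a := T.aval P y st i with hadef
  set lw := st.live * T.lam P y st with hlw
  set ψ := lw * cphi P.η (st.sig i) with hψ
  have h0 : ∀ ω, 0 ≤ st.sig i ω := fun ω => hinv.sig_nonneg i ω
  have h1 : ∀ ω, st.sig i ω ≤ 1 - P.η / 2 := fun ω => by linarith [hinv.sig_le i ω]
  have hC1 : 0 ≤ P.C1 := by unfold Params.C1; positivity
  have hl0 := idem_nonneg hinv.live_idem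
  have hlam0 : ∀ ω, 0 ≤ T.lam P y st ω := fun ω => by
    rw [lam, comp1_apply continuous_dhub]; exact Profile.dhub_nonneg _
  have ha : ∀ ω, 0 ≤ a ω := fun ω => T.E_nonneg (hv.conjugate_nonneg (res_nonneg hγ (hinv.gap i))) ω
  have hψ0 : 0 ≤ ψ := fun ω => mul_nonneg (mul_nonneg (hl0 ω) (hlam0 ω))
    (Profile.phi_nonneg hη (h0 ω) (h1 ω))
  have hk : 0 ≤ T.K X ψ := T.K_nonneg _ hψ0
  have he2 : 0 ≤ T.E (X2 (vop y) (T.Zop P y st i) (N i)) := T.E_nonneg ((hb i).X2_nonneg hv)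
  have hDb : ∀ ω, 0 ≤ D ω ∧ D ω ≤ 1 / (S.μ * S.ι) ∧ a ω * D ω ≤ 1 / S.μ := fun ω => by
    have hw0 : 0 ≤ Profile.wt P.η (st.sig i ω) := Profile.wt_nonneg hη
    have hw1 := Profile.wt_le_one hη hη1 (h0 ω) (h1 ω)
    have hl1 : st.live ω ≤ 1 := idem_le_one hinv.live_idem ω
    have hnum : Profile.wt P.η (st.sig i ω) * st.live ω ≤ 1 := mul_le_one₀ hw1 (hl0 ω) hl1
    have hnum0 : 0 ≤ Profile.wt P.η (st.sig i ω) * st.live ω := mul_nonneg hw0 (hl0 ω)
    have hlm : S.μ ≤ T.lam P y st ω + S.μ := by linarith [hlam0 ω]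
    have hai : S.ι ≤ a ω + S.ι := by linarith [ha ω]
    have hd0 : 0 < (T.lam P y st ω + S.μ) * (a ω + S.ι) := by
      have := ha ω; have := hlam0 ω; positivity
    rw [hD]
    refine ⟨by positivity, ?_, ?_⟩
    · exact div_le_div₀ zero_le_one hnum (by positivity)
        (mul_le_mul hlm hai hι.le (by linarith [hlam0 ω]))
    · rw [mul_div_assoc', div_le_div_iff₀ hd0 hμ]
      calc a ω * (Profile.wt P.η (st.sig i ω) * st.live ω) * S.μ ≤ (a ω + S.ι) * 1 * S.μ := by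
            gcongr
            · linarith [ha ω]
            · linarith
        _ ≤ 1 * ((T.lam P y st ω + S.μ) * (a ω + S.ι)) := by
            nlinarith [mul_nonneg (hlam0 ω) (add_nonneg (ha ω) hι.le)]
  rw [omega_step hT hy0 hy1 (hb i)]
  simp only [Fdet, if_true]
  rw [← hXdef, ← hadef]
  set b := T.E (Bop (vop y) (T.Zop P y st i) (N i)) with hbdef
  set dp := comp1 (Profile.dphi P.η) (st.sig i)
  set g := comp1 (Profile.gex P.η) (st.sig i)
  set e2 := T.E (X2 (vop y) (T.Zop P y st i) (N i))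
  set ap := T.E X
  set ρ := 4 * S.γ * P.C1 / S.μ with hρ
  have hsym : T.tau (st.live * (T.lam P y st * (cphi P.η (st.sig i) * T.K X (-a * D))))
      = - T.tau (a * D * T.K X ψ) := by
    rw [neg_mul, map_neg, mul_neg, mul_neg, mul_neg, map_neg, ← mul_assoc, ← mul_assoc,
      show st.live * T.lam P y st * cphi P.η (st.sig i) = ψ from rfl, T.tau_mul_K, hX.star_eq]
  have key : st.live * (T.lam P y st * (a * D)) - st.live * (T.lam P y st * (dp * a * (a * D)))
      - D * (lw * (1 + g) * a) + D * (lw * dp) * (ap * ap) + D * (ap * T.K X ψ)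
      - a * D * T.K X ψ - ρ • (ψ * b) + S.μ • (D * (ap * e2)) - S.μ • (a * D * e2)
      - (S.μ / P.η) • (a * D) ≤ -G := by
    intro ω
    have hg0 := Profile.gex_nonneg (x := st.sig i ω) hη
    have := det_pointwise (η := P.η) (μ := S.μ) (ι := S.ι) (ρ := ρ) (l := st.live ω)
      (lam := T.lam P y st ω) (g := Profile.gex P.η (st.sig i ω))
      (p := Profile.phi P.η (st.sig i ω)) (dp := Profile.dphi P.η (st.sig i ω)) (a := a ω)
      (ap := ap ω) (b := b ω) (D := D ω) (k := T.K X ψ ω) (e2 := e2 ω)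
      (wt := Profile.wt P.η (st.sig i ω)) hη hμ hι (idem_zero_or_one hinv.live_idem ω) (hlam0 ω)
      hg0 (Profile.gex_le hη (by linarith)) (Profile.phi_nonneg hη (h0 ω) (h1 ω)) (ha ω)
      (T.E_nonneg ((hb i).Xp_nonneg hv) ω) (T.E_mono ((hb i).Xp_le hv) ω) (hk ω) (he2 ω)
      (Profile.wt_nonneg hη) (C1 := P.C1) (γ := S.γ) hγ.le
      (Profile.dphi_wt_le hη hη1 (h0 ω) (h1 ω)) (T.E_band_le (hb i) hv ω) hρ (hD ω)
    have hψω : ψ ω = st.live ω * T.lam P y st ω * Profile.phi P.η (st.sig i ω) := rfl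
    have hlwω : lw ω = st.live ω * T.lam P y st ω := rfl
    simp only [ContinuousMap.toFun_eq_coe, ContinuousMap.add_apply, ContinuousMap.sub_apply,
      ContinuousMap.mul_apply, ContinuousMap.smul_apply, ContinuousMap.neg_apply,
      ContinuousMap.one_apply, smul_eq_mul, hlwω, hψω, hG, g, dp,
      comp1_apply (Profile.continuous_gex hη), comp1_apply (Profile.continuous_dphi hη)]
    refine le_trans (le_of_eq ?_) this
    ring
  have hk' := T.tau_mono key
  simp only [map_sub, map_add, map_smul, map_neg, smul_eq_mul] at hk'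
  have e1 : T.tau (st.live * (T.lam P y st * (-a * D - dp * a * (-a * D)
        - cphi P.η (st.sig i) * (T.K X (-a * D) - ρ • b))))
      = - T.tau (st.live * (T.lam P y st * (a * D)))
        + T.tau (st.live * (T.lam P y st * (dp * a * (a * D))))
        + T.tau (a * D * T.K X ψ) + ρ * T.tau (ψ * b) := by
    simp only [mul_sub, mul_smul_comm, map_sub, map_smul, smul_eq_mul, hsym]
    rw [show st.live * (T.lam P y st * (cphi P.η (st.sig i) * b)) = ψ * b by simp only [hψ, hlw]; ring]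
    simp only [neg_mul, mul_neg, map_neg]
    ring
  rw [e1]
  -- the band excess
  set p1 := T.tr (1 - N i)
  have hp1 : 0 ≤ p1 := T.tr_nonneg (hb i).proj.one_sub.nonneg
  have hband : p1 ≤ 2 * S.γ * T.tr (T.Gop P y st i) := T.tr_band_le (hb i)
  have htG : 0 ≤ T.tr (T.Gop P y st i) := T.tr_nonneg (res_nonneg hγ (hinv.gap i))
  have hex : T.tau (D * (T.E y * T.E y))
      - T.tau (D * (T.E (vop y * N i * vop y) * T.E (vop y * N i * vop y)))
      ≤ 1 / (S.μ * S.ι) * (2 * p1) := by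
    have hle : T.E y * T.E y - T.E (vop y * N i * vop y) * T.E (vop y * N i * vop y)
        ≤ (2 : ℝ) • T.E (vop y * (1 - N i) * vop y) := by
      intro ω
      have e : T.E (vop y * (1 - N i) * vop y) = T.E y - T.E (vop y * N i * vop y) := by
        rw [mul_sub, sub_mul, mul_one, hvv, map_sub]
      have q1 : T.E y ω ≤ 1 := by simpa [T.E_one] using T.E_mono hy1 ω
      have q2 : 0 ≤ T.E (vop y * N i * vop y) ω :=
        T.E_nonneg (hv.conjugate_nonneg (hb i).proj.nonneg) ω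
      have q3 : 0 ≤ T.E (vop y * (1 - N i) * vop y) ω :=
        T.E_nonneg (hv.conjugate_nonneg (hb i).proj.one_sub.nonneg) ω
      rw [e] at q3 ⊢
      simp only [ContinuousMap.toFun_eq_coe, ContinuousMap.smul_apply, ContinuousMap.sub_apply,
        ContinuousMap.mul_apply, smul_eq_mul] at q3 ⊢
      nlinarith
    rw [← map_sub, ← mul_sub]
    refine (T.tau_mono (show _ ≤ (1 / (S.μ * S.ι)) • ((2 : ℝ) • T.E (vop y * (1 - N i) * vop y))
      from fun ω => ?_)).trans ?_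
    · have := hle ω
      simp only [ContinuousMap.toFun_eq_coe, ContinuousMap.smul_apply, ContinuousMap.mul_apply,
        smul_eq_mul] at this ⊢
      refine (mul_le_mul_of_nonneg_left this (hDb ω).1).trans ?_
      exact mul_le_mul_of_nonneg_right (hDb ω).2.1
        (mul_nonneg zero_le_two (T.E_nonneg (hv.conjugate_nonneg (hb i).proj.one_sub.nonneg) ω))
    · rw [map_smul, map_smul, smul_eq_mul, smul_eq_mul, T.tau_E]
      exact mul_le_mul_of_nonneg_left (mul_le_mul_of_nonneg_left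
        (T.tr_conj_proj_le (hb i).proj.one_sub hy1 hvv) zero_le_two) (by positivity)
  have hex2 : S.A * S.μ * (T.tau (D * (T.E y * T.E y))
      - T.tau (D * (T.E (vop y * N i * vop y) * T.E (vop y * N i * vop y))))
      ≤ 4 * S.A * S.γ / S.ι * T.tr (T.Gop P y st i) := by
    refine (mul_le_mul_of_nonneg_left hex (by positivity)).trans ?_
    calc S.A * S.μ * (1 / (S.μ * S.ι) * (2 * p1)) = 2 * S.A / S.ι * p1 := by field_simp
      _ ≤ 2 * S.A / S.ι * (2 * S.γ * T.tr (T.Gop P y st i)) :=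
          mul_le_mul_of_nonneg_left hband (by positivity)
      _ = _ := by ring
  have hnorm : ‖-a * D‖ ≤ 1 / S.μ := by
    refine (ContinuousMap.norm_le _ (by positivity)).2 fun ω => ?_
    simp only [neg_mul, ContinuousMap.neg_apply, norm_neg, ContinuousMap.mul_apply,
      Real.norm_eq_abs]
    rw [abs_of_nonneg (mul_nonneg (ha ω) (hDb ω).1)]
    exact (hDb ω).2.2
  have hcr : 2 * S.A * S.μ * (T.n2 (st.R i) * ((2 * ‖-a * D‖ + ρ) * Real.sqrt p1))
      ≤ 2 * S.A * (2 + 4 * P.C1) * (2 * Real.sqrt S.γ)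
          * (T.n2 (st.R i) * Real.sqrt (T.tr (T.Gop P y st i))) := by
    have q1 : S.μ * (2 * ‖-a * D‖ + ρ) ≤ 2 + 4 * P.C1 := by
      have : S.μ * ‖-a * D‖ ≤ 1 := by
        calc S.μ * ‖-a * D‖ ≤ S.μ * (1 / S.μ) := mul_le_mul_of_nonneg_left hnorm hμ.le
          _ = 1 := by field_simp
      have e : S.μ * ρ = 4 * P.C1 * S.γ := by rw [hρ]; field_simp
      nlinarith
    have q2 : Real.sqrt p1 ≤ 2 * Real.sqrt S.γ * Real.sqrt (T.tr (T.Gop P y st i)) := by
      refine (Real.sqrt_le_sqrt hband).trans ?_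
      rw [show (2 : ℝ) * S.γ * T.tr (T.Gop P y st i) = 2 * (S.γ * T.tr (T.Gop P y st i)) by ring,
        Real.sqrt_mul zero_le_two, Real.sqrt_mul hγ.le, mul_assoc]
      refine mul_le_mul_of_nonneg_right ?_ (by positivity)
      rw [Real.sqrt_le_left zero_le_two]; norm_num
    have hnR := T.n2_nonneg (st.R i)
    calc 2 * S.A * S.μ * (T.n2 (st.R i) * ((2 * ‖-a * D‖ + ρ) * Real.sqrt p1))
        = 2 * S.A * (S.μ * (2 * ‖-a * D‖ + ρ)) * (T.n2 (st.R i) * Real.sqrt p1) := by ring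
      _ ≤ 2 * S.A * (2 + 4 * P.C1) * (T.n2 (st.R i)
            * (2 * Real.sqrt S.γ * Real.sqrt (T.tr (T.Gop P y st i)))) := by gcongr
      _ = _ := by ring
  have e2' : T.tau (-a * D) = - T.tau (a * D) ∧ T.tau (-a * D * e2) = - T.tau (a * D * e2) := by
    constructor <;> simp [neg_mul]
  rw [e2'.1, e2'.2]
  linarith

/-- the favourable part is at most one on the weighted direction -/
lemma Pop_le (hη : 0 < P.η) (hη1 : P.η ≤ 1 / 16) (hy0 : 0 ≤ y) (hy1 : y ≤ 1) {S : Smalls}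
    {μ ι γ : ℝ} (hμ : 0 < μ) (hι : 0 < ι) (hγ : 0 < γ) {st : St M Ω P.r}
    (hinv : T.StInv P y S st) {N : Fin P.r → M} (hb : ∀ i, Band γ (T.Zop P y st i) (N i))
    {D : Fin P.r → C(Ω, ℝ)} (hDω : ∀ i ω, D i ω = Profile.wt P.η (st.sig i ω) * st.live ω
      / ((T.lam P y st ω + μ) * (T.aval P y st i ω + ι)))
    (hD0 : ∀ i, 0 ≤ D i) (i : Fin P.r) (u : C(Ω, ℝ)) :
    T.tau ((csqrt (D i) * u) * (T.Pop (T.aval P y st i) (st.live * T.lam P y st)
      (comp1 (Profile.gex P.η) (st.sig i)) (comp1 (Profile.dphi P.η) (st.sig i))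
      (st.live * T.lam P y st * cphi P.η (st.sig i)) y (T.Zop P y st i) (N i)) (csqrt (D i) * u))
      ≤ T.tau (u * u) := by
  obtain ⟨hv, -, -⟩ := vop_props hy0 hy1
  have h0 : ∀ i ω, 0 ≤ st.sig i ω := fun i ω => hinv.sig_nonneg i ω
  have h1 : ∀ i ω, st.sig i ω ≤ 1 - P.η / 2 := fun i ω => by linarith [hinv.sig_le i ω]
  have hl0 : ∀ ω, 0 ≤ st.live ω := fun ω => idem_nonneg hinv.live_idem ω
  have hlam0 : ∀ ω, 0 ≤ T.lam P y st ω := fun ω => by
    rw [lam, comp1_apply continuous_dhub]; exact Profile.dhub_nonneg _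
  have ha : ∀ i ω, 0 ≤ T.aval P y st i ω := fun i ω =>
    T.E_nonneg (hv.conjugate_nonneg (res_nonneg hγ (hb i).gap)) ω
  set X := Xp (vop y) (T.Zop P y st i) (N i) with hX
  set h := csqrt (D i) * u with hh
  simp only [Pop, LinearMap.sub_apply, Module.End.mul_apply, mul_sub, map_sub,
    T.tau_tilt ((hb i).Xp_sa hv)]
  simp only [mlt, LinearMap.mulLeft_apply, ← map_sub]
  refine T.tau_mono fun ω => ?_
  have hX0 : 0 ≤ X := (hb i).Xp_nonneg hv
  have hcc : 0 ≤ T.E (X * T.emb h * X * T.emb h * X) ω := by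
    refine T.E_nonneg ?_ ω
    rw [show X * T.emb h * X * T.emb h * X = X * (T.emb h * X * T.emb h) * X by
      simp only [mul_assoc]]
    exact ((hb i).Xp_sa hv).conjugate_nonneg ((T.emb_selfAdjoint h).conjugate_nonneg hX0)
  have hq := quad_pointwise (η := P.η) (x := st.sig i ω) (a := T.aval P y st i ω)
    (ap := T.E X ω) (lam := st.live ω * T.lam P y st ω) (h := h ω) (k := T.K X h ω)
    (c := T.E (X * T.emb h * X * T.emb h * X) ω) (u := u ω)
    (wι := st.live ω / ((T.lam P y st ω + μ) * (T.aval P y st i ω + ι)))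
    hη hη1 (h0 i ω) (h1 i ω) (mul_nonneg (hl0 ω) (hlam0 ω)) (ha i ω) (T.E_nonneg hX0 ω)
    (T.E_mono ((hb i).Xp_le hv) ω) hcc (T.K_sq_le hX0 h ω) ?_ ?_ ?_
  · simp only [ContinuousMap.toFun_eq_coe, ContinuousMap.sub_apply, ContinuousMap.mul_apply,
      ContinuousMap.add_apply, ContinuousMap.one_apply, cphi, ContinuousMap.coe_mk,
      comp1_apply (Profile.continuous_gex hη), comp1_apply (Profile.continuous_dphi hη), ← hX]
    refine le_trans (le_of_eq ?_) (hq.trans_eq (by ring))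
    ring
  · rw [show st.live ω * T.lam P y st ω * (T.aval P y st i ω * (st.live ω
        / ((T.lam P y st ω + μ) * (T.aval P y st i ω + ι))))
      = (st.live ω * st.live ω) * ((T.lam P y st ω * T.aval P y st i ω)
        / ((T.lam P y st ω + μ) * (T.aval P y st i ω + ι))) by ring]
    have q1 : st.live ω * st.live ω ≤ 1 :=
      mul_le_one₀ (idem_le_one hinv.live_idem ω) (hl0 ω) (idem_le_one hinv.live_idem ω)
    refine mul_le_one₀ q1 (div_nonneg (mul_nonneg (hlam0 ω) (ha i ω))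
      (mul_nonneg (by linarith [hlam0 ω]) (by linarith [ha i ω]))) ?_
    rw [div_le_one (mul_pos (by linarith [hlam0 ω]) (by linarith [ha i ω]))]
    exact mul_le_mul (by linarith) (by linarith) (ha i ω) (by linarith [hlam0 ω])
  · exact div_nonneg (hl0 ω) (mul_nonneg (by linarith [hlam0 ω]) (by linarith [ha i ω]))
  · show (Real.sqrt (D i ω) * u ω) ^ 2 = _
    rw [mul_pow, Real.sq_sqrt (show 0 ≤ D i ω from hD0 i ω)]
    rw [hDω]
    ring

/-- the band and cross terms are small -/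
lemma small_terms {γ A ι ηf : ℝ} (hγ : 0 < γ) (hι : 0 < ι) (hA : 0 < A) (hη : 0 < P.η)
    (hηf : 0 < ηf) {S : Smalls} {st : St M Ω P.r} (hinv : T.StInv P y S st) (hSγ : S.γ = γ)
    (htrG : ∑ i, T.tr (T.Gop P y st i) ≤ P.K₀) (hR2 : ∑ i, T.n2 (st.R i) ^ 2 ≤ P.K₀ / A)
    (hsγ : 4 * P.r * (4 * A * γ * P.K₀ / ι + 4 * (2 + 4 * P.C1) * P.K₀ * Real.sqrt (A * γ)) ≤ ηf) :
    4 * A * γ / ι * (∑ i, T.tr (T.Gop P y st i))
      + 2 * A * (2 + 4 * P.C1) * (2 * Real.sqrt γ)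
        * ∑ i, T.n2 (st.R i) * Real.sqrt (T.tr (T.Gop P y st i)) ≤ ηf / 4 := by
  have hC1 : 0 ≤ P.C1 := by unfold Params.C1; positivity
  have hgap : ∀ i, γ • (1 : M) ≤ T.Zop P y st i := fun i => hSγ ▸ hinv.gap i
  have hcs2 : ∑ i, T.n2 (st.R i) * Real.sqrt (T.tr (T.Gop P y st i))
      ≤ P.K₀ / Real.sqrt A := by
    have htG : ∀ i, 0 ≤ T.tr (T.Gop P y st i) := fun i => T.tr_nonneg (res_nonneg hγ (hgap i))
    have hsA : 0 < Real.sqrt A := Real.sqrt_pos.2 hA
    calc ∑ i, T.n2 (st.R i) * Real.sqrt (T.tr (T.Gop P y st i))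
        ≤ ∑ i, (Real.sqrt A * T.n2 (st.R i) ^ 2 + T.tr (T.Gop P y st i) / Real.sqrt A) / 2 := by
          refine Finset.sum_le_sum fun i _ => ?_
          have e := Real.mul_self_sqrt (htG i)
          have : T.tr (T.Gop P y st i) / Real.sqrt A
              = (Real.sqrt (T.tr (T.Gop P y st i)) / Real.sqrt A) ^ 2 * Real.sqrt A := by
            field_simp; nlinarith [Real.mul_self_sqrt hA.le]
          rw [this]
          have e2 : T.n2 (st.R i) * Real.sqrt (T.tr (T.Gop P y st i)) = Real.sqrt A *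
              (T.n2 (st.R i) * (Real.sqrt (T.tr (T.Gop P y st i)) / Real.sqrt A)) := by
            field_simp
          rw [e2]
          nlinarith [mul_nonneg hsA.le (sq_nonneg
            (T.n2 (st.R i) - Real.sqrt (T.tr (T.Gop P y st i)) / Real.sqrt A))]
      _ = (Real.sqrt A * ∑ i, T.n2 (st.R i) ^ 2
            + (∑ i, T.tr (T.Gop P y st i)) / Real.sqrt A) / 2 := by
          rw [← Finset.sum_div, Finset.sum_add_distrib, ← Finset.mul_sum, ← Finset.sum_div]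
      _ ≤ (Real.sqrt A * (P.K₀ / A) + P.K₀ / Real.sqrt A) / 2 := by gcongr
      _ = P.K₀ / Real.sqrt A := by
          have e := Real.sq_sqrt hA.le
          field_simp
          rw [e]
          ring
  rcases Nat.eq_zero_or_pos P.r with hr | hr
  · have : IsEmpty (Fin P.r) := by rw [hr]; infer_instance
    simp only [Finset.univ_eq_empty, Finset.sum_empty, mul_zero, add_zero]
    linarith
  have q1 := mul_le_mul_of_nonneg_left htrG (show 0 ≤ 4 * A * γ / ι by positivity)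
  have q2 := mul_le_mul_of_nonneg_left hcs2
    (show 0 ≤ 2 * A * (2 + 4 * P.C1) * (2 * Real.sqrt γ) by positivity)
  have e1 : 2 * A * (2 + 4 * P.C1) * (2 * Real.sqrt γ) * (P.K₀ / Real.sqrt A)
      = 4 * (2 + 4 * P.C1) * P.K₀ * Real.sqrt (A * γ) := by
    rw [Real.sqrt_mul hA.le]
    have hs := Real.sq_sqrt hA.le
    field_simp
    rw [hs]
    ring
  have hK : 0 ≤ P.K₀ := (Finset.sum_nonneg fun i _ =>
    T.tr_nonneg (res_nonneg hγ (hgap i))).trans htrG
  have hrr : (1 : ℝ) ≤ P.r := by exact_mod_cast hr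
  have q3 : 0 ≤ 4 * A * γ * P.K₀ / ι + 4 * (2 + 4 * P.C1) * P.K₀ * Real.sqrt (A * γ) := by
    positivity
  have q4 : 4 * (4 * A * γ * P.K₀ / ι + 4 * (2 + 4 * P.C1) * P.K₀ * Real.sqrt (A * γ))
      ≤ ηf := le_trans (by nlinarith) hsγ
  have e3 : 4 * A * γ / ι * P.K₀ = 4 * A * γ * P.K₀ / ι := by ring
  linarith

/-- the direction of a step -/
lemma exists_step_dir (hη : 0 < P.η) (hη1 : P.η ≤ 1 / 16)
    (hz0 : 0 ≤ P.z) (hz : P.z ≤ 1) (hy0 : 0 ≤ y) (hy1 : y ≤ 1) {μ ι γ A ς c ηf : ℝ}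
    (hμ : 0 < μ) (hι : 0 < ι) (hγ : 0 < γ) (hγ1 : γ ≤ 1) (hA : 0 < A) (hc : 0 < c)
    (hηf : 0 < ηf) (hE : ∀ ω, c ≤ T.E y ω) (hsμ : 32 * μ * P.K₀ ≤ ηf)
    (hsι : 12 * P.r * ι ≤ ηf * c ^ 2)
    (hsγ : 4 * P.r * (4 * A * γ * P.K₀ / ι + 4 * (2 + 4 * P.C1) * P.K₀ * Real.sqrt (A * γ)) ≤ ηf)
    {cs cJ H : ℝ} (hcs : cs = 1 / Real.sqrt (μ * ι))
    (hcJ : cJ = 1 + (2 + 1 / P.η) * (1 / γ) + 2 * (1 / γ) ^ 2) (hcs0 : 0 ≤ cs) (hcJ0 : 0 ≤ cJ)
    {k : ℕ} (hk : 1 ≤ k) (hres : ((P.r * cJ * cs) ^ 2 + 1) * P.r / (2 * k) ≤ ηf)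
    (hH : H = cs * 2 ^ k + 1 / μ) {st : St M Ω P.r}
    (hinv : T.StInv P y ⟨μ, ι, γ, A, ς⟩ st) {N : Fin P.r → M}
    (hb : ∀ i, Band γ (T.Zop P y st i) (N i)) (hlive : ηf ≤ T.tau st.live)
    (hR1 : ∀ i, T.n2 (st.R i) ≤ 1)
    (hhub : T.tau (st.live * chub (ContinuousMap.const Ω P.L - T.Fval P y st)) ≤ μ * P.K₀)
    (htrG : ∑ i, T.tr (T.Gop P y st i) ≤ P.K₀) (hR2 : ∑ i, T.n2 (st.R i) ^ 2 ≤ P.K₀ / A) :
    ∃ h h2 : Fin P.r → C(Ω, ℝ), (∀ i, ‖h i‖ ≤ H) ∧ (∀ i, ‖h2 i‖ ≤ H) ∧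
      (∀ i ω, (st.sig i ω = 0 ∨ st.live ω = 0) → h i ω = 0 ∧ h2 i ω = 0) ∧
      T.linPart P y ⟨μ, ι, γ, A, ς⟩ st N h ≤ 0 ∧
      T.quadPart P y ⟨μ, ι, γ, A, ς⟩ st N h
        + T.detPart P y ⟨μ, ι, γ, A, ς⟩ st N (4 * γ * P.C1 / μ) h2 ≤ -2 * ηf := by
  subst hcJ
  have hT := T.omegaSpec
  obtain ⟨hv, hv1, hvv⟩ := vop_props hy0 hy1
  set S : Smalls := ⟨μ, ι, γ, A, ς⟩ with hS
  set ρ := 4 * γ * P.C1 / μ with hρ
  have hH0 : 0 ≤ H := by rw [hH]; positivity
  have h0 : ∀ i ω, 0 ≤ st.sig i ω := fun i ω => hinv.sig_nonneg i ω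
  have h1 : ∀ i ω, st.sig i ω ≤ 1 - P.η / 2 := fun i ω => by linarith [hinv.sig_le i ω]
  have hl0 : ∀ ω, 0 ≤ st.live ω := fun ω => idem_nonneg hinv.live_idem ω
  have hlam0 : ∀ ω, 0 ≤ T.lam P y st ω := fun ω => by
    rw [lam, comp1_apply continuous_dhub]; exact Profile.dhub_nonneg _
  have ha : ∀ i ω, 0 ≤ T.aval P y st i ω := fun i ω =>
    T.E_nonneg (hv.conjugate_nonneg (res_nonneg hγ (hinv.gap i))) ω
  let D : Fin P.r → C(Ω, ℝ) := fun i => ⟨fun ω => Profile.wt P.η (st.sig i ω) * st.live ω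
      / ((T.lam P y st ω + μ) * (T.aval P y st i ω + ι)),
    ((((Profile.continuous_wt hη).comp (st.sig i).continuous).mul st.live.continuous).div
      (((T.lam P y st).continuous.add continuous_const).mul
        ((T.aval P y st i).continuous.add continuous_const))
      fun ω => ne_of_gt (mul_pos (by linarith [hlam0 ω]) (by linarith [ha i ω])))⟩
  let G : Fin P.r → C(Ω, ℝ) := fun i => ⟨fun ω => st.live ω * Profile.gex P.η (st.sig i ω)
      * Profile.wt P.η (st.sig i ω) * T.aval P y st i ω / (T.aval P y st i ω + ι),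
    ((((st.live.continuous.mul ((Profile.continuous_gex hη).comp (st.sig i).continuous)).mul
      ((Profile.continuous_wt hη).comp (st.sig i).continuous)).mul (T.aval P y st i).continuous).div
      ((T.aval P y st i).continuous.add continuous_const)
      fun ω => ne_of_gt (by linarith [ha i ω]))⟩
  have hD0 : ∀ i, 0 ≤ D i := fun i ω => div_nonneg (mul_nonneg (Profile.wt_nonneg hη) (hl0 ω))
    (mul_nonneg (by linarith [hlam0 ω]) (by linarith [ha i ω]))
  have hDb : ∀ i ω, D i ω ≤ 1 / (μ * ι) ∧ T.aval P y st i ω * D i ω ≤ 1 / μ := fun i ω => by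
    have hw1 := Profile.wt_le_one hη hη1 (h0 i ω) (h1 i ω)
    have hnum : Profile.wt P.η (st.sig i ω) * st.live ω ≤ 1 :=
      mul_le_one₀ hw1 (hl0 ω) (idem_le_one hinv.live_idem ω)
    have hnum0 : 0 ≤ Profile.wt P.η (st.sig i ω) * st.live ω :=
      mul_nonneg (Profile.wt_nonneg hη) (hl0 ω)
    have hd0 : 0 < (T.lam P y st ω + μ) * (T.aval P y st i ω + ι) :=
      mul_pos (by linarith [hlam0 ω]) (by linarith [ha i ω])
    constructor
    · exact div_le_div₀ zero_le_one hnum (by positivity) (mul_le_mul (by linarith [hlam0 ω])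
        (by linarith [ha i ω]) hι.le (by linarith [hlam0 ω]))
    · show T.aval P y st i ω * (Profile.wt P.η (st.sig i ω) * st.live ω
        / ((T.lam P y st ω + μ) * (T.aval P y st i ω + ι))) ≤ 1 / μ
      rw [mul_div_assoc', div_le_div_iff₀ hd0 hμ]
      calc T.aval P y st i ω * (Profile.wt P.η (st.sig i ω) * st.live ω) * μ
          ≤ (T.aval P y st i ω + ι) * 1 * μ := by
            gcongr
            · linarith [ha i ω]
            · linarith
        _ ≤ 1 * ((T.lam P y st ω + μ) * (T.aval P y st i ω + ι)) := by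
            nlinarith [mul_nonneg (hlam0 ω) (add_nonneg (ha i ω) hι.le)]
  set sd : Fin P.r → C(Ω, ℝ) := fun i => csqrt (D i) with hsd
  have hsd2 : ∀ i, sd i * sd i = D i := fun i => csqrt_mul_self (hD0 i)
  have hsdb : ∀ i, ‖sd i‖ ≤ cs := fun i => by
    refine (ContinuousMap.norm_le _ hcs0).2 fun ω => ?_
    show |Real.sqrt (D i ω)| ≤ cs
    rw [abs_of_nonneg (Real.sqrt_nonneg _), hcs, one_div, ← Real.sqrt_inv, ← one_div]
    exact Real.sqrt_le_sqrt (hDb i ω).1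
  set J' : Fin P.r → Module.End ℝ C(Ω, ℝ) := fun i =>
    mlt (1 - comp1 (Profile.dphi P.η) (st.sig i) * T.aval P y st i)
      - T.K (Xp (vop y) (T.Zop P y st i) (N i)) * mlt (cphi P.η (st.sig i))
  set Qo : Fin P.r → Module.End ℝ C(Ω, ℝ) := fun i => T.Qop μ A y (T.Zop P y st i) (N i)
  set Po : Fin P.r → Module.End ℝ C(Ω, ℝ) := fun i =>
    T.Pop (T.aval P y st i) (st.live * T.lam P y st) (comp1 (Profile.gex P.η) (st.sig i))
      (comp1 (Profile.dphi P.η) (st.sig i)) (st.live * T.lam P y st * cphi P.η (st.sig i)) y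
      (T.Zop P y st i) (N i)
  have hJ := fun i => T.Jop_facts hη hη1 hy0 hy1 hinv hb i
  have hPm : ∀ i, Po i ∈ T.TT := fun i =>
    sub_mem (sub_mem (T.mlt_mem _) (mul_mem (T.mlt_mem _) (T.K_mem ((hb i).Xp_sa hv))))
      (T.K2_mem ((hb i).Xp_sa hv) (conj_sa ((hb i).Xp_sa hv) (T.emb_selfAdjoint _)))
  have hQm : ∀ i, Qo i ∈ T.TT := fun i =>
    add_mem (Subalgebra.smul_mem _ (T.K2_mem ((hb i).Xp_sa hv) ((hb i).X2_sa hv)) _)
      (Subalgebra.smul_mem _ (sub_mem (T.K_mem (IsSelfAdjoint.of_nonneg hy0))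
        (T.K_mem (conj_sa hv (hb i).proj.isSelfAdjoint))) _)
  have hPle : ∀ i u, T.tau ((sd i * u) * Po i (sd i * u)) ≤ T.tau (u * u) :=
    T.Pop_le hη hη1 hy0 hy1 hμ hι hγ hinv hb (fun _ _ => rfl) hD0
  obtain ⟨x, hx, hdir⟩ := T.exists_direction hT k hk hηf hcJ0 hcs0 hres hinv.live_idem hsdb
    (fun i => (hJ i).1) (fun i => (hJ i).2.1) (fun i => (hJ i).2.2.1) (fun i => (hJ i).2.2.2.1)
    (fun i => (hJ i).2.2.2.2) hPm hQm hPle
    (fun i g => Qop_nonneg hμ.le hA.le hy0 hy1 (hb i) g)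
  set h₀ : Fin P.r → C(Ω, ℝ) := fun i => sd i * x i with hh₀
  set h2 : Fin P.r → C(Ω, ℝ) := fun i => -(T.aval P y st i) * D i with hh2
  have hneg : ∀ h, T.quadPart P y S st N (-h) = T.quadPart P y S st N h := fun h => by
    rw [T.quadPart_eq hη hy0 hy1 S st N hb, T.quadPart_eq hη hy0 hy1 S st N hb]
    simp only [Pi.neg_apply, map_neg, neg_mul, mul_neg, neg_neg, Finset.sum_neg_distrib]
  obtain ⟨h, hlin, hhq, hhn⟩ : ∃ h : Fin P.r → C(Ω, ℝ), T.linPart P y S st N h ≤ 0 ∧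
      T.quadPart P y S st N h = T.quadPart P y S st N h₀ ∧ ∀ i ω, |h i ω| = |h₀ i ω| := by
    rcases exists_sign_choice _ (T.linPart_neg (P := P) (y := y) S st N) h₀ with h | h
    · exact ⟨h₀, h, rfl, fun _ _ => rfl⟩
    · exact ⟨-h₀, h, hneg _, fun _ _ => by simp⟩
  have hhb : ∀ i, ‖h i‖ ≤ H := fun i => by
    refine (ContinuousMap.norm_le _ hH0).2 fun ω => ?_
    rw [Real.norm_eq_abs, hhn, ← Real.norm_eq_abs]
    refine ((h₀ i).norm_coe_le_norm ω).trans ((norm_mul_le _ _).trans ?_)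
    refine (mul_le_mul (hsdb i) (hx i) (norm_nonneg _) hcs0).trans ?_
    exact (le_add_of_nonneg_right (by positivity)).trans_eq hH.symm
  have hh2b : ∀ i, ‖h2 i‖ ≤ H := fun i => by
    refine (ContinuousMap.norm_le _ hH0).2 fun ω => ?_
    simp only [hh2, neg_mul, ContinuousMap.neg_apply, norm_neg, ContinuousMap.mul_apply,
      Real.norm_eq_abs]
    rw [abs_of_nonneg (mul_nonneg (ha i ω) (show 0 ≤ D i ω from hD0 i ω))]
    exact (hDb i ω).2.trans ((le_add_of_nonneg_left (by positivity)).trans_eq hH.symm)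
  have hzero : ∀ i ω, (st.sig i ω = 0 ∨ st.live ω = 0) → h i ω = 0 ∧ h2 i ω = 0 := by
    intro i ω hor
    have hD : D i ω = 0 := by
      show Profile.wt P.η (st.sig i ω) * st.live ω / _ = 0
      rcases hor with h' | h'
      · have : Profile.wt P.η 0 = 0 := by simp [Profile.wt, Profile.phi_zero hη (by linarith)]
        simp [h', this]
      · simp [h']
    refine ⟨abs_eq_zero.1 ?_, by simp [hh2, hD]⟩
    rw [hhn]
    have : sd i ω = 0 := by show Real.sqrt (D i ω) = 0; simp [hD]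
    simp [hh₀, this]
  -- the second order part is negative
  have hgain := T.gain_total hη hη1 hy0 hy1 hz hz0 (S := S) hι hc hE hγ hinv hR1 G fun i ω => rfl
  have hdet : T.detPart P y S st N ρ h2 + ∑ i, T.omega (mlt (sd i * sd i) * (Qo i - Po i)) ≤
      ∑ i, (- T.tau (G i) + 4 * A * γ / ι * T.tr (T.Gop P y st i)
        + 2 * A * (2 + 4 * P.C1) * (2 * Real.sqrt γ)
            * (T.n2 (st.R i) * Real.sqrt (T.tr (T.Gop P y st i)))) := by
    rw [detPart, ← Finset.sum_add_distrib]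
    refine Finset.sum_le_sum fun i _ => ?_
    have h3 := T.det_channel hT hη hη1 hy0 hy1 (S := S) hμ hι hA hγ hγ1 hinv hb i (D i) (G i)
      (fun ω => rfl) (fun ω => rfl)
    simp only [Fdet, if_true] at h3
    rw [hsd2]
    simp only [Fdet, hh2, hS, hρ, Qo, Po] at h3 ⊢
    linarith
  rw [Finset.sum_add_distrib, Finset.sum_add_distrib, ← Finset.mul_sum, ← Finset.mul_sum,
    Finset.sum_neg_distrib] at hdet
  have hsum := T.small_terms hγ hι hA hη hηf hinv rfl htrG hR2 hsγ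
  have hq : T.quadPart P y S st N h + T.detPart P y S st N ρ h2 ≤ -2 * ηf := by
    rw [hhq, T.quadPart_eq hη hy0 hy1 S st N hb]
    exact step_arith hη hη1 hι hc hηf hsμ hsι hdir hdet hsum hgain hhub hlive
  exact ⟨h, h2, hhb, hh2b, hzero, hlin, hq⟩

/-- one step of the walk -/
theorem stepSpec (T : TMasa M Ω) (P : Params) (y : M) (hη : 0 < P.η) (hη1 : P.η ≤ 1 / 16)
    (hz0 : 0 ≤ P.z) (hz : P.z ≤ 1) : T.StepSpec P y := by
  intro μ ι γ A c ηf hc hηf hy0 hy1 hE hsm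
  obtain ⟨hμ, hμ1, hι, -, hγ, hγ1, hAK, hA, hsμ, hsι, hsγ⟩ := hsm
  simp only at hμ hμ1 hι hγ hγ1 hAK hA hsμ hsι hsγ
  have hT := T.omegaSpec
  obtain ⟨hv, hv1, hvv⟩ := vop_props hy0 hy1
  have hC1 : 0 ≤ P.C1 := by unfold Params.C1; positivity
  set ρ := 4 * γ * P.C1 / μ with hρ
  have hρ0 : 0 ≤ ρ := by positivity
  set ς := min μ (1 / 2) with hςdef
  have hς : 0 < ς := lt_min hμ (by norm_num)
  have hς1 : ς < 1 - P.η := lt_of_le_of_lt (min_le_right _ _) (by linarith)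
  set cs := 1 / Real.sqrt (μ * ι) with hcs
  set cJ := 1 + (2 + 1 / P.η) * (1 / γ) + 2 * (1 / γ) ^ 2 with hcJ
  have hcs0 : 0 ≤ cs := by positivity
  have hcJ0 : 0 ≤ cJ := by positivity
  obtain ⟨k, hk, hres⟩ : ∃ k : ℕ, 1 ≤ k ∧
      ((P.r * cJ * cs) ^ 2 + 1) * P.r / (2 * k) ≤ ηf := by
    refine ⟨⌈((P.r * cJ * cs) ^ 2 + 1) * P.r / (2 * ηf)⌉₊ + 1, Nat.le_add_left _ _, ?_⟩
    have := Nat.le_ceil (((P.r * cJ * cs) ^ 2 + 1) * P.r / (2 * ηf))
    push_cast
    rw [div_le_iff₀ (by positivity)] at this ⊢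
    nlinarith
  set H := cs * 2 ^ k + 1 / μ with hH
  have hH0 : 0 ≤ H := by positivity
  obtain ⟨C, hC, hmove⟩ := T.exists_move_bound P hη hη1 μ ι γ A ς hμ hγ hA.le hς.le H ρ hH0 hρ0
  set m := min γ (min ς (P.η / 2)) with hm
  have hm0 : 0 < m := lt_min hγ (lt_min hς (by linarith))
  set t := min 1 (min (m / (2 * H + 1)) (ηf / (C + 1))) with ht
  have ht0 : 0 < t := lt_min one_pos (lt_min (by positivity) (by positivity))
  have htm : 2 * t * H ≤ m := by
    have h : t ≤ m / (2 * H + 1) := (min_le_right _ _).trans (min_le_left _ _)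
    rw [le_div_iff₀ (by positivity)] at h
    nlinarith
  have htC : C * t ≤ ηf := by
    have h : t ≤ ηf / (C + 1) := (min_le_right _ _).trans (min_le_right _ _)
    rw [le_div_iff₀ (by positivity)] at h
    nlinarith
  refine ⟨ς, t ^ 2 * ηf, hς, min_le_left _ _, by positivity, ?_⟩
  intro st₁ hinv₁ hW₁ hlive₁
  set S : Smalls := ⟨μ, ι, γ, A, ς⟩ with hS
  obtain ⟨st, hinv, hWle, hlv, hclean⟩ :=
    T.exists_clean (P := P) (y := y) (S := S) hη (by linarith) hμ.le hγ hinv₁ hς hς1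
  have hlive : ηf ≤ T.tau st.live := hlv ▸ hlive₁
  have hW : T.Wpot P y S st ≤ μ * P.K₀ := hWle.trans hW₁
  obtain ⟨hhub, htrG, hR2⟩ := T.Wpot_components hy0 hη (S := S) hμ hA hς.le hγ hinv hW
  simp only [hS] at hhub htrG hR2
  have hR1 : ∀ i, T.n2 (st.R i) ≤ 1 := fun i => by
    refine (pow_le_pow_iff_left₀ (T.n2_nonneg _) zero_le_one two_ne_zero).1 ?_
    rw [one_pow]
    refine ((Finset.single_le_sum (f := fun i => T.n2 (st.R i) ^ 2) (fun j _ => sq_nonneg _)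
      (Finset.mem_univ i)).trans hR2).trans ?_
    rw [div_le_one hA]; exact hAK
  choose N hb using fun i => TMasa.exists_band hγ (hinv.gap i)
    (fun X hX s => by
      obtain ⟨Q, h1, h2, h3, h4⟩ := T.exists_spectralProjection hX s
      exact ⟨Q, h1, (h2 X (Commute.refl X)).symm, h3, h4⟩)
  obtain ⟨h, h2, hhb, hh2b, hzero, hlin, hq⟩ := T.exists_step_dir hη hη1 hz0 hz hy0 hy1 hμ hι hγ
    hγ1 hA hc hηf hE hsμ hsι hsγ hcs hcJ hcs0 hcJ0 hk hres hH hinv hb hlive hR1 hhub htrG hR2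
  have hmγ : m ≤ γ := min_le_left _ _
  have hmς : m ≤ ς := (min_le_right _ _).trans (min_le_left _ _)
  have hmη : m ≤ P.η / 2 := (min_le_right _ _).trans (min_le_right _ _)
  obtain ⟨g1, g2, g3, g4, g5⟩ := hmove y hy0 hy1 st N hinv hb hclean ρ t h h2 hρ0 le_rfl ht0.le
    (min_le_left _ _) (htm.trans hmγ) (htm.trans hmς) (htm.trans hmη) hhb hh2b hzero
  obtain ⟨st', hinv', hW'⟩ := T.exists_assign (P := P) (y := y) (S := S) (st := T.move P y st N ρ t h h2) hη
    (by linarith) hμ.le hγ hς.le hinv.live_idem g1 g2 g3 g4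
  refine ⟨st', hinv', hW'.trans (g5.trans ?_)⟩
  have h7 : C * t ^ 3 ≤ ηf * t ^ 2 := by
    calc C * t ^ 3 = (C * t) * t ^ 2 := by ring
      _ ≤ ηf * t ^ 2 := mul_le_mul_of_nonneg_right htC (sq_nonneg t)
  have h8 : t * T.linPart P y S st N h ≤ 0 := mul_nonpos_of_nonneg_of_nonpos ht0.le hlin
  have h9 := mul_le_mul_of_nonneg_left hq (sq_nonneg t)
  linarith

end TMasa

end Vale.Agent.P078
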