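import Mathlib
import Vale.Agent.P078.Expect

/-! One-sided paving. -/

noncomputable section

namespace Vale.Agent.P078

universe u v

variable {M : Type u} [CStarAlgebra M] [PartialOrder M] [StarOrderedRing M]
  {Ω : Type v} [TopologicalSpace Ω] [CompactSpace Ω] [T2Space Ω]

/-- Positive contractions with expectation at most `δ` (and bounded below) can be cut into `r`
pieces on which, off a projection of small trace, they are at most `κ`. -/
def TMasa.UpperPav (T : TMasa M Ω) (δ κ : ℝ) (r : ℕ) : Prop :=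
  ∀ y : M, 0 ≤ y → y ≤ 1 → (∀ ω, T.E y ω ≤ δ) → (∃ c : ℝ, 0 < c ∧ ∀ ω, c ≤ T.E y ω) →
    ∀ δ' : ℝ, 0 < δ' → ∃ p : Fin r → C(Ω, ℝ), IsPartition p ∧ ∃ e : Fin r → M,
      (∀ i, IsStarProjection (e i) ∧ T.emb (p i) * e i = e i) ∧
      1 - δ' ≤ ∑ i, T.tr (e i) ∧ ∀ i, e i * y * e i ≤ κ • e i

end Vale.Agent.P078
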