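import Mathlib
import Vale.Agent.P078.PavingDefs
import Vale.Agent.P078.Spectral

/-! Two-sided paving from two applications of one-sided paving. -/

noncomputable section

open scoped ComplexOrder

set_option linter.unusedSectionVars false

namespace Vale.Agent.P078

universe u v

variable {M : Type u} [CStarAlgebra M] [PartialOrder M] [StarOrderedRing M]
  {Ω : Type v} [TopologicalSpace Ω] [CompactSpace Ω] [T2Space Ω] (T : TMasa M Ω)

namespace TMasa

lemma smul_one_nonneg {c : ℝ} (hc : 0 ≤ c) : (0 : M) ≤ c • (1 : M) :=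
  smul_nonneg hc zero_le_one

lemma le_norm_smul_one {x : M} (hx : IsSelfAdjoint x) : x ≤ ‖x‖ • (1 : M) := by
  rw [← Algebra.algebraMap_eq_smul_one]
  exact hx.le_algebraMap_norm_self

lemma le_one_of_norm_le_one {x : M} (hx : IsSelfAdjoint x) (h : ‖x‖ ≤ 1) : x ≤ 1 := by
  refine (le_norm_smul_one hx).trans ?_
  nth_rewrite 2 [← one_smul ℝ (1 : M)]
  exact smul_le_smul_of_nonneg_right h zero_le_one

lemma norm_isStarProjection_le {e : M} (he : IsStarProjection e) : ‖e‖ ≤ 1 :=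
  (CStarAlgebra.norm_le_one_iff_of_nonneg e he.nonneg).2 he.le_one

lemma emb_isStarProjection {p : C(Ω, ℝ)} (hp : p * p = p) : IsStarProjection (T.emb p) :=
  ⟨by rw [IsIdempotentElem, ← map_mul, hp], T.emb_selfAdjoint p⟩

lemma isStarProjection_sub {p : C(Ω, ℝ)} (hp : p * p = p) {e : M} (he : IsStarProjection e)
    (hle : T.emb p * e = e) : IsStarProjection (T.emb p - e) := by
  have h' : e * T.emb p = e := by
    have h := congrArg star hle
    rwa [star_mul, he.isSelfAdjoint.star_eq, T.star_emb] at h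
  refine ⟨?_, (T.emb_selfAdjoint p).sub he.isSelfAdjoint⟩
  show (T.emb p - e) * (T.emb p - e) = T.emb p - e
  rw [mul_sub, sub_mul, sub_mul, ← map_mul, hp, h', hle, he.isIdempotentElem.eq, sub_self,
    sub_zero]

lemma le_emb_of_mul_eq {p : C(Ω, ℝ)} (hp : p * p = p) {e : M} (he : IsStarProjection e)
    (hle : T.emb p * e = e) : e ≤ T.emb p :=
  sub_nonneg.1 (T.isStarProjection_sub hp he hle).nonneg

lemma sum_le_one {r : ℕ} {p : Fin r → C(Ω, ℝ)} (hp : IsPartition p) {e : Fin r → M}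
    (he : ∀ i, IsStarProjection (e i) ∧ T.emb (p i) * e i = e i) : ∑ i, e i ≤ 1 := by
  calc ∑ i, e i ≤ ∑ i, T.emb (p i) :=
        Finset.sum_le_sum fun i _ => T.le_emb_of_mul_eq (hp.idem i) (he i).1 (he i).2
    _ = 1 := by rw [← map_sum, hp.sum_one, map_one]

lemma n2_conj_sub_le {P e : M} (hP : IsStarProjection P) (he : IsStarProjection e) (x : M) :
    T.n2 (P * x * P - e * x * e) ≤ 2 * ‖x‖ * T.n2 (P - e) := by
  have e1 : P * x * P - e * x * e = (P - e) * (x * P) + (e * x) * (P - e) := by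
    simp only [sub_mul, mul_sub, mul_assoc]; abel
  have hxP : ‖x * P‖ ≤ ‖x‖ := (norm_mul_le _ _).trans
    (mul_le_of_le_one_right (norm_nonneg x) (norm_isStarProjection_le hP))
  have hex : ‖e * x‖ ≤ ‖x‖ := (norm_mul_le _ _).trans
    (mul_le_of_le_one_left (norm_nonneg x) (norm_isStarProjection_le he))
  rw [e1]
  refine (T.n2_add _ _).trans ?_
  have h1 := (T.n2_mul_right (x * P) (P - e)).trans
    (mul_le_mul_of_nonneg_left hxP (T.n2_nonneg _))
  have h2 := (T.n2_mul_left (e * x) (P - e)).trans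
    (mul_le_mul_of_nonneg_right hex (T.n2_nonneg _))
  linarith

lemma n2_sum_le {ι : Type*} (s : Finset ι) (f : ι → M) :
    T.n2 (∑ i ∈ s, f i) ≤ ∑ i ∈ s, T.n2 (f i) :=
  Finset.le_sum_of_subadditive T.n2 T.n2_zero.le T.n2_add s f

lemma n2_piece_sub_le {r : ℕ} {p : Fin r → C(Ω, ℝ)} (hp : IsPartition p) {e : Fin r → M}
    (he : ∀ i, IsStarProjection (e i) ∧ T.emb (p i) * e i = e i) {d : ℝ}
    (hd : 1 - d ≤ ∑ i, T.tr (e i)) (x : M) :
    T.n2 ((∑ i, T.emb (p i) * x * T.emb (p i)) - ∑ i, e i * x * e i) ≤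
      r * (2 * ‖x‖ * Real.sqrt d) := by
  have hsum : ∑ i, T.tr (T.emb (p i) - e i) ≤ d := by
    simp only [map_sub, Finset.sum_sub_distrib]
    rw [← map_sum T.tr (fun i => T.emb (p i)), ← map_sum T.emb, hp.sum_one, map_one, T.tr_one]
    linarith
  have hone : ∀ i, T.n2 (T.emb (p i) - e i) ≤ Real.sqrt d := by
    intro i
    have hq := T.isStarProjection_sub (hp.idem i) (he i).1 (he i).2
    refine Real.sqrt_le_sqrt ?_
    rw [ip, hq.isSelfAdjoint.star_eq, hq.isIdempotentElem.eq]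
    refine le_trans ?_ hsum
    exact Finset.single_le_sum (f := fun j => T.tr (T.emb (p j) - e j))
      (fun j _ => T.tr_nonneg (T.isStarProjection_sub (hp.idem j) (he j).1 (he j).2).nonneg)
      (Finset.mem_univ i)
  rw [← Finset.sum_sub_distrib]
  refine (T.n2_sum_le _ _).trans ((Finset.sum_le_sum fun i _ =>
    (T.n2_conj_sub_le (T.emb_isStarProjection (hp.idem i)) (he i).1 x).trans
      (mul_le_mul_of_nonneg_left (hone i) (by positivity))).trans ?_)
  simp [Finset.sum_const, nsmul_eq_mul]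

lemma pinch_mono (P : Part Ω) {x y : M} (h : x ≤ y) : T.pinch P x ≤ T.pinch P y := by
  simp only [pinch_apply]
  exact Finset.sum_le_sum fun i _ => (T.emb_selfAdjoint _).conjugate_le_conjugate h

lemma n2_pinch_le (P : Part Ω) (x : M) : T.n2 (T.pinch P x) ≤ T.n2 x := by
  have h := (le_abs_self _).trans (T.abs_ip_le x (T.pinch P x))
  have e : T.ip (T.pinch P x) (T.pinch P x) = T.ip x (T.pinch P x) := by
    rw [T.ip_pinch, T.pinch_pinch le_rfl]
  rw [← e, ← T.n2_sq, pow_two] at h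
  rcases eq_or_lt_of_le (T.n2_nonneg (T.pinch P x)) with h0 | h0
  · rw [← h0]; exact T.n2_nonneg _
  · exact le_of_mul_le_mul_right h h0

lemma n2_emb_E_le (x : M) : T.n2 (T.emb (T.E x)) ≤ T.n2 x := by
  have h : T.n2 (T.emb (T.E x)) ^ 2 = T.ip (T.emb (T.E x)) x := by
    rw [T.n2_emb_sq, T.tau_mul_E, ip, T.star_emb]
  have h' := (le_abs_self _).trans (T.abs_ip_le (T.emb (T.E x)) x)
  rw [← h, pow_two] at h'
  rcases eq_or_lt_of_le (T.n2_nonneg (T.emb (T.E x))) with h0 | h0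
  · rw [← h0]; exact T.n2_nonneg _
  · exact le_of_mul_le_mul_left h' h0

/-- A projection of small co-trace on which two self-adjoint elements are small. -/
lemma exists_cut {X₁ X₂ : M} (h₁ : IsSelfAdjoint X₁) (h₂ : IsSelfAdjoint X₂) {t : ℝ}
    (ht : 0 < t) :
    ∃ q : M, IsStarProjection q ∧ t ^ 2 * T.tr (1 - q) ≤ T.n2 X₁ ^ 2 + T.n2 X₂ ^ 2 ∧
      ‖q * X₁ * q‖ ≤ t ∧ ‖q * X₂ * q‖ ≤ t := by
  set Z := X₁ * X₁ + X₂ * X₂ with hZ
  have hz1 : 0 ≤ X₁ * X₁ := h₁.mul_self_nonneg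
  have hz2 : 0 ≤ X₂ * X₂ := h₂.mul_self_nonneg
  have hZ0 : 0 ≤ Z := add_nonneg hz1 hz2
  obtain ⟨Q, hQ, hcomm, hlow, hhigh⟩ :=
    T.exists_spectralProjection (IsSelfAdjoint.of_nonneg hZ0) (t ^ 2)
  refine ⟨1 - Q, hQ.one_sub, ?_, ?_⟩
  · have hc : Commute Z Q := hcomm Z (Commute.refl _)
    have e : Q * Z * Q = Z * Q := by rw [← hc.eq, mul_assoc, hQ.isIdempotentElem.eq]
    have h3 : Z * Q ≤ Z := by
      have h4 : 0 ≤ (1 - Q) * Z * (1 - Q) := hQ.one_sub.isSelfAdjoint.conjugate_nonneg hZ0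
      have e2 : (1 - Q) * Z * (1 - Q) = Z - Z * Q := by
        rw [sub_mul, one_mul, sub_mul, mul_sub, mul_sub, mul_one, mul_one, e, ← hc.eq]; abel
      rwa [e2, sub_nonneg] at h4
    have h5 := T.tr_mono (hlow.trans h3)
    rw [map_smul, smul_eq_mul] at h5
    rw [sub_sub_cancel, T.n2_sq, T.n2_sq, ip, ip, h₁.star_eq, h₂.star_eq, ← map_add]
    exact h5
  · set q := 1 - Q with hq
    have hqp : IsStarProjection q := hQ.one_sub
    have hc : Commute Z q := (Commute.one_right Z).sub_right (hcomm Z (Commute.refl _))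
    have hqZ : ‖q * Z * q‖ ≤ t ^ 2 := by
      have h0 : 0 ≤ q * Z * q := hqp.isSelfAdjoint.conjugate_nonneg hZ0
      refine (CStarAlgebra.norm_le_iff_le_algebraMap _ (sq_nonneg t) h0).2 ?_
      rw [← hc.eq, mul_assoc, hqp.isIdempotentElem.eq, Algebra.algebraMap_eq_smul_one]
      exact hhigh.trans (smul_le_smul_of_nonneg_left hqp.le_one (sq_nonneg t))
    have key : ∀ X : M, IsSelfAdjoint X → X * X ≤ Z → ‖q * X * q‖ ≤ t := by
      intro X hX hle
      have h0 : 0 ≤ q * (X * X) * q := hqp.isSelfAdjoint.conjugate_nonneg hX.mul_self_nonneg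
      have h1 : ‖q * (X * X) * q‖ ≤ t ^ 2 := (CStarAlgebra.norm_le_norm_of_nonneg_of_le h0
        (hqp.isSelfAdjoint.conjugate_le_conjugate hle)).trans hqZ
      have h2 : ‖X * q‖ ^ 2 ≤ t ^ 2 := by
        refine le_trans (le_of_eq ?_) h1
        rw [pow_two, ← CStarRing.norm_star_mul_self, star_mul, hX.star_eq,
          hqp.isSelfAdjoint.star_eq]
        simp only [mul_assoc]
      calc ‖q * X * q‖ = ‖q * (X * q)‖ := by rw [mul_assoc]
        _ ≤ ‖q‖ * ‖X * q‖ := norm_mul_le _ _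
        _ ≤ 1 * t := mul_le_mul (norm_isStarProjection_le hqp)
            ((pow_le_pow_iff_left₀ (norm_nonneg _) ht.le two_ne_zero).1 h2) (norm_nonneg _)
            zero_le_one
        _ = t := one_mul t
    exact ⟨key X₁ h₁ (le_add_of_nonneg_right hz2), key X₂ h₂ (le_add_of_nonneg_left hz1)⟩

lemma norm_le_of_two_sided {x : M} (hx : IsSelfAdjoint x) {c : ℝ} (hc : 0 ≤ c)
    (h1 : x ≤ c • (1 : M)) (h2 : -x ≤ c • (1 : M)) : ‖x‖ ≤ c := by
  rcases subsingleton_or_nontrivial M with hM | hM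
  · simpa [Subsingleton.elim x 0] using hc
  · rw [← Algebra.algebraMap_eq_smul_one] at h1 h2
    have a1 := (le_algebraMap_iff_spectrum_le hx).1 h1
    have a2 : ∀ s ∈ spectrum ℝ x, -c ≤ s := by
      refine (algebraMap_le_iff_le_spectrum hx).1 ?_
      rw [map_neg]
      exact neg_le.1 h2
    rw [← cfc_id' ℝ x]
    refine norm_cfc_le hc fun s hs => ?_
    rw [Real.norm_eq_abs, abs_le]
    exact ⟨a2 s hs, a1 s hs⟩

/-- An idempotent of small trace outside which `-g ≤ η`. -/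
lemma exists_small_support (g : C(Ω, ℝ)) {η : ℝ} (h0 : 0 < η) :
    ∃ h : C(Ω, ℝ), h * h = h ∧ η ^ 2 * T.tau h ≤ T.n2 (T.emb g) ^ 2 ∧
      ∀ ω, (1 - h) ω * -(g ω) ≤ η := by
  set f : C(Ω, ℝ) := g * g - η ^ 2 • (1 : C(Ω, ℝ)) with hf
  have hhh : T.pos f * T.pos f = T.pos f := T.pos_mul_self f
  have hfω : ∀ ω, f ω = g ω * g ω - η ^ 2 := fun ω => by simp [hf]
  refine ⟨T.pos f, hhh, ?_, fun ω => ?_⟩
  · have h' : η ^ 2 • T.pos f ≤ g * g := by
      refine ContinuousMap.le_def.2 fun ω => ?_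
      show η ^ 2 * T.pos f ω ≤ g ω * g ω
      by_cases hm : ω ∈ hull f
      · have := nonneg_of_mem_hull hm
        rw [hfω] at this
        rw [pos_apply, Set.indicator_of_mem hm, Pi.one_apply, mul_one]
        linarith
      · rw [pos_apply, Set.indicator_of_notMem hm, mul_zero]
        exact mul_self_nonneg _
    have h'' := T.tau_mono h'
    rw [map_smul, smul_eq_mul, ← T.n2_emb_sq] at h''
    exact h''
  · show (1 - T.pos f ω) * -(g ω) ≤ η
    by_cases hm : ω ∈ hull f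
    · rw [pos_apply, Set.indicator_of_mem hm, Pi.one_apply, sub_self, zero_mul]
      exact h0.le
    · have := nonpos_of_not_mem_hull hm
      rw [hfω] at this
      rw [pos_apply, Set.indicator_of_notMem hm, sub_zero, one_mul]
      exact (abs_le_of_sq_le_sq' (by rw [neg_sq]; linarith [pow_two (g ω)]) h0.le).2

/-- The first application of one-sided paving. -/
lemma stage_one {η : ℝ} {r : ℕ} (h0 : 0 < η) (hU : T.UpperPav (1 / 2) (1 / 2 + 5 * η) r)
    {u : M} (hu : IsSelfAdjoint u) (hun : ‖u‖ ≤ 1) (hEu : T.E u = 0) {d : ℝ} (hd : 0 < d) :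
    ∃ p : Fin r → C(Ω, ℝ), IsPartition p ∧ ∃ G W : M, IsSelfAdjoint G ∧ 0 ≤ W ∧ W ≤ 1 ∧
      G ≤ (10 * η) • W ∧ -G ≤ W ∧
      T.n2 ((∑ i, T.emb (p i) * u * T.emb (p i)) - G) ≤ 2 * r * Real.sqrt d := by
  have hu1 : u ≤ 1 := le_one_of_norm_le_one hu hun
  have hu2 : -u ≤ 1 := le_one_of_norm_le_one hu.neg (by rwa [norm_neg])
  have hy0 : (0 : M) ≤ (1 / 2 : ℝ) • (1 + u) :=
    smul_nonneg (by norm_num) (by simpa using sub_nonneg.2 hu2)
  have hy1 : (1 / 2 : ℝ) • (1 + u) ≤ (1 : M) := by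
    refine (smul_le_smul_of_nonneg_left (add_le_add le_rfl hu1) (by norm_num)).trans (le_of_eq ?_)
    rw [← two_smul ℝ (1 : M), smul_smul]
    norm_num
  have hEy : ∀ ω, T.E ((1 / 2 : ℝ) • (1 + u)) ω = 1 / 2 := fun ω => by simp [T.E_one, hEu]
  obtain ⟨p, hp, e, he, htr, hey⟩ :=
    hU _ hy0 hy1 (fun ω => (hEy ω).le) ⟨1 / 2, by norm_num, fun ω => (hEy ω).ge⟩ d hd
  have heu : ∀ i, e i * u * e i ≤ (10 * η) • e i := by
    intro i
    have h := smul_le_smul_of_nonneg_left (hey i) (show (0 : ℝ) ≤ 2 by norm_num)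
    rw [mul_smul_comm, smul_mul_assoc, smul_smul, mul_add, add_mul, mul_one,
      (he i).1.isIdempotentElem.eq, smul_smul] at h
    norm_num at h
    rw [show (2 : ℝ) * (1 / 2 + 5 * η) = 1 + 10 * η by ring, add_smul, one_smul] at h
    exact le_of_add_le_add_left h
  refine ⟨p, hp, ∑ i, e i * u * e i, ∑ i, e i, ?_, ?_, T.sum_le_one hp he, ?_, ?_, ?_⟩
  · exact isSelfAdjoint_sum _ fun i _ => hu.conjugate_self (he i).1.isSelfAdjoint
  · exact Finset.sum_nonneg fun i _ => (he i).1.nonneg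
  · rw [Finset.smul_sum]
    exact Finset.sum_le_sum fun i _ => heu i
  · rw [← Finset.sum_neg_distrib]
    refine Finset.sum_le_sum fun i _ => ?_
    have h := (he i).1.isSelfAdjoint.conjugate_le_conjugate hu2
    rw [mul_one, (he i).1.isIdempotentElem.eq, mul_neg, neg_mul] at h
    exact h
  · refine (T.n2_piece_sub_le hp he htr u).trans ?_
    have hs0 := Real.sqrt_nonneg d
    calc (r : ℝ) * (2 * ‖u‖ * Real.sqrt d) ≤ r * (2 * Real.sqrt d) :=
          mul_le_mul_of_nonneg_left (by nlinarith) (Nat.cast_nonneg _)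
      _ = 2 * r * Real.sqrt d := by ring

/-- The second application of one-sided paving. -/
lemma stage_two {η : ℝ} {r : ℕ} (h0 : 0 < η) (h1 : η ≤ 1 / 64)
    (hU : T.UpperPav (12 * η) (60 * η) r) {w : M} (hw0 : 0 ≤ w)
    (hw1 : w ≤ (1 + 10 * η) • (1 : M)) (hEw : ∀ ω, T.E w ω ≤ 11 * η) {d : ℝ} (hd : 0 < d) :
    ∃ p : Fin r → C(Ω, ℝ), IsPartition p ∧ ∃ H : M, IsSelfAdjoint H ∧ H ≤ (71 * η) • (1 : M) ∧
      T.n2 ((∑ i, T.emb (p i) * w * T.emb (p i)) - H) ≤ r * (2 * ‖w‖ * Real.sqrt d) := by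
  have hc0 : 0 < 1 + 11 * η := by linarith
  set y : M := (1 + 11 * η)⁻¹ • (w + η • 1) with hy
  have hy0 : 0 ≤ y :=
    smul_nonneg (inv_nonneg.2 hc0.le) (add_nonneg hw0 (smul_one_nonneg h0.le))
  have hy1 : y ≤ 1 := by
    refine (smul_le_smul_of_nonneg_left (add_le_add hw1 le_rfl) (inv_nonneg.2 hc0.le)).trans
      (le_of_eq ?_)
    rw [← add_smul, smul_smul,
      show (1 + 11 * η)⁻¹ * (1 + 10 * η + η) = 1 by rw [inv_mul_eq_one₀ hc0.ne']; ring, one_smul]
  have hEy : ∀ ω, T.E y ω = (1 + 11 * η)⁻¹ * (T.E w ω + η) := fun ω => by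
    simp [hy, T.E_one, mul_add]
  have hE0 : ∀ ω, 0 ≤ T.E w ω := T.E_nonneg hw0
  obtain ⟨p, hp, e, he, htr, hey⟩ := hU y hy0 hy1 (fun ω => by
      rw [hEy, inv_mul_le_iff₀ hc0]
      nlinarith [hEw ω])
    ⟨(1 + 11 * η)⁻¹ * η, by positivity, fun ω => by
      rw [hEy]
      exact mul_le_mul_of_nonneg_left (le_add_of_nonneg_left (hE0 ω)) (inv_nonneg.2 hc0.le)⟩ d hd
  refine ⟨p, hp, ∑ i, e i * w * e i,
    isSelfAdjoint_sum _ fun i _ =>
      (IsSelfAdjoint.of_nonneg hw0).conjugate_self (he i).1.isSelfAdjoint, ?_,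
    T.n2_piece_sub_le hp he htr w⟩
  have hew : ∀ i, e i * w * e i ≤ (71 * η) • e i := by
    intro i
    have h := smul_le_smul_of_nonneg_left (hey i) hc0.le
    rw [hy, mul_smul_comm, smul_mul_assoc, smul_smul, mul_inv_cancel₀ hc0.ne', one_smul,
      smul_smul, mul_add, add_mul] at h
    refine le_trans ?_ (h.trans (smul_le_smul_of_nonneg_right (by nlinarith) (he i).1.nonneg))
    refine le_add_of_nonneg_right ?_
    rw [mul_smul_comm, mul_one, smul_mul_assoc, (he i).1.isIdempotentElem.eq]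
    exact smul_nonneg h0.le (he i).1.nonneg
  refine (Finset.sum_le_sum fun i _ => hew i).trans ?_
  rw [← Finset.smul_sum]
  exact smul_le_smul_of_nonneg_left (T.sum_le_one hp he) (by positivity)

lemma pinch_inter (P Q : Part Ω) (x : M) :
    T.pinch (P.inter Q) x = T.pinch Q (T.pinch P x) := by
  simp only [pinch_apply, Finset.mul_sum, Finset.sum_mul, T.sandwich]
  refine (Equiv.sum_comp finProdFinEquiv _).symm.trans ?_
  rw [Fintype.sum_prod_type, Finset.sum_comm]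
  refine Finset.sum_congr rfl fun j _ => Finset.sum_congr rfl fun i _ => ?_
  simp [Part.inter, mul_comm (P.e i)]

lemma conj_le_of_le_add {q X Y : M} (hq : IsStarProjection q) (hX : IsSelfAdjoint X) {c η : ℝ}
    (hc : 0 ≤ c) (hn : ‖q * X * q‖ ≤ η) (hY : Y ≤ c • (1 : M) + X) :
    q * Y * q ≤ (c + η) • (1 : M) := by
  have b1 := hq.isSelfAdjoint.conjugate_le_conjugate hY
  rw [mul_add, add_mul] at b1
  refine b1.trans ?_
  rw [add_smul]
  refine add_le_add ?_ ((le_norm_smul_one (hX.conjugate_self hq.isSelfAdjoint)).trans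
    (smul_le_smul_of_nonneg_right hn zero_le_one))
  rw [mul_smul_comm, mul_one, smul_mul_assoc, hq.isIdempotentElem.eq]
  exact smul_le_smul_of_nonneg_left hq.le_one hc

lemma budget {η δ A B : ℝ} (h0 : 0 < η) (hδ : 0 < δ) :
    0 < η ^ 2 * δ / (A ^ 2 + B ^ 2 + 1) ∧
      (A ^ 2 + B ^ 2) * (η ^ 2 * δ / (A ^ 2 + B ^ 2 + 1)) ≤ η ^ 2 * δ := by
  have hden : 0 < A ^ 2 + B ^ 2 + 1 := by positivity
  have : 0 < η ^ 2 * δ := by positivity
  refine ⟨by positivity, ?_⟩
  rw [← mul_div_assoc, div_le_iff₀ hden]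
  nlinarith

/-- Two applications of one-sided paving give two-sided paving of normalised elements. -/
theorem pavable_normalised {η : ℝ} {r₁ r₂ : ℕ} (h0 : 0 < η) (h1 : η ≤ 1 / 64)
    (hU1 : T.UpperPav (1 / 2) (1 / 2 + 5 * η) r₁) (hU2 : T.UpperPav (12 * η) (60 * η) r₂)
    {u : M} (hu : IsSelfAdjoint u) (hun : ‖u‖ ≤ 1) (hEu : T.E u = 0) {δ : ℝ} (hδ : 0 < δ) :
    ∃ p : Fin (r₁ * r₂) → C(Ω, ℝ), IsPartition p ∧ ∃ q : M, IsStarProjection q ∧
      T.tr (1 - q) ≤ δ ∧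
      ‖q * (∑ i, T.emb (p i) * u * T.emb (p i)) * q‖ ≤ 72 * η := by
  set A : ℝ := 2 * (r₁ : ℝ) with hA
  set B : ℝ := 4 * (A / η) + 4 * (r₂ : ℝ) + A with hB
  obtain ⟨hd0, hd'⟩ := budget (A := A) (B := B) h0 hδ
  set d : ℝ := η ^ 2 * δ / (A ^ 2 + B ^ 2 + 1) with hd
  clear_value d
  set s : ℝ := Real.sqrt d with hs
  have hs0 : 0 ≤ s := Real.sqrt_nonneg _
  have hA0 : 0 ≤ A := by positivity
  -- stage one
  obtain ⟨p, hp, G, W, hGsa, hW0, hW1, hGle, hGneg, hE1⟩ :=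
    T.stage_one h0 hU1 hu hun hEu hd0
  let P : Part Ω := ⟨r₁, p, hp⟩
  set v : M := (10 * η) • W - G with hv
  have hv0 : 0 ≤ v := sub_nonneg.2 hGle
  have hvle : v ≤ (1 + 10 * η) • (1 : M) := by
    rw [hv, sub_eq_add_neg]
    refine (add_le_add le_rfl hGneg).trans ?_
    rw [add_smul, one_smul, add_comm (1 : M)]
    exact add_le_add (smul_le_smul_of_nonneg_left hW1 (by positivity)) hW1
  have hEP1 : T.E (T.pinch P u) = 0 := by
    rw [pinch_apply, map_sum]
    refine Finset.sum_eq_zero fun i _ => ?_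
    rw [T.E_mul_emb, T.E_emb_mul, hEu, mul_zero, mul_zero]
  have hE1' : T.n2 (T.pinch P u - G) ≤ A * s := hE1
  -- the cut where the expectation of `G` is large
  have hgn : T.n2 (T.emb (T.E G)) ≤ A * s := by
    have h := T.n2_emb_E_le (T.pinch P u - G)
    rw [map_sub, hEP1, zero_sub, map_neg, T.n2_neg] at h
    exact h.trans hE1'
  obtain ⟨h, hhh, hτh, hgk⟩ := T.exists_small_support (T.E G) h0
  have hkk : (1 - h) * (1 - h) = 1 - h := by
    rw [sub_mul, one_mul, mul_sub, mul_one, hhh, sub_self, sub_zero]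
  set K : M := T.emb (1 - h) with hK
  have hKp : IsStarProjection K := T.emb_isStarProjection hkk
  set w : M := K * v * K with hw
  have hw0 : 0 ≤ w := hKp.isSelfAdjoint.conjugate_nonneg hv0
  have hwle : w ≤ (1 + 10 * η) • (1 : M) := by
    refine (hKp.isSelfAdjoint.conjugate_le_conjugate hvle).trans ?_
    rw [mul_smul_comm, smul_mul_assoc, mul_one, hKp.isIdempotentElem.eq]
    exact smul_le_smul_of_nonneg_left hKp.le_one (by positivity)
  have hEw : ∀ ω, T.E w ω ≤ 11 * η := by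
    intro ω
    have hEW : T.E W ω ≤ 1 := by
      have := T.E_mono hW1 ω
      rwa [T.E_one] at this
    have e1 : T.E w = (1 - h) * ((1 - h) * T.E v) := by
      rw [hw, hK, T.E_mul_emb, T.E_emb_mul]
    have e2 : T.E v ω = 10 * η * T.E W ω - T.E G ω := by simp [hv]
    have hk1 := hgk ω
    rw [e1, ContinuousMap.mul_apply, ContinuousMap.mul_apply, e2]
    rcases idem_zero_or_one hkk ω with hk0 | hk0
    · rw [hk0, zero_mul]; linarith
    · rw [hk0] at hk1 ⊢
      nlinarith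
  -- stage two
  obtain ⟨p', hp', H2, hH2sa, hH2le, hE2⟩ := T.stage_two h0 h1 hU2 hw0 hwle hEw hd0
  let P' : Part Ω := ⟨r₂, p', hp'⟩
  have hE2' : T.n2 (T.pinch P' w - H2) ≤ r₂ * (2 * ‖w‖ * s) := hE2
  refine ⟨(P.inter P').e, (P.inter P').isPartition, ?_⟩
  set X₁ : M := T.pinch P' (T.pinch P u - G) with hX1
  set X₂ : M := -X₁ + T.pinch P' (v - w) + (T.pinch P' w - H2) with hX2
  have hpsa : ∀ (Q : Part Ω) (z : M), IsSelfAdjoint z → IsSelfAdjoint (T.pinch Q z) :=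
    fun Q z hz => by rw [IsSelfAdjoint, T.star_pinch, hz.star_eq]
  have hX1sa : IsSelfAdjoint X₁ := hpsa _ _ ((hpsa _ _ hu).sub hGsa)
  have hwsa : IsSelfAdjoint w := IsSelfAdjoint.of_nonneg hw0
  have hX2sa : IsSelfAdjoint X₂ :=
    (hX1sa.neg.add (hpsa _ _ ((IsSelfAdjoint.of_nonneg hv0).sub hwsa))).add
      ((hpsa _ _ hwsa).sub hH2sa)
  have hX1n : T.n2 X₁ ≤ A * s := (T.n2_pinch_le _ _).trans hE1'
  have hnorm : ∀ z : M, 0 ≤ z → z ≤ (1 + 10 * η) • (1 : M) → ‖z‖ ≤ 2 := fun z hz0 hz => by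
    refine (CStarAlgebra.norm_le_iff_le_algebraMap z (by norm_num) hz0).2 ?_
    rw [Algebra.algebraMap_eq_smul_one]
    exact hz.trans (smul_le_smul_of_nonneg_right (by linarith) zero_le_one)
  have hvw : T.n2 (v - w) ≤ 4 * (A / η) * s := by
    have hb := T.n2_conj_sub_le (IsStarProjection.one (R := M)) hKp v
    rw [one_mul, mul_one] at hb
    have hn : T.n2 (1 - K) ≤ A / η * s := by
      refine (pow_le_pow_iff_left₀ (T.n2_nonneg _) (by positivity) two_ne_zero).1 ?_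
      rw [hK, map_sub, map_one, sub_sub_cancel, T.n2_emb_sq, hhh,
        show (A / η * s) ^ 2 = (A * s) ^ 2 / η ^ 2 by ring, le_div_iff₀ (by positivity), mul_comm]
      exact hτh.trans (pow_le_pow_left₀ (T.n2_nonneg _) hgn 2)
    have h2 : 2 * ‖v‖ * T.n2 (1 - K) ≤ 4 * (A / η * s) :=
      mul_le_mul (by linarith [hnorm v hv0 hvle]) hn (T.n2_nonneg _) (by norm_num)
    exact hb.trans (h2.trans (le_of_eq (by ring)))
  have hX2n : T.n2 X₂ ≤ B * s := by
    have h4 : (r₂ : ℝ) * (2 * ‖w‖ * s) ≤ r₂ * (4 * s) :=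
      mul_le_mul_of_nonneg_left
        (mul_le_mul_of_nonneg_right (by linarith [hnorm w hw0 hwle]) hs0) (Nat.cast_nonneg _)
    have h5 := (T.n2_add (-X₁ + T.pinch P' (v - w)) (T.pinch P' w - H2)).trans
      (add_le_add (T.n2_add _ _) le_rfl)
    rw [T.n2_neg] at h5
    have h6 := (T.n2_pinch_le P' (v - w)).trans hvw
    rw [hB, add_mul, add_mul]
    refine h5.trans ?_
    linarith
  obtain ⟨q, hq, hqtr, hq1, hq2⟩ := T.exists_cut hX1sa hX2sa h0
  refine ⟨q, hq, ?_, ?_⟩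
  · have hn1 := pow_le_pow_left₀ (T.n2_nonneg _) hX1n 2
    have hn2 := pow_le_pow_left₀ (T.n2_nonneg _) hX2n 2
    have hs2 : s ^ 2 = d := Real.sq_sqrt hd0.le
    rw [mul_pow, hs2] at hn1 hn2
    exact le_of_mul_le_mul_left (hqtr.trans (by linarith)) (pow_pos h0 2)
  · show ‖q * T.pinch (P.inter P') u * q‖ ≤ 72 * η
    rw [T.pinch_inter]
    have hUsa : IsSelfAdjoint (T.pinch P' (T.pinch P u)) := hpsa _ _ (hpsa _ _ hu)
    have hup : T.pinch P' (T.pinch P u) ≤ (71 * η) • (1 : M) + X₁ := by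
      rw [show T.pinch P' (T.pinch P u) = T.pinch P' G + X₁ by rw [hX1, map_sub]; abel]
      refine add_le_add ?_ le_rfl
      refine (T.pinch_mono P' (hGle.trans ((smul_le_smul_of_nonneg_left hW1 (by positivity)).trans
        (smul_le_smul_of_nonneg_right (by linarith : 10 * η ≤ 71 * η) zero_le_one)))).trans ?_
      rw [map_smul, T.pinch_one]
    have hlo : -T.pinch P' (T.pinch P u) ≤ (71 * η) • (1 : M) + X₂ := by
      have a1 : -T.pinch P' G ≤ T.pinch P' v := by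
        rw [← map_neg]
        refine T.pinch_mono P' ?_
        rw [hv, sub_eq_add_neg]
        exact le_add_of_nonneg_left (smul_nonneg (by positivity) hW0)
      calc -T.pinch P' (T.pinch P u) = -T.pinch P' G + -X₁ := by rw [hX1, map_sub]; abel
        _ ≤ T.pinch P' v + -X₁ := add_le_add a1 le_rfl
        _ = H2 + X₂ := by rw [hX2, map_sub (T.pinch P') v w]; abel
        _ ≤ _ := add_le_add hH2le le_rfl
    rw [show (72 * η) = 71 * η + η by ring]
    refine norm_le_of_two_sided (hUsa.conjugate_self hq.isSelfAdjoint) (by positivity)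
      (conj_le_of_le_add hq hX1sa (by positivity) hq1 hup) ?_
    have := conj_le_of_le_add hq hX2sa (by positivity) hq2 hlo
    rwa [mul_neg, neg_mul] at this

/-- Paving from one-sided paving at two scales. -/
theorem pavable_of_upperPav {η : ℝ} {r₁ r₂ : ℕ} (h0 : 0 < η) (h1 : η ≤ 1 / 64) (h2 : 1 ≤ r₁)
    (h3 : 1 ≤ r₂) (hU1 : T.UpperPav (1 / 2) (1 / 2 + 5 * η) r₁)
    (hU2 : T.UpperPav (12 * η) (60 * η) r₂) {x : M} (hx : IsSelfAdjoint x) :
    T.Pavable x (400 * η) (r₁ * r₂) := by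
  intro δ hδ
  set a : C(Ω, ℝ) := T.E x with ha
  have hanorm : ‖a‖ ≤ ‖x‖ := T.norm_E_le hx
  set c : ℝ := (2 * ‖x‖)⁻¹ with hc
  set u : M := c • (x - T.emb a) with hu
  have husa : IsSelfAdjoint u :=
    IsSelfAdjoint.smul (IsSelfAdjoint.all c) (hx.sub (T.emb_selfAdjoint a))
  have hun : ‖u‖ ≤ 1 := by
    have hxa : ‖x - T.emb a‖ ≤ 2 * ‖x‖ :=
      (norm_sub_le _ _).trans (by rw [T.emb_norm]; linarith)
    rw [hu, norm_smul, Real.norm_eq_abs, abs_of_nonneg (by positivity), hc]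
    rcases eq_or_lt_of_le (norm_nonneg x) with h' | h'
    · simp [← h']
    · rw [inv_mul_le_iff₀ (by positivity)]; linarith
  have hEu : T.E u = 0 := by rw [hu, map_smul, map_sub, T.E_emb, ha, sub_self, smul_zero]
  obtain ⟨p, hp, q, hq, hqtr, hqn⟩ := T.pavable_normalised h0 h1 hU1 hU2 husa hun hEu hδ
  refine ⟨p, hp, a, hanorm, q, hq, hqtr, ?_⟩
  have key : (∑ i, T.emb (p i) * x * T.emb (p i)) - T.emb a =
      (2 * ‖x‖) • ∑ i, T.emb (p i) * u * T.emb (p i) := by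
    have e1 : (2 * ‖x‖) • u = x - T.emb a := by
      rw [hu, smul_smul, hc]
      rcases eq_or_lt_of_le (norm_nonneg x) with h' | h'
      · have hx0 : x = 0 := norm_eq_zero.1 h'.symm
        simp [hx0, ha]
      · rw [mul_inv_cancel₀ (by positivity), one_smul]
    have e2 : T.emb a = ∑ i, T.emb (p i) * T.emb a * T.emb (p i) := by
      simp only [← map_mul, mul_comm _ a, mul_assoc, hp.idem]
      rw [← map_sum, ← Finset.mul_sum, hp.sum_one, mul_one]
    conv_lhs => arg 2; rw [e2]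
    rw [← Finset.sum_sub_distrib, Finset.smul_sum]
    refine Finset.sum_congr rfl fun i _ => ?_
    rw [← sub_mul, ← mul_sub, ← e1]
    simp only [mul_smul_comm, smul_mul_assoc]
  rw [key, mul_smul_comm, smul_mul_assoc, norm_smul, Real.norm_eq_abs,
    abs_of_nonneg (by positivity)]
  calc 2 * ‖x‖ * ‖q * (∑ i, T.emb (p i) * u * T.emb (p i)) * q‖ ≤ 2 * ‖x‖ * (72 * η) :=
        mul_le_mul_of_nonneg_left hqn (by positivity)
    _ ≤ 400 * η * ‖x‖ := by nlinarith [norm_nonneg x]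

end TMasa

end Vale.Agent.P078
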