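import Mathlib
import Vale.Agent.P078.State
import Vale.Agent.P078.PavingDefs
import Vale.Agent.P078.Spectral
import Vale.Agent.P078.Resolvent
import Vale.Agent.P078.Lower

/-! One-sided paving from the one-step property: start, iteration, end of the walk. -/

noncomputable section

open scoped ComplexOrder

set_option linter.unusedSectionVars false

namespace Vale.Agent.P078

universe u v

variable {M : Type u} [CStarAlgebra M] [PartialOrder M] [StarOrderedRing M]
  {Ω : Type v} [TopologicalSpace Ω] [CompactSpace Ω] [T2Space Ω] (T : TMasa M Ω)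

namespace TMasa

variable {T} {P : Params} {y : M}

lemma vop_mul_self (hy : 0 ≤ y) : vop y * vop y = y := CFC.sqrt_mul_sqrt_self y hy

lemma norm_vop_le_one (hy : 0 ≤ y) (hy1 : y ≤ 1) : ‖vop y‖ ≤ 1 := by
  have hs : star (vop y) = vop y := (isSelfAdjoint_vop y).star_eq
  have h1 : ‖y‖ ≤ 1 := (CStarAlgebra.norm_le_one_iff_of_nonneg y hy).2 hy1
  have h2 : ‖vop y‖ * ‖vop y‖ = ‖y‖ := by
    rw [← CStarRing.norm_star_mul_self, hs, vop_mul_self hy]
  nlinarith [norm_nonneg (vop y)]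

lemma Wpot_parts {S : Smalls} (hη : 0 < P.η) (hμ : 0 ≤ S.μ) (hγ : 0 < S.γ) (hA : 0 ≤ S.A)
    (hς : 0 ≤ S.ς) {st : St M Ω P.r} (hst : T.StInv P y S st) :
    0 ≤ T.Wpot P y S st ∧ S.A * S.μ * (∑ i, T.n2 (st.R i) ^ 2) ≤ T.Wpot P y S st := by
  have h1 : 0 ≤ T.tau (st.live * chub (ContinuousMap.const Ω P.L - T.Fval P y st)) :=
    T.tau_nonneg fun ω => mul_nonneg (idem_nonneg hst.live_idem ω) (Profile.hub_nonneg _)
  have h2 : 0 ≤ S.μ / P.η * (∑ i, T.tau (st.sig i)) :=
    mul_nonneg (div_nonneg hμ hη.le) (Finset.sum_nonneg fun i _ => T.tau_nonneg (hst.sig_nonneg i))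
  have h3 : 0 ≤ S.μ * (∑ i, T.tr (T.Gop P y st i)) :=
    mul_nonneg hμ (Finset.sum_nonneg fun i _ => T.tr_nonneg (Res.res_nonneg hγ (hst.gap i)))
  have h4 : 0 ≤ S.A * S.μ * (∑ i, T.n2 (st.R i) ^ 2) :=
    mul_nonneg (mul_nonneg hA hμ) (Finset.sum_nonneg fun i _ => sq_nonneg _)
  have h5 : 0 ≤ S.ς * (∑ i, T.tau (T.pos (st.sig i))) :=
    mul_nonneg hς (Finset.sum_nonneg fun i _ =>
      T.tau_nonneg (idem_nonneg (T.pos_mul_self _)))
  rw [Wpot]
  exact ⟨by linarith, by linarith⟩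

/-- iteration of the step -/
lemma exists_end {S : Smalls} (hη : 0 < P.η) (hμ : 0 ≤ S.μ) (hγ : 0 < S.γ) (hA : 0 ≤ S.A)
    (hς : 0 ≤ S.ς) {B c₀ ηf : ℝ} (hc₀ : 0 < c₀)
    (hstep : ∀ st : St M Ω P.r, T.StInv P y S st → T.Wpot P y S st ≤ B → ηf ≤ T.tau st.live →
      ∃ st' : St M Ω P.r, T.StInv P y S st' ∧ T.Wpot P y S st' ≤ T.Wpot P y S st - c₀)
    {st₀ : St M Ω P.r} (h₀ : T.StInv P y S st₀) (hW₀ : T.Wpot P y S st₀ ≤ B) :
    ∃ st : St M Ω P.r, T.StInv P y S st ∧ T.Wpot P y S st ≤ B ∧ T.tau st.live < ηf := by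
  by_contra hne
  push Not at hne
  have key : ∀ n : ℕ, ∃ st : St M Ω P.r, T.StInv P y S st ∧
      T.Wpot P y S st ≤ B - n * c₀ := by
    intro n
    induction n with
    | zero => exact ⟨st₀, h₀, by simpa using hW₀⟩
    | succ n ih =>
      obtain ⟨st, hst, hW⟩ := ih
      have hB : T.Wpot P y S st ≤ B := hW.trans (by
        have : 0 ≤ (n : ℝ) * c₀ := by positivity
        linarith)
      obtain ⟨st', hst', hW'⟩ := hstep st hst hB (hne st hst hB)
      refine ⟨st', hst', ?_⟩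
      push_cast
      linarith
  obtain ⟨n, hn⟩ := exists_nat_gt (B / c₀)
  obtain ⟨st, hst, hW⟩ := key n
  have h := (Wpot_parts hη hμ hγ hA hς hst).1
  rw [div_lt_iff₀ hc₀] at hn
  linarith

/-- the cut at the end of the walk, one channel -/
lemma exists_piece_cut (hy : 0 ≤ y) (hy1 : y ≤ 1) {z a κ : ℝ} (hz : 0 ≤ z) (ha : 0 < a)
    (hκ : z / a < κ) {σ q : C(Ω, ℝ)} {R : M} (hq : q * q = q) (hqσ : a • q ≤ σ)
    (hgap : 0 ≤ z • (1 : M) - vop y * T.emb σ * vop y + R) :
    ∃ e : M, IsStarProjection e ∧ T.emb q * e = e ∧ e * y * e ≤ κ • e ∧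
      T.tau q - T.tr e ≤ (T.n2 R / (a * (κ * (κ - z / a)))) ^ 2 := by
  set v := vop y with hv
  have hvs : IsSelfAdjoint v := isSelfAdjoint_vop y
  have hvv : v * v = y := vop_mul_self hy
  set qq := T.emb q with hqq
  have hqs : IsSelfAdjoint qq := T.emb_selfAdjoint q
  have hqq2 : qq * qq = qq := by rw [hqq, ← map_mul, hq]
  set W := qq * y * qq with hW
  have hW0 : 0 ≤ W := hqs.conjugate_nonneg hy
  have hWs : IsSelfAdjoint W := IsSelfAdjoint.of_nonneg hW0
  have hqW : qq * W = W := by simp only [hW, ← mul_assoc, hqq2]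
  have hWq : W * qq = W := by simp only [hW, mul_assoc, hqq2]
  obtain ⟨Q, hQp, hQc, hQlow, hQup⟩ := T.exists_spectralProjection hWs κ
  have hQW : Commute W Q := hQc W (Commute.refl W)
  have hQq : Commute qq Q := hQc qq (show qq * W = W * qq by rw [hqW, hWq])
  obtain ⟨Q', hQ'⟩ : ∃ Q', Q' = qq * Q := ⟨_, rfl⟩
  have hqqp : IsStarProjection qq := ⟨hqq2, hqs⟩
  have hQ'p : IsStarProjection Q' := hQ' ▸ hqqp.mul hQp hQq
  have hep : IsStarProjection (qq * (1 - Q)) :=
    hqqp.mul hQp.one_sub ((Commute.one_right _).sub_right hQq)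
  refine ⟨qq * (1 - Q), hep, by rw [← mul_assoc, hqq2], ?_, ?_⟩
  · have h := hqs.conjugate_le_conjugate hQup
    have e1 : qq * (κ • (1 - Q)) * qq = κ • (qq * (1 - Q)) := by
      rw [mul_smul_comm, smul_mul_assoc, mul_assoc, ← (((Commute.one_right _).sub_right hQq).eq),
        ← mul_assoc, hqq2]
    have e2 : qq * (W * (1 - Q)) * qq = qq * (1 - Q) * y * (qq * (1 - Q)) := by
      have c1 : (1 - Q) * qq = qq * (1 - Q) := ((Commute.one_right _).sub_right hQq).eq.symm
      have c2 : W * (1 - Q) = (1 - Q) * W := ((Commute.one_right _).sub_right hQW).eq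
      have c3 : (1 - Q) * (1 - Q) = 1 - Q := hQp.one_sub.isIdempotentElem.eq
      have e3 : qq * (1 - Q) * y * (qq * (1 - Q)) = (1 - Q) * W * (1 - Q) := by
        rw [← c1, hW]
        conv_lhs => arg 2; rw [c1]
        simp only [mul_assoc]
      rw [e3, ← c2, mul_assoc W, c3, ← mul_assoc, hqW, mul_assoc, c1, ← mul_assoc, hWq]
    rwa [e1, e2] at h
  have hW2 : a • (W * W) ≤ z • W + qq * v * R * v * qq := by
    have h1 : a • (v * qq * v) ≤ z • (1 : M) + R := by
      refine le_trans ?_ (show v * T.emb σ * v ≤ z • (1 : M) + R by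
        rw [← sub_nonneg]; convert hgap using 1; abel)
      have := hvs.conjugate_le_conjugate (T.emb_mono hqσ)
      rwa [map_smul, mul_smul_comm, smul_mul_assoc] at this
    have h2 := star_left_conjugate_le_conjugate h1 (v * qq)
    rw [star_mul, hvs.star_eq, hqs.star_eq] at h2
    have e1 : qq * v * (a • (v * qq * v)) * (v * qq) = a • (W * W) := by
      rw [mul_smul_comm, smul_mul_assoc, hW, ← hvv]
      simp only [mul_assoc]
      rw [show qq * (qq * (v * (v * qq))) = qq * (v * (v * qq)) by rw [← mul_assoc qq, hqq2]]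
    have e2 : qq * v * (z • (1 : M) + R) * (v * qq) = z • W + qq * v * R * v * qq := by
      rw [mul_add, add_mul, mul_smul_comm, mul_one, smul_mul_assoc, hW, ← hvv]
      simp only [mul_assoc]
    rwa [e1, e2] at h2
  have hWQ' : Commute W Q' :=
    hQ' ▸ Commute.mul_right (show W * qq = qq * W by rw [hWq, hqW]) hQW
  have hQ's := hQ'p.isSelfAdjoint
  have hQ'2 : Q' * Q' = Q' := hQ'p.isIdempotentElem.eq
  have hlow : 0 ≤ W * Q' - κ • Q' := by
    have h := hqs.conjugate_le_conjugate hQlow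
    have e1 : qq * (κ • Q) * qq = κ • Q' := by
      rw [mul_smul_comm, smul_mul_assoc, mul_assoc, ← hQq.eq, ← mul_assoc, hqq2, hQ']
    have e2 : qq * (W * Q) * qq = W * Q' := by
      rw [← mul_assoc qq, hqW, mul_assoc, ← hQq.eq, hQ']
    rw [e1, e2] at h
    exact sub_nonneg.2 h
  set k := z / a with hk
  have hk0 : 0 ≤ k := div_nonneg hz ha.le
  have hκ0 : 0 < κ := lt_of_le_of_lt hk0 hκ
  have hprod : 0 ≤ (W * Q' - κ • Q') * (W + (κ - k) • (1 : M)) := by
    refine Commute.mul_nonneg hlow (add_nonneg hW0 (smul_nonneg (by linarith) zero_le_one)) ?_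
    refine Commute.add_right ?_ ((Commute.one_right _).smul_right _)
    exact Commute.sub_left ((Commute.refl W).mul_left hWQ'.symm) (hWQ'.symm.smul_left _)
  have e : (W * Q' - κ • Q') * (W + (κ - k) • (1 : M)) =
      W * W * Q' - k • (W * Q') - (κ * (κ - k)) • Q' := by
    rw [sub_mul, mul_add, mul_add, mul_assoc W Q' W, ← hWQ'.eq, ← mul_assoc, smul_mul_assoc,
      ← hWQ'.eq, mul_smul_comm, mul_one, mul_smul_comm, mul_one, smul_smul, sub_smul,
      mul_comm (κ - k) κ]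
    abel
  rw [e] at hprod
  have h1 := T.tr_nonneg hprod
  rw [map_sub, map_sub, map_smul, map_smul, smul_eq_mul, smul_eq_mul] at h1
  have h2 := T.tr_mono (hQ's.conjugate_le_conjugate hW2)
  have e3 : Q' * (a • (W * W)) * Q' = a • (W * W * Q') := by
    rw [mul_smul_comm, smul_mul_assoc, ← mul_assoc, ← hWQ'.eq, mul_assoc W Q' W, ← hWQ'.eq,
      ← mul_assoc, mul_assoc _ Q' Q', hQ'2]
  have e4 : Q' * (z • W + qq * v * R * v * qq) * Q' = z • (W * Q') + Q' * v * R * v * Q' := by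
    rw [mul_add, add_mul, mul_smul_comm, smul_mul_assoc, ← hWQ'.eq, mul_assoc W Q' Q', hQ'2]
    congr 1
    have d1 : Q' * qq = Q' := by rw [hQ', mul_assoc, ← hQq.eq, ← mul_assoc, hqq2]
    have d2 : qq * Q' = Q' := by rw [hQ', ← mul_assoc, hqq2]
    simp only [← mul_assoc, d1]
    rw [mul_assoc (Q' * v * R * v) qq Q', d2]
  rw [e3, e4, map_smul, map_add, map_smul, smul_eq_mul, smul_eq_mul] at h2
  have h3 : T.tr (Q' * v * R * v * Q') ≤ T.n2 Q' * T.n2 R := by
    have e5 : T.tr (Q' * v * R * v * Q') = T.ip (v * Q' * v) R := by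
      have hs : star (v * Q' * v) = v * Q' * v := by
        simp only [star_mul, hvs.star_eq, hQ's.star_eq, mul_assoc]
      rw [ip, hs, T.tr_mul_comm]
      simp only [← mul_assoc, hQ'2]
      rw [T.tr_mul_comm _ v]
      simp only [mul_assoc]
    rw [e5]
    refine (le_abs_self _).trans ((T.abs_ip_le _ _).trans
      (mul_le_mul_of_nonneg_right ?_ (T.n2_nonneg _)))
    refine (T.n2_mul_right _ _).trans ((mul_le_of_le_one_right (T.n2_nonneg _)
      (norm_vop_le_one hy hy1)).trans ((T.n2_mul_left _ _).trans ?_))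
    exact mul_le_of_le_one_left (T.n2_nonneg _) (norm_vop_le_one hy hy1)
  have hn : T.n2 Q' ^ 2 = T.tr Q' := by
    rw [T.n2_sq, ip, hQ's.star_eq, hQ'2]
  set d := a * (κ * (κ - k)) with hd
  have hd0 : 0 < d := mul_pos ha (mul_pos hκ0 (by linarith))
  have hak : a * k = z := by rw [hk]; field_simp
  have h4 : d * T.n2 Q' ^ 2 ≤ T.n2 Q' * T.n2 R := by
    rw [hn, hd]
    have h6 := mul_nonneg ha.le h1
    have h7 : a * (T.tr (W * W * Q') - k * T.tr (W * Q') - κ * (κ - k) * T.tr Q') =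
        a * T.tr (W * W * Q') - z * T.tr (W * Q') - a * (κ * (κ - k)) * T.tr Q' := by
      rw [← hak]; ring
    linarith
  have h5 : d * T.n2 Q' ≤ T.n2 R := by
    rcases (T.n2_nonneg Q').eq_or_lt with h | h
    · rw [← h, mul_zero]; exact T.n2_nonneg _
    · refine le_of_mul_le_mul_left ?_ h
      calc T.n2 Q' * (d * T.n2 Q') = d * T.n2 Q' ^ 2 := by ring
        _ ≤ _ := h4
  have e6 : T.tau q - T.tr (qq * (1 - Q)) = T.n2 Q' ^ 2 := by
    rw [hn, tau_apply, mul_sub, mul_one, map_sub, ← hqq, ← hQ']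
    ring
  rw [e6]
  refine pow_le_pow_left₀ (T.n2_nonneg _) ?_ 2
  rw [le_div_iff₀ hd0, mul_comm]
  exact h5

variable (T) in
/-- the start of the walk -/
lemma exists_start {η z s0 δ : ℝ} {r : ℕ} (hη : 0 < η) (hη1 : η ≤ 1) (hs0 : 0 ≤ s0)
    (hs1 : s0 ≤ 1 - η) (hsz : s0 < z)
    (hr : 1 + 256 / η ≤ r * (s0 - Profile.phi η s0 * (δ / (z - s0))))
    (hy : 0 ≤ y) (hy1 : y ≤ 1) (hEy : ∀ ω, T.E y ω ≤ δ) {μ ι γ A ς : ℝ} (hμ : 0 ≤ μ)
    (hγ : γ ≤ z - s0) (hςμ : ς ≤ μ) (hς : 0 ≤ ς) :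
    ∃ st : St M Ω r, T.StInv ⟨η, z, r, r * (1 / η + 1 / (z - s0) + 1)⟩ y ⟨μ, ι, γ, A, ς⟩ st ∧
      T.Wpot ⟨η, z, r, r * (1 / η + 1 / (z - s0) + 1)⟩ y ⟨μ, ι, γ, A, ς⟩ st ≤
        μ * (r * (1 / η + 1 / (z - s0) + 1)) := by
  set P : Params := ⟨η, z, r, r * (1 / η + 1 / (z - s0) + 1)⟩ with hP
  set st : St M Ω P.r := ⟨fun _ => ContinuousMap.const Ω s0, fun _ => 0, 1⟩ with hst
  have hg0 : 0 < z - s0 := by linarith
  have hgap : ∀ i, (z - s0) • (1 : M) ≤ T.Zop P y st i := by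
    intro i
    have e : T.emb (ContinuousMap.const Ω s0) = s0 • (1 : M) := by
      rw [show ContinuousMap.const Ω s0 = s0 • (1 : C(Ω, ℝ)) from by ext; simp, map_smul, map_one]
    show _ ≤ z • (1 : M) - vop y * T.emb (ContinuousMap.const Ω s0) * vop y + 0
    rw [add_zero, e, mul_smul_comm, mul_one, smul_mul_assoc, vop_mul_self hy, sub_smul]
    exact sub_le_sub_left (smul_le_smul_of_nonneg_left hy1 hs0) _
  refine ⟨st, ⟨one_mul _, fun i ω => hs0, fun i ω => hs1, fun ω h => absurd h one_ne_zero,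
    fun i => IsSelfAdjoint.zero _, fun i =>
      le_trans (smul_le_smul_of_nonneg_right hγ zero_le_one) (hgap i)⟩, ?_⟩
  have hG : ∀ i, T.tr (T.Gop P y st i) ≤ 1 / (z - s0) := by
    intro i
    have h := T.tr_mono (Res.res_le hg0 (hgap i))
    rw [map_smul, T.tr_one, smul_eq_mul, mul_one] at h
    exact h
  have hav : ∀ i ω, T.aval P y st i ω ≤ δ / (z - s0) := by
    intro i ω
    have h : T.aval P y st i ≤ T.E ((1 / (z - s0)) • y) := by
      refine T.E_mono ?_
      have := (isSelfAdjoint_vop y).conjugate_le_conjugate (Res.res_le hg0 (hgap i))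
      rwa [mul_smul_comm, mul_one, smul_mul_assoc, vop_mul_self hy] at this
    refine (ContinuousMap.le_def.1 h ω).trans ?_
    rw [map_smul, ContinuousMap.smul_apply, smul_eq_mul, one_div, mul_comm, ← div_eq_mul_inv]
    exact div_le_div_of_nonneg_right (hEy ω) hg0.le
  have hphi : 0 ≤ Profile.phi η s0 := Profile.phi_nonneg hη hs0 (by linarith)
  have hhub : st.live * chub (ContinuousMap.const Ω P.L - T.Fval P y st) = 0 := by
    ext ω
    show (1 : ℝ) * Profile.hub (P.L - T.Fval P y st ω) = 0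
    rw [one_mul]
    refine Profile.hub_zero_of_nonpos (sub_nonpos.2 (le_trans hr ?_))
    simp only [Fval, ContinuousMap.sum_apply]
    calc (r : ℝ) * (s0 - Profile.phi η s0 * (δ / (z - s0)))
        = ∑ _i : Fin r, (s0 - Profile.phi η s0 * (δ / (z - s0))) := by simp [mul_sub]
      _ ≤ _ := Finset.sum_le_sum fun i _ =>
          sub_le_sub_left (mul_le_mul_of_nonneg_left (hav i ω) hphi) s0
  have hsig : ∀ i, T.tau (st.sig i) ≤ 1 :=
    fun i => (T.tau_mono (g := 1) fun ω => show s0 ≤ 1 by linarith).trans_eq T.tau_one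
  have hpos : ∀ i, T.tau (T.pos (st.sig i)) ≤ 1 := fun i =>
    (T.tau_mono (idem_le_one (T.pos_mul_self _))).trans_eq T.tau_one
  have h2 : μ / η * (∑ i, T.tau (st.sig i)) ≤ μ / η * r := by
    refine mul_le_mul_of_nonneg_left ((Finset.sum_le_sum fun i _ => hsig i).trans ?_)
      (div_nonneg hμ hη.le)
    simp [hP]
  have h3 : μ * (∑ i, T.tr (T.Gop P y st i)) ≤ μ * (r * (1 / (z - s0))) := by
    refine mul_le_mul_of_nonneg_left ((Finset.sum_le_sum fun i _ => hG i).trans ?_) hμ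
    simp [hP]
  have h5 : ς * (∑ i, T.tau (T.pos (st.sig i))) ≤ μ * r := by
    refine mul_le_mul hςμ ((Finset.sum_le_sum fun i _ => hpos i).trans ?_)
      (Finset.sum_nonneg fun i _ => T.tau_nonneg (idem_nonneg (T.pos_mul_self _))) hμ
    simp [hP]
  have h4 : A * μ * (∑ i, T.n2 (st.R i) ^ 2) = 0 := by
    simp [hst, T.n2_zero]
  have h6 : μ * (r * (1 / η + 1 / (z - s0) + 1)) =
      μ / η * r + μ * (r * (1 / (z - s0))) + μ * r := by ring
  rw [Wpot, hhub, map_zero]
  show 0 + μ / η * _ + μ * _ + A * μ * _ + ς * _ ≤ _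
  rw [h4, h6]
  linarith

variable (T) in
/-- One-sided paving from the one-step property. -/
theorem upperPav_of_step {η z s0 δ κ : ℝ} {r : ℕ} (hη : 0 < η) (hη1 : η ≤ 1 / 16)
    (hs0 : 0 < s0) (hs1 : s0 ≤ 1 - η) (hsz : s0 < z) (hκ : z / (1 - η) < κ)
    (hr : 1 + 256 / η ≤ r * (s0 - Profile.phi η s0 * (δ / (z - s0))))
    (hstep : ∀ (P : Params) (y : M), P.η = η → P.z = z → P.r = r → 1 ≤ P.K₀ → T.StepSpec P y) :
    T.UpperPav δ κ r := by
  intro y hy hy1 hEy ⟨c, hc, hcE⟩ δ' hδ'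
  classical
  have hr1 : 1 ≤ r := by
    rcases Nat.eq_zero_or_pos r with h | h
    · exfalso
      subst h
      simp at hr
      have : 0 < 256 / η := by positivity
      linarith
    · exact h
  have hg0 : 0 < z - s0 := by linarith
  set K₀ : ℝ := r * (1 / η + 1 / (z - s0) + 1) with hK₀
  have hK1 : 1 ≤ K₀ := by
    have h1 : (1 : ℝ) ≤ r := by exact_mod_cast hr1
    have h2 : 0 ≤ 1 / η + 1 / (z - s0) := by positivity
    nlinarith
  set P : Params := ⟨η, z, r, K₀⟩ with hP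
  have ha : 0 < 1 - η := by linarith
  set d := (1 - η) * (κ * (κ - z / (1 - η))) with hd
  have hk0 : 0 ≤ z / (1 - η) := div_nonneg (by linarith) ha.le
  have hd0 : 0 < d := mul_pos ha (mul_pos (by linarith) (by linarith))
  set ηf := δ' / 2 with hηf
  have hηf0 : 0 < ηf := half_pos hδ'
  set A := max (K₀ / (ηf * d ^ 2)) (K₀ + 1) with hA
  have hA0 : 0 < A := lt_of_lt_of_le (by linarith) (le_max_right _ _)
  set μ := min 1 (ηf / (32 * K₀)) with hμ
  have hμ0 : 0 < μ := lt_min one_pos (by positivity)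
  set ι := min 1 (ηf * c ^ 2 / (12 * r)) with hι
  have hr0 : (0 : ℝ) < r := by exact_mod_cast hr1
  have hι0 : 0 < ι := lt_min one_pos (by positivity)
  have hC1 : 0 ≤ P.C1 := by
    show 0 ≤ 16 * (2 + 1 / η) / η
    positivity
  set B := 4 * r * (4 * A * K₀ / ι + 4 * (2 + 4 * P.C1) * K₀ * Real.sqrt A) with hB
  have hB0 : 0 ≤ B := by positivity
  set w := min (min 1 (z - s0)) (ηf / (B + 1)) with hw
  have hw0 : 0 < w := lt_min (lt_min one_pos hg0) (by positivity)
  have hw1 : w ≤ 1 := (min_le_left _ _).trans (min_le_left _ _)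
  set γ := w ^ 2 with hγdef
  have hγw : γ ≤ w := by rw [hγdef, pow_two]; exact mul_le_of_le_one_left hw0.le hw1
  have hsm : SmallOK P ⟨μ, ι, γ, A, 0⟩ c ηf := by
    refine ⟨hμ0, min_le_left _ _, hι0, min_le_left _ _, pow_pos hw0 2, hγw.trans hw1,
      le_trans (by show K₀ ≤ K₀ + 1; linarith) (le_max_right _ _), hA0, ?_, ?_, ?_⟩
    · show 32 * μ * K₀ ≤ ηf
      have : μ ≤ ηf / (32 * K₀) := min_le_right _ _
      rw [le_div_iff₀ (by positivity)] at this
      linarith
    · show 12 * (r : ℝ) * ι ≤ ηf * c ^ 2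
      have : ι ≤ ηf * c ^ 2 / (12 * r) := min_le_right _ _
      rw [le_div_iff₀ (by positivity)] at this
      linarith
    · show 4 * (r : ℝ) * (4 * A * γ * K₀ / ι + 4 * (2 + 4 * P.C1) * K₀ * Real.sqrt (A * γ)) ≤ ηf
      have hsq : Real.sqrt (A * γ) = Real.sqrt A * w := by
        rw [Real.sqrt_mul hA0.le, hγdef, Real.sqrt_sq hw0.le]
      have hwB : w * (B + 1) ≤ ηf := by
        have : w ≤ ηf / (B + 1) := min_le_right _ _
        rwa [le_div_iff₀ (by positivity)] at this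
      calc 4 * (r : ℝ) * (4 * A * γ * K₀ / ι + 4 * (2 + 4 * P.C1) * K₀ * Real.sqrt (A * γ))
          ≤ 4 * r * (4 * A * w * K₀ / ι + 4 * (2 + 4 * P.C1) * K₀ * (Real.sqrt A * w)) := by
            rw [hsq]; gcongr
        _ = w * B := by rw [hB]; ring
        _ ≤ ηf := by linarith
  obtain ⟨ς, c₀, hς, hςμ, hc₀, hstep'⟩ :=
    hstep P y rfl rfl rfl hK1 μ ι γ A c ηf hc hηf0 hy hy1 hcE hsm
  obtain ⟨st₀, hst₀, hW₀⟩ := T.exists_start hη (by linarith) hs0.le hs1 hsz hr hy hy1 hEy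
    (ι := ι) (A := A) hμ0.le (hγw.trans ((min_le_left _ _).trans (min_le_right _ _))) hςμ hς.le
  obtain ⟨st, hst, hW, hlive⟩ := exists_end (P := P) (S := ⟨μ, ι, γ, A, ς⟩) hη hμ0.le
    (pow_pos hw0 2) hA0.le hς.le hc₀ hstep' hst₀ hW₀
  set q : Fin r → C(Ω, ℝ) := fun i => (1 - st.live) * ((1 - η)⁻¹ • st.sig i) with hqdef
  have hqω : ∀ i ω, st.live ω = 1 ∧ q i ω = 0 ∨
      st.live ω = 0 ∧ (st.sig i ω = 1 - η ∧ q i ω = 1 ∨ st.sig i ω = 0 ∧ q i ω = 0) := by
    intro i ω
    rcases idem_zero_or_one hst.live_idem ω with h0 | h1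
    · refine Or.inr ⟨h0, ?_⟩
      obtain ⟨j, hj, hj'⟩ := hst.assigned ω h0
      rcases eq_or_ne i j with rfl | h
      · refine Or.inl ⟨hj, ?_⟩
        show (1 - st.live ω) * ((1 - η)⁻¹ * st.sig i ω) = 1
        rw [h0, hj, sub_zero, one_mul]
        exact inv_mul_cancel₀ ha.ne'
      · refine Or.inr ⟨hj' i h, ?_⟩
        show (1 - st.live ω) * ((1 - η)⁻¹ * st.sig i ω) = 0
        rw [hj' i h, mul_zero, mul_zero]
    · refine Or.inl ⟨h1, ?_⟩
      show (1 - st.live ω) * ((1 - η)⁻¹ * st.sig i ω) = 0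
      rw [h1, sub_self, zero_mul]
  have hqi : ∀ i, q i * q i = q i := fun i => by
    ext ω
    rw [ContinuousMap.mul_apply]
    rcases hqω i ω with ⟨-, h⟩ | ⟨-, ⟨-, h⟩ | ⟨-, h⟩⟩ <;> rw [h] <;> norm_num
  have hqσ : ∀ i, (1 - η) • q i ≤ st.sig i := fun i => ContinuousMap.le_def.2 fun ω => by
    rw [ContinuousMap.smul_apply, smul_eq_mul]
    rcases hqω i ω with ⟨-, h⟩ | ⟨-, ⟨h', h⟩ | ⟨-, h⟩⟩
    · rw [h, mul_zero]; exact hst.sig_nonneg i ω
    · rw [h, h', mul_one]
    · rw [h, mul_zero]; exact hst.sig_nonneg i ω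
  have hqsum : ∀ ω, st.live ω + ∑ i, q i ω = 1 := by
    intro ω
    rcases idem_zero_or_one hst.live_idem ω with h0 | h1
    · obtain ⟨j, hj, hj'⟩ := hst.assigned ω h0
      rw [Finset.sum_eq_single j]
      · rcases hqω j ω with ⟨h, -⟩ | ⟨-, ⟨-, h⟩ | ⟨h, -⟩⟩
        · rw [h0] at h; exact absurd h zero_ne_one
        · rw [h0, h]; norm_num
        · rw [hj] at h; exact absurd h ha.ne'
      · intro i _ hi
        rcases hqω i ω with ⟨-, h⟩ | ⟨-, ⟨h', -⟩ | ⟨-, h⟩⟩
        · exact h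
        · rw [hj' i hi] at h'; exact absurd h'.symm ha.ne'
        · exact h
      · simp
    · rw [h1, Finset.sum_eq_zero, add_zero]
      intro i _
      rcases hqω i ω with ⟨-, h⟩ | ⟨h, -⟩
      · exact h
      · rw [h1] at h; exact absurd h one_ne_zero
  let i₀ : Fin r := ⟨0, hr1⟩
  refine ⟨fun i => q i + if i = i₀ then st.live else 0, ?_, ?_⟩
  · refine ⟨fun i => ?_, fun i j hij => ?_, ?_⟩
    · ext ω
      simp only [ContinuousMap.mul_apply, ContinuousMap.add_apply]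
      rcases hqω i ω with ⟨hl, h⟩ | ⟨hl, ⟨-, h⟩ | ⟨-, h⟩⟩ <;> split_ifs <;> simp [h, hl]
    · ext ω
      simp only [ContinuousMap.mul_apply, ContinuousMap.add_apply, ContinuousMap.zero_apply]
      have hnn : ∀ k, 0 ≤ q k ω := fun k => idem_nonneg (hqi k) ω
      have hpair : q i ω + q j ω ≤ ∑ k, q k ω := by
        rw [← Finset.sum_pair (f := fun k => q k ω) hij]
        exact Finset.sum_le_sum_of_subset_of_nonneg (Finset.subset_univ _) fun k _ _ => hnn k
      have hl0 : 0 ≤ st.live ω := idem_nonneg hst.live_idem ω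
      have hlq : ∀ k, st.live ω * q k ω = 0 := fun k => by
        rcases hqω k ω with ⟨-, h⟩ | ⟨h, -⟩ <;> simp [h]
      have hqq0 : q i ω * q j ω = 0 := by
        rcases idem_zero_or_one (hqi i) ω with h | h
        · rw [h, zero_mul]
        · rcases idem_zero_or_one (hqi j) ω with h' | h'
          · rw [h', mul_zero]
          · linarith [hqsum ω]
      split_ifs with hi hj hj
      · exact absurd (hi.trans hj.symm) hij
      · simp only [ContinuousMap.zero_apply, add_zero]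
        linear_combination hqq0 + hlq j
      · simp only [ContinuousMap.zero_apply, add_zero]
        linear_combination hqq0 + hlq i
      · simp only [ContinuousMap.zero_apply, add_zero]
        exact hqq0
    · ext ω
      simp only [ContinuousMap.sum_apply, ContinuousMap.add_apply, ContinuousMap.one_apply]
      have e : ∀ i, (if i = i₀ then st.live else 0) ω = if i = i₀ then st.live ω else 0 :=
        fun i => by split_ifs <;> rfl
      simp only [Finset.sum_add_distrib, e, Finset.sum_ite_eq', Finset.mem_univ, if_true]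
      linarith [hqsum ω]
  have hgap : ∀ i, (0 : M) ≤ z • (1 : M) - vop y * T.emb (st.sig i) * vop y + st.R i := fun i =>
    le_trans (smul_nonneg (sq_nonneg w) zero_le_one) (hst.gap i)
  choose e he1 he2 he3 he4 using fun i =>
    exists_piece_cut hy hy1 (z := z) (a := 1 - η) (κ := κ) (by linarith) ha hκ (hqi i) (hqσ i) (hgap i)
  refine ⟨e, fun i => ⟨he1 i, ?_⟩, ?_, he3⟩
  · have hlq : st.live * q i = 0 := by
      ext ω
      rw [ContinuousMap.mul_apply]
      rcases hqω i ω with ⟨-, h⟩ | ⟨h, -⟩ <;> simp [h]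
    rw [← he2 i, ← mul_assoc, ← map_mul]
    congr 2
    beta_reduce
    split_ifs <;> simp [add_mul, hqi i, hlq]
  have hn : ∑ i, T.n2 (st.R i) ^ 2 ≤ K₀ / A := by
    have h := ((Wpot_parts (P := P) (S := ⟨μ, ι, γ, A, ς⟩) hη hμ0.le (pow_pos hw0 2) hA0.le hς.le
      hst).2).trans hW
    rw [le_div_iff₀ hA0]
    refine le_of_mul_le_mul_left ?_ hμ0
    calc μ * ((∑ i, T.n2 (st.R i) ^ 2) * A) = A * μ * ∑ i, T.n2 (st.R i) ^ 2 := by ring
      _ ≤ μ * K₀ := h
  have hsum : ∑ i, T.tau (q i) = 1 - T.tau st.live := by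
    have e1 : st.live + ∑ i, q i = 1 := by
      ext ω
      simpa [ContinuousMap.sum_apply] using hqsum ω
    have := congrArg T.tau e1
    rw [map_add, map_sum, T.tau_one] at this
    linarith
  have hbd : ∑ i, (T.n2 (st.R i) / d) ^ 2 ≤ ηf := by
    simp only [div_pow, ← Finset.sum_div]
    rw [div_le_iff₀ (pow_pos hd0 2)]
    refine hn.trans ?_
    rw [div_le_iff₀ hA0]
    have : K₀ / (ηf * d ^ 2) ≤ A := le_max_left _ _
    rw [div_le_iff₀ (by positivity)] at this
    linarith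
  have hle : ∑ i, (T.tau (q i) - T.tr (e i)) ≤ ∑ i, (T.n2 (st.R i) / d) ^ 2 :=
    Finset.sum_le_sum fun i _ => he4 i
  rw [Finset.sum_sub_distrib, hsum] at hle
  linarith

variable (T) in
/-- The two instances used in the two stages. -/
theorem upperPav_two (hstep : ∀ (P : Params) (y : M), 0 < P.η → P.η ≤ 1 / 16 → 0 < P.z →
    P.z ≤ 1 → 1 ≤ P.r → 1 ≤ P.K₀ → T.StepSpec P y) {η : ℝ} (hη : 0 < η) (hη1 : η ≤ 1 / 64) :
    T.UpperPav (1 / 2) (1 / 2 + 5 * η) ⌈129 / η ^ 3⌉₊ ∧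
      T.UpperPav (12 * η) (60 * η) (⌈586 / η⌉₊ + 1) := by
  constructor
  · refine T.upperPav_of_step (η := η) (z := 1 / 2 + 3 * η) (s0 := η) hη (by linarith) hη
      (by linarith) (by linarith) ?_ ?_ fun P y h1 h2 h3 h4 => hstep P y (h1 ▸ hη) (by linarith)
        (by linarith) (by linarith) (h3 ▸ Nat.one_le_iff_ne_zero.2 ?_) h4
    · rw [div_lt_iff₀ (by linarith)]
      nlinarith
    · have hphi := Profile.phi_le hη hη.le (show η ≤ 1 - η / 2 by linarith)
      have hg : 2 * η ^ 2 ≤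
          η - Profile.phi η η * ((1 / 2) / (1 / 2 + 3 * η - η)) := by
        have h1 : Profile.phi η η * ((1 / 2) / (1 / 2 + 3 * η - η)) ≤
            (1 + η) * η * ((1 / 2) / (1 / 2 + 3 * η - η)) :=
          mul_le_mul_of_nonneg_right hphi (div_nonneg (by norm_num) (by linarith))
        have h2 : (1 + η) * η * ((1 / 2) / (1 / 2 + 3 * η - η)) ≤ η - 2 * η ^ 2 := by
          rw [mul_div_assoc', div_le_iff₀ (by linarith)]
          nlinarith [pow_pos hη 2, pow_pos hη 3]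
        linarith
      have hN : 129 / η ^ 3 ≤ (⌈129 / η ^ 3⌉₊ : ℝ) := Nat.le_ceil _
      calc 1 + 256 / η ≤ 129 / η ^ 3 * (2 * η ^ 2) := by
            rw [show 129 / η ^ 3 * (2 * η ^ 2) = 258 / η by field_simp; ring,
              le_div_iff₀ hη, add_mul, div_mul_cancel₀ _ hη.ne']
            linarith
        _ ≤ _ := mul_le_mul hN hg (by positivity) (Nat.cast_nonneg _)
    · exact (Nat.ceil_pos.2 (by positivity)).ne'
  · refine T.upperPav_of_step (η := 1 / 16) (z := 48 * η) (s0 := 12 * η) (by norm_num) le_rfl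
      (by linarith) (by linarith) (by linarith) ?_ ?_ fun P y h1 h2 h3 h4 =>
        hstep P y (by linarith) (by linarith) (by linarith) (by linarith) (h3 ▸ by omega) h4
    · rw [div_lt_iff₀ (by norm_num)]
      linarith
    · have hphi := Profile.phi_le (η := 1 / 16) (by norm_num) (show (0 : ℝ) ≤ 12 * η by linarith)
        (show 12 * η ≤ 1 - 1 / 16 / 2 by linarith)
      have e : 12 * η / (48 * η - 12 * η) = 1 / 3 := by
        rw [show 48 * η - 12 * η = 3 * (12 * η) by ring]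
        field_simp
      have hg : 7 * η ≤ 12 * η - Profile.phi (1 / 16) (12 * η) * (12 * η / (48 * η - 12 * η)) := by
        rw [e]; linarith
      have hN : 586 / η + 1 ≤ ((⌈586 / η⌉₊ + 1 : ℕ) : ℝ) := by
        push_cast
        linarith [Nat.le_ceil (586 / η)]
      calc (1 : ℝ) + 256 / (1 / 16) ≤ (586 / η + 1) * (7 * η) := by
            rw [add_mul, show 586 / η * (7 * η) = 4102 by field_simp; ring]
            linarith
        _ ≤ _ := mul_le_mul hN hg (by positivity) (Nat.cast_nonneg _)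

end TMasa

end Vale.Agent.P078
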