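import Mathlib
import Vale.Agent.P078.Step
import Vale.Agent.P078.Upper
import Vale.Agent.P078.TwoStage

/-! The analytic core: quantitative paving for tracial maximal abelian subalgebras. -/

noncomputable section

set_option linter.unusedSectionVars false

namespace Vale.Agent.P078

universe u v

variable {M : Type u} [CStarAlgebra M] [PartialOrder M] [StarOrderedRing M]
  {Ω : Type v} [TopologicalSpace Ω] [CompactSpace Ω] [T2Space Ω]

/-- the number of pieces of the walk -/
def pieces (ε : ℝ) : ℕ := ⌈129 / (ε / 400) ^ 3⌉₊ * (⌈586 / (ε / 400)⌉₊ + 1)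

lemma pieces_le {ε : ℝ} (h0 : 0 < ε) (h1 : ε < 1) :
    (pieces ε : ℝ) ≤ 2000000000000000 / ε ^ 4 := by
  set η := ε / 400 with hη
  have hη0 : 0 < η := by positivity
  have hη1 : η ≤ 1 := by rw [hη]; linarith
  have e1 : (⌈129 / η ^ 3⌉₊ : ℝ) ≤ 130 / η ^ 3 := by
    refine (Nat.ceil_lt_add_one (by positivity)).le.trans ?_
    rw [div_add_one (by positivity)]
    gcongr
    linarith [pow_le_one₀ (n := 3) hη0.le hη1]
  have e2 : ((⌈586 / η⌉₊ + 1 : ℕ) : ℝ) ≤ 588 / η := by
    push_cast
    refine (add_le_add (Nat.ceil_lt_add_one (by positivity)).le le_rfl).trans ?_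
    rw [div_add_one (by positivity), div_add_one (by positivity)]
    gcongr
    linarith
  have e : (pieces ε : ℝ) ≤ 130 / η ^ 3 * (588 / η) := by
    rw [pieces, ← hη, Nat.cast_mul]
    exact mul_le_mul e1 e2 (Nat.cast_nonneg _) (by positivity)
  refine e.trans ?_
  rw [hη, div_mul_div_comm, div_le_div_iff₀ (by positivity) (by positivity)]
  ring_nf
  nlinarith [pow_pos h0 4]

/-- every self-adjoint element of a tracial algebra is pavable over a maximal abelian subalgebra -/
theorem pavable_core (T : TMasa M Ω) {ε : ℝ} (h0 : 0 < ε) (h1 : ε < 1) {x : M}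
    (hx : IsSelfAdjoint x) : T.Pavable x ε (pieces ε) := by
  have hη : 0 < ε / 400 := by positivity
  have hη1 : ε / 400 ≤ 1 / 64 := by linarith
  obtain ⟨hU1, hU2⟩ := T.upperPav_two
    (fun P y a1 a2 a3 a4 _ _ => TMasa.stepSpec T P y a1 a2 a3.le a4) hη hη1
  have h := T.pavable_of_upperPav hη hη1 (Nat.one_le_iff_ne_zero.2
      (ne_of_gt (Nat.ceil_pos.2 (by positivity)))) (Nat.le_add_left _ _) hU1 hU2 hx
  rwa [show 400 * (ε / 400) = ε by ring] at h

end Vale.Agent.P078
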