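import Mathlib
import Vale.Agent.P078.Core
import Vale.Agent.P078.Bridge
import Vale.Agent.P078.SemiMain

/-! So-paving with a rate in every semifinite algebra. -/

noncomputable section

open scoped InnerProductSpace NNReal ENNReal

namespace Vale.Agent.P078

universe u

variable {H : Type u} [NormedAddCommGroup H] [InnerProductSpace ℂ H] [CompleteSpace H]

/-- a tracial state is in particular a semifinite trace -/
lemma semifinite_of_tracial {M : VonNeumannAlgebra H} (hM : HasFaithfulNormalTracialState M) :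
    HasFaithfulNormalSemifiniteTrace M := by
  obtain ⟨η, hη, -, hcomm, hfaith⟩ := hM
  have hsum : ∀ y : H →L[ℂ] H, Summable fun n => ‖y (η n)‖ ^ 2 := fun y => Bridge.summable_sq hη y
  have e : ∀ y : H →L[ℂ] H, (∑' i : ULift.{u} ℕ, (‖y (η i.down)‖₊ : ℝ≥0∞) ^ 2) =
      ENNReal.ofReal (∑' n, ‖y (η n)‖ ^ 2) := by
    intro y
    rw [← Equiv.ulift.{u}.symm.tsum_eq (fun i => (‖y (η i.down)‖₊ : ℝ≥0∞) ^ 2),
      ENNReal.ofReal_tsum_of_nonneg (fun n => sq_nonneg _) (hsum y)]
    refine tsum_congr fun n => ?_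
    rw [ENNReal.ofReal_pow (norm_nonneg _), ofReal_norm, enorm_eq_nnnorm]
    rfl
  refine ⟨ULift.{u} ℕ, fun i => η i.down, fun x hx => ?_,
    fun x hx h => hfaith x hx fun n => h ⟨n⟩,
    fun p hp hpp hp0 => ⟨p, hp, hpp, hp0, hpp.isIdempotentElem.eq,
      (e p).symm ▸ ENNReal.ofReal_lt_top⟩⟩
  rw [e, e]
  congr 1
  have h : ∀ y : H →L[ℂ] H, ((∑' n, ‖y (η n)‖ ^ 2 : ℝ) : ℂ) =
      ∑' n, ⟪η n, (star y * y) (η n)⟫_ℂ := by
    intro y
    rw [Complex.ofReal_tsum]
    refine tsum_congr fun n => ?_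
    rw [mul_apply_eq_comp, ContinuousLinearMap.star_eq_adjoint,
      ContinuousLinearMap.adjoint_inner_right, inner_self_eq_norm_sq_to_K]
    push_cast
    rfl
  have := hcomm _ (star_mem hx) _ hx
  refine Complex.ofReal_injective ?_
  rw [h, h, star_star, this]

/-- pieces for the semifinite theorem -/
def semiPieces (ε : ℝ) : ℕ := max (pieces (ε / 2)) ⌈16 / ε⌉₊

/-- so-paving in semifinite algebras, with the tracial number of pieces at half accuracy -/
theorem soPavable_semifinite_rate {ε : ℝ} (h0 : 0 < ε) (h1 : ε < 1)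
    (M : VonNeumannAlgebra H) (A : StarSubalgebra ℂ (H →L[ℂ] H))
    (hM : HasFaithfulNormalSemifiniteTrace M) (hA : IsMASA M A)
    (x : H →L[ℂ] H) (hxM : x ∈ M) (hx : IsSelfAdjoint x) :
    SoPavable M A x ε (semiPieces ε) :=
  soPavable_semifinite h0 (le_max_left _ _)
    (le_trans (Nat.le_ceil _) (Nat.cast_le.2 (le_max_right _ _)))
    (soPavable_of_core fun M _ _ _ Ω _ _ _ T x hx =>
      pavable_core T (half_pos h0) (by linarith) hx) M A hM hA x hxM hx

lemma semiPieces_le {ε : ℝ} (h0 : 0 < ε) (h1 : ε < 1) :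
    (semiPieces ε : ℝ) ≤ 32000000000000000 / ε ^ 4 := by
  rw [semiPieces, Nat.cast_max]
  refine max_le ((pieces_le (half_pos h0) (by linarith)).trans_eq ?_) ?_
  · field_simp
    ring
  · refine (Nat.ceil_lt_add_one (by positivity)).le.trans ?_
    rw [div_add_one h0.ne', div_le_div_iff₀ h0 (by positivity)]
    have h4 : ε ^ 4 ≤ ε := by
      calc ε ^ 4 ≤ ε ^ 1 := pow_le_pow_of_le_one h0.le h1.le (by norm_num)
        _ = ε := pow_one ε
    nlinarith [pow_pos h0 4]

end Vale.Agent.P078
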