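import Mathlib
import Vale.Agent.P078.SemiDefs
import Vale.Agent.P078.StatementDefs

/-! Non-vacuity: all bounded operators form an algebra with a faithful normal semifinite trace. -/

noncomputable section

open scoped NNReal ENNReal InnerProductSpace

namespace Vale.Agent.P078

universe u

variable {H : Type u} [NormedAddCommGroup H] [InnerProductSpace ℂ H] [CompleteSpace H]

/-- all bounded operators -/
def fullAlgebra (H : Type u) [NormedAddCommGroup H] [InnerProductSpace ℂ H] [CompleteSpace H] :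
    VonNeumannAlgebra H where
  toStarSubalgebra := ⊤
  centralizer_centralizer' := Set.eq_univ_of_univ_subset
    (Set.subset_centralizer_centralizer (S := (Set.univ : Set (H →L[ℂ] H))))

omit [CompleteSpace H] in
lemma tsum_inner_sq {ι : Type*} (b : HilbertBasis ι ℂ H) (v : H) :
    (∑' j, (‖⟪b j, v⟫_ℂ‖₊ : ℝ≥0∞) ^ 2) = (‖v‖₊ : ℝ≥0∞) ^ 2 := by
  have h := b.hasSum_inner_mul_inner v v
  have h2 : HasSum (fun j => ‖⟪b j, v⟫_ℂ‖ ^ 2) (‖v‖ ^ 2) := by
    have h1 := Complex.hasSum_re h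
    have e : ∀ j, (⟪v, b j⟫_ℂ * ⟪b j, v⟫_ℂ).re = ‖⟪b j, v⟫_ℂ‖ ^ 2 := fun j => by
      rw [← inner_conj_symm v (b j), Complex.conj_mul']
      norm_cast
    have e2 : (⟪v, v⟫_ℂ).re = ‖v‖ ^ 2 := by
      rw [inner_self_eq_norm_sq_to_K]
      norm_cast
    simp only [e] at h1
    rwa [e2] at h1
  have h3 : HasSum (fun j => ‖⟪b j, v⟫_ℂ‖₊ ^ 2) (‖v‖₊ ^ 2) := NNReal.hasSum_coe.1 (by simpa using h2)
  have h4 := ENNReal.hasSum_coe.2 h3
  simpa using h4.tsum_eq

lemma full_hasTrace : HasFaithfulNormalSemifiniteTrace (fullAlgebra H) := by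
  obtain ⟨w, b, _⟩ := exists_hilbertBasis ℂ H
  refine ⟨w, b, fun x _ => ?_, fun x _ h => ?_, fun p _ hp hp0 => ?_⟩
  · calc (∑' i, (‖x (b i)‖₊ : ℝ≥0∞) ^ 2)
        = ∑' i, ∑' j, (‖⟪b j, x (b i)⟫_ℂ‖₊ : ℝ≥0∞) ^ 2 := by simp only [tsum_inner_sq]
      _ = ∑' j, ∑' i, (‖⟪b j, x (b i)⟫_ℂ‖₊ : ℝ≥0∞) ^ 2 := ENNReal.tsum_comm
      _ = ∑' j, ∑' i, (‖⟪b i, star x (b j)⟫_ℂ‖₊ : ℝ≥0∞) ^ 2 := by
          refine tsum_congr fun j => tsum_congr fun i => ?_
          rw [ContinuousLinearMap.star_eq_adjoint, ContinuousLinearMap.adjoint_inner_right,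
            ← inner_conj_symm (x (b i)) (b j), RCLike.nnnorm_conj]
      _ = _ := by simp only [tsum_inner_sq]
  · refine ContinuousLinearMap.ext fun v => ?_
    have h1 := (b.hasSum_repr v).mapL x
    simp only [map_smul, h, smul_zero] at h1
    simpa using h1.unique hasSum_zero
  · obtain ⟨v0, hv0⟩ : ∃ v0, p v0 ≠ 0 := by
      by_contra hc
      push Not at hc
      exact hp0 (ContinuousLinearMap.ext fun v => by simp [hc])
    set v := p v0 with hv
    have hpv : p v = v := by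
      rw [hv, ← mul_apply_eq_comp, hp.isIdempotentElem]
    refine ⟨(ℂ ∙ v).starProjection, trivial, isStarProjection_starProjection, ?_, ?_, ?_⟩
    · intro e
      have := (Submodule.starProjection_eq_self_iff (K := ℂ ∙ v)).2 (Submodule.mem_span_singleton_self v)
      rw [e] at this
      exact hv0 this.symm
    · refine ContinuousLinearMap.ext fun z => ?_
      obtain ⟨c, hc⟩ := Submodule.mem_span_singleton.1 ((ℂ ∙ v).starProjection_apply_mem z)
      rw [mul_apply_eq_comp, ← hc, map_smul, hpv]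
    · have e : ∀ i, (‖(ℂ ∙ v).starProjection (b i)‖₊ : ℝ≥0∞) ^ 2
          ≤ ENNReal.ofReal ((‖v‖ ^ 2)⁻¹) * (‖⟪b i, v⟫_ℂ‖₊ : ℝ≥0∞) ^ 2 := fun i => by
        rw [← ENNReal.coe_pow, ← ENNReal.coe_pow, ← ENNReal.ofReal_coe_nnreal,
          ← ENNReal.ofReal_coe_nnreal, ← ENNReal.ofReal_mul (by positivity)]
        refine ENNReal.ofReal_le_ofReal (le_of_eq ?_)
        rw [Submodule.starProjection_singleton]
        simp only [NNReal.coe_pow, coe_nnnorm, norm_smul, norm_div, norm_inner_symm (b i) v]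
        have hn : ‖v‖ ≠ 0 := norm_ne_zero_iff.2 hv0
        simp
        field_simp
      refine lt_of_le_of_lt (ENNReal.tsum_le_tsum e) ?_
      rw [ENNReal.tsum_mul_left, tsum_inner_sq]
      exact ENNReal.mul_lt_top ENNReal.ofReal_lt_top (ENNReal.pow_lt_top ENNReal.coe_lt_top)

end Vale.Agent.P078

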