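import Mathlib

/-! Normal functionals centralised by a subalgebra. -/

noncomputable section

namespace Vale.Agent.P078

universe u

variable {H : Type u} [NormedAddCommGroup H] [InnerProductSpace ℂ H] [CompleteSpace H]

/-- There is a nonzero positive normal functional on `M` centralised by `A`: a linear functional
`φ` with `φ (y* y) ≥ 0` on `M`, `φ 1 ≠ 0`, strongly continuous at `0` on the unit ball of `M`,
and `φ (a y) = φ (y a)` for `a ∈ A`, `y ∈ M`. -/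
def HasCentralNormalFunctional (M : VonNeumannAlgebra H)
    (A : StarSubalgebra ℂ (H →L[ℂ] H)) : Prop :=
  ∃ φ : (H →L[ℂ] H) →ₗ[ℂ] ℂ, φ 1 ≠ 0 ∧
    (∀ y ∈ M, ∃ t : ℝ, 0 ≤ t ∧ φ (star y * y) = (t : ℂ)) ∧
    (∀ θ : ℝ, 0 < θ → ∃ G : Finset H, ∃ κ : ℝ, 0 < κ ∧
      ∀ y ∈ M, ‖y‖ ≤ 1 → (∀ v ∈ G, ‖y v‖ < κ) → ‖φ y‖ < θ) ∧
    ∀ a ∈ A, ∀ y ∈ M, φ (a * y) = φ (y * a)

end Vale.Agent.P078
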