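import Mathlib
import Vale.Agent.P078.SemiPart

/-! Spectral cuts, step approximations and weak limits of pinchings in an arbitrary algebra. -/

noncomputable section

open scoped InnerProductSpace ComplexOrder
open Filter Topology

namespace Vale.Agent.P078.Sing

universe u

open Semi Semi.Ctx

variable {H : Type u} [NormedAddCommGroup H] [InnerProductSpace ℂ H] [CompleteSpace H]

/-- cutting an element at a level -/
lemma cut_comm (M : VonNeumannAlgebra H) {k : H →L[ℂ] H} (hk : IsSelfAdjoint k) (hkM : k ∈ M)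
    {c : ℝ} (hc : 0 < c) :
    ∃ R ∈ M, IsStarProjection R ∧ ‖k * (1 - R)‖ ≤ c ∧ (∀ v, ‖R v‖ ≤ c⁻¹ * ‖k v‖) ∧
      (∀ w : H →L[ℂ] H, w * k = k → w * R = R) ∧
      ∀ z : H →L[ℂ] H, Commute k z → z * R = R * z := by
  set cl : ℝ → ℝ := fun s => max (-c) (min c s) with hcl
  set φ : ℝ → ℝ := fun s => s - cl s with hφ
  set m : ℝ → ℝ := fun s => s / max (s ^ 2) (c ^ 2) with hm
  set g : ℝ → ℝ := fun s => m s * s with hg
  set ν : ℝ → ℝ := fun s => 1 - c / max |s| c with hν
  have hc2 : ∀ s : ℝ, max (s ^ 2) (c ^ 2) ≠ 0 := fun s =>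
    (lt_of_lt_of_le (pow_pos hc 2) (le_max_right _ _)).ne'
  have hc1 : ∀ s : ℝ, max |s| c ≠ 0 := fun s => (lt_of_lt_of_le hc (le_max_right _ _)).ne'
  have hclc : Continuous cl := by fun_prop
  have hφc : Continuous φ := by fun_prop
  have hmc : Continuous m := Continuous.div (by fun_prop) (by fun_prop) hc2
  have hgc : Continuous g := hmc.mul continuous_id
  have hνc : Continuous ν :=
    continuous_const.sub (Continuous.div (by fun_prop) (by fun_prop) hc1)
  have hgφ : ∀ s, g s * φ s = φ s := by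
    intro s
    by_cases hs : |s| ≤ c
    · have : φ s = 0 := by
        rw [abs_le] at hs
        simp [hφ, hcl, hs.1, hs.2]
      simp [this]
    · have h1 : c ^ 2 ≤ s ^ 2 := by
        rw [← sq_abs s]; exact pow_le_pow_left₀ hc.le (not_le.1 hs).le 2
      have h0 : s ≠ 0 := fun h => hs (by simp [h, hc.le])
      have : g s = 1 := by
        simp only [hg, hm, max_eq_left h1]
        field_simp
      rw [this, one_mul]
  have hφν : ∀ s, φ s = s * ν s := by
    intro s
    simp only [hφ, hν, hcl]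
    rcases le_total |s| c with hs | hs
    · rw [max_eq_right hs, div_self hc.ne']
      rw [abs_le] at hs
      simp [hs.1, hs.2]
    · rcases le_total 0 s with h0 | h0
      · rw [abs_of_nonneg h0] at hs ⊢
        rw [max_eq_left hs, min_eq_left hs, max_eq_right (by linarith)]
        rcases h0.eq_or_lt with h | h
        · exact absurd hs (by linarith)
        · field_simp
      · rw [abs_of_nonpos h0] at hs ⊢
        rw [max_eq_left hs, min_eq_right (by linarith), max_eq_left (by linarith)]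
        have h : s ≠ 0 := by intro h; linarith
        field_simp
  set R := supp φ k with hR
  refine ⟨R, supp_mem φ hk hkM, supp_proj φ k, ?_, ?_, ?_, fun z hz =>
    commute_supp φ hk hz⟩
  · have h1 : k = cfc cl k + cfc φ k := by
      rw [← cfc_add _ cl φ hclc.continuousOn hφc.continuousOn]
      exact ((cfc_congr fun s _ => by simp [hφ]).trans (cfc_id' ℝ k)).symm
    have h2 : k * (1 - R) = cfc cl k * (1 - R) := by
      conv_lhs => rw [h1]
      rw [add_mul, mul_sub (cfc φ k), mul_one, hR, cfc_mul_supp_self, sub_self, add_zero]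
    rw [h2]
    refine (norm_mul_le _ _).trans ((mul_le_of_le_one_right (norm_nonneg _)
      (supp_proj φ k).one_sub.norm_le).trans ?_)
    refine norm_cfc_le hc.le fun s _ => ?_
    rw [Real.norm_eq_abs, abs_le]
    exact ⟨le_max_left _ _, max_le (by linarith) (min_le_left _ _)⟩
  · intro v
    have h3 : cfc g k * R = R := by
      have : cfc g k * cfc φ k = 1 * cfc φ k := by
        rw [one_mul, ← cfc_mul _ _ _ hgc.continuousOn hφc.continuousOn]
        exact cfc_congr fun s _ => hgφ s
      simpa using mul_supp_eq this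
    have h4 : R = R * cfc g k := by
      have hsR : star R = R := (supp_proj φ k).isSelfAdjoint.star_eq
      have hsg : star (cfc g k) = cfc g k := (IsSelfAdjoint.cfc (f := g) (a := k)).star_eq
      have := congrArg star h3
      rw [star_mul, hsR, hsg] at this
      exact this.symm
    have h5 : cfc g k = cfc m k * k := by
      rw [cfc_mul m (fun s => s) k hmc.continuousOn continuous_id.continuousOn, cfc_id' ℝ k]
    rw [h4, h5, mul_apply_eq_comp, mul_apply_eq_comp]
    refine (R.le_opNorm _).trans ((mul_le_of_le_one_left (norm_nonneg _)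
      (supp_proj φ k).norm_le).trans (((cfc m k).le_opNorm _).trans
        (mul_le_mul_of_nonneg_right ?_ (norm_nonneg _))))
    refine norm_cfc_le (inv_nonneg.2 hc.le) fun s _ => ?_
    rw [hm, Real.norm_eq_abs, abs_div,
      abs_of_pos (lt_of_lt_of_le (pow_pos hc 2) (le_max_right _ _)), inv_eq_one_div,
      div_le_div_iff₀ (lt_of_lt_of_le (pow_pos hc 2) (le_max_right _ _)) hc, one_mul]
    rcases le_total |s| c with hs | hs
    · refine le_trans ?_ (le_max_right _ _)
      nlinarith [abs_nonneg s]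
    · refine le_trans ?_ (le_max_left _ _)
      nlinarith [abs_nonneg s, sq_abs s]
  · intro w hw
    have h6 : w * cfc φ k = 1 * cfc φ k := by
      have : cfc φ k = k * cfc ν k := by
        rw [cfc_congr (fun s _ => hφν s),
          cfc_mul (fun s => s) ν k continuous_id.continuousOn hνc.continuousOn, cfc_id' ℝ k]
      rw [one_mul, this, ← mul_assoc, hw]
    simpa using mul_supp_eq h6

variable {M : VonNeumannAlgebra H} {A : StarSubalgebra ℂ (H →L[ℂ] H)} {w : H →L[ℂ] H}

lemma pinch_mem' (hA : IsMASA M A) (Q : WPart A w) {y : H →L[ℂ] H} (hy : y ∈ M) :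
    Q.pinch y ∈ M :=
  sum_mem fun j _ => mul_mem (mul_mem (hA.1 (Q.mem j)) hy) (hA.1 (Q.mem j))

/-- approximation by steps over a partition -/
lemma exists_step (hA : IsMASA M A) (hwA : w ∈ A) (hw : IsStarProjection w)
    {b : H →L[ℂ] H} (hb : IsSelfAdjoint b) (hbA : b ∈ A) {c : ℝ} (hc : 0 < c) :
    ∃ (Q : WPart A w) (t : Fin Q.n → ℝ), ‖b * w - ∑ j, (t j : ℂ) • Q.f j‖ ≤ 2 * c := by
  classical
  obtain ⟨N, hN⟩ : ∃ N : ℕ, ‖b‖ / c < N := exists_nat_gt _
  set φ : ℤ → ℝ → ℝ := fun i s => max 0 (2 * c - |s - i * c|) with hφ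
  set ψ : ℤ → ℝ → ℝ := fun i s => max (-(2 * c)) (min (2 * c) (s - i * c)) with hψ
  set idx := Finset.Icc (-(N : ℤ)) N with hidx
  have hφc : ∀ i, Continuous (φ i) := fun i => by fun_prop
  have hψc : ∀ i, Continuous (ψ i) := fun i => by fun_prop
  have hne := nonempty_wpart hwA hw
  have hdir : IsDirectedOrder (WPart A w) :=
    ⟨fun Q Q' => ⟨Q.meet hA.2.1 Q', WPart.le_meet_left hA.2.1 Q Q',
      WPart.le_meet_right hA.2.1 Q Q'⟩⟩
  obtain ⟨Q, hQ⟩ := (idx.image fun i => WPart.split hA.2.1 hwA hw (supp (φ i) b)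
    (supp_mem_masa hA (φ i) hb hbA) (supp_proj (φ i) b)).exists_le
  have hsp : ∀ i ∈ idx, ∀ j, supp (φ i) b * Q.f j = Q.f j ∨ supp (φ i) b * Q.f j = 0 :=
    fun i hi j => WPart.eq_or_zero_of_split hA.2.1 hwA hw _ _ _
      (hQ _ (Finset.mem_image_of_mem _ hi)) j
  have key : ∀ j, ∃ t : ℝ, ‖(b - (t : ℂ) • 1) * Q.f j‖ ≤ 2 * c := by
    intro j
    by_cases hex : ∃ i ∈ idx, supp (φ i) b * Q.f j = Q.f j
    · obtain ⟨i, -, hij⟩ := hex
      refine ⟨i * c, ?_⟩
      have e0 : b - (((i : ℝ) * c : ℝ) : ℂ) • (1 : H →L[ℂ] H) = cfc (fun s : ℝ => s - i * c) b := by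
        rw [cfc_sub (fun s : ℝ => s) (fun _ : ℝ => (i : ℝ) * c) b, cfc_id' ℝ b, cfc_const _ b hb,
          Algebra.algebraMap_eq_smul_one, ← Complex.coe_smul]
      have e1 : (b - (((i : ℝ) * c : ℝ) : ℂ) • (1 : H →L[ℂ] H)) * supp (φ i) b =
          cfc (ψ i) b * supp (φ i) b := by
        refine mul_supp_eq ?_
        rw [e0, ← cfc_mul _ _ _ (by fun_prop) (hφc i).continuousOn,
          ← cfc_mul _ _ _ (hψc i).continuousOn (hφc i).continuousOn]
        refine cfc_congr fun s _ => ?_
        show (s - i * c) * φ i s = ψ i s * φ i s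
        by_cases hs : |s - i * c| ≤ 2 * c
        · rw [abs_le] at hs
          simp only [hψ, min_eq_right hs.2, max_eq_right hs.1]
        · have : φ i s = 0 := max_eq_left (by linarith)
          simp [this]
      rw [← hij, ← mul_assoc, e1, mul_assoc, hij]
      refine (norm_mul_le _ _).trans ((mul_le_of_le_one_right (norm_nonneg _)
        (Q.proj j).norm_le).trans ?_)
      refine norm_cfc_le (by positivity) fun s _ => ?_
      rw [Real.norm_eq_abs, abs_le]
      exact ⟨le_max_left _ _, max_le (by linarith) (min_le_left _ _)⟩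
    · push Not at hex
      refine ⟨0, ?_⟩
      suffices Q.f j = 0 by simp [this]; positivity
      set Φ : ℝ → ℝ := fun s => ∑ i ∈ idx, φ i s with hΦ
      have hΦc : Continuous Φ := by fun_prop
      have hΦ0 : ∀ s ∈ spectrum ℝ b, 0 < Φ s := by
        intro s hs
        have hsb : |s| ≤ ‖b‖ := by
          rcases subsingleton_or_nontrivial (H →L[ℂ] H) with h | h
          · simp at hs
          · simpa [Real.norm_eq_abs] using spectrum.norm_le_norm_of_mem hs
        have hlt : |s| / c < N := lt_of_le_of_lt (by gcongr) hN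
        have hlt : |s / c| < N := by rwa [abs_div, abs_of_pos hc]
        rw [abs_lt] at hlt
        have h1 := Int.floor_le (s / c)
        have h2 := Int.lt_floor_add_one (s / c)
        have hmem : ⌊s / c⌋ ∈ idx := by
          rw [hidx, Finset.mem_Icc]
          refine ⟨Int.le_floor.2 (by push_cast; linarith), ?_⟩
          exact_mod_cast le_trans h1 hlt.2.le
        refine lt_of_lt_of_le ?_ (Finset.single_le_sum (fun i _ => le_max_left _ _) hmem)
        refine lt_of_lt_of_le ?_ (le_max_right _ _)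
        rw [le_div_iff₀ hc] at h1
        rw [div_lt_iff₀ hc] at h2
        rw [sub_pos, abs_lt]
        constructor <;> nlinarith
      have hzero : cfc Φ b * Q.f j = 0 := by
        rw [show Φ = ∑ i ∈ idx, φ i from funext fun s => (Finset.sum_apply s idx φ).symm,
          cfc_sum φ b idx fun i _ => (hφc i).continuousOn, Finset.sum_mul]
        refine Finset.sum_eq_zero fun i hi => ?_
        rw [← cfc_mul_supp_self, mul_assoc, ((hsp i hi j).resolve_left (hex i hi)), mul_zero]
      have hinv : cfc (fun s => (Φ s)⁻¹) b * cfc Φ b = 1 := by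
        rw [← cfc_mul (fun s => (Φ s)⁻¹) Φ b (hΦc.continuousOn.inv₀ fun s hs => (hΦ0 s hs).ne') hΦc.continuousOn,
          cfc_congr (g := fun _ => (1 : ℝ)) fun s hs => inv_mul_cancel₀ (hΦ0 s hs).ne',
          cfc_const_one ℝ b]
      rw [← one_mul (Q.f j), ← hinv, mul_assoc, hzero, mul_zero]
  choose t ht using key
  refine ⟨Q, t, ContinuousLinearMap.opNorm_le_bound _ (by positivity) fun v => ?_⟩
  have e : b * w - ∑ j, (t j : ℂ) • Q.f j = ∑ j, Q.f j * ((b - (t j : ℂ) • 1) * Q.f j) := by
    calc b * w - ∑ j, (t j : ℂ) • Q.f j = ∑ j, (b * Q.f j - (t j : ℂ) • Q.f j) := by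
          rw [Finset.sum_sub_distrib, ← Finset.mul_sum, Q.sum]
      _ = _ := ?_
    refine Finset.sum_congr rfl fun j _ => ?_
    rw [sub_mul, smul_mul_assoc, one_mul, mul_sub, mul_smul_comm, Q.idem, ← mul_assoc,
      hA.2.1 _ (Q.mem j) b hbA, mul_assoc, Q.idem]
  rw [e]
  refine (pow_le_pow_iff_left₀ (norm_nonneg _) (by positivity) two_ne_zero).1 ?_
  rw [sum_apply]
  simp only [mul_apply_eq_comp]
  rw [Q.norm_sum_sq]
  calc _ ≤ ∑ j, (2 * c) ^ 2 * ‖Q.f j v‖ ^ 2 := by
        refine Finset.sum_le_sum fun j _ => ?_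
        rw [← mul_pow]
        refine pow_le_pow_left₀ (norm_nonneg _) (((Q.f j).le_opNorm _).trans ?_) 2
        refine (mul_le_of_le_one_left (norm_nonneg _) (Q.proj j).norm_le).trans ?_
        have hfix : Q.f j (Q.f j v) = Q.f j v :=
          congrArg (fun T : H →L[ℂ] H => T v) (Q.idem j)
        calc ‖(b - (t j : ℂ) • 1) (Q.f j v)‖
            = ‖((b - (t j : ℂ) • 1) * Q.f j) (Q.f j v)‖ := by rw [mul_apply_eq_comp, hfix]
          _ ≤ ‖(b - (t j : ℂ) • 1) * Q.f j‖ * ‖Q.f j v‖ := ContinuousLinearMap.le_opNorm _ _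
          _ ≤ _ := mul_le_mul_of_nonneg_right (ht j) (norm_nonneg _)
    _ = (2 * c) ^ 2 * ‖w v‖ ^ 2 := by rw [← Finset.mul_sum, Q.sum_norm_sq]
    _ ≤ (2 * c * ‖v‖) ^ 2 := by
        rw [mul_pow (2 * c) ‖v‖]
        gcongr
        exact (w.le_opNorm v).trans (mul_le_of_le_one_left (norm_nonneg _) hw.norm_le)

/-- weak limits of pinchings lie in the subalgebra -/
lemma exists_pinch_wlim (hA : IsMASA M A) (hwA : w ∈ A) (hw : IsStarProjection w)
    [Nonempty (WPart A w)] {y : H →L[ℂ] H} (hy : IsSelfAdjoint y) (hyM : y ∈ M) :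
    ∃ L ∈ A, IsSelfAdjoint L ∧ ‖L‖ ≤ ‖y‖ ∧ w * L = L ∧ L * w = L ∧ ∀ u v,
      Tendsto (fun Q : WPart A w => ⟪Q.pinch y u, v⟫_ℂ)
        (ultra (w := w) hA.2.1 : Filter (WPart A w)) (𝓝 ⟪L u, v⟫_ℂ) := by
  obtain ⟨L, hLn, hlim⟩ := exists_wlim (ultra (w := w) hA.2.1) (fun Q => Q.pinch y) ‖y‖
    fun Q => pinch_norm_le Q hw y
  rw [max_eq_left (norm_nonneg _)] at hLn
  have comm : ∀ z : H →L[ℂ] H, (∀ᶠ Q in (ultra (w := w) hA.2.1 : Filter (WPart A w)),
      z * Q.pinch y = Q.pinch y * z) → z * L = L * z := by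
    intro z hz
    ext u
    refine ext_inner_right ℂ fun v => ?_
    simp only [mul_apply_eq_comp]
    rw [← ContinuousLinearMap.adjoint_inner_right]
    refine tendsto_nhds_unique (hlim u (z.adjoint v)) ((hlim (z u) v).congr' ?_)
    filter_upwards [hz] with Q hQ
    have := congrArg (fun T : H →L[ℂ] H => T u) hQ
    simp only [mul_apply_eq_comp] at this
    rw [← this, ContinuousLinearMap.adjoint_inner_right]
  have hsa : star L = L := by
    ext u
    refine ext_inner_right ℂ fun v => ?_
    rw [ContinuousLinearMap.star_eq_adjoint, ContinuousLinearMap.adjoint_inner_left,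
      ← inner_conj_symm]
    refine tendsto_nhds_unique ((Complex.continuous_conj.tendsto _).comp (hlim v u))
      ((hlim u v).congr fun Q => ?_)
    simp only [Function.comp_apply, inner_conj_symm]
    rw [← ContinuousLinearMap.adjoint_inner_right, ← ContinuousLinearMap.star_eq_adjoint,
      star_pinch, hy.star_eq]
  have hLw : L * w = L := by
    ext u
    refine ext_inner_right ℂ fun v => ?_
    simp only [mul_apply_eq_comp]
    refine tendsto_nhds_unique (hlim (w u) v) ((hlim u v).congr fun Q => ?_)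
    rw [← mul_apply_eq_comp, pinch_mul_w]
  have hwL : w * L = L := by
    rw [comm w (Eventually.of_forall fun Q => by rw [w_mul_pinch, pinch_mul_w]), hLw]
  have hLM : L ∈ M := mem_of_commute fun z hz =>
    comm z (Eventually.of_forall fun Q => Semi.commute_of_mem (pinch_mem' hA Q hyM) hz)
  have hsaA : ∀ b ∈ A, IsSelfAdjoint b → L * b = b * L := by
    intro b hb hbs
    have hbw : L * b = L * (b * w) := by
      rw [hA.2.1 b hb w hwA, ← mul_assoc, hLw]
    have hbw' : b * L = b * w * L := by rw [mul_assoc, hwL]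
    rw [hbw, hbw']
    refine sub_eq_zero.1 (norm_le_zero_iff.1 (le_of_forall_pos_le_add fun θ hθ => ?_))
    rw [zero_add]
    obtain ⟨Q0, t, ht⟩ := exists_step hA hwA hw hbs hb
      (c := θ / (4 * (‖L‖ + 1))) (by positivity)
    set s := ∑ j, (t j : ℂ) • Q0.f j with hs
    have hsL : s * L = L * s := by
      refine comm s ?_
      filter_upwards [eventually_ge hA.2.1 Q0] with Q hQ
      have hj : ∀ j, Q0.f j * Q.pinch y = Q.pinch y * Q0.f j := by
        intro j
        rw [WPart.pinch, Finset.mul_sum, Finset.sum_mul]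
        refine Finset.sum_congr rfl fun k _ => ?_
        rw [← mul_assoc, ← mul_assoc, WPart.mul_of_le hQ, mul_assoc (Q.f k * y),
          hA.2.1 (Q.f k) (Q.mem k) (Q0.f j) (Q0.mem j), WPart.mul_of_le hQ]
        split_ifs <;> simp
      rw [hs, Finset.sum_mul, Finset.mul_sum]
      refine Finset.sum_congr rfl fun j _ => ?_
      rw [smul_mul_assoc, mul_smul_comm, hj]
    have e : L * (b * w) - b * w * L = L * (b * w - s) - (b * w - s) * L := by
      rw [mul_sub, sub_mul, hsL]; abel
    rw [e]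
    have h1 : ‖b * w - s‖ * (‖L‖ + 1) ≤ θ / 2 := by
      calc ‖b * w - s‖ * (‖L‖ + 1) ≤ 2 * (θ / (4 * (‖L‖ + 1))) * (‖L‖ + 1) := by gcongr
        _ = θ / 2 := by field_simp; ring
    refine (norm_sub_le _ _).trans ?_
    nlinarith [norm_mul_le L (b * w - s), norm_mul_le (b * w - s) L, norm_nonneg (b * w - s)]
  refine ⟨L, Bridge.mem_masa_of_commute hA hLM hsa fun b hb => ?_, hsa, hLn, hwL, hLw, hlim⟩
  have hRe : ((1 / 2 : ℂ) • (b + star b)) ∈ A :=
    SMulMemClass.smul_mem _ (add_mem hb (star_mem hb))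
  have hIm : ((Complex.I / 2) • (star b - b)) ∈ A :=
    SMulMemClass.smul_mem _ (sub_mem (star_mem hb) hb)
  have h1 := hsaA _ hRe (by
    show star _ = _
    rw [star_smul, star_add, star_star, add_comm]
    norm_num)
  have h2 := hsaA _ hIm (by
    show star _ = _
    rw [star_smul, star_sub, star_star, Complex.star_def, map_div₀, Complex.conj_I,
      show (starRingEnd ℂ) 2 = 2 from map_ofNat _ _, neg_div, neg_smul, ← smul_neg, neg_sub])
  have e : b = (1 / 2 : ℂ) • (b + star b) + Complex.I • ((Complex.I / 2) • (star b - b)) := by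
    rw [smul_smul, show Complex.I * (Complex.I / 2) = -(1 / 2 : ℂ) by
      rw [← mul_div_assoc, Complex.I_mul_I]; norm_num, smul_add, smul_sub, neg_smul, neg_smul]
    module
  rw [e, mul_add, add_mul, h1, mul_smul_comm Complex.I, smul_mul_assoc Complex.I, h2]

end Vale.Agent.P078.Sing
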