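import Mathlib
import Vale.Agent.P078.SingCopy

/-! Ultrafilter limits of pinched vector functionals over a maximal abelian subalgebra. -/

noncomputable section

open scoped InnerProductSpace ComplexOrder
open Filter Topology

namespace Vale.Agent.P078.Sing

universe u

open Semi Semi.Ctx

variable {H : Type u} [NormedAddCommGroup H] [InnerProductSpace ℂ H] [CompleteSpace H]
variable {A : StarSubalgebra ℂ (H →L[ℂ] H)}

lemma nonempty_part (A : StarSubalgebra ℂ (H →L[ℂ] H)) : Nonempty (WPart A 1) :=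
  Semi.Ctx.nonempty_wpart (one_mem A) (IsStarProjection.one _)

instance : Nonempty (WPart A (1 : H →L[ℂ] H)) := nonempty_part A

lemma pinch_add {w : H →L[ℂ] H} (Q : WPart A w) (y z : H →L[ℂ] H) :
    Q.pinch (y + z) = Q.pinch y + Q.pinch z := by
  simp [WPart.pinch, mul_add, add_mul, Finset.sum_add_distrib]

lemma pinch_smul {w : H →L[ℂ] H} (Q : WPart A w) (c : ℂ) (y : H →L[ℂ] H) :
    Q.pinch (c • y) = c • Q.pinch y := by
  simp [WPart.pinch, Finset.smul_sum]

lemma pinch_one (Q : WPart A (1 : H →L[ℂ] H)) : Q.pinch 1 = 1 := by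
  simp [WPart.pinch, Q.idem, Q.sum]

lemma f_mul_pinch {w : H →L[ℂ] H} (Q : WPart A w) (y : H →L[ℂ] H) (k : Fin Q.n) :
    Q.f k * Q.pinch y = Q.f k * y * Q.f k := by
  rw [WPart.pinch, Finset.mul_sum, Finset.sum_eq_single k ?_ (by simp)]
  · rw [← mul_assoc, ← mul_assoc, Q.idem]
  · intro j _ hj
    rw [← mul_assoc, ← mul_assoc, Q.orth k j hj.symm, zero_mul, zero_mul]

lemma pinch_mul_f {w : H →L[ℂ] H} (Q : WPart A w) (y : H →L[ℂ] H) (k : Fin Q.n) :
    Q.pinch y * Q.f k = Q.f k * y * Q.f k := by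
  rw [WPart.pinch, Finset.sum_mul, Finset.sum_eq_single k ?_ (by simp)]
  · rw [mul_assoc, Q.idem]
  · intro j _ hj
    rw [mul_assoc, Q.orth j k hj, mul_zero]

lemma pinch_mul_pinch {w : H →L[ℂ] H} (Q : WPart A w) (a b : H →L[ℂ] H) :
    Q.pinch (a * Q.pinch b) = Q.pinch a * Q.pinch b := by
  calc Q.pinch (a * Q.pinch b) = ∑ k, Q.f k * a * (Q.f k * b * Q.f k) := by
        refine Finset.sum_congr rfl fun k _ => ?_
        rw [mul_assoc, mul_assoc, pinch_mul_f, ← mul_assoc]
    _ = _ := by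
        rw [WPart.pinch, Finset.sum_mul]
        refine Finset.sum_congr rfl fun k _ => ?_
        rw [mul_assoc (Q.f k * a) (Q.f k) (Q.pinch b), f_mul_pinch]

lemma pinch_mul_pinch' {w : H →L[ℂ] H} (Q : WPart A w) (a b : H →L[ℂ] H) :
    Q.pinch (Q.pinch a * b) = Q.pinch a * Q.pinch b := by
  calc Q.pinch (Q.pinch a * b) = ∑ k, Q.f k * a * Q.f k * b * Q.f k := by
        refine Finset.sum_congr rfl fun k _ => ?_
        rw [← mul_assoc, f_mul_pinch]
    _ = _ := by
        rw [WPart.pinch, Finset.sum_mul]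
        refine Finset.sum_congr rfl fun k _ => ?_
        rw [mul_assoc (Q.f k * a) (Q.f k) (Q.pinch b), f_mul_pinch]
        simp only [← mul_assoc]

variable (F : Finset H)

/-- the vector functional of a finite family -/
def vf (y : H →L[ℂ] H) : ℂ := ∑ ξ ∈ F, ⟪ξ, y ξ⟫_ℂ

/-- total squared length of a finite family -/
def mass : ℝ := ∑ ξ ∈ F, ‖ξ‖ ^ 2

lemma mass_nonneg : 0 ≤ mass F := Finset.sum_nonneg fun _ _ => sq_nonneg _

lemma norm_vf_le (y : H →L[ℂ] H) : ‖vf F y‖ ≤ ‖y‖ * mass F := by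
  rw [mass, Finset.mul_sum]
  refine (norm_sum_le _ _).trans (Finset.sum_le_sum fun ξ _ => ?_)
  refine (norm_inner_le_norm _ _).trans ?_
  rw [pow_two, ← mul_assoc, mul_comm ‖y‖]
  rw [mul_assoc]
  exact mul_le_mul_of_nonneg_left (y.le_opNorm ξ) (norm_nonneg _)

variable (hAc : ∀ a ∈ A, ∀ b ∈ A, a * b = b * a)

/-- the refining ultrafilter of partitions of the identity -/
def U : Filter (WPart A (1 : H →L[ℂ] H)) :=
  ((ultra (w := (1 : H →L[ℂ] H)) hAc : Ultrafilter _) : Filter _)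

instance : (U hAc).NeBot := Ultrafilter.neBot _

lemma eventually_ge_part (Q0 : WPart A (1 : H →L[ℂ] H)) : ∀ᶠ Q in U hAc, Q0 ≤ Q :=
  eventually_ge hAc Q0

lemma exists_om (y : H →L[ℂ] H) :
    ∃ l : ℂ, Tendsto (fun Q : WPart A (1 : H →L[ℂ] H) => vf F (Q.pinch y))
      (U hAc) (𝓝 l) := by
  obtain ⟨l, -, hlim⟩ :=
    (isCompact_closedBall (0 : ℂ) (‖y‖ * mass F)).ultrafilter_le_nhds
      ((ultra (w := (1 : H →L[ℂ] H)) hAc).map fun Q => vf F (Q.pinch y)) (by
        rw [Ultrafilter.coe_map, le_principal_iff, mem_map]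
        refine univ_mem' fun Q => ?_
        simp only [Set.mem_preimage, Metric.mem_closedBall, dist_zero_right]
        exact (norm_vf_le F _).trans (mul_le_mul_of_nonneg_right
          (pinch_norm_le Q (IsStarProjection.one _) y) (mass_nonneg F)))
  exact ⟨l, hlim⟩

/-- the limit of the pinched vector functional -/
def om (y : H →L[ℂ] H) : ℂ := (exists_om F hAc y).choose

lemma tendsto_om (y : H →L[ℂ] H) :
    Tendsto (fun Q : WPart A (1 : H →L[ℂ] H) => vf F (Q.pinch y))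
      (U hAc) (𝓝 (om F hAc y)) :=
  (exists_om F hAc y).choose_spec

lemma om_congr {y z : H →L[ℂ] H}
    (h : ∀ᶠ Q : WPart A (1 : H →L[ℂ] H) in (U hAc), Q.pinch y = Q.pinch z) :
    om F hAc y = om F hAc z :=
  tendsto_nhds_unique (tendsto_om F hAc y) ((tendsto_om F hAc z).congr'
    (h.mono fun Q hQ => (congrArg (vf F) hQ).symm))

/-- the limit functional as a linear map -/
def omL : (H →L[ℂ] H) →ₗ[ℂ] ℂ where
  toFun := om F hAc
  map_add' y z := tendsto_nhds_unique (tendsto_om F hAc (y + z))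
    (((tendsto_om F hAc y).add (tendsto_om F hAc z)).congr fun Q => by
      simp [vf, pinch_add, inner_add_right, Finset.sum_add_distrib])
  map_smul' c y := tendsto_nhds_unique (tendsto_om F hAc (c • y))
    (((tendsto_om F hAc y).const_mul c).congr fun Q => by
      simp [vf, pinch_smul, inner_smul_right, Finset.mul_sum])

lemma omL_apply (y : H →L[ℂ] H) : omL F hAc y = om F hAc y := rfl

lemma om_add (y z : H →L[ℂ] H) : om F hAc (y + z) = om F hAc y + om F hAc z :=
  (omL F hAc).map_add y z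

lemma om_sub (y z : H →L[ℂ] H) : om F hAc (y - z) = om F hAc y - om F hAc z :=
  (omL F hAc).map_sub y z

lemma norm_om_le (y : H →L[ℂ] H) : ‖om F hAc y‖ ≤ ‖y‖ * mass F :=
  le_of_tendsto' (tendsto_om F hAc y).norm fun Q => (norm_vf_le F _).trans
    (mul_le_mul_of_nonneg_right (pinch_norm_le Q (IsStarProjection.one _) y) (mass_nonneg F))

/-- the squared seminorm of the limit functional -/
def nn (w : H →L[ℂ] H) : ℝ := (om F hAc (star w * w)).re

lemma vf_pinch_eq (Q : WPart A (1 : H →L[ℂ] H)) (v w : H →L[ℂ] H) :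
    vf F (Q.pinch (star v * w)) = ∑ ξ ∈ F, ∑ k, ⟪v (Q.f k ξ), w (Q.f k ξ)⟫_ℂ := by
  refine Finset.sum_congr rfl fun ξ _ => ?_
  rw [WPart.pinch, sum_apply, inner_sum]
  refine Finset.sum_congr rfl fun k _ => ?_
  simp only [mul_apply_eq_comp]
  rw [← Q.inner_f, ContinuousLinearMap.star_eq_adjoint, ContinuousLinearMap.adjoint_inner_right]

/-- the approximants of the seminorm -/
def app (Q : WPart A (1 : H →L[ℂ] H)) (w : H →L[ℂ] H) : ℝ :=
  ∑ ξ ∈ F, ∑ k, ‖w (Q.f k ξ)‖ ^ 2

lemma vf_pinch_self (Q : WPart A (1 : H →L[ℂ] H)) (w : H →L[ℂ] H) :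
    vf F (Q.pinch (star w * w)) = (app F Q w : ℂ) := by
  rw [vf_pinch_eq, app]
  push_cast
  exact Finset.sum_congr rfl fun ξ _ => Finset.sum_congr rfl fun k _ =>
    inner_self_eq_norm_sq_to_K _

lemma tendsto_nn (w : H →L[ℂ] H) :
    Tendsto (fun Q : WPart A (1 : H →L[ℂ] H) => app F Q w) (U hAc)
      (𝓝 (nn F hAc w)) := by
  refine ((Complex.continuous_re.tendsto _).comp (tendsto_om F hAc (star w * w))).congr fun Q => ?_
  simp [Function.comp, vf_pinch_self]

lemma nn_nonneg (w : H →L[ℂ] H) : 0 ≤ nn F hAc w :=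
  ge_of_tendsto' (tendsto_nn F hAc w) fun _ =>
    Finset.sum_nonneg fun _ _ => Finset.sum_nonneg fun _ _ => sq_nonneg _

lemma om_self (w : H →L[ℂ] H) : om F hAc (star w * w) = (nn F hAc w : ℂ) :=
  tendsto_nhds_unique (tendsto_om F hAc _)
    (((Complex.continuous_ofReal.tendsto _).comp (tendsto_nn F hAc w)).congr fun Q => by
      simp [Function.comp, vf_pinch_self])

lemma norm_om_star_mul_sq_le (v w : H →L[ℂ] H) :
    ‖om F hAc (star v * w)‖ ^ 2 ≤ nn F hAc v * nn F hAc w := by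
  refine le_of_tendsto_of_tendsto' (((tendsto_om F hAc _).norm).pow 2)
    ((tendsto_nn F hAc v).mul (tendsto_nn F hAc w)) fun Q => ?_
  rw [vf_pinch_eq, app, app, ← Finset.sum_product', ← Finset.sum_product', ← Finset.sum_product']
  refine le_trans (pow_le_pow_left₀ (norm_nonneg _)
    ((norm_sum_le _ _).trans (Finset.sum_le_sum fun a _ => norm_inner_le_norm _ _)) 2) ?_
  exact Finset.sum_mul_sq_le_sq_mul_sq _ _ _

lemma norm_om_le_sqrt (v w : H →L[ℂ] H) :
    ‖om F hAc (star v * w)‖ ≤ Real.sqrt (nn F hAc v) * Real.sqrt (nn F hAc w) := by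
  rw [← Real.sqrt_mul (nn_nonneg F hAc v)]
  exact Real.le_sqrt_of_sq_le (norm_om_star_mul_sq_le F hAc v w)

lemma nn_le_of_norm_le {a b : H →L[ℂ] H} {c : ℝ} (h : ∀ v, ‖a v‖ ≤ c * ‖b v‖) :
    nn F hAc a ≤ c ^ 2 * nn F hAc b := by
  refine le_of_tendsto_of_tendsto' (tendsto_nn F hAc a) ((tendsto_nn F hAc b).const_mul _)
    fun Q => ?_
  rw [app, app, Finset.mul_sum]
  refine Finset.sum_le_sum fun ξ _ => ?_
  rw [Finset.mul_sum]
  refine Finset.sum_le_sum fun k _ => ?_
  rw [← mul_pow]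
  exact pow_le_pow_left₀ (norm_nonneg _) (h _) 2

lemma nn_sum_le {ι : Type*} (s : Finset ι) (w : ι → H →L[ℂ] H) :
    nn F hAc (∑ i ∈ s, w i) ≤ s.card * ∑ i ∈ s, nn F hAc (w i) := by
  refine le_of_tendsto_of_tendsto' (tendsto_nn F hAc _)
    ((tendsto_finsetSum s fun i _ => tendsto_nn F hAc (w i)).const_mul _) fun Q => ?_
  simp only [app]
  rw [Finset.sum_comm (s := s), Finset.mul_sum]
  refine Finset.sum_le_sum fun ξ _ => ?_
  rw [Finset.sum_comm (s := s), Finset.mul_sum]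
  refine Finset.sum_le_sum fun k _ => ?_
  rw [sum_apply]
  exact (pow_le_pow_left₀ (norm_nonneg _) (norm_sum_le _ _) 2).trans
    sq_sum_le_card_mul_sum_sq

lemma nn_one : nn F hAc 1 = mass F := by
  refine tendsto_nhds_unique (tendsto_nn F hAc 1) (tendsto_const_nhds.congr fun Q => ?_)
  refine Finset.sum_congr rfl fun ξ _ => ?_
  simp [Q.sum_norm_sq]

/-- the parts refining a projection of the subalgebra -/
lemma eventually_split {e : H →L[ℂ] H} (he : e ∈ A) (hep : IsStarProjection e) :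
    ∀ᶠ Q : WPart A (1 : H →L[ℂ] H) in (U hAc),
      ∀ k, e * Q.f k = Q.f k ∨ e * Q.f k = 0 :=
  (eventually_ge_part hAc (WPart.split hAc (one_mem A) (IsStarProjection.one _) e he hep)).mono
    fun _ hQ k => WPart.eq_or_zero_of_split hAc (one_mem A) (IsStarProjection.one _) e he hep hQ k

lemma om_comm {e : H →L[ℂ] H} (he : e ∈ A) (hep : IsStarProjection e) (y : H →L[ℂ] H) :
    om F hAc (e * y) = om F hAc (y * e) := by
  refine om_congr F hAc ((eventually_split hAc he hep).mono fun Q hQ => ?_)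
  refine Finset.sum_congr rfl fun k _ => ?_
  have hc : Q.f k * e = e * Q.f k := hAc _ (Q.mem k) _ he
  have e1 : Q.f k * (e * y) * Q.f k = Q.f k * e * y * Q.f k := by simp only [mul_assoc]
  have e2 : Q.f k * (y * e) * Q.f k = Q.f k * y * (e * Q.f k) := by simp only [mul_assoc]
  rw [e1, e2, hc]
  rcases hQ k with h | h
  · rw [h]
  · rw [h]
    simp

lemma nn_mul_proj_le {e : H →L[ℂ] H} (he : e ∈ A) (hep : IsStarProjection e) (w : H →L[ℂ] H) :
    nn F hAc (w * e) ≤ nn F hAc w := by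
  refine le_of_tendsto_of_tendsto (tendsto_nn F hAc _) (tendsto_nn F hAc w)
    ((eventually_split hAc he hep).mono fun Q hQ => ?_)
  refine Finset.sum_le_sum fun ξ _ => Finset.sum_le_sum fun k _ => ?_
  rw [mul_apply_eq_comp]
  rcases hQ k with h | h
  · have := congrArg (fun T : H →L[ℂ] H => T ξ) h
    simp only [mul_apply_eq_comp] at this
    rw [this]
  · have := congrArg (fun T : H →L[ℂ] H => T ξ) h
    simp only [mul_apply_eq_comp, zero_apply] at this
    rw [this, map_zero, norm_zero]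
    nlinarith [sq_nonneg ‖w (Q.f k ξ)‖]

lemma om_pinch (Q0 : WPart A (1 : H →L[ℂ] H)) (y : H →L[ℂ] H) :
    om F hAc (Q0.pinch y) = om F hAc y :=
  om_congr F hAc ((eventually_ge_part hAc Q0).mono fun _ hQ => pinch_pinch hAc hQ y)

end Vale.Agent.P078.Sing
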