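import Mathlib
import Vale.Agent.P078.SingDefs
import Vale.Agent.P078.SingOmega

/-! A dominated corner of a pinched limit functional gives a centralised normal functional. -/

noncomputable section

open scoped InnerProductSpace ComplexOrder
open Filter Topology

namespace Vale.Agent.P078.Sing

universe u

open Semi Semi.Ctx

variable {H : Type u} [NormedAddCommGroup H] [InnerProductSpace ℂ H] [CompleteSpace H]
variable {M : VonNeumannAlgebra H} {A : StarSubalgebra ℂ (H →L[ℂ] H)}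
variable (F : Finset H) (hAc : ∀ a ∈ A, ∀ b ∈ A, a * b = b * a)

/-- the pinched corner -/
def zz (r : H →L[ℂ] H) (Q : WPart A (1 : H →L[ℂ] H)) : H →L[ℂ] H := Q.pinch r

/-- the sandwiched functional -/
def fQ (r : H →L[ℂ] H) (Q : WPart A (1 : H →L[ℂ] H)) : (H →L[ℂ] H) →ₗ[ℂ] ℂ where
  toFun y := om F hAc (zz r Q * y * zz r Q)
  map_add' y z := by rw [mul_add, add_mul, om_add]
  map_smul' c y := by
    rw [mul_smul_comm, smul_mul_assoc]
    exact (omL F hAc).map_smul c _

lemma fQ_apply (r : H →L[ℂ] H) (Q : WPart A (1 : H →L[ℂ] H)) (y : H →L[ℂ] H) :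
    fQ F hAc r Q y = om F hAc (zz r Q * y * zz r Q) := rfl

variable {r : H →L[ℂ] H}

lemma zz_star (hr : IsSelfAdjoint r) (Q : WPart A (1 : H →L[ℂ] H)) :
    star (zz r Q) = zz r Q := by
  rw [zz, star_pinch, hr.star_eq]

lemma norm_zz_le (Q : WPart A (1 : H →L[ℂ] H)) : ‖zz r Q‖ ≤ ‖r‖ :=
  pinch_norm_le Q (IsStarProjection.one _) r

lemma nn_zz_sub (hr : IsSelfAdjoint r) {Q Q' : WPart A (1 : H →L[ℂ] H)} (h : Q ≤ Q') :
    nn F hAc (zz r Q - zz r Q') = nn F hAc (zz r Q) - nn F hAc (zz r Q') := by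
  have hs : ∀ R : WPart A (1 : H →L[ℂ] H), star (zz r R) = zz r R := zz_star hr
  have e1 : Q'.pinch (zz r Q) = zz r Q' := pinch_pinch hAc h r
  have eab : om F hAc (zz r Q * zz r Q') = om F hAc (zz r Q' * zz r Q') := by
    calc om F hAc (zz r Q * zz r Q') = om F hAc (Q'.pinch (zz r Q * Q'.pinch r)) :=
          (om_pinch F hAc Q' _).symm
      _ = _ := by rw [pinch_mul_pinch, e1]; rfl
  have eba : om F hAc (zz r Q' * zz r Q) = om F hAc (zz r Q' * zz r Q') := by
    calc om F hAc (zz r Q' * zz r Q) = om F hAc (Q'.pinch (Q'.pinch r * zz r Q)) :=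
          (om_pinch F hAc Q' _).symm
      _ = _ := by rw [pinch_mul_pinch', e1]; rfl
  have key : om F hAc (star (zz r Q - zz r Q') * (zz r Q - zz r Q')) =
      om F hAc (star (zz r Q) * zz r Q) - om F hAc (star (zz r Q') * zz r Q') := by
    rw [star_sub, hs, hs, sub_mul, mul_sub, mul_sub, om_sub, om_sub, om_sub, eab, eba]
    ring
  simp only [nn, key, Complex.sub_re]

lemma nn_zz_anti (hr : IsSelfAdjoint r) {Q Q' : WPart A (1 : H →L[ℂ] H)} (h : Q ≤ Q') :
    nn F hAc (zz r Q') ≤ nn F hAc (zz r Q) := by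
  have := nn_nonneg F hAc (zz r Q - zz r Q')
  rw [nn_zz_sub F hAc hr h] at this
  linarith

lemma nn_mul_left_le (y z : H →L[ℂ] H) : nn F hAc (y * z) ≤ ‖y‖ ^ 2 * nn F hAc z :=
  nn_le_of_norm_le F hAc fun v => by rw [mul_apply_eq_comp]; exact y.le_opNorm _

lemma norm_fQ_sub_le (hr : IsSelfAdjoint r) {Q Q' : WPart A (1 : H →L[ℂ] H)} (h : Q ≤ Q')
    {B : ℝ} (hB : nn F hAc (zz r Q) ≤ B) (y : H →L[ℂ] H) :
    ‖fQ F hAc r Q y - fQ F hAc r Q' y‖ ≤
      2 * ‖y‖ * Real.sqrt B * Real.sqrt (nn F hAc (zz r Q) - nn F hAc (zz r Q')) := by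
  set z := zz r Q with hz
  set z' := zz r Q' with hz'
  set d := Real.sqrt (nn F hAc z - nn F hAc z') with hd
  have hs : ∀ R : WPart A (1 : H →L[ℂ] H), star (zz r R) = zz r R := zz_star hr
  have hdd : Real.sqrt (nn F hAc (z - z')) = d := by rw [hd, hz, hz', nn_zz_sub F hAc hr h]
  have hle : ∀ w, nn F hAc w ≤ B → ∀ v, Real.sqrt (nn F hAc (v * w)) ≤ ‖v‖ * Real.sqrt B := by
    intro w hw v
    rw [← Real.sqrt_sq (norm_nonneg v), ← Real.sqrt_mul (sq_nonneg _)]
    exact Real.sqrt_le_sqrt ((nn_mul_left_le F hAc v w).trans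
      (mul_le_mul_of_nonneg_left hw (sq_nonneg _)))
  have e : fQ F hAc r Q y - fQ F hAc r Q' y =
      om F hAc (star (z - z') * (y * z)) + om F hAc (star z' * (y * (z - z'))) := by
    rw [fQ_apply, fQ_apply, ← om_add, ← om_sub, star_sub, hs, hs, ← hz, ← hz']
    congr 1
    simp only [sub_mul, mul_sub, mul_assoc]
    abel
  rw [e]
  refine (norm_add_le _ _).trans ?_
  have h1 := (norm_om_le_sqrt F hAc (z - z') (y * z)).trans
    (mul_le_mul_of_nonneg_left (hle z hB y) (Real.sqrt_nonneg _))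
  have h2 : ‖om F hAc (star z' * (y * (z - z')))‖ ≤ Real.sqrt B * (‖y‖ * d) := by
    refine (norm_om_le_sqrt F hAc z' (y * (z - z'))).trans (mul_le_mul
      (Real.sqrt_le_sqrt ((nn_zz_anti F hAc hr h).trans hB)) ?_ (Real.sqrt_nonneg _)
      (Real.sqrt_nonneg _))
    rw [← hdd, ← Real.sqrt_sq (norm_nonneg y), ← Real.sqrt_mul (sq_nonneg _)]
    exact Real.sqrt_le_sqrt (nn_mul_left_le F hAc _ _)
  rw [hdd] at h1
  linarith

/-- continuity of one sandwiched functional under domination -/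
lemma fQ_small (hA : IsMASA M A) (hrp : IsStarProjection r) (hrM : r ∈ M) (η : H)
    (hdom : ∀ w ∈ M, w * r = w → nn F hA.2.1 w ≤ ‖w η‖ ^ 2) (Q : WPart A (1 : H →L[ℂ] H))
    {θ : ℝ} (hθ : 0 < θ) :
    ∃ G : Finset H, ∃ κ : ℝ, 0 < κ ∧
      ∀ y ∈ M, (∀ v ∈ G, ‖y v‖ < κ) → ‖fQ F hA.2.1 r Q y‖ < θ := by
  classical
  set b := nn F hA.2.1 (zz r Q) with hb
  have hb0 : 0 ≤ b := nn_nonneg F hA.2.1 _
  set κ := θ / ((Real.sqrt b + 1) * (Q.n + 1)) with hκ
  have hκ0 : 0 < κ := by
    have := Real.sqrt_nonneg b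
    positivity
  refine ⟨Finset.univ.image fun k => Q.f k (r η), κ, hκ0, fun y hy hyG => ?_⟩
  have hsum : nn F hA.2.1 (y * zz r Q) ≤ ((Q.n : ℝ) * κ) ^ 2 := by
    have e : y * zz r Q = ∑ k, y * (Q.f k * r * Q.f k) := by
      rw [zz, WPart.pinch, Finset.mul_sum]
    rw [e]
    refine (nn_sum_le F hA.2.1 _ _).trans ?_
    have hk : ∀ k, nn F hA.2.1 (y * (Q.f k * r * Q.f k)) ≤ κ ^ 2 := by
      intro k
      rw [show y * (Q.f k * r * Q.f k) = (y * Q.f k * r) * Q.f k by simp only [mul_assoc]]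
      refine (nn_mul_proj_le F hA.2.1 (Q.mem k) (Q.proj k) _).trans ?_
      refine (hdom _ (mul_mem (mul_mem hy (hA.1 (Q.mem k))) hrM)
        (by rw [mul_assoc, hrp.isIdempotentElem.eq])).trans ?_
      rw [mul_apply_eq_comp, mul_apply_eq_comp]
      exact pow_le_pow_left₀ (norm_nonneg _)
        (hyG _ (Finset.mem_image_of_mem _ (Finset.mem_univ k))).le 2
    refine (mul_le_mul_of_nonneg_left (Finset.sum_le_sum fun k _ => hk k)
      (Nat.cast_nonneg _)).trans_eq ?_
    simp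
    ring
  have e : fQ F hA.2.1 r Q y = om F hA.2.1 (star (zz r Q) * (y * zz r Q)) := by
    rw [fQ_apply, zz_star hrp.isSelfAdjoint, mul_assoc]
  rw [e]
  refine lt_of_le_of_lt (norm_om_le_sqrt F hA.2.1 _ _) ?_
  have h1 : Real.sqrt (nn F hA.2.1 (y * zz r Q)) ≤ (Q.n : ℝ) * κ :=
    (Real.sqrt_le_sqrt hsum).trans_eq (Real.sqrt_sq (by positivity))
  calc Real.sqrt (nn F hA.2.1 (zz r Q)) * Real.sqrt (nn F hA.2.1 (y * zz r Q))
      ≤ Real.sqrt b * ((Q.n : ℝ) * κ) := mul_le_mul_of_nonneg_left h1 (Real.sqrt_nonneg _)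
    _ < (Real.sqrt b + 1) * (Q.n + 1) * κ := by nlinarith [Real.sqrt_nonneg b, hκ0]
    _ = θ := by rw [hκ]; field_simp

/-- centrality extends from projections to the subalgebra -/
lemma central_extend (hA : IsMASA M A) (φ : (H →L[ℂ] H) →ₗ[ℂ] ℂ) {B : ℝ} (hB0 : 0 ≤ B)
    (hbound : ∀ z, ‖φ z‖ ≤ B * ‖z‖) {y : H →L[ℂ] H}
    (hproj : ∀ e ∈ A, IsStarProjection e → φ (e * y) = φ (y * e)) {a : H →L[ℂ] H} (ha : a ∈ A) :
    φ (a * y) = φ (y * a) := by
  have hsa : ∀ c ∈ A, IsSelfAdjoint c → φ (c * y) = φ (y * c) := by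
    intro c hc hcs
    refine sub_eq_zero.1 (norm_le_zero_iff.1 (le_of_forall_pos_le_add fun θ hθ => ?_))
    rw [zero_add]
    obtain ⟨P, t, ht⟩ := exists_step hA (one_mem A) (IsStarProjection.one _) hcs hc
      (c := θ / (4 * (B * ‖y‖ + 1))) (by positivity)
    rw [mul_one] at ht
    set s := ∑ j, (t j : ℂ) • P.f j with hs
    have hsy : φ (s * y) = φ (y * s) := by
      simp only [hs, Finset.sum_mul, Finset.mul_sum, smul_mul_assoc, mul_smul_comm, map_sum,
        map_smul]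
      exact Finset.sum_congr rfl fun j _ => by rw [hproj _ (P.mem j) (P.proj j)]
    have e : φ (c * y) - φ (y * c) = φ ((c - s) * y) - φ (y * (c - s)) := by
      rw [sub_mul, mul_sub, map_sub, map_sub, hsy]; ring
    rw [e]
    refine (norm_sub_le _ _).trans ((add_le_add (hbound _) (hbound _)).trans ?_)
    have h1 : ‖(c - s) * y‖ ≤ 2 * (θ / (4 * (B * ‖y‖ + 1))) * ‖y‖ :=
      (norm_mul_le _ _).trans (mul_le_mul_of_nonneg_right ht (norm_nonneg _))
    have h2 : ‖y * (c - s)‖ ≤ 2 * (θ / (4 * (B * ‖y‖ + 1))) * ‖y‖ := by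
      refine (norm_mul_le _ _).trans ?_
      rw [mul_comm]
      exact mul_le_mul_of_nonneg_right ht (norm_nonneg _)
    have h3 : B * ‖y‖ / (B * ‖y‖ + 1) ≤ 1 := by rw [div_le_one (by positivity)]; linarith
    calc B * ‖(c - s) * y‖ + B * ‖y * (c - s)‖
        ≤ B * (2 * (θ / (4 * (B * ‖y‖ + 1))) * ‖y‖) +
          B * (2 * (θ / (4 * (B * ‖y‖ + 1))) * ‖y‖) := by gcongr
      _ = θ * (B * ‖y‖ / (B * ‖y‖ + 1)) := by field_simp; ring
      _ ≤ θ := mul_le_of_le_one_right hθ.le h3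
  set c₁ := (1 / 2 : ℂ) • (a + star a) with hc₁
  set c₂ := (Complex.I / 2) • (star a - a) with hc₂
  have e1 : φ (c₁ * y) = φ (y * c₁) :=
    hsa _ (SMulMemClass.smul_mem _ (add_mem ha (star_mem ha))) (by
      show star _ = _
      rw [hc₁, star_smul, star_add, star_star, add_comm]
      norm_num)
  have e2 : φ (c₂ * y) = φ (y * c₂) :=
    hsa _ (SMulMemClass.smul_mem _ (sub_mem (star_mem ha) ha)) (by
      show star _ = _
      rw [hc₂, star_smul, star_sub, star_star, Complex.star_def, map_div₀, Complex.conj_I,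
        show (starRingEnd ℂ) 2 = 2 from map_ofNat _ _, neg_div, neg_smul, ← smul_neg, neg_sub])
  have e : a = c₁ + Complex.I • c₂ := by
    rw [hc₁, hc₂, smul_smul, show Complex.I * (Complex.I / 2) = -(1 / 2 : ℂ) by
      rw [← mul_div_assoc, Complex.I_mul_I]; norm_num, smul_add, smul_sub, neg_smul, neg_smul]
    module
  clear_value c₁ c₂
  have f1 : φ (a * y) = φ (c₁ * y + (Complex.I • c₂) * y) := by rw [← add_mul, ← e]
  have f2 : φ (y * a) = φ (y * c₁ + y * (Complex.I • c₂)) := by rw [← mul_add, ← e]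
  rw [f1, f2, map_add, map_add, e1, smul_mul_assoc, mul_smul_comm, map_smul, map_smul, e2]


/-- domination on a corner produces a centralised normal functional -/
theorem central_of_dominated (hA : IsMASA M A) (hrp : IsStarProjection r) (hrM : r ∈ M) (η : H)
    (hdom : ∀ w ∈ M, w * r = w → nn F hA.2.1 w ≤ ‖w η‖ ^ 2) (hpos : 0 < nn F hA.2.1 r) :
    HasCentralNormalFunctional M A := by
  classical
  have hAc := hA.2.1
  have hrs := hrp.isSelfAdjoint
  set b : WPart A (1 : H →L[ℂ] H) → ℝ := fun Q => nn F hAc (zz r Q) with hb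
  have hb0 : ∀ Q, 0 ≤ b Q := fun Q => nn_nonneg F hAc _
  set β := ⨅ Q, b Q with hβ
  have hbdd : BddBelow (Set.range b) := ⟨0, by rintro _ ⟨Q, rfl⟩; exact hb0 Q⟩
  have hβle : ∀ Q, β ≤ b Q := fun Q => ciInf_le hbdd Q
  have hchoice : ∀ n : ℕ, ∃ Q, b Q < β + 1 / (n + 1) := fun n =>
    exists_lt_of_ciInf_lt (by rw [← hβ]; linarith [show (0 : ℝ) < 1 / ((n : ℝ) + 1) by positivity])
  choose Q₀ hQ₀ using hchoice
  set Q : ℕ → WPart A (1 : H →L[ℂ] H) := fun n =>
    Nat.rec (Q₀ 0) (fun k P => P.meet hAc (Q₀ (k + 1))) n with hQ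
  have hQstep : ∀ n, Q n ≤ Q (n + 1) := fun n => WPart.le_meet_left hAc (Q n) (Q₀ (n + 1))
  have hQmono : Monotone Q := monotone_nat_of_le_succ hQstep
  have hQb : ∀ n, b (Q n) ≤ β + 1 / (n + 1) := by
    intro n
    cases n with
    | zero => exact (hQ₀ 0).le
    | succ k =>
      exact (nn_zz_anti F hAc hrs (WPart.le_meet_right hAc (Q k) (Q₀ (k + 1)))).trans (hQ₀ (k + 1)).le
  set B := b (Q 0) with hB
  have hclose : ∀ n R, Q n ≤ R → ∀ y, ‖fQ F hAc r (Q n) y - fQ F hAc r R y‖ ≤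
      2 * ‖y‖ * Real.sqrt B * Real.sqrt (1 / (n + 1)) := by
    intro n R hR y
    refine (norm_fQ_sub_le F hAc hrs hR (nn_zz_anti F hAc hrs (hQmono (Nat.zero_le n))) y).trans ?_
    refine mul_le_mul_of_nonneg_left (Real.sqrt_le_sqrt ?_) (by positivity)
    have h1 := hQb n
    have h2 := hβle R
    simp only [hb] at h1 h2
    linarith
  have hsq : Tendsto (fun n : ℕ => Real.sqrt (1 / ((n : ℝ) + 1))) atTop (𝓝 0) := by
    simpa using (tendsto_one_div_add_atTop_nhds_zero_nat).sqrt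
  have hcau : ∀ y, CauchySeq fun n => fQ F hAc r (Q n) y := by
    intro y
    refine cauchySeq_of_le_tendsto_0' (fun n => 2 * ‖y‖ * Real.sqrt B * Real.sqrt (1 / (n + 1)))
      (fun n m hnm => ?_) (by simpa using hsq.const_mul (2 * ‖y‖ * Real.sqrt B))
    rw [dist_eq_norm]
    exact hclose n (Q m) (hQmono hnm) y
  choose f hf using fun y => cauchySeq_tendsto_of_complete (hcau y)
  let φ : (H →L[ℂ] H) →ₗ[ℂ] ℂ :=
    { toFun := f
      map_add' := fun y z => tendsto_nhds_unique (hf (y + z))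
        (((hf y).add (hf z)).congr fun n => ((fQ F hAc r (Q n)).map_add y z).symm)
      map_smul' := fun c y => tendsto_nhds_unique (hf (c • y))
        (((hf y).const_mul c).congr fun n => ((fQ F hAc r (Q n)).map_smul c y).symm) }
  have hφ : ∀ y, Tendsto (fun n => fQ F hAc r (Q n) y) atTop (𝓝 (φ y)) := hf
  have hφclose : ∀ n y, ‖fQ F hAc r (Q n) y - φ y‖ ≤
      2 * ‖y‖ * Real.sqrt B * Real.sqrt (1 / (n + 1)) := fun n y =>
    le_of_tendsto ((tendsto_const_nhds.sub (hφ y)).norm)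
      ((eventually_ge_atTop n).mono fun m hm => hclose n (Q m) (hQmono hm) y)
  refine ⟨φ, ?_, fun y hy => ?_, fun θ hθ => ?_, ?_⟩
  · have hone : ∀ n, fQ F hAc r (Q n) 1 = (b (Q n) : ℂ) := fun n => by
      rw [fQ_apply, mul_one]
      conv_lhs => arg 3; arg 1; rw [← zz_star hrs]
      exact om_self F hAc _
    have hmass : 0 < mass F := by
      refine lt_of_le_of_ne (mass_nonneg F) fun h => ?_
      have := nn_le_of_norm_le F hAc (a := r) (b := 1) (c := ‖r‖) fun v => by
        simpa using r.le_opNorm v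
      rw [nn_one, ← h, mul_zero] at this
      linarith
    have hlow : ∀ R, nn F hAc r ^ 2 / mass F ≤ b R := by
      intro R
      rw [div_le_iff₀ hmass]
      have e : om F hAc (star 1 * zz r R) = (nn F hAc r : ℂ) := by
        rw [star_one, one_mul, zz, om_pinch, ← om_self F hAc r, hrs.star_eq,
          hrp.isIdempotentElem.eq]
      have := norm_om_star_mul_sq_le F hAc 1 (zz r R)
      rw [e, nn_one, Complex.norm_real, Real.norm_eq_abs, sq_abs] at this
      linarith
    intro h0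
    have h1 : Tendsto (fun n => b (Q n)) atTop (𝓝 0) := by
      have h2 := (Complex.continuous_re.tendsto _).comp (hφ 1)
      rw [h0] at h2
      simpa [Function.comp_def, hone] using h2
    have h3 : nn F hAc r ^ 2 / mass F ≤ 0 :=
      ge_of_tendsto h1 (Eventually.of_forall fun n => hlow _)
    have : 0 < nn F hAc r ^ 2 / mass F := by positivity
    linarith
  · have hval : ∀ n, fQ F hAc r (Q n) (star y * y) = (nn F hAc (y * zz r (Q n)) : ℂ) := by
      intro n
      rw [fQ_apply, ← om_self F hAc (y * zz r (Q n)), star_mul, zz_star hrs]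
      simp only [mul_assoc]
    have h1 := (Complex.continuous_re.tendsto _).comp (hφ (star y * y))
    have h2 := (Complex.continuous_im.tendsto _).comp (hφ (star y * y))
    simp only [Function.comp_def, hval, Complex.ofReal_re, Complex.ofReal_im] at h1 h2
    refine ⟨(φ (star y * y)).re, ge_of_tendsto' h1 fun n => nn_nonneg F hAc _,
      Complex.ext (by simp) ?_⟩
    rw [Complex.ofReal_im]
    exact tendsto_nhds_unique h2 tendsto_const_nhds
  · obtain ⟨n, hn⟩ := ((hsq.const_mul (2 * Real.sqrt B)).eventually (eventually_lt_nhds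
      (show (2 * Real.sqrt B) * 0 < θ / 2 by simpa using half_pos hθ))).exists
    obtain ⟨G, κ, hκ, hG⟩ := fQ_small F hA hrp hrM η hdom (Q n) (half_pos hθ)
    refine ⟨G, κ, hκ, fun y hy hy1 hyG => ?_⟩
    have h1 := hG y hy hyG
    have h2 : ‖fQ F hAc r (Q n) y - φ y‖ ≤ 2 * Real.sqrt B * Real.sqrt (1 / (n + 1)) := by
      refine (hφclose n y).trans ?_
      gcongr
      linarith
    have := norm_sub_le (fQ F hAc r (Q n) y) (fQ F hAc r (Q n) y - φ y)
    rw [sub_sub_cancel] at this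
    linarith
  · intro a ha y _
    have hproj : ∀ e ∈ A, IsStarProjection e → φ (e * y) = φ (y * e) := by
      intro e he hep
      refine tendsto_nhds_unique (hφ (e * y)) ?_
      refine tendsto_of_tendsto_of_dist (hφ (y * e)) ?_
      refine squeeze_zero (fun _ => dist_nonneg) (fun n => ?_)
        (by simpa using hsq.const_mul (2 * Real.sqrt B * (‖y * e‖ + ‖e * y‖)))
      set R := (Q n).meet hAc (WPart.split hAc (one_mem A) (IsStarProjection.one _) e he hep)
      have hc : e * zz r R = zz r R * e := by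
        rw [zz, WPart.pinch, Finset.mul_sum, Finset.sum_mul]
        refine Finset.sum_congr rfl fun k _ => ?_
        have e1 := WPart.eq_or_zero_of_split hAc (one_mem A) (IsStarProjection.one _) e he hep
          (WPart.le_meet_right hAc (Q n) _ : _ ≤ R) k
        have e2 : R.f k * e = e * R.f k := hAc _ (R.mem k) _ he
        rw [← mul_assoc, ← mul_assoc, mul_assoc (R.f k * r), e2]
        rcases e1 with h | h <;> rw [h] <;> simp
      have heq : fQ F hAc r R (e * y) = fQ F hAc r R (y * e) := by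
        rw [fQ_apply, fQ_apply]
        calc om F hAc (zz r R * (e * y) * zz r R) = om F hAc (e * (zz r R * y * zz r R)) := by
              rw [← mul_assoc (zz r R) e y, ← hc]; simp only [mul_assoc]
          _ = om F hAc (zz r R * y * zz r R * e) := om_comm F hAc he hep _
          _ = _ := by
              rw [mul_assoc (zz r R * y), ← hc]; simp only [mul_assoc]
      rw [dist_eq_norm]
      have b1 := hclose n R (WPart.le_meet_left hAc _ _) (y * e)
      have b2 := hclose n R (WPart.le_meet_left hAc _ _) (e * y)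
      have := norm_sub_le_norm_sub_add_norm_sub (fQ F hAc r (Q n) (y * e)) (fQ F hAc r R (y * e))
        (fQ F hAc r (Q n) (e * y))
      rw [norm_sub_rev (fQ F hAc r R (y * e))] at this
      rw [heq] at b2
      rw [one_div, Real.sqrt_inv] at b1 b2
      linarith
    refine central_extend hA φ (hb0 (Q 0)) (fun z => ?_) hproj ha
    refine le_of_tendsto' (hφ z).norm fun n => ?_
    have hbn : nn F hAc (zz r (Q n)) ≤ B := nn_zz_anti F hAc hrs (hQmono (Nat.zero_le n))
    rw [fQ_apply, mul_assoc]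
    conv_lhs => arg 1; arg 3; arg 1; rw [← zz_star hrs]
    refine (norm_om_le_sqrt F hAc _ _).trans ?_
    have : Real.sqrt (nn F hAc (z * zz r (Q n))) ≤ ‖z‖ * Real.sqrt B := by
      rw [← Real.sqrt_sq (norm_nonneg z), ← Real.sqrt_mul (sq_nonneg _)]
      exact Real.sqrt_le_sqrt ((nn_mul_left_le F hAc _ _).trans
        (mul_le_mul_of_nonneg_left hbn (sq_nonneg _)))
    refine (mul_le_mul (Real.sqrt_le_sqrt hbn) this (Real.sqrt_nonneg _)
      (Real.sqrt_nonneg _)).trans_eq ?_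
    rw [mul_comm ‖z‖, ← mul_assoc, Real.mul_self_sqrt (hb0 _)]


end Vale.Agent.P078.Sing
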