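import Mathlib
import Vale.Agent.P078.SingCentral

/-! Projections with small pinchings when no normal functional is centralised. -/

noncomputable section

open scoped InnerProductSpace ComplexOrder
open Filter Topology

namespace Vale.Agent.P078.Sing

universe u

open Semi Semi.Ctx

variable {H : Type u} [NormedAddCommGroup H] [InnerProductSpace ℂ H] [CompleteSpace H]
variable {M : VonNeumannAlgebra H} {A : StarSubalgebra ℂ (H →L[ℂ] H)}
variable (F : Finset H) (hAc : ∀ a ∈ A, ∀ b ∈ A, a * b = b * a)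

lemma norm_sum_sq_orth {ι : Type*} (T : Finset ι) (f : ι → H)
    (h : ∀ a ∈ T, ∀ b ∈ T, a ≠ b → ⟪f a, f b⟫_ℂ = 0) :
    ‖∑ t ∈ T, f t‖ ^ 2 = ∑ t ∈ T, ‖f t‖ ^ 2 := by
  classical
  induction T using Finset.induction_on with
  | empty => simp
  | @insert a T ha ih =>
    rw [Finset.sum_insert ha, Finset.sum_insert ha,
      ← ih fun x hx y hy => h x (Finset.mem_insert_of_mem hx) y (Finset.mem_insert_of_mem hy)]
    have h0 : ⟪f a, ∑ t ∈ T, f t⟫_ℂ = 0 := by
      rw [inner_sum]
      exact Finset.sum_eq_zero fun b hb => h a (Finset.mem_insert_self _ _) b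
        (Finset.mem_insert_of_mem hb) fun hab => ha (hab ▸ hb)
    rw [pow_two, pow_two, pow_two, norm_add_sq_eq_norm_sq_add_norm_sq_of_inner_eq_zero _ _ h0]

lemma cfc_mem {k : H →L[ℂ] H} (hkM : k ∈ M) (φ : ℝ → ℝ) : cfc φ k ∈ M :=
  Semi.mem_of_commute fun _ hy =>
    ((Commute.cfc_real (show Commute k _ from (Semi.commute_of_mem hkM hy).symm) φ).eq).symm

lemma nn_proj {s : H →L[ℂ] H} (hs : IsStarProjection s) :
    (om F hAc s).re = nn F hAc s := by
  rw [nn, hs.isSelfAdjoint.star_eq, hs.isIdempotentElem.eq]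

lemma nn_zero : nn F hAc 0 = 0 := by
  refine le_antisymm ?_ (nn_nonneg F hAc _)
  simpa using nn_le_of_norm_le F hAc (a := (0 : H →L[ℂ] H)) (b := 1) (c := 0) fun v => by simp

/-- domination on projections gives domination on the corner -/
lemma dominated_of_proj {r : H →L[ℂ] H} (hrp : IsStarProjection r) (η : H)
    (hproj : ∀ s ∈ M, IsStarProjection s → r * s = s → nn F hAc s ≤ ‖s η‖ ^ 2)
    {w : H →L[ℂ] H} (hwM : w ∈ M) (hwr : w * r = w) : nn F hAc w ≤ ‖w η‖ ^ 2 := by
  set y := star w * w with hy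
  have hyM : y ∈ M := mul_mem (star_mem hwM) hwM
  have hys : IsSelfAdjoint y := IsSelfAdjoint.star_mul_self w
  have hry : r * y = y := by
    rw [hy, ← mul_assoc, ← hrp.isSelfAdjoint.star_eq, ← star_mul, hwr]
  refine le_of_forall_pos_le_add fun θ hθ => ?_
  set c : ℝ := θ / (mass F + 1) with hc
  have hm0 := mass_nonneg F
  have hc0 : 0 < c := by positivity
  obtain ⟨N, hN⟩ := exists_nat_gt (‖y‖ / c)
  set h : ℕ → ℝ → ℝ := fun k t => Real.sqrt (min (max (t - k * c) 0) c) with hh
  have hhc : ∀ k, Continuous (h k) := fun k => by fun_prop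
  have hhle : ∀ k t, |h k t| ≤ Real.sqrt c := fun k t => by
    rw [abs_of_nonneg (Real.sqrt_nonneg _)]
    exact Real.sqrt_le_sqrt (min_le_right _ _)
  set a : ℕ → H →L[ℂ] H := fun k => cfc (h k) y with ha
  have has : ∀ k, star (a k) = a k := fun k => (IsSelfAdjoint.cfc (f := h k) (a := y)).star_eq
  have hsum : y = ∑ k ∈ Finset.range N, star (a k) * a k := by
    conv_lhs => rw [← cfc_id' ℝ y hys]
    simp only [has]
    rw [Finset.sum_congr rfl fun k _ =>
      (cfc_mul (h k) (h k) y (hhc k).continuousOn (hhc k).continuousOn).symm,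
      ← cfc_sum (fun k x => h k x * h k x) y _ fun k _ => ((hhc k).mul (hhc k)).continuousOn]
    refine cfc_congr fun t ht => ?_
    have ht0 : 0 ≤ t := spectrum_nonneg_of_nonneg (star_mul_self_nonneg w) ht
    have htN : t ≤ N * c := by
      rcases subsingleton_or_nontrivial (H →L[ℂ] H) with h' | h'
      · simp at ht
      · have := spectrum.norm_le_norm_of_mem ht
        rw [Real.norm_eq_abs, abs_of_nonneg ht0] at this
        rw [div_lt_iff₀ hc0] at hN
        linarith
    have key : ∀ m : ℕ, ∑ k ∈ Finset.range m, h k t * h k t = min t (m * c) := by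
      intro m
      induction m with
      | zero => simp [ht0]
      | succ m ih =>
        rw [Finset.sum_range_succ, ih, hh]
        simp only
        rw [Real.mul_self_sqrt (le_min (le_max_right _ _) hc0.le)]
        push_cast
        rcases le_total t (m * c) with h1 | h1
        · rw [min_eq_left h1, max_eq_right (by linarith), min_eq_left hc0.le,
            min_eq_left (by linarith)]
          ring
        · rw [min_eq_right h1, max_eq_left (by linarith)]
          rcases le_total t ((m + 1) * c) with h2 | h2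
          · rw [min_eq_left (by linarith), min_eq_left h2]
            ring
          · rw [min_eq_right (by linarith), min_eq_right h2]
            ring
    rw [Finset.sum_apply, key N, min_eq_left htN]
  have hnn : nn F hAc w = ∑ k ∈ Finset.range N, nn F hAc (a k) := by
    rw [nn, ← hy, hsum, ← omL_apply, map_sum, Complex.re_sum]
    rfl
  have hη : ∑ k ∈ Finset.range N, ‖a k η‖ ^ 2 = ‖w η‖ ^ 2 := by
    have e : ∀ T : H →L[ℂ] H, ‖T η‖ ^ 2 = (⟪η, (star T * T) η⟫_ℂ).re := fun T => by
      rw [mul_apply_eq_comp, ContinuousLinearMap.star_eq_adjoint,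
        ContinuousLinearMap.adjoint_inner_right, inner_self_eq_norm_sq_to_K]
      norm_cast
    rw [e w, ← hy, hsum, sum_apply, inner_sum, Complex.re_sum]
    exact Finset.sum_congr rfl fun k _ => e (a k)
  have hnorm : ∀ k, ‖a k‖ ≤ Real.sqrt c := fun k =>
    norm_cfc_le (Real.sqrt_nonneg _) fun t _ => by rw [Real.norm_eq_abs]; exact hhle k t
  have h0 : nn F hAc (a 0) ≤ c * mass F := by
    have := nn_le_of_norm_le F hAc (a := a 0) (b := 1) (c := Real.sqrt c) fun v => by
      simpa using ((a 0).le_opNorm v).trans (mul_le_mul_of_nonneg_right (hnorm 0) (norm_nonneg _))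
    rwa [Real.sq_sqrt hc0.le, nn_one] at this
  have hstep : ∀ k, nn F hAc (a (k + 1)) ≤ ‖a k η‖ ^ 2 := by
    intro k
    set s := supp (h (k + 1)) y with hs
    have hsp : IsStarProjection s := supp_proj _ _
    have hsM : s ∈ M := supp_mem _ hys hyM
    have hrs : r * s = s := by
      have e : h (k + 1) = fun t => t * (h (k + 1) t / max t c) := by
        funext t
        by_cases hz : h (k + 1) t = 0
        · simp [hz]
        · have ht : c ≤ t := by
            by_contra hlt
            refine hz ?_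
            have hk : c ≤ ((k + 1 : ℕ) : ℝ) * c := by
              push_cast
              nlinarith [Nat.cast_nonneg (α := ℝ) k]
            show Real.sqrt (min (max (t - ((k + 1 : ℕ) : ℝ) * c) 0) c) = 0
            rw [max_eq_right (show t - ((k + 1 : ℕ) : ℝ) * c ≤ 0 by linarith [not_le.1 hlt]),
              min_eq_left hc0.le, Real.sqrt_zero]
          have htne : t ≠ 0 := by linarith
          rw [max_eq_left ht]
          field_simp
      have hνc : Continuous fun t => h (k + 1) t / max t c :=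
        (hhc _).div (by fun_prop) fun t => (lt_of_lt_of_le hc0 (le_max_right _ _)).ne'
      have e2 : r * cfc (h (k + 1)) y = 1 * cfc (h (k + 1)) y := by
        rw [one_mul, e, cfc_mul (fun t => t) _ y continuousOn_id hνc.continuousOn, cfc_id' ℝ y hys,
          ← mul_assoc, hry]
      simpa using mul_supp_eq e2
    have h1 : nn F hAc (a (k + 1)) ≤ Real.sqrt c ^ 2 * nn F hAc s := by
      refine nn_le_of_norm_le F hAc fun v => ?_
      have : a (k + 1) v = a (k + 1) (s v) := by
        rw [← mul_apply_eq_comp, ha, hs, cfc_mul_supp_self]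
      rw [this]
      exact ((a (k + 1)).le_opNorm _).trans
        (mul_le_mul_of_nonneg_right (hnorm _) (norm_nonneg _))
    refine h1.trans ?_
    have h2 : a k * s = ((Real.sqrt c : ℝ) : ℂ) • s := by
      have e3 : a k * cfc (h (k + 1)) y = ((Real.sqrt c : ℝ) : ℂ) • 1 * cfc (h (k + 1)) y := by
        rw [ha, smul_mul_assoc, one_mul, Complex.coe_smul, ← cfc_smul _ _ _ (hhc _).continuousOn,
          ← cfc_mul _ _ _ (hhc k).continuousOn (hhc _).continuousOn]
        refine cfc_congr fun t _ => ?_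
        by_cases hz : h (k + 1) t = 0
        · simp [hz]
        · have ht : c ≤ t - k * c := by
            by_contra hlt
            refine hz ?_
            show Real.sqrt (min (max (t - ((k + 1 : ℕ) : ℝ) * c) 0) c) = 0
            rw [max_eq_right (show t - ((k + 1 : ℕ) : ℝ) * c ≤ 0 by
              push_cast; linarith [not_le.1 hlt]), min_eq_left hc0.le, Real.sqrt_zero]
          have : h k t = Real.sqrt c := by
            rw [hh]
            simp only [max_eq_left (show 0 ≤ t - k * c by linarith), min_eq_right ht]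
          rw [this, smul_eq_mul]
      have e4 := mul_supp_eq e3
      rwa [smul_mul_assoc, one_mul] at e4
    have h3 : Real.sqrt c * ‖s η‖ ≤ ‖a k η‖ := by
      have e5 : ((Real.sqrt c : ℝ) : ℂ) • s η = s (a k η) := by
        have hc' : a k * s = s * a k :=
          commute_supp _ hys ((Commute.refl y).cfc_real (h k)).symm
        rw [← mul_apply_eq_comp, ← hc', h2, smul_apply]
      have := (s.le_opNorm (a k η)).trans (mul_le_of_le_one_left (norm_nonneg _) hsp.norm_le)
      rwa [← e5, norm_smul, Complex.norm_real, Real.norm_eq_abs,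
        abs_of_nonneg (Real.sqrt_nonneg _)] at this
    calc Real.sqrt c ^ 2 * nn F hAc s ≤ Real.sqrt c ^ 2 * ‖s η‖ ^ 2 :=
          mul_le_mul_of_nonneg_left (hproj s hsM hsp hrs) (sq_nonneg _)
      _ = (Real.sqrt c * ‖s η‖) ^ 2 := by ring
      _ ≤ _ := pow_le_pow_left₀ (by positivity) h3 2
  rw [hnn, ← hη]
  cases N with
  | zero => simp; positivity
  | succ N =>
    rw [Finset.sum_range_succ', Finset.sum_range_succ]
    have hcm : c * mass F ≤ θ := by
      rw [hc, div_mul_eq_mul_div, div_le_iff₀ (by positivity)]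
      nlinarith
    have := Finset.sum_le_sum (s := Finset.range N) fun k _ => hstep k
    nlinarith [sq_nonneg ‖a N η‖]

/-- the closed span of the ranges of a set of projections of `M` -/
def sup' (S : Set (H →L[ℂ] H)) : Submodule ℂ H :=
  (Submodule.span ℂ {v | ∃ s ∈ S, s v = v}).topologicalClosure

instance (S : Set (H →L[ℂ] H)) : CompleteSpace (sup' S) :=
  (Submodule.isClosed_topologicalClosure _).completeSpace_coe

lemma sup'_mem {S : Set (H →L[ℂ] H)} (hS : ∀ s ∈ S, s ∈ M) :
    (sup' S).starProjection ∈ M := by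
  refine Semi.mem_of_commute fun y hy => ?_
  have inv : ∀ z ∈ M.commutant, ∀ v ∈ sup' S, z v ∈ sup' S := by
    intro z hz v hv
    refine map_mem_closure z.continuous hv fun u hu => ?_
    have : Submodule.span ℂ {v | ∃ s ∈ S, s v = v} ≤
        (Submodule.span ℂ {v | ∃ s ∈ S, s v = v}).comap z.toLinearMap := by
      refine Submodule.span_le.2 ?_
      rintro u ⟨s, hs, hsu⟩
      refine Submodule.subset_span ⟨s, hs, ?_⟩
      have := congrArg (fun T : H →L[ℂ] H => T u) (Semi.commute_of_mem (hS s hs) hz)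
      simp only [mul_apply_eq_comp] at this
      exact this.symm.trans (congrArg z hsu)
    exact this hu
  exact commute_starProjection _ (inv y hy) (inv _ (star_mem hy))

lemma sup'_mul {S : Set (H →L[ℂ] H)} {s : H →L[ℂ] H} (hs : s ∈ S) (hsp : IsStarProjection s) :
    (sup' S).starProjection * s = s := by
  ext v
  refine Submodule.starProjection_eq_self_iff.2 (Submodule.le_topologicalClosure _
    (Submodule.subset_span ⟨s, hs, ?_⟩))
  exact congrArg (fun T : H →L[ℂ] H => T v) hsp.isIdempotentElem.eq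

/-- exhaustion: a subprojection on which the pinched functional is dominated -/
lemma exists_dominated {p : H →L[ℂ] H} (hpM : p ∈ M) (hpp : IsStarProjection p) (η : H)
    (hlt : nn F hAc p < ‖p η‖ ^ 2) :
    ∃ r ∈ M, IsStarProjection r ∧ r ≠ 0 ∧ p * r = r ∧
      ∀ s ∈ M, IsStarProjection s → r * s = s → nn F hAc s ≤ ‖s η‖ ^ 2 := by
  classical
  set Bad : Set (Set (H →L[ℂ] H)) := {S | (∀ s ∈ S, s ∈ M ∧ IsStarProjection s ∧ p * s = s ∧
    ‖s η‖ ^ 2 < nn F hAc s) ∧ ∀ s ∈ S, ∀ t ∈ S, s ≠ t → s * t = 0} with hBad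
  obtain ⟨S, hS⟩ := zorn_subset Bad fun c hc hchain =>
    ⟨⋃₀ c, ⟨fun s ⟨T, hT, hs⟩ => (hc hT).1 s hs, fun s ⟨T, hT, hs⟩ t ⟨T', hT', ht⟩ hst => by
      rcases hchain.total hT hT' with h | h
      · exact (hc hT').2 s (h hs) t ht hst
      · exact (hc hT).2 s hs t (h ht) hst⟩, fun T hT => Set.subset_sUnion_of_mem hT⟩
  obtain ⟨⟨hS1, hS2⟩, hmax⟩ := hS
  set P := (sup' S).starProjection with hP
  have hPp : IsStarProjection P := isStarProjection_starProjection
  have hPM : P ∈ M := sup'_mem fun s hs => (hS1 s hs).1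
  have hpP : p * P = P := by
    ext v
    have hle : sup' S ≤ LinearMap.ker (p - 1).toLinearMap := by
      refine Submodule.topologicalClosure_minimal _ (Submodule.span_le.2 ?_)
        (ContinuousLinearMap.isClosed_ker _)
      rintro u ⟨s, hs, hsu⟩
      have := congrArg (fun T : H →L[ℂ] H => T u) (hS1 s hs).2.2.1
      simp only [mul_apply_eq_comp, hsu] at this
      exact LinearMap.mem_ker.2 (sub_eq_zero.2 this)
    exact sub_eq_zero.1 (hle ((sup' S).starProjection_apply_mem v))
  have hPp' : P * p = P := by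
    have := congrArg star hpP
    rwa [star_mul, hpp.isSelfAdjoint.star_eq, hPp.isSelfAdjoint.star_eq] at this
  set r := p - P with hr
  have hrp : IsStarProjection r := by
    refine ⟨?_, hpp.isSelfAdjoint.sub hPp.isSelfAdjoint⟩
    show (p - P) * (p - P) = p - P
    simp [mul_sub, sub_mul, hpP, hPp', hpp.isIdempotentElem.eq, hPp.isIdempotentElem.eq]
  refine ⟨r, sub_mem hpM hPM, hrp, fun hr0 => ?_, ?_, fun s hsM hsp hrs => ?_⟩
  · have hPp0 : P = p := (sub_eq_zero.1 hr0).symm
    have key : ∀ u ∈ Submodule.span ℂ {v | ∃ s ∈ S, s v = v},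
        ∃ T : Finset (H →L[ℂ] H), (∀ t ∈ T, t ∈ S) ∧ (∑ t ∈ T, t) u = u := by
      intro u hu
      obtain ⟨T₀, hT₀, hu'⟩ : ∃ T₀ : Finset (H →L[ℂ] H), (∀ t ∈ T₀, t ∈ S) ∧
          u ∈ Submodule.span ℂ {v | ∃ s ∈ T₀, s v = v} := by
        induction hu using Submodule.span_induction with
        | mem u hu =>
          obtain ⟨s, hs, hsu⟩ := hu
          exact ⟨{s}, by simpa using hs, Submodule.subset_span ⟨s, by simp, hsu⟩⟩
        | zero => exact ⟨∅, by simp, zero_mem _⟩
        | add a b _ _ ha hb =>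
          obtain ⟨T, hT, h1⟩ := ha
          obtain ⟨T', hT', h2⟩ := hb
          refine ⟨T ∪ T', fun t ht => ?_, add_mem
            (Submodule.span_mono (fun v hv => by
              obtain ⟨s, hs, e⟩ := hv; exact ⟨s, Finset.mem_union_left _ hs, e⟩) h1)
            (Submodule.span_mono (fun v hv => by
              obtain ⟨s, hs, e⟩ := hv; exact ⟨s, Finset.mem_union_right _ hs, e⟩) h2)⟩
          rcases Finset.mem_union.1 ht with h | h
          exacts [hT t h, hT' t h]
        | smul a b _ hb =>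
          obtain ⟨T, hT, h1⟩ := hb
          exact ⟨T, hT, Submodule.smul_mem _ a h1⟩
      refine ⟨T₀, hT₀, ?_⟩
      clear hu
      induction hu' using Submodule.span_induction with
      | mem v hv =>
        obtain ⟨s, hs, hsv⟩ := hv
        rw [sum_apply, Finset.sum_eq_single s (fun t ht hts => by
          rw [← hsv, ← mul_apply_eq_comp, hS2 t (hT₀ t ht) s (hT₀ s hs) hts, zero_apply])
          (fun h => absurd hs h), hsv]
      | zero => exact map_zero _
      | add a b _ _ ha hb => rw [map_add, ha, hb]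
      | smul a b _ hb => rw [map_smul, hb]
    have hsumproj : ∀ T : Finset (H →L[ℂ] H), (∀ t ∈ T, t ∈ S) →
        IsStarProjection (∑ t ∈ T, t) ∧ p * (∑ t ∈ T, t) = ∑ t ∈ T, t := by
      intro T hT
      refine ⟨⟨?_, isSelfAdjoint_sum T fun t ht => (hS1 t (hT t ht)).2.1.isSelfAdjoint⟩, ?_⟩
      · show _ * _ = _
        rw [Finset.mul_sum]
        refine Finset.sum_congr rfl fun t ht => ?_
        rw [Finset.sum_mul, Finset.sum_eq_single t
          (fun t' ht' hne => hS2 t' (hT t' ht') t (hT t ht) hne) (fun h => absurd ht h),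
          (hS1 t (hT t ht)).2.1.isIdempotentElem.eq]
      · rw [Finset.mul_sum]
        exact Finset.sum_congr rfl fun t ht => (hS1 t (hT t ht)).2.2.1
    have hbound : ∀ T : Finset (H →L[ℂ] H), (∀ t ∈ T, t ∈ S) →
        ‖(∑ t ∈ T, t) η‖ ^ 2 ≤ nn F hAc p := by
      intro T hT
      obtain ⟨hTp, hpT⟩ := hsumproj T hT
      have e1 : ‖(∑ t ∈ T, t) η‖ ^ 2 = ∑ t ∈ T, ‖t η‖ ^ 2 := by
        rw [sum_apply]
        refine norm_sum_sq_orth T _ fun a ha b hb hab => ?_
        have h := hS2 a (hT a ha) b (hT b hb) hab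
        rw [← (hS1 a (hT a ha)).2.1.isSelfAdjoint.star_eq, ContinuousLinearMap.star_eq_adjoint,
          ContinuousLinearMap.adjoint_inner_left, ← mul_apply_eq_comp, h, zero_apply,
          inner_zero_right]
      rw [e1]
      have e2 : ∑ t ∈ T, nn F hAc t = nn F hAc (∑ t ∈ T, t) := by
        rw [← nn_proj F hAc hTp, ← omL_apply, map_sum, Complex.re_sum]
        exact Finset.sum_congr rfl fun t ht => (nn_proj F hAc (hS1 t (hT t ht)).2.1).symm
      refine (Finset.sum_le_sum fun t ht => (hS1 t (hT t ht)).2.2.2.le).trans (e2.trans_le ?_)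
      have := nn_le_of_norm_le F hAc (a := ∑ t ∈ T, t) (b := p) (c := 1) fun v => by
        rw [one_mul]
        have e3 : (∑ t ∈ T, t) * p = ∑ t ∈ T, t := by
          have := congrArg star hpT
          rwa [star_mul, hpp.isSelfAdjoint.star_eq, hTp.isSelfAdjoint.star_eq] at this
        conv_lhs => rw [← e3, mul_apply_eq_comp]
        exact ((∑ t ∈ T, t).le_opNorm _).trans
          (mul_le_of_le_one_left (norm_nonneg _) hTp.norm_le)
      simpa using this
    have hη : p η ∈ sup' S := hPp0 ▸ (sup' S).starProjection_apply_mem η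
    have hgap : 0 < ‖p η‖ - Real.sqrt (nn F hAc p) := by
      have := Real.sqrt_lt_sqrt (nn_nonneg F hAc p) hlt
      rw [Real.sqrt_sq (norm_nonneg _)] at this
      linarith
    obtain ⟨u, hu, hud⟩ := Metric.mem_closure_iff.1 hη _ (half_pos hgap)
    obtain ⟨T, hT, hTu⟩ := key u hu
    obtain ⟨hTp, hpT⟩ := hsumproj T hT
    have e3 : (∑ t ∈ T, t) (p η) = (∑ t ∈ T, t) η := by
      have := congrArg star hpT
      rw [star_mul, hpp.isSelfAdjoint.star_eq, hTp.isSelfAdjoint.star_eq] at this
      rw [← mul_apply_eq_comp, this]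
    have h4 : ‖(∑ t ∈ T, t) η - u‖ ≤ dist (p η) u := by
      rw [← e3, ← hTu, ← map_sub, hTu, dist_eq_norm]
      exact ((∑ t ∈ T, t).le_opNorm _).trans (mul_le_of_le_one_left (norm_nonneg _) hTp.norm_le)
    have h5 : ‖(∑ t ∈ T, t) η‖ ≤ Real.sqrt (nn F hAc p) := Real.le_sqrt_of_sq_le (hbound T hT)
    have h6 := norm_sub_norm_le u ((∑ t ∈ T, t) η)
    rw [norm_sub_rev] at h6
    rw [dist_eq_norm] at hud h4
    have h7 := norm_sub_norm_le (p η) u
    linarith
  · show p * (p - P) = p - P
    rw [mul_sub, hpp.isIdempotentElem.eq, hpP]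
  · by_contra hbad
    have hnot : s ∉ S := fun hsS => by
      have h := sup'_mul hsS hsp
      have h0 : s = 0 := by
        rw [← hrs, ← h, ← mul_assoc, hr, sub_mul, hpP, hPp.isIdempotentElem.eq, sub_self, zero_mul]
      exact hbad (by simp [h0, nn_zero])
    have hps : p * s = s := by
      conv_lhs => rw [← hrs]
      rw [← mul_assoc, show p * r = r by rw [hr, mul_sub, hpp.isIdempotentElem.eq, hpP], hrs]
    have horth : ∀ t ∈ S, s * t = 0 ∧ t * s = 0 := by
      intro t ht
      have h1 : t * r = 0 := by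
        have h := congrArg star (sup'_mul ht (hS1 t ht).2.1)
        rw [star_mul, (hS1 t ht).2.1.isSelfAdjoint.star_eq, hPp.isSelfAdjoint.star_eq] at h
        have h' := congrArg star (hS1 t ht).2.2.1
        rw [star_mul, (hS1 t ht).2.1.isSelfAdjoint.star_eq, hpp.isSelfAdjoint.star_eq] at h'
        rw [hr, mul_sub, h, h', sub_self]
      have h2 : t * s = 0 := by rw [← hrs, ← mul_assoc, h1, zero_mul]
      refine ⟨?_, h2⟩
      have := congrArg star h2
      rwa [star_mul, star_zero, hsp.isSelfAdjoint.star_eq,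
        (hS1 t ht).2.1.isSelfAdjoint.star_eq] at this
    refine hnot (hmax (y := insert s S) ⟨?_, ?_⟩ (Set.subset_insert _ _) (Set.mem_insert _ _))
    · rintro t (rfl | ht)
      · exact ⟨hsM, hsp, hps, not_le.1 hbad⟩
      · exact hS1 t ht
    · rintro a (rfl | ha) b (rfl | hb) hab
      · exact absurd rfl hab
      · exact (horth b hb).1
      · exact (horth a ha).2
      · exact hS2 a ha b hb hab

/-- no corner on which the limit functional is nonzero and dominated by a vector -/
def NoDominatedCorner (hA : IsMASA M A) : Prop :=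
  ∀ r ∈ M, IsStarProjection r → ∀ η : H,
    (∀ w ∈ M, w * r = w → nn F hA.2.1 w ≤ ‖w η‖ ^ 2) → nn F hA.2.1 r ≤ 0

/-- every projection dominates a nonzero null projection -/
lemma exists_null_sub (hA : IsMASA M A) (hno : NoDominatedCorner F hA)
    {p : H →L[ℂ] H} (hpM : p ∈ M) (hpp : IsStarProjection p) (hp0 : p ≠ 0) :
    ∃ s ∈ M, IsStarProjection s ∧ s ≠ 0 ∧ p * s = s ∧ nn F hA.2.1 s = 0 := by
  by_contra hcon
  push Not at hcon
  obtain ⟨v, hv⟩ : ∃ v, p v ≠ 0 := by
    by_contra h
    push Not at h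
    exact hp0 (ContinuousLinearMap.ext fun v => by simpa using h v)
  set t : ℝ := (Real.sqrt (nn F hA.2.1 p) + 1) / ‖p v‖ with ht
  have hlt : nn F hA.2.1 p < ‖p ((t : ℂ) • v)‖ ^ 2 := by
    have hpos := norm_pos_iff.2 hv
    have ht0 : 0 ≤ t := by positivity
    rw [map_smul, norm_smul, Complex.norm_real, Real.norm_eq_abs, abs_of_nonneg ht0, ht,
      div_mul_cancel₀ _ hpos.ne']
    nlinarith [Real.sq_sqrt (nn_nonneg F hA.2.1 p), Real.sqrt_nonneg (nn F hA.2.1 p)]
  obtain ⟨r, hrM, hrp, hr0, hpr, hdom⟩ := exists_dominated F hA.2.1 hpM hpp _ hlt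
  exact hcon r hrM hrp hr0 hpr (le_antisymm (hno r hrM hrp ((t : ℂ) • v)
    fun w hw hwr => dominated_of_proj F hA.2.1 hrp _ hdom hw hwr) (nn_nonneg F hA.2.1 r))

/-- null projections exhaust the identity -/
lemma exists_null_approx (hA : IsMASA M A) (hno : NoDominatedCorner F hA)
    {δ : ℝ} (hδ : 0 < δ) :
    ∃ R ∈ M, IsStarProjection R ∧ nn F hA.2.1 R = 0 ∧ ∀ ξ ∈ F, ‖(1 - R) ξ‖ < δ := by
  classical
  set S : Set (H →L[ℂ] H) := {s | s ∈ M ∧ IsStarProjection s ∧ nn F hA.2.1 s = 0} with hS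
  set P := (sup' S).starProjection with hP
  have hPM : P ∈ M := sup'_mem fun s hs => hs.1
  have hPp : IsStarProjection P := isStarProjection_starProjection
  have hP1 : P = 1 := by
    by_contra hne
    obtain ⟨s, hsM, hsp, hs0, hps, hnull⟩ := exists_null_sub F hA hno
      (sub_mem (one_mem M) hPM) hPp.one_sub (sub_ne_zero.2 (Ne.symm hne))
    refine hs0 ?_
    rw [sub_mul, one_mul, sup'_mul (show s ∈ S from ⟨hsM, hsp, hnull⟩) hsp, sub_self] at hps
    exact hps.symm
  have gen : ∀ u ∈ Submodule.span ℂ {v | ∃ s ∈ S, s v = v},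
      ∃ T : Finset (H →L[ℂ] H), (∀ t ∈ T, t ∈ S) ∧ ∃ C : ℝ, 0 ≤ C ∧
        ∀ v, ‖⟪v, u⟫_ℂ‖ ≤ C * ∑ t ∈ T, ‖t v‖ := by
    intro u hu
    induction hu using Submodule.span_induction with
    | mem u hu =>
      obtain ⟨s, hs, hsu⟩ := hu
      refine ⟨{s}, by simpa using hs, ‖u‖, norm_nonneg _, fun v => ?_⟩
      rw [Finset.sum_singleton]
      conv_lhs => rw [← hsu, ← ContinuousLinearMap.adjoint_inner_left,
        ← ContinuousLinearMap.star_eq_adjoint, hs.2.1.isSelfAdjoint.star_eq]
      exact (norm_inner_le_norm _ _).trans_eq (mul_comm _ _)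
    | zero => exact ⟨∅, by simp, 0, le_rfl, fun v => by simp⟩
    | add a b _ _ ha hb =>
      obtain ⟨T, hT, C, hC, h1⟩ := ha
      obtain ⟨T', hT', C', hC', h2⟩ := hb
      refine ⟨T ∪ T', fun t ht => ?_, C + C', add_nonneg hC hC', fun v => ?_⟩
      · rcases Finset.mem_union.1 ht with h | h
        exacts [hT t h, hT' t h]
      · rw [inner_add_right, add_mul]
        refine (norm_add_le _ _).trans (add_le_add ((h1 v).trans ?_) ((h2 v).trans ?_))
        · exact mul_le_mul_of_nonneg_left (Finset.sum_le_sum_of_subset_of_nonneg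
            Finset.subset_union_left fun _ _ _ => norm_nonneg _) hC
        · exact mul_le_mul_of_nonneg_left (Finset.sum_le_sum_of_subset_of_nonneg
            Finset.subset_union_right fun _ _ _ => norm_nonneg _) hC'
    | smul a b _ hb =>
      obtain ⟨T, hT, C, hC, h1⟩ := hb
      refine ⟨T, hT, ‖a‖ * C, by positivity, fun v => ?_⟩
      rw [inner_smul_right, norm_mul, mul_assoc]
      exact mul_le_mul_of_nonneg_left (h1 v) (norm_nonneg _)
  have hden : ∀ ξ : H, ∃ u ∈ Submodule.span ℂ {v | ∃ s ∈ S, s v = v}, ‖ξ - u‖ < δ / 2 := by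
    intro ξ
    have hξ : ξ ∈ sup' S := by
      have h := (sup' S).starProjection_apply_mem ξ
      rwa [← hP, hP1] at h
    obtain ⟨u, hu, hud⟩ := Metric.mem_closure_iff.1 hξ (δ / 2) (half_pos hδ)
    exact ⟨u, hu, by rwa [← dist_eq_norm]⟩
  choose u hu hud using hden
  choose T hT C hC hTb using fun ξ => gen (u ξ) (hu ξ)
  set U' := F.biUnion T with hU
  have hUS : ∀ t ∈ U', t ∈ S := fun t ht => by
    obtain ⟨ξ, -, h⟩ := Finset.mem_biUnion.1 ht
    exact hT ξ t h
  set g : H →L[ℂ] H := ∑ t ∈ U', t with hg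
  have hgM : g ∈ M := sum_mem fun t ht => (hUS t ht).1
  have hgs : IsSelfAdjoint g := isSelfAdjoint_sum _ fun t ht => (hUS t ht).2.1.isSelfAdjoint
  have hg0 : nn F hA.2.1 g = 0 := by
    refine le_antisymm ((nn_sum_le F hA.2.1 _ _).trans_eq ?_) (nn_nonneg F hA.2.1 _)
    rw [Finset.sum_eq_zero fun t ht => (hUS t ht).2.2, mul_zero]
  set B := 1 + ∑ ξ ∈ F, C ξ with hB
  have hB0 : 0 < B := by
    have := Finset.sum_nonneg (s := F) fun ξ _ => hC ξ
    linarith
  set c := (δ / (2 * B * ((U'.card : ℝ) + 1))) ^ 2 with hc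
  have hc0 : 0 < c := by positivity
  obtain ⟨R, hRM, hRp, hgR, hRv, -, -⟩ := cut_comm M hgs hgM hc0
  refine ⟨R, hRM, hRp, ?_, fun ξ hξ => ?_⟩
  · refine le_antisymm ?_ (nn_nonneg F hA.2.1 _)
    have := nn_le_of_norm_le F hA.2.1 hRv
    rwa [hg0, mul_zero] at this
  · set v := (1 - R) (u ξ) with hv
    have hfix : (1 - R) v = v :=
      congrArg (fun X : H →L[ℂ] H => X (u ξ)) hRp.one_sub.isIdempotentElem.eq
    have hq : ∀ t ∈ U', ‖t v‖ ≤ Real.sqrt c * ‖v‖ := by
      intro t ht
      refine (pow_le_pow_iff_left₀ (norm_nonneg _) (by positivity) two_ne_zero).1 ?_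
      have e : ∀ X : H →L[ℂ] H, IsStarProjection X → ‖X v‖ ^ 2 = (⟪v, X v⟫_ℂ).re := fun X hX => by
        conv_rhs => rw [← hX.isIdempotentElem.eq, mul_apply_eq_comp,
          ← ContinuousLinearMap.adjoint_inner_left, ← ContinuousLinearMap.star_eq_adjoint,
          hX.isSelfAdjoint.star_eq, inner_self_eq_norm_sq_to_K]
        norm_cast
      have h1 : ‖t v‖ ^ 2 ≤ (⟪v, g v⟫_ℂ).re := by
        rw [hg, sum_apply, inner_sum, Complex.re_sum,
          ← Finset.sum_congr rfl fun s hs => e s (hUS s hs).2.1]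
        exact Finset.single_le_sum (f := fun s : H →L[ℂ] H => ‖s v‖ ^ 2)
          (fun s _ => sq_nonneg _) ht
      refine h1.trans ((Complex.re_le_norm _).trans ((norm_inner_le_norm _ _).trans ?_))
      rw [mul_pow, Real.sq_sqrt hc0.le, pow_two ‖v‖, ← mul_assoc, mul_comm c, mul_assoc]
      refine mul_le_mul_of_nonneg_left ?_ (norm_nonneg _)
      calc ‖g v‖ = ‖(g * (1 - R)) v‖ := by rw [mul_apply_eq_comp, hfix]
        _ ≤ c * ‖v‖ := ((g * (1 - R)).le_opNorm v).trans
          (mul_le_mul_of_nonneg_right hgR (norm_nonneg _))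
    have h2 : ‖v‖ ^ 2 ≤ C ξ * ((U'.card : ℝ) * (Real.sqrt c * ‖v‖)) := by
      have e1 : ⟪v, u ξ⟫_ℂ = ⟪v, v⟫_ℂ := by
        conv_lhs => rw [← hfix]
        rw [← ContinuousLinearMap.adjoint_inner_right, ← ContinuousLinearMap.star_eq_adjoint,
          hRp.one_sub.isSelfAdjoint.star_eq]
      have h3 := hTb ξ v
      rw [e1, inner_self_eq_norm_sq_to_K, norm_pow, RCLike.norm_ofReal, abs_norm] at h3
      refine h3.trans (mul_le_mul_of_nonneg_left ?_ (hC ξ))
      refine (Finset.sum_le_sum_of_subset_of_nonneg (Finset.subset_biUnion_of_mem T hξ)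
        fun _ _ _ => norm_nonneg _).trans ((Finset.sum_le_sum hq).trans_eq ?_)
      simp [hU]
    have h4 : ‖v‖ ≤ δ / 2 := by
      have hsc : Real.sqrt c = δ / (2 * B * ((U'.card : ℝ) + 1)) := Real.sqrt_sq (by positivity)
      have hCB : C ξ ≤ B := by
        have := Finset.single_le_sum (fun y _ => hC y) hξ
        linarith
      rcases (norm_nonneg v).eq_or_lt with h | h
      · rw [← h]; positivity
      · have h5 : ‖v‖ ≤ C ξ * ((U'.card : ℝ) * Real.sqrt c) := by
          rw [pow_two] at h2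
          refine le_of_mul_le_mul_right (h2.trans_eq ?_) h
          ring
        refine h5.trans ?_
        calc C ξ * ((U'.card : ℝ) * Real.sqrt c) ≤ B * (((U'.card : ℝ) + 1) * Real.sqrt c) := by
              refine mul_le_mul hCB ?_ (by positivity) hB0.le
              exact mul_le_mul_of_nonneg_right (by linarith) (Real.sqrt_nonneg _)
          _ = δ / 2 := by rw [hsc]; field_simp
    have e3 : (1 - R) ξ = (1 - R) (ξ - u ξ) + v := by rw [hv, ← map_add, sub_add_cancel]
    rw [e3]
    have h6 := ((1 - R).le_opNorm (ξ - u ξ)).trans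
      (mul_le_of_le_one_left (norm_nonneg _) hRp.one_sub.norm_le)
    have := norm_add_le ((1 - R) (ξ - u ξ)) v
    linarith [hud ξ]

/-- a projection close to one whose compressions to a partition are uniformly small -/
theorem exists_small_proj_gen (hA : IsMASA M A) (hno : NoDominatedCorner F hA)
    {δ : ℝ} (hδ : 0 < δ) {c : ℝ} (hc : 0 < c) :
    ∃ q ∈ M, IsStarProjection q ∧ (∀ ξ ∈ F, ‖(1 - q) ξ‖ < δ) ∧
      ∀ᶠ Q : WPart A (1 : H →L[ℂ] H) in U hA.2.1, ∀ k v, ‖q (Q.f k v)‖ ≤ c * ‖v‖ := by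
  obtain ⟨R, hRM, hRp, hR0, hRξ⟩ := exists_null_approx F hA hno (show 0 < δ / 8 by positivity)
  set c₁ := (c / 2) ^ 2 with hc₁
  have hc₁0 : 0 < c₁ := by positivity
  set θ := (c₁ * (δ / 16)) ^ 2 with hθ
  have hθ0 : 0 < θ := by positivity
  obtain ⟨Q0, hQ0⟩ : ∃ Q0 : WPart A (1 : H →L[ℂ] H), app F Q0 R < θ := by
    have h := tendsto_nn F hA.2.1 R
    rw [hR0] at h
    exact ((h.eventually (eventually_lt_nhds hθ0))).exists
  set T := Q0.pinch R with hT
  have hTM : T ∈ M := pinch_mem' hA Q0 hRM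
  have hTs : IsSelfAdjoint T := by
    show star T = T
    rw [hT, star_pinch, hRp.isSelfAdjoint.star_eq]
  obtain ⟨s, hsM, hsp, hTc, hsv, -, hscomm⟩ := cut_comm M hTs hTM hc₁0
  have hfs : ∀ k, Q0.f k * s = s * Q0.f k := fun k => hscomm _ (by
    show T * Q0.f k = Q0.f k * T
    rw [hT, pinch_mul_f, f_mul_pinch])
  set k' := (1 - s) * R * (1 - s) with hk'
  have h1s : IsStarProjection (1 - s) := hsp.one_sub
  have hk's : IsSelfAdjoint k' := by
    show star k' = k'
    rw [hk', star_mul, star_mul, h1s.isSelfAdjoint.star_eq, hRp.isSelfAdjoint.star_eq, mul_assoc]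
  have hk'M : k' ∈ M :=
    mul_mem (mul_mem (sub_mem (one_mem M) hsM) hRM) (sub_mem (one_mem M) hsM)
  obtain ⟨q, hqM, hqp, hkq, hqv, -, hqcomm⟩ := cut_comm M hk's hk'M (c := 1 / 2) (by norm_num)
  have hsmall : ∀ k v, ‖q (Q0.f k v)‖ ≤ c * ‖v‖ := by
    intro k v
    set w := Q0.f k ((1 - s) v) with hw
    have e1 : (1 - s) (Q0.f k v) = w := by
      rw [hw]; simp only [sub_apply, one_apply_eq_self, map_sub]
      congr 1
      simpa [mul_apply_eq_comp] using congrArg (fun X : H →L[ℂ] H => X v) (hfs k).symm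
    have e2 : (1 - s) w = w := by
      rw [← e1]
      exact congrArg (fun X : H →L[ℂ] H => X (Q0.f k v)) h1s.isIdempotentElem.eq
    have hfw : Q0.f k w = w := congrArg (fun X : H →L[ℂ] H => X ((1 - s) v)) (Q0.idem k)
    have e3 : ‖R w‖ ^ 2 = (⟪w, T w⟫_ℂ).re := by
      have a1 : ‖R w‖ ^ 2 = (⟪w, R w⟫_ℂ).re := by
        conv_rhs => rw [← hRp.isIdempotentElem.eq, mul_apply_eq_comp,
          ← ContinuousLinearMap.adjoint_inner_left, ← ContinuousLinearMap.star_eq_adjoint,
          hRp.isSelfAdjoint.star_eq, inner_self_eq_norm_sq_to_K]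
        norm_cast
      have a2 : T w = Q0.f k (R w) := by
        conv_lhs => rw [← hfw, ← mul_apply_eq_comp, hT, pinch_mul_f]
        rw [mul_apply_eq_comp, mul_apply_eq_comp, hfw]
      rw [a1, a2]
      congr 1
      rw [← Q0.inner_f, hfw]
    have e4 : ‖T w‖ ≤ c₁ * ‖w‖ := by
      calc ‖T w‖ = ‖(T * (1 - s)) w‖ := by rw [mul_apply_eq_comp, e2]
        _ ≤ _ := ((T * (1 - s)).le_opNorm w).trans (mul_le_mul_of_nonneg_right hTc (norm_nonneg _))
    have hwv : ‖w‖ ≤ ‖v‖ := by
      rw [hw]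
      exact ((Q0.f k).le_opNorm _).trans ((mul_le_of_le_one_left (norm_nonneg _)
        (Q0.proj k).norm_le).trans (((1 - s).le_opNorm v).trans
          (mul_le_of_le_one_left (norm_nonneg _) h1s.norm_le)))
    have e5 : ‖R w‖ ≤ c / 2 * ‖v‖ := by
      refine (pow_le_pow_iff_left₀ (norm_nonneg _) (by positivity) two_ne_zero).1 ?_
      rw [e3, mul_pow, ← hc₁]
      refine (Complex.re_le_norm _).trans ((norm_inner_le_norm _ _).trans ?_)
      calc ‖w‖ * ‖T w‖ ≤ ‖v‖ * (c₁ * ‖v‖) := mul_le_mul hwv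
            (e4.trans (mul_le_mul_of_nonneg_left hwv hc₁0.le)) (norm_nonneg _) (norm_nonneg _)
        _ = c₁ * ‖v‖ ^ 2 := by ring
    refine (hqv _).trans ?_
    have e6 : k' (Q0.f k v) = (1 - s) (R w) := by
      rw [hk', mul_apply_eq_comp, mul_apply_eq_comp, e1]
    rw [e6]
    have := ((1 - s).le_opNorm (R w)).trans (mul_le_of_le_one_left (norm_nonneg _) h1s.norm_le)
    rw [one_div, inv_inv]
    linarith
  refine ⟨q, hqM, hqp, fun ξ hξ => ?_, ?_⟩
  · have hTξ : ‖T ξ‖ ≤ c₁ * (δ / 16) := by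
      refine (pow_le_pow_iff_left₀ (norm_nonneg _) (by positivity) two_ne_zero).1 ?_
      rw [← hθ, hT, WPart.pinch, sum_apply]
      simp only [mul_apply_eq_comp]
      rw [Q0.norm_sum_sq]
      refine le_trans ?_ hQ0.le
      refine le_trans (Finset.sum_le_sum fun k _ => pow_le_pow_left₀ (norm_nonneg _)
        (((Q0.f k).le_opNorm _).trans (mul_le_of_le_one_left (norm_nonneg _) (Q0.proj k).norm_le))
        2) ?_
      exact Finset.single_le_sum (f := fun ξ => ∑ k, ‖R (Q0.f k ξ)‖ ^ 2)
        (fun ξ _ => Finset.sum_nonneg fun k _ => sq_nonneg _) hξ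
    have hsξ : ‖s ξ‖ ≤ δ / 16 := by
      refine (hsv ξ).trans ?_
      rw [inv_mul_le_iff₀ hc₁0]
      exact hTξ
    have h2 : ‖(1 - k') ξ‖ ≤ 2 * (δ / 16) + δ / 8 := by
      have e : (1 - k') ξ = s ξ + (1 - s) ((1 - R) ξ) + (1 - s) (R (s ξ)) := by
        simp only [hk', mul_apply_eq_comp, sub_apply, one_apply_eq_self, map_sub]
        abel
      rw [e]
      have a0 : ∀ X : H →L[ℂ] H, IsStarProjection X → ∀ z, ‖X z‖ ≤ ‖z‖ := fun X hX z =>
        (X.le_opNorm z).trans (mul_le_of_le_one_left (norm_nonneg _) hX.norm_le)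
      have a1 := norm_add₃_le (a := s ξ) (b := (1 - s) ((1 - R) ξ)) (c := (1 - s) (R (s ξ)))
      have a2 := (a0 _ h1s ((1 - R) ξ))
      have a3 := (a0 _ h1s (R (s ξ))).trans (a0 _ hRp (s ξ))
      linarith [hRξ ξ hξ]
    set v := (1 - q) ξ with hv
    have hfix : (1 - q) v = v :=
      congrArg (fun X : H →L[ℂ] H => X ξ) hqp.one_sub.isIdempotentElem.eq
    have h3 : ‖v‖ ≤ 2 * ‖(1 - k') ξ‖ := by
      have hcom : (1 - k') * (1 - q) = (1 - q) * (1 - k') := by
        have := hqcomm k' (Commute.refl k')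
        simp only [sub_mul, mul_sub, one_mul, mul_one, this]
        abel
      have e1 : (1 - k') v = (1 - q) ((1 - k') ξ) := congrArg (fun X : H →L[ℂ] H => X ξ) hcom
      have h4 : ‖k' v‖ ≤ 1 / 2 * ‖v‖ := by
        calc ‖k' v‖ = ‖(k' * (1 - q)) v‖ := by
              show ‖k' v‖ = ‖k' ((1 - q) v)‖
              rw [hfix]
          _ ≤ _ := ((k' * (1 - q)).le_opNorm v).trans
            (mul_le_mul_of_nonneg_right hkq (norm_nonneg _))
      have h5 : ‖v‖ - ‖k' v‖ ≤ ‖(1 - k') v‖ := by
        rw [sub_apply, one_apply_eq_self]; exact norm_sub_norm_le _ _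
      have h6 := ((1 - q).le_opNorm ((1 - k') ξ)).trans
        (mul_le_of_le_one_left (norm_nonneg _) hqp.one_sub.norm_le)
      rw [← e1] at h6
      linarith
    linarith
  · refine (eventually_ge_part hA.2.1 Q0).mono fun Q hQ k v => ?_
    have e : Q.f k v = Q0.f (WPart.parent hQ k) (Q.f k v) := by
      conv_lhs => rw [← WPart.parent_spec hQ k, mul_apply_eq_comp]
    rw [e]
    refine (hsmall _ _).trans (mul_le_mul_of_nonneg_left ?_ hc.le)
    exact ((Q.f k).le_opNorm v).trans (mul_le_of_le_one_left (norm_nonneg _) (Q.proj k).norm_le)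

/-- without centralised normal functionals there are no dominated corners -/
lemma noDominatedCorner (hA : IsMASA M A) (hno : ¬ HasCentralNormalFunctional M A) :
    NoDominatedCorner F hA := fun _ hrM hrp η hdom =>
  le_of_not_gt fun hpos => hno (central_of_dominated F hA hrp hrM η hdom hpos)

/-- a projection close to one whose compressions to a partition are uniformly small -/
theorem exists_small_proj (hA : IsMASA M A) (hno : ¬ HasCentralNormalFunctional M A)
    {δ : ℝ} (hδ : 0 < δ) {c : ℝ} (hc : 0 < c) :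
    ∃ q ∈ M, IsStarProjection q ∧ (∀ ξ ∈ F, ‖(1 - q) ξ‖ < δ) ∧
      ∀ᶠ Q : WPart A (1 : H →L[ℂ] H) in U hA.2.1, ∀ k v, ‖q (Q.f k v)‖ ≤ c * ‖v‖ :=
  exists_small_proj_gen F hA (noDominatedCorner F hA hno) hδ hc

end Vale.Agent.P078.Sing
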