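import Mathlib
import Vale.Agent.P078.SemiRandom
import Vale.Agent.P078.SingNull

/-! One relabelling step measured on finitely many vectors. -/

noncomputable section

open scoped InnerProductSpace ComplexOrder
open Filter Topology

namespace Vale.Agent.P078.Sing

universe u

open Semi Semi.Ctx

variable {H : Type u} [NormedAddCommGroup H] [InnerProductSpace ℂ H] [CompleteSpace H]
variable {M : VonNeumannAlgebra H} {A : StarSubalgebra ℂ (H →L[ℂ] H)}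
variable {w q x : H →L[ℂ] H}

lemma proj_apply_norm_le {p : H →L[ℂ] H} (hp : IsStarProjection p) (v : H) : ‖p v‖ ≤ ‖v‖ :=
  (p.le_opNorm v).trans (mul_le_of_le_one_left (norm_nonneg _) hp.norm_le)

lemma pinched_eq (Q : WPart A w) {r : ℕ} (L : Fin Q.n → Fin r) :
    q * (∑ i, Q.piece L i * x * Q.piece L i) * q =
      ∑ k, ∑ l, ((if L l = L k then (1 : ℝ) else 0 : ℝ) : ℂ) • (q * Q.f k * x * Q.f l * q) := by
  have e : ∀ i, q * (Q.piece L i * x * Q.piece L i) * q = ∑ k, ∑ l,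
      ((if L k = i then (1 : ℂ) else 0) * if L l = i then 1 else 0) •
        (q * Q.f k * x * Q.f l * q) := by
    intro i
    simp only [WPart.piece, Finset.mul_sum, Finset.sum_mul, smul_mul_assoc, mul_smul_comm,
      Finset.smul_sum, smul_smul, mul_assoc]
    rw [Finset.sum_comm]
    refine Finset.sum_congr rfl fun k _ => Finset.sum_congr rfl fun l _ => ?_
    congr 1
    ring
  rw [Finset.mul_sum, Finset.sum_mul, Finset.sum_congr rfl fun i _ => e i, Finset.sum_comm]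
  refine Finset.sum_congr rfl fun k _ => ?_
  rw [Finset.sum_comm]
  refine Finset.sum_congr rfl fun l _ => ?_
  rw [← Finset.sum_smul]
  congr 1
  rw [Finset.sum_eq_single (L k) (fun i _ hi => by rw [if_neg (Ne.symm hi), zero_mul]) (by simp),
    if_pos rfl, one_mul]
  split_ifs <;> simp

lemma full_eq (Q : WPart A (1 : H →L[ℂ] H)) :
    q * x * q = ∑ k, ∑ l, q * Q.f k * x * Q.f l * q := by
  calc q * x * q = q * (∑ k, Q.f k) * x * (∑ l, Q.f l) * q := by rw [Q.sum, mul_one, mul_one]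
    _ = _ := by simp only [Finset.mul_sum, Finset.sum_mul]; rw [Finset.sum_comm]

lemma diag_eq (Q : WPart A w) : q * Q.pinch x * q = ∑ k, q * Q.f k * x * Q.f k * q := by
  rw [WPart.pinch, Finset.mul_sum, Finset.sum_mul]
  exact Finset.sum_congr rfl fun k _ => by simp only [mul_assoc]

/-- the vector blocks -/
def vblk (Q : WPart A w) (q x : H →L[ℂ] H) (v : H) (k l : Fin Q.n) : H :=
  (q * Q.f k * x * Q.f l * q) v

lemma vec_decomp (Q : WPart A (1 : H →L[ℂ] H)) {r : ℕ} (hr : 0 < r)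
    (L old : Fin Q.n → Fin r) (u : ℝ) {μ : Fin Q.n → Fin r → ℝ}
    (hμ : μ = fun l i => u * (if old l = i then 1 else 0) + (1 - u) / r) (v : H) :
    (q * (∑ i, Q.piece L i * x * Q.piece L i) * q) v -
        (((u ^ 2 : ℝ) : ℂ) • (q * (∑ i, Q.piece old i * x * Q.piece old i) * q) v +
          ((1 - u ^ 2 : ℝ) : ℂ) • (((1 / r : ℝ) : ℂ) • (q * x * q) v +
            ((1 - 1 / r : ℝ) : ℂ) • (q * Q.pinch x * q) v)) =
      (∑ k, ∑ i, (dev μ k i (L k) : ℂ) • linV μ (vblk Q q x v) k i) +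
        ((∑ a ∈ ltSet Q.n, (pr μ L a.1 a.2 : ℂ) • vblk Q q x v a.1 a.2) +
          ∑ a ∈ gtSet Q.n, (pr μ L a.1 a.2 : ℂ) • vblk Q q x v a.1 a.2) := by
  rw [← decomp (μ := μ) (vblk Q q x v) L, pinched_eq Q L, pinched_eq Q old, full_eq Q,
    diag_eq Q]
  simp only [sum_apply, smul_apply, ← vblk.eq_def]
  congr 1
  have e : ∑ k, vblk Q q x v k k =
      ∑ k, ∑ l, ((if k = l then (1 : ℝ) else 0 : ℝ) : ℂ) • vblk Q q x v k l := by
    refine Finset.sum_congr rfl fun k _ => ?_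
    rw [Finset.sum_eq_single k (fun l _ hl => by rw [if_neg (Ne.symm hl)]; simp) (by simp)]
    simp
  rw [e]
  simp only [Finset.smul_sum, smul_add, smul_smul, ← Finset.sum_add_distrib, ← add_smul,
    ← Complex.ofReal_mul, ← Complex.ofReal_add]
  refine Finset.sum_congr rfl fun k _ => Finset.sum_congr rfl fun l _ => ?_
  congr 2
  have hr' : (r : ℝ) ≠ 0 := Nat.cast_ne_zero.2 hr.ne'
  rcases eq_or_ne k l with rfl | hkl
  · simp only [if_true, mul_one]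
    field_simp
    ring
  · rw [if_neg hkl, if_neg hkl, hμ]
    simp only [add_mul, mul_add, Finset.sum_add_distrib, Finset.sum_const, Finset.card_univ,
      Fintype.card_fin, nsmul_eq_mul, mul_ite, ite_mul, mul_one, mul_zero, zero_mul,
      Finset.sum_ite_eq, Finset.mem_univ, if_true]
    split_ifs <;>
      first
        | (exfalso; exact ‹¬ _› (Eq.symm ‹_›))
        | (field_simp; ring)

/-- one relabelling step -/
theorem rand_step (F : Finset H) (hA : IsMASA M A) (Q : WPart A (1 : H →L[ℂ] H)) {r : ℕ}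
    (hr : 0 < r) (old : Fin Q.n → Fin r) {u : ℝ} (hu0 : 0 ≤ u) (hu1 : u ≤ 1)
    (hq : q ∈ M) (hqp : IsStarProjection q) {c : ℝ} (hc : 0 ≤ c)
    (hsmall : ∀ k v, ‖q (Q.f k v)‖ ≤ c * ‖v‖) (hx : IsSelfAdjoint x) (hxM : x ∈ M) :
    ∃ L : Fin Q.n → Fin r, ∃ Y ∈ M, ∃ Z ∈ M,
      q * (∑ i, Q.piece L i * x * Q.piece L i) * q -
        (((u ^ 2 : ℝ) : ℂ) • (q * (∑ i, Q.piece old i * x * Q.piece old i) * q) +
          ((1 - u ^ 2 : ℝ) : ℂ) • (((1 / r : ℝ) : ℂ) • (q * x * q) +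
            ((1 - 1 / r : ℝ) : ℂ) • (q * Q.pinch x * q))) = Y + star Y + Z ∧
      ∀ ξ ∈ F, ‖Y ξ‖ ≤ (2 * r + 4) * c * ‖x‖ * (1 + mass F) ∧
        ‖Z ξ‖ ≤ (2 * r + 4) * c * ‖x‖ * (1 + mass F) := by
  set μ : Fin Q.n → Fin r → ℝ := fun l i =>
    u * (if old l = i then 1 else 0) + (1 - u) / r with hμ
  have hr' : (0 : ℝ) < r := Nat.cast_pos.2 hr
  have h0 : ∀ k i, 0 ≤ μ k i := fun k i => by
    have : 0 ≤ (1 - u) / r := div_nonneg (by linarith) hr'.le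
    simp only [hμ]; split_ifs <;> linarith
  have h1 : ∀ k, ∑ i, μ k i = 1 := fun k => by
    simp only [hμ, Finset.sum_add_distrib, mul_ite, mul_one, mul_zero, Finset.sum_ite_eq,
      Finset.mem_univ, if_true, Finset.sum_const, Finset.card_univ, Fintype.card_fin, nsmul_eq_mul]
    field_simp
    ring
  have hμ1 : ∀ k i, μ k i ≤ 1 := fun k i =>
    h1 k ▸ Finset.single_le_sum (fun j _ => h0 k j) (Finset.mem_univ i)
  have hfM : ∀ l, Q.f l ∈ M := fun l => hA.1 (Q.mem l)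
  have hqs : star q = q := hqp.isSelfAdjoint.star_eq
  have smulM : ∀ (t : ℂ) {y : H →L[ℂ] H}, y ∈ M → t • y ∈ M := fun t _ hy =>
    SMulMemClass.smul_mem (s := M.toStarSubalgebra) t hy
  have hqf : ∀ k (v : H), ‖q (Q.f k v)‖ ≤ c * ‖Q.f k v‖ := by
    intro k v
    have := hsmall k (Q.f k v)
    rwa [← mul_apply_eq_comp (Q.f k) (Q.f k), Q.idem] at this
  -- the operators
  set T : Fin Q.n → Fin r → H →L[ℂ] H := fun k i =>
    ∑ l, ((if l = k then 0 else μ l i : ℝ) : ℂ) • (q * Q.f k * x * Q.f l * q) with hT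
  set Yop : (Fin Q.n → Fin r) → H →L[ℂ] H := fun L =>
    ∑ k, ∑ i, (dev μ k i (L k) : ℂ) • T k i with hY
  set Z1 : (Fin Q.n → Fin r) → H →L[ℂ] H := fun L =>
    ∑ a ∈ ltSet Q.n, (pr μ L a.1 a.2 : ℂ) • (q * Q.f a.1 * x * Q.f a.2 * q) with hZ1
  set Z2 : (Fin Q.n → Fin r) → H →L[ℂ] H := fun L =>
    ∑ a ∈ gtSet Q.n, (pr μ L a.1 a.2 : ℂ) • (q * Q.f a.1 * x * Q.f a.2 * q) with hZ2
  have hblkM : ∀ k l, q * Q.f k * x * Q.f l * q ∈ M := fun k l =>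
    mul_mem (mul_mem (mul_mem (mul_mem hq (hfM k)) hxM) (hfM l)) hq
  have hTM : ∀ k i, T k i ∈ M := fun k i => sum_mem fun l _ => smulM _ (hblkM k l)
  -- second moments
  have hT2 : ∀ (i : Fin r) (v : H), ∑ k, ‖T k i v‖ ^ 2 ≤ 4 * (c * ‖x‖ * ‖v‖) ^ 2 := by
    intro i v
    set a : H →L[ℂ] H := ∑ l, (μ l i : ℂ) • Q.f l with ha
    have hqv : ‖q v‖ ≤ ‖v‖ := proj_apply_norm_le hqp v
    have hav : ‖a (q v)‖ ≤ ‖v‖ := by
      refine (pow_le_pow_iff_left₀ (norm_nonneg _) (norm_nonneg _) two_ne_zero).1 ?_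
      have e : a (q v) = ∑ l, Q.f l ((μ l i : ℂ) • q v) := by simp [ha, sum_apply]
      rw [e, Q.norm_sum_sq]
      calc ∑ l, ‖Q.f l ((μ l i : ℂ) • q v)‖ ^ 2 ≤ ∑ l, ‖Q.f l (q v)‖ ^ 2 := by
            refine Finset.sum_le_sum fun l _ => pow_le_pow_left₀ (norm_nonneg _) ?_ 2
            rw [map_smul, norm_smul, Complex.norm_real, Real.norm_eq_abs, abs_of_nonneg (h0 l i)]
            exact mul_le_of_le_one_left (norm_nonneg _) (hμ1 l i)
        _ = ‖q v‖ ^ 2 := by rw [Q.sum_norm_sq, one_apply_eq_self]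
        _ ≤ ‖v‖ ^ 2 := pow_le_pow_left₀ (norm_nonneg _) hqv 2
    have hk : ∀ k, ‖T k i v‖ ^ 2 ≤
        c ^ 2 * (2 * ‖Q.f k (x (a (q v)))‖ ^ 2 + 2 * (‖x‖ * ‖Q.f k (q v)‖) ^ 2) := by
      intro k
      have eT : T k i v = q (Q.f k (x (a (q v)))) - (μ k i : ℂ) • q (Q.f k (x (Q.f k (q v)))) := by
        rw [eq_sub_iff_add_eq, hT, ha]
        simp only [sum_apply, smul_apply, mul_apply_eq_comp, map_sum, map_smul]
        rw [← Finset.sum_erase_add _ _ (Finset.mem_univ k), if_pos rfl, Complex.ofReal_zero,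
          zero_smul, add_zero, Finset.sum_congr rfl fun l hl => by
            rw [if_neg (Finset.ne_of_mem_erase hl)], Finset.sum_erase_add _ _ (Finset.mem_univ k)]
      have b1 : ‖q (Q.f k (x (a (q v))))‖ ≤ c * ‖Q.f k (x (a (q v)))‖ := hqf k _
      have b2 : ‖(μ k i : ℂ) • q (Q.f k (x (Q.f k (q v))))‖ ≤ c * (‖x‖ * ‖Q.f k (q v)‖) := by
        rw [norm_smul, Complex.norm_real, Real.norm_eq_abs, abs_of_nonneg (h0 k i)]
        refine (mul_le_of_le_one_left (norm_nonneg _) (hμ1 k i)).trans ((hsmall k _).trans ?_)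
        exact mul_le_mul_of_nonneg_left (x.le_opNorm _) hc
      have b3 : ‖T k i v‖ ≤ c * (‖Q.f k (x (a (q v)))‖ + ‖x‖ * ‖Q.f k (q v)‖) := by
        rw [eT, mul_add]
        exact (norm_sub_le _ _).trans (add_le_add b1 b2)
      refine (pow_le_pow_left₀ (norm_nonneg _) b3 2).trans ?_
      rw [mul_pow]
      refine mul_le_mul_of_nonneg_left ?_ (sq_nonneg c)
      nlinarith [sq_nonneg (‖Q.f k (x (a (q v)))‖ - ‖x‖ * ‖Q.f k (q v)‖)]
    refine (Finset.sum_le_sum fun k _ => hk k).trans ?_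
    rw [← Finset.mul_sum, Finset.sum_add_distrib, ← Finset.mul_sum, ← Finset.mul_sum]
    simp only [mul_pow ‖x‖]
    rw [← Finset.mul_sum, Q.sum_norm_sq, Q.sum_norm_sq, one_apply_eq_self, one_apply_eq_self]
    have b4 : ‖x (a (q v))‖ ^ 2 ≤ (‖x‖ * ‖v‖) ^ 2 := pow_le_pow_left₀ (norm_nonneg _)
      ((x.le_opNorm _).trans (mul_le_mul_of_nonneg_left hav (norm_nonneg _))) 2
    have b5 : ‖x‖ ^ 2 * ‖q v‖ ^ 2 ≤ (‖x‖ * ‖v‖) ^ 2 := by
      rw [mul_pow]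
      exact mul_le_mul_of_nonneg_left (pow_le_pow_left₀ (norm_nonneg _) hqv 2) (sq_nonneg _)
    calc _ ≤ c ^ 2 * (2 * (‖x‖ * ‖v‖) ^ 2 + 2 * (‖x‖ * ‖v‖) ^ 2) :=
          mul_le_mul_of_nonneg_left (by linarith) (sq_nonneg c)
      _ = _ := by ring
  have hB2 : ∀ v : H, ∑ k, ∑ l, ‖vblk Q q x v k l‖ ^ 2 ≤ (c * ‖x‖ * ‖v‖) ^ 2 := by
    intro v
    rw [Finset.sum_comm]
    have hl : ∀ l, ∑ k, ‖vblk Q q x v k l‖ ^ 2 ≤ c ^ 2 * (‖x‖ ^ 2 * ‖Q.f l (q v)‖ ^ 2) := by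
      intro l
      refine (Finset.sum_le_sum (g := fun k => c ^ 2 * ‖Q.f k (x (Q.f l (q v)))‖ ^ 2)
        fun k _ => ?_).trans ?_
      · rw [← mul_pow, vblk]
        simp only [mul_apply_eq_comp]
        exact pow_le_pow_left₀ (norm_nonneg _) (hqf k _) 2
      · rw [← Finset.mul_sum, Q.sum_norm_sq, one_apply_eq_self, ← mul_pow ‖x‖]
        exact mul_le_mul_of_nonneg_left
          (pow_le_pow_left₀ (norm_nonneg _) (x.le_opNorm _) 2) (sq_nonneg c)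
    refine (Finset.sum_le_sum fun l _ => hl l).trans ?_
    rw [← Finset.mul_sum, ← Finset.mul_sum, Q.sum_norm_sq, one_apply_eq_self, mul_pow, mul_pow,
      mul_assoc]
    exact mul_le_mul_of_nonneg_left (mul_le_mul_of_nonneg_left
      (pow_le_pow_left₀ (norm_nonneg _) (proj_apply_norm_le hqp v) 2) (sq_nonneg _)) (sq_nonneg _)
  set B : ℝ := (4 * (r : ℝ) ^ 2 + 16) * (c * ‖x‖) ^ 2 * mass F with hB
  have hEx : Ex μ (fun L => ∑ ξ ∈ F, (‖Yop L ξ‖ ^ 2 + (2 * ‖Z1 L ξ‖ ^ 2 + 2 * ‖Z2 L ξ‖ ^ 2))) ≤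
      B := by
    rw [Ex_sum, hB, mass, Finset.mul_sum]
    refine Finset.sum_le_sum fun ξ _ => ?_
    rw [Ex_add, Ex_add, Ex_smul, Ex_smul]
    have p1 : Ex μ (fun L => ‖Yop L ξ‖ ^ 2) ≤ (r : ℝ) * (r * (4 * (c * ‖x‖ * ‖ξ‖) ^ 2)) := by
      have e : (fun L => ‖Yop L ξ‖ ^ 2) =
          fun L => ‖∑ k, ∑ i, (dev μ k i (L k) : ℂ) • T k i ξ‖ ^ 2 := by
        funext L; simp [hY, sum_apply]
      rw [e]
      refine (Ex_linear_le h0 h1 fun k i => T k i ξ).trans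
        (mul_le_mul_of_nonneg_left ?_ hr'.le)
      rw [Finset.sum_comm]
      exact (Finset.sum_le_sum fun i _ => hT2 i ξ).trans_eq (by simp)
    have p2 : Ex μ (fun L => ‖Z1 L ξ‖ ^ 2) ≤ 4 * (c * ‖x‖ * ‖ξ‖) ^ 2 := by
      have e : (fun L => ‖Z1 L ξ‖ ^ 2) =
          fun L => ‖∑ a ∈ ltSet Q.n, (pr μ L a.1 a.2 : ℂ) • vblk Q q x ξ a.1 a.2‖ ^ 2 := by
        funext L; simp [hZ1, sum_apply, vblk]
      rw [e]
      exact (Ex_pairs_le h0 h1 (ltSet Q.n) (fun a ha => ((Finset.mem_filter.1 ha).2).ne)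
        (fun a ha ha' => lt_asymm (Finset.mem_filter.1 ha).2 (Finset.mem_filter.1 ha').2)
          (vblk Q q x ξ)).trans (mul_le_mul_of_nonneg_left (hB2 ξ) (by norm_num))
    have p3 : Ex μ (fun L => ‖Z2 L ξ‖ ^ 2) ≤ 4 * (c * ‖x‖ * ‖ξ‖) ^ 2 := by
      have e : (fun L => ‖Z2 L ξ‖ ^ 2) =
          fun L => ‖∑ a ∈ gtSet Q.n, (pr μ L a.1 a.2 : ℂ) • vblk Q q x ξ a.1 a.2‖ ^ 2 := by
        funext L; simp [hZ2, sum_apply, vblk]
      rw [e]
      exact (Ex_pairs_le h0 h1 (gtSet Q.n) (fun a ha => ((Finset.mem_filter.1 ha).2).ne')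
        (fun a ha ha' => lt_asymm (Finset.mem_filter.1 ha).2 (Finset.mem_filter.1 ha').2)
          (vblk Q q x ξ)).trans (mul_le_mul_of_nonneg_left (hB2 ξ) (by norm_num))
    calc _ ≤ (r : ℝ) * (r * (4 * (c * ‖x‖ * ‖ξ‖) ^ 2)) +
          (2 * (4 * (c * ‖x‖ * ‖ξ‖) ^ 2) + 2 * (4 * (c * ‖x‖ * ‖ξ‖) ^ 2)) := by linarith
      _ = _ := by ring
  obtain ⟨L, hL⟩ := exists_le_Ex h0 h1 fun L =>
    ∑ ξ ∈ F, (‖Yop L ξ‖ ^ 2 + (2 * ‖Z1 L ξ‖ ^ 2 + 2 * ‖Z2 L ξ‖ ^ 2))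
  refine ⟨L, Yop L, sum_mem fun k _ => sum_mem fun i _ => smulM _ (hTM k i), Z1 L + Z2 L,
    add_mem (sum_mem fun a _ => smulM _ (hblkM _ _)) (sum_mem fun a _ => smulM _ (hblkM _ _)),
    ?_, fun ξ hξ => ?_⟩
  · ext v
    rw [sub_apply, add_apply, add_apply, smul_apply, smul_apply, add_apply, smul_apply, smul_apply,
      vec_decomp Q hr L old u hμ v]
    congr 1
    · have es : star (Yop L) = ∑ k, ∑ i, (dev μ k i (L k) : ℂ) •
          ∑ l, ((if l = k then 0 else μ l i : ℝ) : ℂ) • (q * Q.f l * x * Q.f k * q) := by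
        simp only [hY, hT, star_sum, star_smul, star_mul, Complex.star_def, Complex.conj_ofReal,
          hqs, Q.star_f, hx.star_eq, mul_assoc]
      rw [es]
      simp only [hY, hT, add_apply, sum_apply, smul_apply, linV, vblk, smul_add,
        Finset.sum_add_distrib]
    · simp only [hZ1, hZ2, add_apply, sum_apply, smul_apply, vblk]
  · have h2 : ‖Yop L ξ‖ ^ 2 + (2 * ‖Z1 L ξ‖ ^ 2 + 2 * ‖Z2 L ξ‖ ^ 2) ≤ B :=
      le_trans (Finset.single_le_sum (f := fun ξ => ‖Yop L ξ‖ ^ 2 +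
        (2 * ‖Z1 L ξ‖ ^ 2 + 2 * ‖Z2 L ξ‖ ^ 2)) (fun _ _ => by positivity) hξ) (hL.trans hEx)
    have hm := mass_nonneg F
    set K : ℝ := (2 * r + 4) * c * ‖x‖ * (1 + mass F) with hK
    have hK0 : 0 ≤ K := by positivity
    have hBK : B ≤ K ^ 2 := by
      have e1 : (4 * (r : ℝ) ^ 2 + 16) ≤ (2 * (r : ℝ) + 4) ^ 2 := by nlinarith
      have e2 : mass F ≤ (1 + mass F) ^ 2 := by nlinarith
      calc B ≤ (2 * (r : ℝ) + 4) ^ 2 * (c * ‖x‖) ^ 2 * (1 + mass F) ^ 2 := by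
            rw [hB]
            exact mul_le_mul (mul_le_mul_of_nonneg_right e1 (sq_nonneg _)) e2 hm (by positivity)
        _ = K ^ 2 := by rw [hK]; ring
    constructor
    · refine (pow_le_pow_iff_left₀ (norm_nonneg _) hK0 two_ne_zero).1 ?_
      linarith [sq_nonneg ‖Z1 L ξ‖, sq_nonneg ‖Z2 L ξ‖]
    · refine (pow_le_pow_iff_left₀ (norm_nonneg _) hK0 two_ne_zero).1 ?_
      have h3 : ‖(Z1 L + Z2 L) ξ‖ ^ 2 ≤ 2 * ‖Z1 L ξ‖ ^ 2 + 2 * ‖Z2 L ξ‖ ^ 2 := by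
        rw [add_apply]
        have := pow_le_pow_left₀ (norm_nonneg _) (norm_add_le (Z1 L ξ) (Z2 L ξ)) 2
        nlinarith [sq_nonneg (‖Z1 L ξ‖ - ‖Z2 L ξ‖)]
      linarith [sq_nonneg ‖Yop L ξ‖]

end Vale.Agent.P078.Sing
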