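import Mathlib
import Vale.Agent.P078.SingRandom

/-! So-paving when the subalgebra centralises no normal functional. -/

noncomputable section

open scoped InnerProductSpace ComplexOrder
open Filter Topology

namespace Vale.Agent.P078.Sing

universe u

open Semi Semi.Ctx

variable {H : Type u} [NormedAddCommGroup H] [InnerProductSpace ℂ H] [CompleteSpace H]
variable {M : VonNeumannAlgebra H} {A : StarSubalgebra ℂ (H →L[ℂ] H)}
variable {q x : H →L[ℂ] H}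

lemma norm_conj_le' {p p' y : H →L[ℂ] H} (hp : IsStarProjection p) (hp' : IsStarProjection p') :
    ‖p * y * p'‖ ≤ ‖y‖ :=
  (norm_mul_le _ _).trans ((mul_le_of_le_one_right (norm_nonneg _) hp'.norm_le).trans
    ((norm_mul_le _ _).trans (mul_le_of_le_one_left (norm_nonneg _) hp.norm_le)))

/-- averaging over nested partitions -/
lemma exists_avg' (F : Finset H) (hA : IsMASA M A) (hq : q ∈ M) (hqp : IsStarProjection q)
    (hx : IsSelfAdjoint x) (hxM : x ∈ M) {r : ℕ} (hr : 0 < r) {c : ℝ} (hc : 0 ≤ c)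
    (Q : ℕ → WPart A (1 : H →L[ℂ] H)) (hmono : ∀ t, Q t ≤ Q (t + 1))
    (hsmall : ∀ t k v, ‖q ((Q t).f k v)‖ ≤ c * ‖v‖) (k : ℕ) :
    ∃ L : Fin (Q k).n → Fin r, ∃ Y ∈ M, ∃ Z ∈ M,
      q * (∑ i, (Q k).piece L i * x * (Q k).piece L i) * q -
        (((1 / r : ℝ) : ℂ) • (q * x * q) + ((1 - 1 / r : ℝ) : ℂ) •
          (((1 / (k + 1) : ℝ) : ℂ) • ∑ t ∈ Finset.range (k + 1), q * (Q t).pinch x * q)) =
          Y + star Y + Z ∧
      ∀ ξ ∈ F, ‖Y ξ‖ ≤ (k + 1) * ((2 * r + 4) * c * ‖x‖ * (1 + mass F)) ∧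
        ‖Z ξ‖ ≤ (k + 1) * ((2 * r + 4) * c * ‖x‖ * (1 + mass F)) := by
  induction k with
  | zero =>
    obtain ⟨L, Y, hY, Z, hZ, e, hb⟩ := rand_step F hA (Q 0) hr (fun _ => ⟨0, hr⟩)
      (le_refl (0 : ℝ)) zero_le_one hq hqp hc (hsmall 0) hx hxM
    refine ⟨L, Y, hY, Z, hZ, ?_, fun ξ hξ => ?_⟩
    · rw [← e]
      norm_num
    · simpa using hb ξ hξ
  | succ k ih =>
    obtain ⟨L₀, Y₀, hY₀, Z₀, hZ₀, e₀, hb₀⟩ := ih
    set γ : ℝ := ((k : ℝ) + 1) / ((k : ℝ) + 2) with hγ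
    have hγ0 : 0 ≤ γ := by positivity
    have hγ1 : γ ≤ 1 := by rw [hγ, div_le_one (by positivity)]; linarith
    set u := Real.sqrt γ with hu
    have huu : u ^ 2 = γ := Real.sq_sqrt hγ0
    obtain ⟨L, Y, hY, Z, hZ, e, hb⟩ := rand_step F hA (Q (k + 1)) hr
      (fun l => L₀ (WPart.parent (hmono k) l)) (Real.sqrt_nonneg γ) (Real.sqrt_le_one.2 hγ1)
      hq hqp hc (hsmall (k + 1)) hx hxM
    have hold : ∀ i, (Q (k + 1)).piece (fun l => L₀ (WPart.parent (hmono k) l)) i =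
        (Q k).piece L₀ i := fun i => WPart.piece_parent (Q k) (hmono k) L₀ i
    simp only [hold] at e
    rw [huu] at e
    refine ⟨L, (γ : ℂ) • Y₀ + Y, add_mem (SMulMemClass.smul_mem (s := M.toStarSubalgebra) _ hY₀) hY,
      (γ : ℂ) • Z₀ + Z, add_mem (SMulMemClass.smul_mem (s := M.toStarSubalgebra) _ hZ₀) hZ, ?_,
      fun ξ hξ => ?_⟩
    · have hgen : (γ : ℂ) • Y₀ + Y + star ((γ : ℂ) • Y₀ + Y) + ((γ : ℂ) • Z₀ + Z) =
          (γ : ℂ) • (Y₀ + star Y₀ + Z₀) + (Y + star Y + Z) := by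
        rw [star_add, star_smul, Complex.star_def, Complex.conj_ofReal, smul_add, smul_add]
        abel
      rw [hgen, ← e₀, ← e, Finset.sum_range_succ _ (k + 1)]
      simp only [smul_add, smul_sub, smul_smul, ← Complex.ofReal_mul]
      have c1 : γ * ((1 - 1 / r) * (1 / (k + 1))) = (1 - 1 / r) * (1 / ((k + 1 : ℕ) + 1)) := by
        rw [hγ]; push_cast; field_simp; ring
      have c2 : (1 - γ) * (1 - 1 / r) = (1 - 1 / r) * (1 / ((k + 1 : ℕ) + 1)) := by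
        rw [hγ]; push_cast; field_simp; ring
      have c3 : ((γ * (1 / r) : ℝ) : ℂ) • (q * x * q) + (((1 - γ) * (1 / r) : ℝ) : ℂ) • (q * x * q) =
          ((1 / r : ℝ) : ℂ) • (q * x * q) := by
        rw [← add_smul, ← Complex.ofReal_add]
        congr 2; ring
      rw [c1, c2, ← c3]
      abel
    · obtain ⟨a1, a2⟩ := hb₀ ξ hξ
      obtain ⟨b1, b2⟩ := hb ξ hξ
      have g1 : ∀ T : H →L[ℂ] H, ‖((γ : ℂ) • T) ξ‖ ≤ ‖T ξ‖ := fun T => by
        rw [smul_apply, norm_smul, Complex.norm_real, Real.norm_eq_abs, abs_of_nonneg hγ0]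
        exact mul_le_of_le_one_left (norm_nonneg _) hγ1
      constructor
      · rw [add_apply]
        refine (norm_add_le _ _).trans ((add_le_add ((g1 Y₀).trans a1) b1).trans_eq ?_)
        push_cast; ring
      · rw [add_apply]
        refine (norm_add_le _ _).trans ((add_le_add ((g1 Z₀).trans a2) b2).trans_eq ?_)
        push_cast; ring

/-- nested partitions with almost orthogonal errors -/
lemma exists_seq (F : Finset H) (hA : IsMASA M A) (hqp : IsStarProjection q) {c : ℝ}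
    (hev : ∀ᶠ Q : WPart A (1 : H →L[ℂ] H) in U hA.2.1, ∀ k v, ‖q (Q.f k v)‖ ≤ c * ‖v‖)
    {a : H →L[ℂ] H} (han : ‖a‖ ≤ ‖x‖)
    (hlim : ∀ u v, Tendsto (fun Q : WPart A (1 : H →L[ℂ] H) => ⟪Q.pinch x u, v⟫_ℂ)
      (U hA.2.1) (𝓝 ⟪a u, v⟫_ℂ)) (m : ℕ) :
    ∃ Q : ℕ → WPart A (1 : H →L[ℂ] H), (∀ t, Q t ≤ Q (t + 1)) ∧
      (∀ t k v, ‖q ((Q t).f k v)‖ ≤ c * ‖v‖) ∧
      ∀ ξ ∈ F, ‖(∑ t ∈ Finset.range m, q * ((Q t).pinch x - a) * q) ξ‖ ^ 2 ≤
        m * ((2 * ‖x‖ * ‖ξ‖) ^ 2 + 2) := by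
  classical
  set D : WPart A (1 : H →L[ℂ] H) → H →L[ℂ] H := fun Q => q * (Q.pinch x - a) * q with hD
  have hDb : ∀ Q v, ‖D Q v‖ ≤ 2 * ‖x‖ * ‖v‖ := by
    intro Q v
    refine ((D Q).le_opNorm v).trans (mul_le_mul_of_nonneg_right ?_ (norm_nonneg _))
    refine (norm_conj_le' hqp hqp).trans ((norm_sub_le _ _).trans ?_)
    linarith [pinch_norm_le Q (IsStarProjection.one _) x]
  have hnull : ∀ ξ s : H, Tendsto (fun Q => ⟪D Q ξ, s⟫_ℂ) (U hA.2.1) (𝓝 0) := by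
    intro ξ s
    have h := (hlim (q ξ) (q s)).sub (tendsto_const_nhds (x := ⟪a (q ξ), q s⟫_ℂ))
    rw [sub_self] at h
    refine h.congr fun Q => ?_
    rw [← inner_sub_left, ← ContinuousLinearMap.adjoint_inner_left,
      ← ContinuousLinearMap.star_eq_adjoint, hqp.isSelfAdjoint.star_eq]
    simp only [hD, mul_apply_eq_comp, sub_apply]
  induction m with
  | zero =>
    obtain ⟨Q0, hQ0⟩ := hev.exists
    exact ⟨fun _ => Q0, fun _ => le_rfl, fun _ => hQ0, fun ξ _ => by simp⟩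
  | succ m ih =>
    obtain ⟨Q, hmono, hsm, hsum⟩ := ih
    set S := ∑ t ∈ Finset.range m, D (Q t) with hS
    have hev' : ∀ᶠ Q' : WPart A (1 : H →L[ℂ] H) in U hA.2.1,
        ∀ ξ ∈ F, ‖⟪D Q' ξ, S ξ⟫_ℂ‖ < 1 := by
      refine F.eventually_all.2 fun ξ _ => ?_
      have := Metric.tendsto_nhds.1 (hnull ξ (S ξ)) 1 one_pos
      simpa using this
    obtain ⟨Q', ⟨h1, h2⟩, h3⟩ :=
      ((hev'.and hev).and (eventually_ge_part hA.2.1 (Q (m - 1)))).exists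
    refine ⟨fun t => if t < m then Q t else Q', fun t => ?_, fun t => ?_, fun ξ hξ => ?_⟩
    · show (if t < m then Q t else Q') ≤ (if t + 1 < m then Q (t + 1) else Q')
      by_cases ht : t + 1 < m
      · rw [if_pos ht, if_pos (by omega)]; exact hmono t
      · rw [if_neg ht]
        by_cases ht' : t < m
        · rw [if_pos ht', show t = m - 1 by omega]; exact h3
        · rw [if_neg ht']
    · show ∀ k v, ‖q ((if t < m then Q t else Q').f k v)‖ ≤ c * ‖v‖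
      generalize hG : (if t < m then Q t else Q') = G
      split_ifs at hG
      · exact hG ▸ hsm t
      · exact hG ▸ h2
    · rw [Finset.sum_range_succ]
      beta_reduce
      rw [if_neg (lt_irrefl m), Finset.sum_congr rfl fun t ht => by rw [if_pos (Finset.mem_range.1 ht)]]
      change ‖(S + D Q') ξ‖ ^ 2 ≤ _
      rw [add_apply, norm_add_sq (𝕜 := ℂ)]
      have h4 : RCLike.re ⟪S ξ, D Q' ξ⟫_ℂ ≤ 1 := by
        refine (RCLike.re_le_norm _).trans ?_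
        rw [norm_inner_symm]
        exact (h1 ξ hξ).le
      have h5 : ‖D Q' ξ‖ ^ 2 ≤ (2 * ‖x‖ * ‖ξ‖) ^ 2 :=
        pow_le_pow_left₀ (norm_nonneg _) (hDb Q' ξ) 2
      have h6 : ‖S ξ‖ ^ 2 ≤ m * ((2 * ‖x‖ * ‖ξ‖) ^ 2 + 2) := hsum ξ hξ
      push_cast
      nlinarith

/-- one projection controlling an error and making three operators small -/
lemma exists_cut {p Y Z : H →L[ℂ] H} (hp : IsStarProjection p) (hpM : p ∈ M) (hY : Y ∈ M)
    (hZ : Z ∈ M) {c : ℝ} (hc : 0 < c) :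
    ∃ R ∈ M, IsStarProjection R ∧ ‖p * (1 - R)‖ ≤ c ∧ ‖Y * (1 - R)‖ ≤ c ∧ ‖Z * (1 - R)‖ ≤ c ∧
      ∀ v, ‖R v‖ ^ 2 ≤ c⁻¹ ^ 2 * (‖p v‖ ^ 2 + (‖Y v‖ ^ 2 + ‖Z v‖ ^ 2)) := by
  set T := star p * p + (star Y * Y + star Z * Z) with hT
  set k := cfc Real.sqrt T with hk
  have hT0 : 0 ≤ T :=
    add_nonneg (star_mul_self_nonneg p) (add_nonneg (star_mul_self_nonneg Y) (star_mul_self_nonneg Z))
  have hTs : IsSelfAdjoint T := IsSelfAdjoint.of_nonneg hT0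
  have hks : IsSelfAdjoint k := IsSelfAdjoint.cfc
  have hkM : k ∈ M := cfc_mem (add_mem (mul_mem (star_mem hpM) hpM)
    (add_mem (mul_mem (star_mem hY) hY) (mul_mem (star_mem hZ) hZ))) _
  have hkk : star k * k = T := by
    rw [hks.star_eq, hk, ← cfc_mul _ _ T Real.continuous_sqrt.continuousOn
      Real.continuous_sqrt.continuousOn]
    exact (cfc_congr fun t ht => Real.mul_self_sqrt (spectrum_nonneg_of_nonneg hT0 ht)).trans
      (cfc_id' ℝ T hTs)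
  have e : ∀ (U : H →L[ℂ] H) v, ‖U v‖ ^ 2 = (⟪v, (star U * U) v⟫_ℂ).re := fun U v => by
    rw [mul_apply_eq_comp, ContinuousLinearMap.star_eq_adjoint,
      ContinuousLinearMap.adjoint_inner_right, inner_self_eq_norm_sq_to_K]
    norm_cast
  have hkv : ∀ v, ‖k v‖ ^ 2 = ‖p v‖ ^ 2 + (‖Y v‖ ^ 2 + ‖Z v‖ ^ 2) := by
    intro v
    rw [e k, hkk, hT, e p, e Y, e Z]
    simp only [add_apply, inner_add_right, Complex.add_re]
  obtain ⟨R, hRM, hRp, hkR, hRv, -, -⟩ := cut_comm M hks hkM hc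
  have main : ∀ U : H →L[ℂ] H, (∀ v, ‖U v‖ ^ 2 ≤ ‖k v‖ ^ 2) → ‖U * (1 - R)‖ ≤ c := by
    intro U hU
    refine ContinuousLinearMap.opNorm_le_bound _ hc.le fun v => ?_
    rw [mul_apply_eq_comp]
    refine ((pow_le_pow_iff_left₀ (norm_nonneg _) (norm_nonneg _) two_ne_zero).1 (hU _)).trans ?_
    calc ‖k ((1 - R) v)‖ = ‖(k * (1 - R)) v‖ := rfl
      _ ≤ _ := ((k * (1 - R)).le_opNorm v).trans
        (mul_le_mul_of_nonneg_right hkR (norm_nonneg _))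
  refine ⟨R, hRM, hRp, main p fun v => ?_, main Y fun v => ?_, main Z fun v => ?_, fun v => ?_⟩
  · rw [hkv]; nlinarith [sq_nonneg ‖Y v‖, sq_nonneg ‖Z v‖]
  · rw [hkv]; nlinarith [sq_nonneg ‖p v‖, sq_nonneg ‖Z v‖]
  · rw [hkv]; nlinarith [sq_nonneg ‖p v‖, sq_nonneg ‖Y v‖]
  · rw [← hkv, ← mul_pow]
    exact pow_le_pow_left₀ (norm_nonneg _) (hRv v) 2

/-- the vector bound after cutting -/
lemma final_vec {R E Z Y : H →L[ℂ] H} {ρ : ℂ} (hρ1 : ‖ρ‖ ≤ 1) {ξ : H} {c₃ δ τ : ℝ} (hc₃ : 0 < c₃)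
    (hδ : 0 < δ) (hτ : τ = c₃ * δ / 4) (h1 : ‖(1 - q) ξ‖ ≤ τ) (b1 : ‖Y ξ‖ ≤ τ) (b2 : ‖Z ξ‖ ≤ τ)
    (b3 : ‖E ξ‖ ≤ τ)
    (h : ‖R ξ‖ ^ 2 ≤ c₃⁻¹ ^ 2 *
      (‖(1 - q) ξ‖ ^ 2 + (‖Y ξ‖ ^ 2 + ‖(Z + ρ • E) ξ‖ ^ 2))) : ‖R ξ‖ < δ := by
  have b4 : ‖(Z + ρ • E) ξ‖ ≤ 2 * τ := by
    rw [add_apply, smul_apply]
    refine (norm_add_le _ _).trans ?_
    rw [norm_smul]
    have := mul_le_of_le_one_left (norm_nonneg (E ξ)) hρ1
    linarith
  have b5 : ‖(1 - q) ξ‖ ^ 2 + (‖Y ξ‖ ^ 2 + ‖(Z + ρ • E) ξ‖ ^ 2) ≤ 6 * τ ^ 2 := by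
    have a1 := pow_le_pow_left₀ (norm_nonneg _) h1 2
    have a2 := pow_le_pow_left₀ (norm_nonneg _) b1 2
    have a3 := pow_le_pow_left₀ (norm_nonneg _) b4 2
    linarith
  refine lt_of_pow_lt_pow_left₀ 2 hδ.le ((h.trans (mul_le_mul_of_nonneg_left b5
    (sq_nonneg _))).trans_lt ?_)
  have : c₃⁻¹ ^ 2 * (6 * τ ^ 2) = 6 / 16 * δ ^ 2 := by rw [hτ]; field_simp; ring
  rw [this]
  linarith [pow_pos hδ 2]

/-- the norm bound after cutting -/
lemma final_norm {p' S a Y Z' : H →L[ℂ] H} (hqp : IsStarProjection q) (hp'p : IsStarProjection p')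
    {c₃ ε : ℝ} (hε : 0 < ε) (hc₃ : c₃ = ε * ‖x‖ / (8 * (1 + ‖x‖))) {r : ℕ} (hr : 4 / ε ≤ (r : ℝ))
    (hr' : (0 : ℝ) < r)
    (hxa : ‖x - a‖ ≤ 2 * ‖x‖) (hSa : ‖S - a‖ ≤ 2 * ‖x‖) (hR1 : ‖(1 - q) * p'‖ ≤ c₃)
    (hR2 : ‖Y * p'‖ ≤ c₃) (hR3 : ‖Z' * p'‖ ≤ c₃)
    (key : q * (S - a) * q = ((1 / r : ℝ) : ℂ) • (q * (x - a) * q) + (Y + star Y + Z')) :
    ‖p' * (S - a) * p'‖ ≤ ε * ‖x‖ := by
  have hc₃0 : 0 ≤ c₃ := by rw [hc₃]; positivity
  have e : p' * (S - a) * p' = p' * (q * (S - a) * q) * p' +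
      ((p' * (1 - q)) * (S - a) * (q * p') + p' * (S - a) * ((1 - q) * p')) := by
    noncomm_ring
  have n1 : ‖p' * (1 - q)‖ ≤ c₃ := by
    rw [← norm_star, star_mul, hqp.one_sub.isSelfAdjoint.star_eq, hp'p.isSelfAdjoint.star_eq]
    exact hR1
  have n2 : ‖q * p'‖ ≤ 1 := (norm_mul_le _ _).trans (by
    nlinarith [hqp.norm_le, hp'p.norm_le, norm_nonneg q, norm_nonneg p'])
  have m1 : ‖(p' * (1 - q)) * (S - a) * (q * p')‖ ≤ c₃ * (2 * ‖x‖) :=
    (norm_mul_le _ _).trans ((mul_le_of_le_one_right (norm_nonneg _) n2).trans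
      ((norm_mul_le _ _).trans (mul_le_mul n1 hSa (norm_nonneg _) hc₃0)))
  have m2 : ‖p' * (S - a) * ((1 - q) * p')‖ ≤ 2 * ‖x‖ * c₃ :=
    (norm_mul_le _ _).trans (mul_le_mul ((norm_mul_le _ _).trans
      ((mul_le_of_le_one_left (norm_nonneg _) hp'p.norm_le).trans hSa)) hR1 (norm_nonneg _)
        (by positivity))
  have m3 : ‖p' * (((1 / r : ℝ) : ℂ) • (q * (x - a) * q)) * p'‖ ≤ 2 * ‖x‖ / r := by
    refine (norm_conj_le' hp'p hp'p).trans ?_
    rw [norm_smul, Complex.norm_real, Real.norm_eq_abs, abs_of_nonneg (by positivity),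
      one_div, inv_mul_eq_div]
    exact div_le_div_of_nonneg_right ((norm_conj_le' hqp hqp).trans hxa) hr'.le
  have side : ∀ T : H →L[ℂ] H, ‖T * p'‖ ≤ c₃ → ‖p' * T * p'‖ ≤ c₃ := fun T hT => by
    rw [mul_assoc]
    exact (norm_mul_le _ _).trans ((mul_le_of_le_one_left (norm_nonneg _) hp'p.norm_le).trans hT)
  have m4 : ‖p' * star Y * p'‖ ≤ c₃ := by
    have : p' * star Y * p' = star (p' * Y * p') := by
      simp only [star_mul, hp'p.isSelfAdjoint.star_eq, mul_assoc]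
    rw [this, norm_star]
    exact side Y hR2
  have hεx : c₃ * (1 + ‖x‖) = ε * ‖x‖ / 8 := by rw [hc₃]; field_simp
  have hrε : 2 * ‖x‖ / r ≤ ε * ‖x‖ / 2 := by
    rw [div_le_iff₀ hr']
    rw [div_le_iff₀ hε] at hr
    nlinarith [norm_nonneg x]
  rw [e, key, mul_add p', add_mul, mul_add p' (Y + star Y), add_mul, mul_add p' Y, add_mul]
  calc _ ≤ 2 * ‖x‖ / r + (c₃ + c₃ + c₃) + (c₃ * (2 * ‖x‖) + 2 * ‖x‖ * c₃) :=
        (norm_add_le _ _).trans (add_le_add ((norm_add_le _ _).trans (add_le_add m3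
          ((norm_add_le _ _).trans (add_le_add ((norm_add_le _ _).trans
            (add_le_add (side Y hR2) m4)) (side _ hR3)))))
          ((norm_add_le _ _).trans (add_le_add m1 m2)))
    _ ≤ _ := by nlinarith

/-- So-paving with `⌈4/ε⌉` pieces when no normal functional is centralised by `A`. -/
theorem soPavable_of_noCentral (hA : IsMASA M A) (hno : ¬ HasCentralNormalFunctional M A)
    {x : H →L[ℂ] H} (hxM : x ∈ M) (hx : IsSelfAdjoint x) {ε : ℝ} (hε : 0 < ε) {r : ℕ}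
    (hr : 4 / ε ≤ (r : ℝ)) : SoPavable M A x ε r := by
  classical
  intro F δ hδ
  have hr' : (0 : ℝ) < r := lt_of_lt_of_le (by positivity) hr
  have hrpos : 0 < r := Nat.cast_pos.1 hr'
  obtain ⟨a, haA, has, han, -, -, hlim⟩ :=
    exists_pinch_wlim (M := M) hA (one_mem A) (IsStarProjection.one (H →L[ℂ] H)) hx hxM
  have haM : a ∈ M := hA.1 haA
  rcases eq_or_ne x 0 with rfl | hx0
  · refine ⟨fun i => if i = ⟨0, hrpos⟩ then 1 else 0, fun i => ?_, fun i j hij => ?_, by simp, 0,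
      zero_mem _, IsSelfAdjoint.zero _, le_of_eq (by simp), 1, one_mem _, IsStarProjection.one _,
      fun ξ _ => by simpa using hδ, by simp⟩
    · dsimp only
      split_ifs
      · exact ⟨one_mem _, IsStarProjection.one _⟩
      · exact ⟨zero_mem _, IsStarProjection.zero _⟩
    · dsimp only
      split_ifs with h1 h2
      · exact absurd (h1.trans h2.symm) hij
      all_goals simp
  have hxpos : 0 < ‖x‖ := norm_pos_iff.2 hx0
  have hm0 := mass_nonneg F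
  set c₃ : ℝ := ε * ‖x‖ / (8 * (1 + ‖x‖)) with hc₃
  have hc₃0 : 0 < c₃ := by positivity
  set τ : ℝ := c₃ * δ / 4 with hτ
  have hτ0 : 0 < τ := by positivity
  set K : ℝ := 4 * ‖x‖ ^ 2 * mass F + 2 with hK
  have hK0 : 0 ≤ K := by positivity
  obtain ⟨n, hn⟩ : ∃ n : ℕ, K / τ ^ 2 < n := exists_nat_gt _
  set c : ℝ := τ / ((n + 1) * ((2 * r + 4) * ‖x‖ * (1 + mass F))) with hc
  have hden : (0 : ℝ) < (n + 1) * ((2 * r + 4) * ‖x‖ * (1 + mass F)) := by positivity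
  have hc0 : 0 < c := by positivity
  obtain ⟨q, hqM, hqp, hqξ, hev⟩ := exists_small_proj F hA hno hτ0 hc0
  obtain ⟨Q, hmono, hsmall, hsum⟩ := exists_seq F hA hqp hev han hlim (n + 1)
  obtain ⟨L, Y, hY, Z, hZ, heq, hb⟩ := exists_avg' F hA hqM hqp hx hxM hrpos hc0.le Q hmono hsmall n
  have hbound : ((n : ℝ) + 1) * ((2 * r + 4) * c * ‖x‖ * (1 + mass F)) = τ := by
    rw [hc]; field_simp
  rw [hbound] at hb
  set P := fun i => (Q n).piece L i with hP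
  set S := ∑ i, P i * x * P i with hS
  set ρ : ℂ := ((1 - 1 / r : ℝ) : ℂ) with hρ
  set σ : ℂ := ((1 / ((n : ℝ) + 1) : ℝ) : ℂ) with hσ
  set E := σ • ∑ t ∈ Finset.range (n + 1), q * ((Q t).pinch x - a) * q with hE
  have hσn : σ * ((n + 1 : ℕ) : ℂ) = 1 := by
    rw [hσ]
    push_cast
    exact one_div_mul_cancel (by exact_mod_cast Nat.succ_ne_zero n)
  have hE' : E = σ • (∑ t ∈ Finset.range (n + 1), q * (Q t).pinch x * q) - q * a * q := by
    rw [hE]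
    simp only [mul_sub, sub_mul, Finset.sum_sub_distrib, Finset.sum_const, Finset.card_range,
      smul_sub, ← Nat.cast_smul_eq_nsmul ℂ, smul_smul, hσn, one_smul]
  have key : q * (S - a) * q =
      ((1 / r : ℝ) : ℂ) • (q * (x - a) * q) + (Y + star Y + (Z + ρ • E)) := by
    have e2 : ((1 / r : ℝ) : ℂ) • (q * a * q) + ρ • (q * a * q) = q * a * q := by
      rw [← add_smul, hρ, ← Complex.ofReal_add, add_sub_cancel, Complex.ofReal_one, one_smul]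
    rw [← add_assoc (Y + star Y), ← heq, hE', hS, hP, mul_sub, sub_mul, mul_sub q x, sub_mul,
      smul_sub, smul_sub]
    conv_lhs => rw [← e2]
    abel
  have smulM : ∀ (t : ℂ) {y : H →L[ℂ] H}, y ∈ M → t • y ∈ M := fun t _ hy =>
    SMulMemClass.smul_mem (s := M.toStarSubalgebra) t hy
  have hEM : E ∈ M := smulM _ (sum_mem fun t _ =>
    mul_mem (mul_mem hqM (sub_mem (pinch_mem' hA (Q t) hxM) haM)) hqM)
  obtain ⟨R, hRM, hRp, hR1, hR2, hR3, hRv⟩ := exists_cut (M := M) hqp.one_sub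
    (sub_mem (one_mem M) hqM) hY (add_mem hZ (smulM ρ hEM)) hc₃0
  refine ⟨P, fun i => ⟨WPart.piece_mem _ L i, WPart.piece_proj _ L i⟩, fun i j hij => ?_,
    WPart.sum_piece _ L, a, haA, has, han, 1 - R, sub_mem (one_mem M) hRM, hRp.one_sub,
    fun ξ hξ => ?_, ?_⟩
  · rw [hP]
    simp only [WPart.piece_mul_piece, if_neg hij]
  · rw [sub_sub_cancel]
    obtain ⟨b1, b2⟩ := hb ξ hξ
    have hρ1 : ‖ρ‖ ≤ 1 := by
      have hr1 : (1 : ℝ) ≤ r := by exact_mod_cast hrpos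
      have : 1 / (r : ℝ) ≤ 1 := by rw [div_le_one hr']; exact hr1
      rw [hρ, Complex.norm_real, Real.norm_eq_abs, abs_of_nonneg (by linarith)]
      linarith [show 0 ≤ 1 / (r : ℝ) by positivity]
    have b3 : ‖E ξ‖ ≤ τ := by
      refine (pow_le_pow_iff_left₀ (norm_nonneg _) hτ0.le two_ne_zero).1 ?_
      rw [hE, smul_apply, norm_smul, mul_pow, hσ, Complex.norm_real, Real.norm_eq_abs,
        abs_of_nonneg (by positivity)]
      refine (mul_le_mul_of_nonneg_left (hsum ξ hξ) (sq_nonneg _)).trans ?_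
      have hξm : (2 * ‖x‖ * ‖ξ‖) ^ 2 + 2 ≤ K := by
        have : ‖ξ‖ ^ 2 ≤ mass F :=
          Finset.single_le_sum (f := fun y : H => ‖y‖ ^ 2) (fun _ _ => sq_nonneg _) hξ
        rw [hK, mul_pow, mul_pow]
        nlinarith [sq_nonneg ‖x‖]
      rw [Nat.cast_add, Nat.cast_one]
      calc _ ≤ (1 / ((n : ℝ) + 1)) ^ 2 * (((n : ℝ) + 1) * K) := by gcongr
        _ = K / ((n : ℝ) + 1) := by field_simp
        _ ≤ τ ^ 2 := by
          rw [div_le_iff₀ (by positivity)]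
          rw [div_lt_iff₀ (by positivity)] at hn
          nlinarith [sq_nonneg τ]
    exact final_vec hρ1 hc₃0 hδ hτ (hqξ ξ hξ).le b1 b2 b3 (hRv ξ)
  · set p' := 1 - R with hp'
    have hp'p : IsStarProjection p' := hRp.one_sub
    change ‖p' * (S - a) * p'‖ ≤ _
    have hxa : ‖x - a‖ ≤ 2 * ‖x‖ := (norm_sub_le _ _).trans (by linarith)
    have hSa : ‖S - a‖ ≤ 2 * ‖x‖ := by
      have hS' : ‖S‖ ≤ ‖x‖ := by
        set Q' : WPart A (1 : H →L[ℂ] H) := ⟨r, P, hrpos, fun i => WPart.piece_mem _ L i,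
          fun i => WPart.piece_proj _ L i, fun i j hij => by
            simp only [hP, WPart.piece_mul_piece, if_neg hij], WPart.sum_piece _ L⟩
        exact pinch_norm_le Q' (IsStarProjection.one _) x
      exact (norm_sub_le _ _).trans (by linarith)
    exact final_norm hqp hp'p hε hc₃ hr hr' hxa hSa hR1 hR2 hR3 key

end Vale.Agent.P078.Sing
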