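import Mathlib
import Vale.Agent.P078.SingDefs

/-! A semifinite central summand and a rest without centralised normal functionals. -/

noncomputable section

open scoped NNReal ENNReal

namespace Vale.Agent.P078

universe u

variable {H : Type u} [NormedAddCommGroup H] [InnerProductSpace ℂ H] [CompleteSpace H]

/-- There is a central projection `e` of `M` such that `eM` carries a faithful normal semifinite
trace `τ (x* x) = ∑ᵢ ‖x (η i)‖²` and such that every positive normal functional of `M` centralised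
by `A` vanishes at `1 - e`. -/
def HasSemifiniteCentralisedPart (M : VonNeumannAlgebra H)
    (A : StarSubalgebra ℂ (H →L[ℂ] H)) : Prop :=
  ∃ e ∈ M, IsStarProjection e ∧ (∀ y ∈ M, e * y = y * e) ∧
    (∃ (I : Type u) (η : I → H),
      (∀ x ∈ M, e * x = x →
        (∑' i, (‖x (η i)‖₊ : ℝ≥0∞) ^ 2) = ∑' i, (‖star x (η i)‖₊ : ℝ≥0∞) ^ 2) ∧
      (∀ x ∈ M, e * x = x → (∀ i, x (η i) = 0) → x = 0) ∧
      (∀ p ∈ M, IsStarProjection p → e * p = p → p ≠ 0 →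
        ∃ q ∈ M, IsStarProjection q ∧ q ≠ 0 ∧ p * q = q ∧
          (∑' i, (‖q (η i)‖₊ : ℝ≥0∞) ^ 2) < ⊤)) ∧
    ∀ φ : (H →L[ℂ] H) →ₗ[ℂ] ℂ,
      (∀ y ∈ M, ∃ t : ℝ, 0 ≤ t ∧ φ (star y * y) = (t : ℂ)) →
      (∀ θ : ℝ, 0 < θ → ∃ G : Finset H, ∃ κ : ℝ, 0 < κ ∧
        ∀ y ∈ M, ‖y‖ ≤ 1 → (∀ v ∈ G, ‖y v‖ < κ) → ‖φ y‖ < θ) →
      (∀ a ∈ A, ∀ y ∈ M, φ (a * y) = φ (y * a)) → φ (1 - e) = 0

end Vale.Agent.P078
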