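import Mathlib
import Vale.Agent.P078.SplitDefs
import Vale.Agent.P078.SemiCorner
import Vale.Agent.P078.SemiMain
import Vale.Agent.P078.SingMain

/-! So-paving passes to sums of a semifinite summand and a rest without centralised functionals. -/

noncomputable section

open scoped InnerProductSpace ComplexOrder NNReal ENNReal

namespace Vale.Agent.P078.Split

universe u

open Semi

variable {H : Type u} [NormedAddCommGroup H] [InnerProductSpace ℂ H] [CompleteSpace H]
variable {M : VonNeumannAlgebra H} {A : StarSubalgebra ℂ (H →L[ℂ] H)}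

lemma compress_lift (K : Submodule ℂ H) [K.HasOrthogonalProjection] [CompleteSpace K]
    (T : K →L[ℂ] K) : compress K (lift K T) = T := by
  refine lift_injective K ?_
  rw [lift_compress, ← lift_one K, ← lift_mul, ← lift_mul, one_mul, mul_one]

/-- compression, as a linear map -/
def compressL (K : Submodule ℂ H) [K.HasOrthogonalProjection] [CompleteSpace K] :
    (H →L[ℂ] H) →ₗ[ℂ] (K →L[ℂ] K) where
  toFun := compress K
  map_add' a b := by ext v; simp [compress]
  map_smul' c a := by ext v; simp [compress]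

lemma isMASA_corner' (hA : IsMASA M A) (K : Submodule ℂ H) [K.HasOrthogonalProjection]
    [CompleteSpace K] (h : K.starProjection ∈ A) :
    IsMASA (cornerVNA K M (hA.1 h)) (cornerAlg K A h) := by
  refine ⟨fun T hT => hA.1 hT, fun S hS T hT => lift_injective K ?_, fun B hB hBc hAB => ?_⟩
  · rw [lift_mul, lift_mul, hA.2.1 _ hS _ hT]
  refine le_antisymm (fun b hb => ?_) hAB
  have key : ∀ b ∈ B, IsSelfAdjoint b → b ∈ cornerAlg K A h := by
    intro b hb hbs
    refine Bridge.mem_masa_of_commute hA (hB hb) (by rw [lift_star, hbs.star_eq]) fun a ha => ?_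
    have hP : IsStarProjection K.starProjection := isStarProjection_starProjection
    have hca : compress K a ∈ cornerAlg K A h := by
      rw [mem_cornerAlg, lift_compress]
      exact mul_mem (mul_mem h ha) h
    have e := congrArg (lift K) (hBc b hb _ (hAB hca))
    rw [lift_mul, lift_mul, lift_compress] at e
    have p1 : lift K b * K.starProjection = lift K b := by rw [← lift_one K, ← lift_mul, mul_one]
    have p2 : K.starProjection * lift K b = lift K b := by rw [← lift_one K, ← lift_mul, one_mul]
    have p3 : K.starProjection * a * K.starProjection = a * K.starProjection := by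
      rw [hA.2.1 _ h a ha, mul_assoc, hP.isIdempotentElem.eq]
    rw [p3] at e
    calc lift K b * a = lift K b * (a * K.starProjection) := by
          rw [hA.2.1 a ha _ h, ← mul_assoc, p1]
      _ = a * K.starProjection * lift K b := e
      _ = a * lift K b := by rw [mul_assoc, p2]
  have h1 : (1 / 2 : ℂ) • (b + star b) ∈ cornerAlg K A h :=
    key _ (SMulMemClass.smul_mem _ (add_mem hb (star_mem hb))) (by
      show star _ = _
      rw [star_smul, star_add, star_star, add_comm]
      norm_num)
  have h2 : (Complex.I / 2) • (star b - b) ∈ cornerAlg K A h :=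
    key _ (SMulMemClass.smul_mem _ (sub_mem (star_mem hb) hb)) (by
      show star _ = _
      rw [star_smul, star_sub, star_star, Complex.star_def, map_div₀, Complex.conj_I,
        show (starRingEnd ℂ) 2 = 2 from map_ofNat _ _, neg_div, neg_smul, ← smul_neg, neg_sub])
  have e : b = (1 / 2 : ℂ) • (b + star b) + Complex.I • ((Complex.I / 2) • (star b - b)) := by
    rw [smul_smul, show Complex.I * (Complex.I / 2) = -(1 / 2 : ℂ) by
      rw [← mul_div_assoc, Complex.I_mul_I]; norm_num, smul_add, smul_sub, neg_smul, neg_smul]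
    module
  rw [e]
  exact add_mem h1 (SMulMemClass.smul_mem _ h2)

lemma proj_mem_masa (hA : IsMASA M A) {e : H →L[ℂ] H} (heM : e ∈ M) (hep : IsStarProjection e)
    (hec : ∀ y ∈ M, e * y = y * e) : e ∈ A :=
  Bridge.mem_masa_of_commute hA heM hep.isSelfAdjoint.star_eq fun a ha => hec a (hA.1 ha)

/-- the range of a projection -/
def ran (e : H →L[ℂ] H) : Submodule ℂ H := LinearMap.ker (1 - e).toLinearMap

instance (e : H →L[ℂ] H) : CompleteSpace (ran e) :=
  (ContinuousLinearMap.isClosed_ker (1 - e)).completeSpace_coe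

lemma ran_proj {e : H →L[ℂ] H} (hep : IsStarProjection e) : (ran e).starProjection = e := by
  have hmem : ∀ v, v ∈ ran e ↔ e v = v := by
    intro v
    rw [ran, LinearMap.mem_ker]
    show v - e v = 0 ↔ _
    rw [sub_eq_zero, eq_comm]
  ext v
  refine Submodule.eq_starProjection_of_mem_of_inner_eq_zero
    ((hmem _).2 (congrArg (fun T : H →L[ℂ] H => T v) hep.isIdempotentElem.eq)) fun w hw => ?_
  have hew := (hmem w).1 hw
  rw [← hew, ← ContinuousLinearMap.adjoint_inner_left, ← ContinuousLinearMap.star_eq_adjoint,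
    hep.isSelfAdjoint.star_eq, map_sub,
    ← mul_apply_eq_comp e e v, hep.isIdempotentElem.eq, sub_self, inner_zero_left]

/-- no centralised functional on the rest -/
lemma noCentral_corner (hA : IsMASA M A) (K : Submodule ℂ H) [K.HasOrthogonalProjection]
    [CompleteSpace K] (hK : K.starProjection ∈ A)
    (hKc : ∀ y ∈ M, K.starProjection * y = y * K.starProjection)
    (hφ : ∀ φ : (H →L[ℂ] H) →ₗ[ℂ] ℂ,
      (∀ y ∈ M, ∃ t : ℝ, 0 ≤ t ∧ φ (star y * y) = (t : ℂ)) →
      (∀ θ : ℝ, 0 < θ → ∃ G : Finset H, ∃ κ : ℝ, 0 < κ ∧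
        ∀ y ∈ M, ‖y‖ ≤ 1 → (∀ v ∈ G, ‖y v‖ < κ) → ‖φ y‖ < θ) →
      (∀ a ∈ A, ∀ y ∈ M, φ (a * y) = φ (y * a)) → φ K.starProjection = 0) :
    ¬ HasCentralNormalFunctional (cornerVNA K M (hA.1 hK)) (cornerAlg K A hK) := by
  classical
  rintro ⟨ψ, h1, hpos, hcont, hcen⟩
  have hP : IsStarProjection K.starProjection := isStarProjection_starProjection
  have hmemK : ∀ y ∈ M, compress K y ∈ cornerVNA K M (hA.1 hK) := fun y hy => by
    rw [mem_cornerVNA, lift_compress]
    exact mul_mem (mul_mem (hA.1 hK) hy) (hA.1 hK)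
  have hmemA : ∀ a ∈ A, compress K a ∈ cornerAlg K A hK := fun a ha => by
    rw [mem_cornerAlg, lift_compress]
    exact mul_mem (mul_mem hK ha) hK
  have hmul : ∀ a b, b ∈ M → compress K (a * b) = compress K a * compress K b := by
    intro a b hb
    refine lift_injective K ?_
    rw [lift_mul, lift_compress, lift_compress, lift_compress]
    have hh : ∀ z, K.starProjection * (K.starProjection * z) = K.starProjection * z := fun z => by
      rw [← mul_assoc, hP.isIdempotentElem.eq]
    simp only [mul_assoc, hh]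
    rw [← hKc b hb, hh]
  have hstar : ∀ y, star (compress K y) = compress K (star y) := fun y => by
    refine lift_injective K ?_
    rw [← lift_star, lift_compress, lift_compress, star_mul, star_mul, hP.isSelfAdjoint.star_eq,
      mul_assoc]
  have key := hφ (ψ ∘ₗ compressL K) (fun y hy => ?_) (fun θ hθ => ?_) fun a ha y hy => ?_
  · refine h1 ?_
    change ψ (compress K K.starProjection) = 0 at key
    rwa [← lift_one K, compress_lift] at key
  · obtain ⟨t, ht, e⟩ := hpos _ (hmemK y hy)
    refine ⟨t, ht, ?_⟩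
    show ψ (compress K (star y * y)) = _
    rwa [hmul _ _ hy, ← hstar]
  · obtain ⟨G, κ, hκ, hG⟩ := hcont θ hθ
    refine ⟨G.image fun v : K => (v : H), κ, hκ, fun y hy hy1 hv => ?_⟩
    refine hG _ (hmemK y hy) ((norm_compress_le K y).trans hy1) fun v hvG => ?_
    exact lt_of_le_of_lt (K.norm_orthogonalProjectionOnto_apply_le _)
      (hv _ (Finset.mem_image_of_mem _ hvG))
  · show ψ (compress K (a * y)) = ψ (compress K (y * a))
    rw [hmul _ _ hy, hmul _ _ (hA.1 ha)]
    exact hcen _ (hmemA a ha) _ (hmemK y hy)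

/-- the semifinite summand -/
lemma semifinite_corner (K : Submodule ℂ H) [K.HasOrthogonalProjection] [CompleteSpace K]
    (h : K.starProjection ∈ M.toStarSubalgebra) {I : Type u} (η : I → H)
    (hs : ∀ x ∈ M, K.starProjection * x = x →
      (∑' i, (‖x (η i)‖₊ : ℝ≥0∞) ^ 2) = ∑' i, (‖star x (η i)‖₊ : ℝ≥0∞) ^ 2)
    (hf : ∀ x ∈ M, K.starProjection * x = x → (∀ i, x (η i) = 0) → x = 0)
    (hq : ∀ p ∈ M, IsStarProjection p → K.starProjection * p = p → p ≠ 0 →
      ∃ q ∈ M, IsStarProjection q ∧ q ≠ 0 ∧ p * q = q ∧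
        (∑' i, (‖q (η i)‖₊ : ℝ≥0∞) ^ 2) < ⊤) :
    HasFaithfulNormalSemifiniteTrace (cornerVNA K M h) := by
  have hle : ∀ T : K →L[ℂ] K, K.starProjection * lift K T = lift K T := fun T => by
    rw [← lift_one K, ← lift_mul, one_mul]
  have hn : ∀ (T : K →L[ℂ] K) i,
      ‖T (K.orthogonalProjectionOnto (η i))‖₊ = ‖lift K T (η i)‖₊ := fun T i => rfl
  refine ⟨I, fun i => K.orthogonalProjectionOnto (η i), fun x hx => ?_, fun x hx h0 => ?_,
    fun p hp hpp hp0 => ?_⟩
  · simp only [hn]
    rw [hs _ hx (hle x), lift_star]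
  · refine lift_injective K ?_
    rw [lift_zero]
    refine hf _ hx (hle x) fun i => ?_
    rw [lift_apply, h0 i, ZeroMemClass.coe_zero]
  · have hlp : IsStarProjection (lift K p) :=
      ⟨by rw [IsIdempotentElem, ← lift_mul, hpp.isIdempotentElem.eq],
        show star (lift K p) = lift K p by rw [lift_star, hpp.isSelfAdjoint.star_eq]⟩
    have hne : lift K p ≠ 0 := fun h0 => hp0 (lift_injective K (by rw [h0, lift_zero]))
    obtain ⟨q, hqM, hqp, hq0, hpq, hfin⟩ := hq _ hp hlp (hle p) hne
    have hKq : K.starProjection * q = q := by rw [← hpq, ← mul_assoc, hle]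
    have hqK : q * K.starProjection = q := by
      have := congrArg star hKq
      rwa [star_mul, hqp.isSelfAdjoint.star_eq,
        (isStarProjection_starProjection (U := K)).isSelfAdjoint.star_eq] at this
    have hlc : lift K (compress K q) = q := by rw [lift_compress, hKq, hqK]
    refine ⟨compress K q, by rw [mem_cornerVNA, hlc]; exact hqM,
      ⟨lift_injective K (by rw [lift_mul, hlc, hqp.isIdempotentElem.eq]),
        show star (compress K q) = compress K q from lift_injective K (by
          rw [← lift_star, hlc, hqp.isSelfAdjoint.star_eq])⟩,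
      fun h0 => hq0 (by rw [← hlc, h0, lift_zero]),
      lift_injective K (by rw [lift_mul, hlc, hpq]), ?_⟩
    simp only [hn, hlc]
    exact hfin

/-- gluing two central summands -/
theorem soPavable_sum (hA : IsMASA M A) {e : H →L[ℂ] H} (hep : IsStarProjection e)
    (heA : e ∈ A) (hec : ∀ y ∈ M, e * y = y * e) (K L : Submodule ℂ H)
    [K.HasOrthogonalProjection] [CompleteSpace K] [L.HasOrthogonalProjection] [CompleteSpace L]
    (hK : K.starProjection = e) (hL : L.starProjection = 1 - e) (hKA : K.starProjection ∈ A)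
    (hLA : L.starProjection ∈ A) {x : H →L[ℂ] H} (hxM : x ∈ M) {ε : ℝ} (hε : 0 ≤ ε) {r : ℕ}
    (h₁ : SoPavable (cornerVNA K M (hA.1 hKA)) (cornerAlg K A hKA) (compress K x) ε r)
    (h₂ : SoPavable (cornerVNA L M (hA.1 hLA)) (cornerAlg L A hLA) (compress L x) ε r) :
    SoPavable M A x ε r := by
  classical
  intro F δ hδ
  obtain ⟨p, hp, hporth, hpsum, a, haA, has, han, q, hqM, hqp, hqF, hb⟩ :=
    h₁ (F.image fun v => K.orthogonalProjectionOnto v) (δ / 2) (half_pos hδ)
  obtain ⟨p', hp', hporth', hpsum', a', haA', has', han', q', hqM', hqp', hqF', hb'⟩ :=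
    h₂ (F.image fun v => L.orthogonalProjectionOnto v) (δ / 2) (half_pos hδ)
  have hKL : K.starProjection * L.starProjection = 0 := by
    rw [hK, hL, mul_sub, mul_one, hep.isIdempotentElem.eq, sub_self]
  have hLK : L.starProjection * K.starProjection = 0 := by
    rw [hK, hL, sub_mul, one_mul, hep.isIdempotentElem.eq, sub_self]
  have z1 : ∀ S T, lift K S * lift L T = 0 := fun S T => by
    rw [← mul_one S, lift_mul, lift_one, ← one_mul T, lift_mul L, lift_one, mul_assoc,
      ← mul_assoc K.starProjection, hKL, zero_mul, mul_zero]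
  have z2 : ∀ S T, lift L S * lift K T = 0 := fun S T => by
    rw [← mul_one S, lift_mul, lift_one, ← one_mul T, lift_mul K, lift_one, mul_assoc,
      ← mul_assoc L.starProjection, hLK, zero_mul, mul_zero]
  have hmul : ∀ S T S' T', (lift K S + lift L S') * (lift K T + lift L T') =
      lift K (S * T) + lift L (S' * T') := fun S T S' T' => by
    rw [add_mul, mul_add, mul_add, z1, z2, add_zero, zero_add, lift_mul, lift_mul]
  have hproj : ∀ S S', IsStarProjection S → IsStarProjection S' →
      IsStarProjection (lift K S + lift L S') := fun S S' hS hS' =>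
    ⟨by rw [IsIdempotentElem, hmul, hS.isIdempotentElem.eq, hS'.isIdempotentElem.eq],
      show star _ = _ by rw [star_add, lift_star, lift_star, hS.isSelfAdjoint.star_eq,
        hS'.isSelfAdjoint.star_eq]⟩
  have hnorm : ∀ (S : K →L[ℂ] K) (S' : L →L[ℂ] L) {t : ℝ}, ‖S‖ ≤ t → ‖S'‖ ≤ t →
      ‖lift K S + lift L S'‖ ≤ t := by
    intro S S' t h h'
    refine Semi.Ctx.norm_add_orth_le hep hep.one_sub ?_ ?_ ?_ ?_ ?_
      ((norm_lift_le K S).trans h) ((norm_lift_le L S').trans h')
    · rw [mul_sub, mul_one, hep.isIdempotentElem.eq, sub_self]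
    · rw [← hK, ← lift_one K, ← lift_mul, one_mul]
    · rw [← hK, ← lift_one K, ← lift_mul, mul_one]
    · rw [← hL, ← lift_one L, ← lift_mul, one_mul]
    · rw [← hL, ← lift_one L, ← lift_mul, mul_one]
  have hx : x = lift K (compress K x) + lift L (compress L x) := by
    rw [lift_compress, lift_compress, hK, hL]
    have h1 : e * x * (1 - e) = 0 := by
      rw [hec x hxM, mul_assoc, mul_sub, mul_one, hep.isIdempotentElem.eq, sub_self, mul_zero]
    have h2 : (1 - e) * x * e = 0 := by
      rw [mul_assoc, ← hec x hxM, ← mul_assoc, sub_mul, one_mul, hep.isIdempotentElem.eq, sub_self,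
        zero_mul]
    calc x = e * x * e + e * x * (1 - e) + ((1 - e) * x * e + (1 - e) * x * (1 - e)) := by
          noncomm_ring
      _ = _ := by rw [h1, h2, add_zero, zero_add]
  refine ⟨fun i => lift K (p i) + lift L (p' i), fun i => ⟨add_mem (hp i).1 (hp' i).1,
    hproj _ _ (hp i).2 (hp' i).2⟩, fun i j hij => ?_, ?_, lift K a + lift L a',
    add_mem haA haA', ?_, hnorm a a' (han.trans (norm_compress_le K x))
      (han'.trans (norm_compress_le L x)), lift K q + lift L q', add_mem hqM hqM',
    hproj _ _ hqp hqp', fun ξ hξ => ?_, ?_⟩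
  · rw [hmul, hporth i j hij, hporth' i j hij, lift_zero, lift_zero, add_zero]
  · rw [Finset.sum_add_distrib, ← lift_sum, ← lift_sum, hpsum, hpsum', lift_one, lift_one, hK, hL,
      add_sub_cancel]
  · show star _ = _
    rw [star_add, lift_star, lift_star, has.star_eq, has'.star_eq]
  · have e1 : (1 : H →L[ℂ] H) - (lift K q + lift L q') = lift K (1 - q) + lift L (1 - q') := by
      rw [lift_sub, lift_sub, lift_one, lift_one, hK, hL]
      abel
    rw [e1, add_apply]
    refine (norm_add_le _ _).trans_lt ?_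
    rw [lift_apply, lift_apply, Submodule.norm_coe, Submodule.norm_coe]
    linarith [hqF _ (Finset.mem_image_of_mem _ hξ), hqF' _ (Finset.mem_image_of_mem _ hξ)]
  · have e2 : ∀ i, (lift K (p i) + lift L (p' i)) * x * (lift K (p i) + lift L (p' i)) =
        lift K (p i * compress K x * p i) + lift L (p' i * compress L x * p' i) := fun i => by
      conv_lhs => rw [hx]
      rw [hmul, hmul]
    simp only [e2]
    rw [Finset.sum_add_distrib, ← lift_sum, ← lift_sum, add_sub_add_comm, ← lift_sub, ← lift_sub,
      hmul, hmul]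
    exact hnorm _ _ (hb.trans (mul_le_mul_of_nonneg_left (norm_compress_le K x) hε))
      (hb'.trans (mul_le_mul_of_nonneg_left (norm_compress_le L x) hε))

lemma compress_sa (K : Submodule ℂ H) [K.HasOrthogonalProjection] [CompleteSpace K]
    {x : H →L[ℂ] H} (hx : IsSelfAdjoint x) : IsSelfAdjoint (compress K x) := by
  show star _ = _
  refine lift_injective K ?_
  rw [← lift_star, lift_compress, star_mul, star_mul, hx.star_eq,
    (isStarProjection_starProjection (U := K)).isSelfAdjoint.star_eq, mul_assoc]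

end Vale.Agent.P078.Split

open Vale.Agent.P078 Vale.Agent.P078.Semi in
/-- So-paving passes from tracial algebras to all inclusions with semifinite centralised part. -/
theorem Vale.Agent.P078.soPavable_split.{u} {ε : ℝ} {r₀ r : ℕ} (hε : 0 < ε) (hr₀ : r₀ ≤ r)
    (hr : 16 / ε ≤ (r : ℝ))
    (hfin : ∀ (K : Type u) [NormedAddCommGroup K] [InnerProductSpace ℂ K] [CompleteSpace K]
      (N : VonNeumannAlgebra K) (B : StarSubalgebra ℂ (K →L[ℂ] K)),
      HasFaithfulNormalTracialState N → IsMASA N B →
        ∀ y ∈ N, IsSelfAdjoint y → SoPavable N B y (ε / 2) r₀)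
    {H : Type u} [NormedAddCommGroup H] [InnerProductSpace ℂ H] [CompleteSpace H]
    (M : VonNeumannAlgebra H) (A : StarSubalgebra ℂ (H →L[ℂ] H))
    (hM : HasSemifiniteCentralisedPart M A) (hA : IsMASA M A)
    (x : H →L[ℂ] H) (hxM : x ∈ M) (hx : IsSelfAdjoint x) : SoPavable M A x ε r := by
  obtain ⟨e, heM, hep, hec, ⟨I, η, hs, hf, hq⟩, hφ⟩ := hM
  have heA : e ∈ A := Split.proj_mem_masa hA heM hep hec
  have hK : (Split.ran e).starProjection = e := Split.ran_proj hep
  have hL : (Split.ran (1 - e)).starProjection = 1 - e := Split.ran_proj hep.one_sub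
  have hKA : (Split.ran e).starProjection ∈ A := by rw [hK]; exact heA
  have hLA : (Split.ran (1 - e)).starProjection ∈ A := by
    rw [hL]; exact sub_mem (one_mem A) heA
  have hmem : ∀ (K : Submodule ℂ H) [K.HasOrthogonalProjection] [CompleteSpace K]
      (h : K.starProjection ∈ A), compress K x ∈ cornerVNA K M (hA.1 h) := fun K _ _ h => by
    rw [mem_cornerVNA, lift_compress]
    exact mul_mem (mul_mem (hA.1 h) hxM) (hA.1 h)
  refine Split.soPavable_sum hA hep heA hec _ _ hK hL hKA hLA hxM hε.le ?_ ?_
  · refine soPavable_semifinite hε hr₀ hr hfin _ _ ?_ (Split.isMASA_corner' hA _ hKA) _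
      (hmem _ hKA) (Split.compress_sa _ hx)
    refine Split.semifinite_corner _ _ η ?_ ?_ ?_
    · rw [hK]; exact hs
    · rw [hK]; exact hf
    · rw [hK]; exact hq
  · refine Sing.soPavable_of_noCentral (Split.isMASA_corner' hA _ hLA)
      (Split.noCentral_corner hA _ hLA (fun y hy => ?_) ?_) (hmem _ hLA) (Split.compress_sa _ hx)
      hε (le_trans (by gcongr; norm_num) hr)
    · rw [hL, sub_mul, one_mul, mul_sub, mul_one, hec y hy]
    · rw [hL]; exact hφ
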