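import Mathlib
import Vale.Agent.P078.Expect
import Vale.Agent.P078.Profile

/-! States, potential and step specification of the two-sided walk. -/

noncomputable section

set_option linter.unusedSectionVars false

namespace Vale.Agent.P078

universe u v

variable {M : Type u} [CStarAlgebra M] [PartialOrder M] [StarOrderedRing M]
  {Ω : Type v} [TopologicalSpace Ω] [CompactSpace Ω] [T2Space Ω]

namespace Two

/-- the shift of the barrier -/
def mOf (ε x : ℝ) : ℝ := 1 / (1 + ε - x)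

/-- the rescaled variable -/
def spOf (ε x : ℝ) : ℝ := ε * x * mOf ε x

/-- its derivative -/
def e1Of (ε x : ℝ) : ℝ := ε * (1 + ε) * mOf ε x ^ 2

/-- the profile replacing the identity -/
def psi (ε x : ℝ) : ℝ := 4 * x - 3 * spOf ε x + spOf ε x ^ 2 / 2

/-- its derivative -/
def dpsi (ε x : ℝ) : ℝ := 4 - 3 * e1Of ε x + spOf ε x * e1Of ε x

/-- half its second derivative -/
def hpsi (ε x : ℝ) : ℝ := mOf ε x * e1Of ε x * (spOf ε x - 3) + e1Of ε x ^ 2 / 2

/-- the profile of the barrier -/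
def phi (x : ℝ) : ℝ := 2 * x * (1 - x)

/-- its derivative -/
def dphi (x : ℝ) : ℝ := 2 * (1 - 2 * x)

/-- `psi`, made continuous everywhere -/
def psiC (ε x : ℝ) : ℝ := psi ε (min x 1)

lemma continuous_psiC {ε : ℝ} (hε : 0 < ε) : Continuous (psiC ε) := by
  have h : Continuous fun x : ℝ => mOf ε (min x 1) := by
    unfold mOf
    refine continuous_const.div (by fun_prop) fun x => ?_
    have := min_le_right x (1 : ℝ)
    linarith
  unfold psiC psi spOf
  fun_prop

/-- the target value of the constraint -/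
def L : ℝ := 61

/-- the weight of the trace of the channels in the potential -/
def C1 (ε : ℝ) : ℝ := 4 / ε ^ 6

/-- the budget of the potential -/
def K₀ (ε : ℝ) (r : ℕ) : ℝ := r * (C1 ε + 12)

end Two

/-- the parameters of the two-sided walk -/
structure TParams where
  ε : ℝ
  r : ℕ

/-- small parameters of the two-sided walk -/
structure TSmalls where
  μ : ℝ
  γ : ℝ
  A : ℝ
  ς : ℝ

/-- a state of the two-sided walk -/
structure TSt (M : Type u) (Ω : Type v) [TopologicalSpace Ω] (r : ℕ) where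
  sig : Fin r → C(Ω, ℝ)
  R : Fin r → Bool → M
  live : C(Ω, ℝ)

/-- composition with the profile of the barrier -/
def cphi2 (σ : C(Ω, ℝ)) : C(Ω, ℝ) :=
  ⟨fun ω => Two.phi (σ ω), by unfold Two.phi; fun_prop⟩

/-- composition with the profile of the channel -/
def cpsi2 (ε : ℝ) (σ : C(Ω, ℝ)) : C(Ω, ℝ) :=
  ⟨fun ω => if h : 0 < ε then Two.psiC ε (σ ω) else 0, by
    by_cases h : 0 < ε
    · simpa [h, Function.comp_def] using (Two.continuous_psiC h).comp σ.continuous
    · simpa [h] using continuous_const⟩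

/-- composition with the Huber function -/
def chub2 (f : C(Ω, ℝ)) : C(Ω, ℝ) :=
  ⟨fun ω => Profile.hub (f ω), by unfold Profile.hub; fun_prop⟩

namespace TMasa

variable (T : TMasa M Ω) (P : TParams) (x : M)

/-- the two positive operators `(1 ± x)/2` -/
def ypm (x : M) (s : Bool) : M := (1 / 2 : ℝ) • (if s then 1 + x else 1 - x)

/-- their square roots -/
def vpm (x : M) (s : Bool) : M := CFC.sqrt (ypm x s)

/-- the shifted operator of a channel and a sign -/
def Zop2 (st : TSt M Ω P.r) (i : Fin P.r) (s : Bool) : M :=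
  ((1 + P.ε) / 2) • (1 : M) - vpm x s * T.emb (st.sig i) * vpm x s + st.R i s

/-- its inverse -/
def Gop2 (st : TSt M Ω P.r) (i : Fin P.r) (s : Bool) : M :=
  cfc (fun u : ℝ => u⁻¹) (T.Zop2 P x st i s)

/-- the barrier of a channel and a sign -/
def aval2 (st : TSt M Ω P.r) (i : Fin P.r) (s : Bool) : C(Ω, ℝ) :=
  T.E (vpm x s * T.Gop2 P x st i s * vpm x s)

/-- the constraint function -/
def Fval2 (st : TSt M Ω P.r) : C(Ω, ℝ) :=
  ∑ i, (cpsi2 P.ε (st.sig i) - cphi2 (st.sig i) * (T.aval2 P x st i true + T.aval2 P x st i false))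

/-- the potential -/
def Wpot2 (S : TSmalls) (st : TSt M Ω P.r) : ℝ :=
  T.tau (st.live * chub2 (ContinuousMap.const Ω Two.L - T.Fval2 P x st))
    + S.μ * Two.C1 P.ε * (∑ i, T.tau (st.sig i))
    + S.μ * (∑ i, (T.tr (T.Gop2 P x st i true) + T.tr (T.Gop2 P x st i false)))
    + S.A * S.μ * (∑ i, (T.n2 (st.R i true) ^ 2 + T.n2 (st.R i false) ^ 2))
    + S.ς * (∑ i, T.tau (T.pos (st.sig i)))

/-- the invariant -/
structure TStInv (S : TSmalls) (st : TSt M Ω P.r) : Prop where
  live_idem : st.live * st.live = st.live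
  sig_nonneg : ∀ i, 0 ≤ st.sig i
  sig_le : ∀ i ω, st.sig i ω ≤ 1 - 2 * P.ε
  assigned : ∀ ω, st.live ω = 0 → ∃ i, st.sig i ω = 1 - 2 * P.ε ∧ ∀ j, j ≠ i → st.sig j ω = 0
  R_sa : ∀ i s, IsSelfAdjoint (st.R i s)
  gap : ∀ i s, S.γ • (1 : M) ≤ T.Zop2 P x st i s

/-- The one-step property: small parameters exist which make the potential strictly decrease. -/
def TStepSpec : Prop :=
  ∀ ηf A₀ : ℝ, 0 < ηf →
    ∃ (S : TSmalls) (c₀ : ℝ), 0 < S.μ ∧ S.μ ≤ 1 ∧ 0 < S.γ ∧ S.γ ≤ 1 / 4 ∧ A₀ ≤ S.A ∧ 0 < S.A ∧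
      0 < S.ς ∧ S.ς ≤ S.μ ∧ 0 < c₀ ∧
      ∀ st : TSt M Ω P.r, T.TStInv P x S st →
        T.Wpot2 P x S st ≤ S.μ * Two.K₀ P.ε P.r → ηf ≤ T.tau st.live →
          ∃ st' : TSt M Ω P.r, T.TStInv P x S st' ∧
            T.Wpot2 P x S st' ≤ T.Wpot2 P x S st - c₀

end TMasa

end Vale.Agent.P078
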