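import Mathlib
import Vale.Agent.P078.Upper
import Vale.Agent.P078.TwoStage
import Vale.Agent.P078.TwoState

/-! Paving with a number of pieces of order `ε⁻²` from the one-step property of the two-sided
walk: start, iteration, end. -/

noncomputable section

open scoped ComplexOrder

set_option linter.unusedSectionVars false

namespace Vale.Agent.P078

universe u v

variable {M : Type u} [CStarAlgebra M] [PartialOrder M] [StarOrderedRing M]
  {Ω : Type v} [TopologicalSpace Ω] [CompactSpace Ω] [T2Space Ω]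

namespace Two

lemma start_ge {ε : ℝ} (hε : 0 < ε) (hε1 : ε ≤ 1 / 16) :
    ε ^ 2 / 20 ≤ psi ε (ε / 8) - phi (ε / 8) * (1 / ((1 + ε) / 2 - ε / 8)) := by
  have h1 : (0 : ℝ) < 1 + ε - ε / 8 := by linarith
  have h2 : (0 : ℝ) < (1 + ε) / 2 - ε / 8 := by linarith
  have e1 : 4 * (ε / 8) - phi (ε / 8) * (1 / ((1 + ε) / 2 - ε / 8)) =
      7 / 16 * ε ^ 2 / (1 + 3 / 4 * ε) := by
    have h3 : (1 + ε) / 2 - ε / 8 = (1 + 3 / 4 * ε) / 2 := by ring
    have h4 : (1 + 3 / 4 * ε) ≠ 0 := by positivity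
    rw [h3, phi]; field_simp; ring
  have e2 : 3 * spOf ε (ε / 8) = 3 / 8 * ε ^ 2 / (1 + 7 / 8 * ε) := by
    have h3 : 1 + ε - ε / 8 = 1 + 7 / 8 * ε := by ring
    rw [spOf, mOf, h3]; field_simp
  have e3 : ε ^ 2 / 20 + 3 / 8 * ε ^ 2 / (1 + 7 / 8 * ε) ≤ 7 / 16 * ε ^ 2 / (1 + 3 / 4 * ε) := by
    rw [div_add_div _ _ (by norm_num) (by positivity),
      div_le_div_iff₀ (by positivity) (by positivity)]
    nlinarith [pow_pos hε 2, mul_le_mul_of_nonneg_left hε1 (sq_nonneg ε),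
      mul_le_mul_of_nonneg_left hε1 (pow_pos hε 3).le]
  unfold psi
  linarith [sq_nonneg (spOf ε (ε / 8))]

end Two

/-- the number of pieces of the two-sided walk -/
def twoPieces (ε : ℝ) : ℕ := ⌈312320 / ε ^ 2⌉₊

lemma twoPieces_le {ε : ℝ} (h0 : 0 < ε) (h1 : ε < 1) : (twoPieces ε : ℝ) ≤ 312321 / ε ^ 2 := by
  refine (Nat.ceil_lt_add_one (by positivity)).le.trans ?_
  rw [div_add_one (by positivity)]
  gcongr
  nlinarith

namespace TMasa

variable {T : TMasa M Ω} {P : TParams} {x : M}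

lemma ypm_facts (hx : IsSelfAdjoint x) (hx1 : ‖x‖ ≤ 1) (s : Bool) :
    0 ≤ ypm x s ∧ ypm x s ≤ 1 := by
  have h1 : x ≤ 1 := le_one_of_norm_le_one hx hx1
  have h2 : -x ≤ 1 := le_one_of_norm_le_one hx.neg (by rwa [norm_neg])
  have a1 : 0 ≤ 1 + x := by simpa using sub_nonneg.2 h2
  have a2 : 0 ≤ 1 - x := sub_nonneg.2 h1
  have key : ∀ u w : M, 0 ≤ u → 0 ≤ w → u + w = (2 : ℝ) • (1 : M) →
      0 ≤ (1 / 2 : ℝ) • u ∧ (1 / 2 : ℝ) • u ≤ 1 := by
    intro u w hu hw e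
    refine ⟨smul_nonneg (by norm_num) hu, ?_⟩
    have h := smul_le_smul_of_nonneg_left (e ▸ le_add_of_nonneg_right hw : u ≤ (2 : ℝ) • (1 : M))
      (show (0 : ℝ) ≤ 1 / 2 by norm_num)
    rw [smul_smul] at h
    norm_num at h ⊢
    exact h
  have e : (1 + x) + (1 - x) = (2 : ℝ) • (1 : M) := by rw [two_smul]; abel
  cases s
  · exact key _ _ a2 a1 (by rw [add_comm]; exact e)
  · exact key _ _ a1 a2 e

lemma Wpot2_parts {S : TSmalls} (hε : 0 < P.ε) (hμ : 0 ≤ S.μ) (hγ : 0 < S.γ) (hA : 0 ≤ S.A)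
    (hς : 0 ≤ S.ς) {st : TSt M Ω P.r} (hst : T.TStInv P x S st) :
    0 ≤ T.Wpot2 P x S st ∧
      S.A * S.μ * (∑ i, (T.n2 (st.R i true) ^ 2 + T.n2 (st.R i false) ^ 2)) ≤
        T.Wpot2 P x S st := by
  have h1 : 0 ≤ T.tau (st.live * chub2 (ContinuousMap.const Ω Two.L - T.Fval2 P x st)) :=
    T.tau_nonneg fun ω => mul_nonneg (idem_nonneg hst.live_idem ω) (Profile.hub_nonneg _)
  have hC : 0 ≤ Two.C1 P.ε := by unfold Two.C1; positivity
  have h2 : 0 ≤ S.μ * Two.C1 P.ε * (∑ i, T.tau (st.sig i)) :=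
    mul_nonneg (mul_nonneg hμ hC) (Finset.sum_nonneg fun i _ => T.tau_nonneg (hst.sig_nonneg i))
  have h3 : 0 ≤ S.μ * (∑ i, (T.tr (T.Gop2 P x st i true) + T.tr (T.Gop2 P x st i false))) :=
    mul_nonneg hμ (Finset.sum_nonneg fun i _ => add_nonneg
      (T.tr_nonneg (Res.res_nonneg hγ (hst.gap i true)))
      (T.tr_nonneg (Res.res_nonneg hγ (hst.gap i false))))
  have h4 : 0 ≤ S.A * S.μ * (∑ i, (T.n2 (st.R i true) ^ 2 + T.n2 (st.R i false) ^ 2)) :=
    mul_nonneg (mul_nonneg hA hμ) (Finset.sum_nonneg fun i _ => by positivity)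
  have h5 : 0 ≤ S.ς * (∑ i, T.tau (T.pos (st.sig i))) :=
    mul_nonneg hς (Finset.sum_nonneg fun i _ => T.tau_nonneg (idem_nonneg (T.pos_mul_self _)))
  rw [Wpot2]
  exact ⟨by linarith, by linarith⟩

/-- iteration of the step -/
lemma exists_end2 {S : TSmalls} (hε : 0 < P.ε) (hμ : 0 ≤ S.μ) (hγ : 0 < S.γ) (hA : 0 ≤ S.A)
    (hς : 0 ≤ S.ς) {B c₀ ηf : ℝ} (hc₀ : 0 < c₀)
    (hstep : ∀ st : TSt M Ω P.r, T.TStInv P x S st → T.Wpot2 P x S st ≤ B → ηf ≤ T.tau st.live →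
      ∃ st' : TSt M Ω P.r, T.TStInv P x S st' ∧ T.Wpot2 P x S st' ≤ T.Wpot2 P x S st - c₀)
    {st₀ : TSt M Ω P.r} (h₀ : T.TStInv P x S st₀) (hW₀ : T.Wpot2 P x S st₀ ≤ B) :
    ∃ st : TSt M Ω P.r, T.TStInv P x S st ∧ T.Wpot2 P x S st ≤ B ∧ T.tau st.live < ηf := by
  by_contra hne
  push Not at hne
  have key : ∀ n : ℕ, ∃ st : TSt M Ω P.r, T.TStInv P x S st ∧
      T.Wpot2 P x S st ≤ B - n * c₀ := by
    intro n
    induction n with
    | zero => exact ⟨st₀, h₀, by simpa using hW₀⟩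
    | succ n ih =>
      obtain ⟨st, hst, hW⟩ := ih
      have hB : T.Wpot2 P x S st ≤ B := hW.trans (by
        have : 0 ≤ (n : ℝ) * c₀ := by positivity
        linarith)
      obtain ⟨st', hst', hW'⟩ := hstep st hst hB (hne st hst hB)
      refine ⟨st', hst', ?_⟩
      push_cast
      linarith
  obtain ⟨n, hn⟩ := exists_nat_gt (B / c₀)
  obtain ⟨st, hst, hW⟩ := key n
  have h := (Wpot2_parts hε hμ hγ hA hς hst).1
  rw [div_lt_iff₀ hc₀] at hn
  linarith

variable (T) in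
/-- the start of the two-sided walk -/
lemma exists_start2 {ε : ℝ} {r : ℕ} (hε : 0 < ε) (hε1 : ε ≤ 1 / 16)
    (hr : Two.L ≤ r * (ε ^ 2 / 20)) (hx : IsSelfAdjoint x) (hx1 : ‖x‖ ≤ 1) {μ γ A ς : ℝ}
    (hμ : 0 ≤ μ) (hγ : γ ≤ 1 / 4) (hςμ : ς ≤ μ) :
    ∃ st : TSt M Ω r, T.TStInv ⟨ε, r⟩ x ⟨μ, γ, A, ς⟩ st ∧
      T.Wpot2 ⟨ε, r⟩ x ⟨μ, γ, A, ς⟩ st ≤ μ * Two.K₀ ε r := by
  set P : TParams := ⟨ε, r⟩ with hP
  set s0 := ε / 8 with hs0
  set z := (1 + ε) / 2 with hz
  set st : TSt M Ω P.r := ⟨fun _ => ContinuousMap.const Ω s0, fun _ _ => 0, 1⟩ with hst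
  have hs00 : 0 ≤ s0 := by rw [hs0]; linarith
  have hg0 : 1 / 2 ≤ z - s0 := by rw [hz, hs0]; linarith
  have hgp : 0 < z - s0 := by linarith
  have hgap : ∀ i s, (z - s0) • (1 : M) ≤ T.Zop2 P x st i s := by
    intro i s
    obtain ⟨hy, hy1⟩ := ypm_facts hx hx1 s
    have e : T.emb (ContinuousMap.const Ω s0) = s0 • (1 : M) := by
      rw [show ContinuousMap.const Ω s0 = s0 • (1 : C(Ω, ℝ)) from by ext; simp, map_smul, map_one]
    show _ ≤ z • (1 : M) - vop (ypm x s) * T.emb (ContinuousMap.const Ω s0) * vop (ypm x s) + 0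
    rw [add_zero, e, mul_smul_comm, mul_one, smul_mul_assoc, vop_mul_self hy, sub_smul]
    exact sub_le_sub_left (smul_le_smul_of_nonneg_left hy1 hs00) _
  refine ⟨st, ⟨one_mul _, fun i ω => hs00, fun i ω => show s0 ≤ 1 - 2 * ε by rw [hs0]; linarith,
    fun ω h => absurd h one_ne_zero, fun i s => IsSelfAdjoint.zero _, fun i s =>
      le_trans (smul_le_smul_of_nonneg_right (show γ ≤ z - s0 by linarith) zero_le_one)
        (hgap i s)⟩, ?_⟩
  have hG : ∀ i s, T.tr (T.Gop2 P x st i s) ≤ 2 := by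
    intro i s
    have h := T.tr_mono (Res.res_le hgp (hgap i s))
    rw [map_smul, T.tr_one, smul_eq_mul, mul_one] at h
    refine h.trans ?_
    rw [div_le_iff₀ hgp]; linarith
  have hav : ∀ i ω, T.aval2 P x st i true ω + T.aval2 P x st i false ω ≤ 1 / (z - s0) := by
    intro i ω
    have h : ∀ s, T.aval2 P x st i s ≤ T.E ((1 / (z - s0)) • ypm x s) := fun s => by
      refine T.E_mono ?_
      have := (isSelfAdjoint_vop (ypm x s)).conjugate_le_conjugate (Res.res_le hgp (hgap i s))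
      rwa [mul_smul_comm, mul_one, smul_mul_assoc, vop_mul_self (ypm_facts hx hx1 s).1] at this
    refine (add_le_add (ContinuousMap.le_def.1 (h true) ω)
      (ContinuousMap.le_def.1 (h false) ω)).trans (le_of_eq ?_)
    rw [← ContinuousMap.add_apply, ← map_add, ← smul_add,
      show ypm x true + ypm x false = 1 by
        show (1 / 2 : ℝ) • (1 + x) + (1 / 2 : ℝ) • (1 - x) = 1
        rw [← smul_add, show (1 + x) + (1 - x) = (2 : ℝ) • (1 : M) by rw [two_smul]; abel, smul_smul]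
        norm_num,
      map_smul, T.E_one]
    simp
  have hphi : 0 ≤ Two.phi s0 :=
    mul_nonneg (by linarith) (by rw [hs0]; linarith)
  have hpsi : Two.psiC ε s0 = Two.psi ε s0 := by
    rw [Two.psiC, min_eq_left (by rw [hs0]; linarith)]
  have hhub : st.live * chub2 (ContinuousMap.const Ω Two.L - T.Fval2 P x st) = 0 := by
    ext ω
    show (1 : ℝ) * Profile.hub (Two.L - T.Fval2 P x st ω) = 0
    rw [one_mul]
    refine Profile.hub_zero_of_nonpos (sub_nonpos.2 (hr.trans ?_))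
    simp only [Fval2, ContinuousMap.sum_apply]
    calc (r : ℝ) * (ε ^ 2 / 20) = ∑ _i : Fin r, ε ^ 2 / 20 := by simp
      _ ≤ ∑ _i : Fin r, (Two.psi ε s0 - Two.phi s0 * (1 / (z - s0))) :=
          Finset.sum_le_sum fun i _ => Two.start_ge hε hε1
      _ ≤ _ := by
        refine Finset.sum_le_sum fun i _ => ?_
        show _ ≤ cpsi2 ε (st.sig i) ω - Two.phi s0 *
          (T.aval2 P x st i true ω + T.aval2 P x st i false ω)
        have : cpsi2 ε (st.sig i) ω = Two.psi ε s0 := by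
          simp only [cpsi2, ContinuousMap.coe_mk, dif_pos hε]; exact hpsi
        rw [this]
        exact sub_le_sub_left (mul_le_mul_of_nonneg_left (hav i ω) hphi) _
  have hsig : ∀ i, T.tau (st.sig i) ≤ 1 :=
    fun i => (T.tau_mono (g := 1) fun ω => show s0 ≤ 1 by linarith).trans_eq T.tau_one
  have hpos : ∀ i, T.tau (T.pos (st.sig i)) ≤ 1 := fun i =>
    (T.tau_mono (idem_le_one (T.pos_mul_self _))).trans_eq T.tau_one
  have hC : 0 ≤ Two.C1 ε := by unfold Two.C1; positivity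
  have h2 : μ * Two.C1 ε * (∑ i, T.tau (st.sig i)) ≤ μ * Two.C1 ε * r := by
    refine mul_le_mul_of_nonneg_left ((Finset.sum_le_sum fun i _ => hsig i).trans ?_)
      (mul_nonneg hμ hC)
    simp [hP]
  have h3 : μ * (∑ i, (T.tr (T.Gop2 P x st i true) + T.tr (T.Gop2 P x st i false))) ≤
      μ * (4 * r) := by
    refine mul_le_mul_of_nonneg_left
      ((Finset.sum_le_sum fun i _ => add_le_add (hG i true) (hG i false)).trans ?_) hμ
    simp [hP]
    linarith
  have h5 : ς * (∑ i, T.tau (T.pos (st.sig i))) ≤ μ * r := by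
    refine mul_le_mul hςμ ((Finset.sum_le_sum fun i _ => hpos i).trans ?_)
      (Finset.sum_nonneg fun i _ => T.tau_nonneg (idem_nonneg (T.pos_mul_self _))) hμ
    simp [hP]
  have h4 : A * μ * (∑ i, (T.n2 (st.R i true) ^ 2 + T.n2 (st.R i false) ^ 2)) = 0 := by
    simp [hst, T.n2_zero]
  rw [Wpot2, hhub, map_zero]
  show 0 + μ * Two.C1 ε * _ + μ * _ + A * μ * _ + ς * _ ≤ _
  rw [h4, Two.K₀]
  have : 0 ≤ μ * r := by positivity
  linarith

variable (T) in
/-- the pieces of a finished walk -/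
lemma exists_pieces {r : ℕ} (hr : 1 ≤ r) {a : ℝ} (ha : 0 < a) {live : C(Ω, ℝ)}
    {sig : Fin r → C(Ω, ℝ)} (hl : live * live = live) (hsig : ∀ i, 0 ≤ sig i)
    (hassigned : ∀ ω, live ω = 0 → ∃ i, sig i ω = a ∧ ∀ j, j ≠ i → sig j ω = 0) :
    ∃ p q : Fin r → C(Ω, ℝ), IsPartition p ∧ (∀ i, q i * q i = q i) ∧ (∀ i, a • q i ≤ sig i) ∧
      (∀ i, p i * q i = q i) ∧ (∑ i, T.tau (q i)) = 1 - T.tau live := by
  classical
  set q : Fin r → C(Ω, ℝ) := fun i => (1 - live) * (a⁻¹ • sig i) with hqdef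
  have hqω : ∀ i ω, live ω = 1 ∧ q i ω = 0 ∨
      live ω = 0 ∧ (sig i ω = a ∧ q i ω = 1 ∨ sig i ω = 0 ∧ q i ω = 0) := by
    intro i ω
    rcases idem_zero_or_one hl ω with h0 | h1
    · refine Or.inr ⟨h0, ?_⟩
      obtain ⟨j, hj, hj'⟩ := hassigned ω h0
      rcases eq_or_ne i j with rfl | h
      · refine Or.inl ⟨hj, ?_⟩
        show (1 - live ω) * (a⁻¹ * sig i ω) = 1
        rw [h0, hj, sub_zero, one_mul]
        exact inv_mul_cancel₀ ha.ne'
      · refine Or.inr ⟨hj' i h, ?_⟩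
        show (1 - live ω) * (a⁻¹ * sig i ω) = 0
        rw [hj' i h, mul_zero, mul_zero]
    · refine Or.inl ⟨h1, ?_⟩
      show (1 - live ω) * (a⁻¹ * sig i ω) = 0
      rw [h1, sub_self, zero_mul]
  have hqi : ∀ i, q i * q i = q i := fun i => by
    ext ω
    rw [ContinuousMap.mul_apply]
    rcases hqω i ω with ⟨-, h⟩ | ⟨-, ⟨-, h⟩ | ⟨-, h⟩⟩ <;> rw [h] <;> norm_num
  have hqσ : ∀ i, a • q i ≤ sig i := fun i => ContinuousMap.le_def.2 fun ω => by
    rw [ContinuousMap.smul_apply, smul_eq_mul]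
    rcases hqω i ω with ⟨-, h⟩ | ⟨-, ⟨h', h⟩ | ⟨-, h⟩⟩
    · rw [h, mul_zero]; exact hsig i ω
    · rw [h, h', mul_one]
    · rw [h, mul_zero]; exact hsig i ω
  have hqsum : ∀ ω, live ω + ∑ i, q i ω = 1 := by
    intro ω
    rcases idem_zero_or_one hl ω with h0 | h1
    · obtain ⟨j, hj, hj'⟩ := hassigned ω h0
      rw [Finset.sum_eq_single j]
      · rcases hqω j ω with ⟨h, -⟩ | ⟨-, ⟨-, h⟩ | ⟨h, -⟩⟩
        · rw [h0] at h; exact absurd h zero_ne_one
        · rw [h0, h]; norm_num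
        · rw [hj] at h; exact absurd h ha.ne'
      · intro i _ hi
        rcases hqω i ω with ⟨-, h⟩ | ⟨-, ⟨h', -⟩ | ⟨-, h⟩⟩
        · exact h
        · rw [hj' i hi] at h'; exact absurd h'.symm ha.ne'
        · exact h
      · simp
    · rw [h1, Finset.sum_eq_zero, add_zero]
      intro i _
      rcases hqω i ω with ⟨-, h⟩ | ⟨h, -⟩
      · exact h
      · rw [h1] at h; exact absurd h one_ne_zero
  let i₀ : Fin r := ⟨0, hr⟩
  refine ⟨fun i => q i + if i = i₀ then live else 0, q, ?_, hqi, hqσ, fun i => ?_, ?_⟩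
  · refine ⟨fun i => ?_, fun i j hij => ?_, ?_⟩
    · ext ω
      simp only [ContinuousMap.mul_apply, ContinuousMap.add_apply]
      rcases hqω i ω with ⟨hl, h⟩ | ⟨hl, ⟨-, h⟩ | ⟨-, h⟩⟩ <;> split_ifs <;> simp [h, hl]
    · ext ω
      simp only [ContinuousMap.mul_apply, ContinuousMap.add_apply, ContinuousMap.zero_apply]
      have hnn : ∀ k, 0 ≤ q k ω := fun k => idem_nonneg (hqi k) ω
      have hpair : q i ω + q j ω ≤ ∑ k, q k ω := by
        rw [← Finset.sum_pair (f := fun k => q k ω) hij]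
        exact Finset.sum_le_sum_of_subset_of_nonneg (Finset.subset_univ _) fun k _ _ => hnn k
      have hl0 : 0 ≤ live ω := idem_nonneg hl ω
      have hlq : ∀ k, live ω * q k ω = 0 := fun k => by
        rcases hqω k ω with ⟨-, h⟩ | ⟨h, -⟩ <;> simp [h]
      have hqq0 : q i ω * q j ω = 0 := by
        rcases idem_zero_or_one (hqi i) ω with h | h
        · rw [h, zero_mul]
        · rcases idem_zero_or_one (hqi j) ω with h' | h'
          · rw [h', mul_zero]
          · linarith [hqsum ω]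
      split_ifs with hi hj hj
      · exact absurd (hi.trans hj.symm) hij
      · simp only [ContinuousMap.zero_apply, add_zero]
        linear_combination hqq0 + hlq j
      · simp only [ContinuousMap.zero_apply, add_zero]
        linear_combination hqq0 + hlq i
      · simp only [ContinuousMap.zero_apply, add_zero]
        exact hqq0
    · ext ω
      simp only [ContinuousMap.sum_apply, ContinuousMap.add_apply, ContinuousMap.one_apply]
      have e : ∀ i, (if i = i₀ then live else 0) ω = if i = i₀ then live ω else 0 :=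
        fun i => by split_ifs <;> rfl
      simp only [Finset.sum_add_distrib, e, Finset.sum_ite_eq', Finset.mem_univ, if_true]
      linarith [hqsum ω]
  · have hlq : live * q i = 0 := by
      ext ω
      rw [ContinuousMap.mul_apply]
      rcases hqω i ω with ⟨-, h⟩ | ⟨h, -⟩ <;> simp [h]
    beta_reduce
    split_ifs <;> simp [add_mul, hqi i, hlq]
  · have e1 : live + ∑ i, q i = 1 := by
      ext ω
      simpa [ContinuousMap.sum_apply] using hqsum ω
    have := congrArg T.tau e1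
    rw [map_add, map_sum, T.tau_one] at this
    linarith

variable (T) in
/-- both signs are cut by one projection -/
lemma two_sided_cut {ε d δ : ℝ} {r : ℕ} (hε : 0 < ε) (hx : IsSelfAdjoint x) (hx1 : ‖x‖ ≤ 1)
    (hd0 : 0 ≤ d) (hd : 32 * (r : ℝ) ^ 2 * d ≤ ε ^ 2 * δ) {p : Fin r → C(Ω, ℝ)} (hp : IsPartition p)
    {e : Fin r → Bool → M} (he : ∀ s i, IsStarProjection (e i s) ∧ T.emb (p i) * e i s = e i s)
    (htr : ∀ s, 1 - d ≤ ∑ i, T.tr (e i s))
    (hκ : ∀ i s, e i s * ypm x s * e i s ≤ (1 / 2 + 2 * ε) • e i s) :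
    ∃ q : M, IsStarProjection q ∧ T.tr (1 - q) ≤ δ ∧
      ‖q * (∑ i, T.emb (p i) * x * T.emb (p i)) * q‖ ≤ 5 * ε := by
  set G := fun s => ∑ i, e i s * ypm x s * e i s with hG
  set Yp := fun s => ∑ i, T.emb (p i) * ypm x s * T.emb (p i) with hYp
  have hysa : ∀ s, IsSelfAdjoint (ypm x s) := fun s => .of_nonneg (ypm_facts hx hx1 s).1
  have hGle : ∀ s, G s ≤ (1 / 2 + 2 * ε) • (1 : M) := fun s => by
    refine (Finset.sum_le_sum fun i _ => hκ i s).trans ?_
    rw [← Finset.smul_sum]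
    exact smul_le_smul_of_nonneg_left (T.sum_le_one hp (he s)) (by linarith)
  have hdist : ∀ s, T.n2 ((2 : ℝ) • (Yp s - G s)) ≤ 4 * r * Real.sqrt d := fun s => by
    have h := T.n2_piece_sub_le hp (he s) (htr s) (ypm x s)
    have hn1 : ‖ypm x s‖ ≤ 1 :=
      (CStarAlgebra.norm_le_one_iff_of_nonneg _ (ypm_facts hx hx1 s).1).2 (ypm_facts hx hx1 s).2
    have h' : (r : ℝ) * (2 * ‖ypm x s‖ * Real.sqrt d) ≤ r * (2 * 1 * Real.sqrt d) := by gcongr
    rw [T.n2_smul, abs_two]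
    refine (mul_le_mul_of_nonneg_left (h.trans h') zero_le_two).trans (le_of_eq ?_)
    ring
  have hXsa : ∀ s, IsSelfAdjoint ((2 : ℝ) • (Yp s - G s)) := fun s =>
    IsSelfAdjoint.smul (IsSelfAdjoint.all _)
      ((isSelfAdjoint_sum _ fun i _ => (hysa s).conjugate_self (T.emb_selfAdjoint _)).sub
        (isSelfAdjoint_sum _ fun i _ => (hysa s).conjugate_self (he s i).1.isSelfAdjoint))
  obtain ⟨Q, hQ, hQtr, hQ1, hQ2⟩ := T.exists_cut (hXsa true) (hXsa false) hε
  refine ⟨Q, hQ, ?_, ?_⟩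
  · have b1 := pow_le_pow_left₀ (T.n2_nonneg _) (hdist true) 2
    have b2 := pow_le_pow_left₀ (T.n2_nonneg _) (hdist false) 2
    rw [mul_pow, Real.sq_sqrt hd0] at b1 b2
    refine le_of_mul_le_mul_left (hQtr.trans ((add_le_add b1 b2).trans ?_)) (pow_pos hε 2)
    calc (4 * (r : ℝ)) ^ 2 * d + (4 * (r : ℝ)) ^ 2 * d = 32 * (r : ℝ) ^ 2 * d := by ring
      _ ≤ _ := hd
  · have hpx : ∀ s, (2 : ℝ) • Yp s =
        1 + if s then (∑ i, T.emb (p i) * x * T.emb (p i))
          else -(∑ i, T.emb (p i) * x * T.emb (p i)) := by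
      intro s
      have e1 : ∑ i, T.emb (p i) * 1 * T.emb (p i) = 1 := by
        simp only [mul_one, ← map_mul, hp.idem]
        rw [← map_sum, hp.sum_one, map_one]
      simp only [hYp, Finset.smul_sum, ypm, mul_smul_comm, smul_mul_assoc, smul_smul]
      norm_num
      cases s <;>
        simp only [Bool.false_eq_true, if_false, if_true, mul_sub, sub_mul, mul_add, add_mul,
          Finset.sum_sub_distrib, Finset.sum_add_distrib, e1]
      abel
    have hsum : ∀ s, (if s then (∑ i, T.emb (p i) * x * T.emb (p i))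
        else -(∑ i, T.emb (p i) * x * T.emb (p i))) ≤
          (4 * ε) • (1 : M) + (2 : ℝ) • (Yp s - G s) := fun s => by
      have h1 : (0 : M) ≤ (2 * (1 / 2 + 2 * ε)) • (1 : M) - (2 : ℝ) • G s := by
        rw [sub_nonneg, mul_smul]
        exact smul_le_smul_of_nonneg_left (hGle s) zero_le_two
      rw [smul_sub, hpx s]
      refine sub_nonneg.1 (h1.trans_eq ?_)
      rw [show (2 : ℝ) * (1 / 2 + 2 * ε) = 1 + 4 * ε by ring, add_smul, one_smul]
      abel
    rw [show 5 * ε = 4 * ε + ε by ring]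
    have hSsa : IsSelfAdjoint (∑ i, T.emb (p i) * x * T.emb (p i)) :=
      isSelfAdjoint_sum _ fun i _ => hx.conjugate_self (T.emb_selfAdjoint _)
    refine norm_le_of_two_sided (hSsa.conjugate_self hQ.isSelfAdjoint) (by positivity)
      (conj_le_of_le_add hQ (hXsa true) (by positivity) hQ1 (hsum true)) ?_
    have h2 := conj_le_of_le_add hQ (hXsa false) (by positivity) hQ2 (hsum false)
    simp only [Bool.false_eq_true, if_false] at h2
    rwa [mul_neg, neg_mul] at h2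

variable (T) in
/-- two-sided paving of normalised elements from the one-step property -/
theorem pavable_two_normalised {ε : ℝ} {r : ℕ} (hε : 0 < ε) (hε1 : ε ≤ 1 / 16)
    (hr : Two.L ≤ r * (ε ^ 2 / 20)) (hx : IsSelfAdjoint x) (hx1 : ‖x‖ ≤ 1)
    (hstep : T.TStepSpec ⟨ε, r⟩ x) {δ : ℝ} (hδ : 0 < δ) :
    ∃ p : Fin r → C(Ω, ℝ), IsPartition p ∧ ∃ q : M, IsStarProjection q ∧ T.tr (1 - q) ≤ δ ∧
      ‖q * (∑ i, T.emb (p i) * x * T.emb (p i)) * q‖ ≤ 5 * ε := by
  classical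
  have hr1 : 1 ≤ r := by
    rcases Nat.eq_zero_or_pos r with h | h
    · exfalso
      subst h
      simp [Two.L] at hr
      norm_num at hr
    · exact h
  set d := ε ^ 2 * δ / (32 * (r : ℝ) ^ 2 + 1) with hd
  have hd0 : 0 < d := by positivity
  set ηf := d / 2 with hηf
  have hηf0 : 0 < ηf := by positivity
  set κ := 1 / 2 + 2 * ε with hκ
  set a := 1 - 2 * ε with ha
  have ha0 : 0 < a := by rw [ha]; linarith
  have hκlt : (1 + ε) / 2 / a < κ := by
    rw [div_lt_iff₀ ha0, hκ, ha]; nlinarith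
  set dd := a * (κ * (κ - (1 + ε) / 2 / a)) with hdd
  have hdd0 : 0 < dd := mul_pos ha0 (mul_pos (by rw [hκ]; linarith) (by linarith))
  set K := Two.K₀ ε r with hK
  obtain ⟨⟨μ, γ, A, ς⟩, c₀, hμ, hμ1, hγ, hγ1, hA₀, hA, hς, hςμ, hc₀, hstep'⟩ :=
    hstep ηf (K / (ηf * dd ^ 2)) hηf0
  simp only at hμ hμ1 hγ hγ1 hA₀ hA hς hςμ
  obtain ⟨st₀, hst₀, hW₀⟩ := T.exists_start2 hε hε1 hr hx hx1 (A := A) hμ.le hγ1 hςμ
  obtain ⟨st, hst, hW, hlive⟩ := exists_end2 (P := ⟨ε, r⟩) (S := ⟨μ, γ, A, ς⟩) hε hμ.le hγ hA.le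
    hς.le hc₀ hstep' hst₀ hW₀
  obtain ⟨p, q, hp, hqi, hqσ, hpq, hqsum⟩ :=
    T.exists_pieces hr1 ha0 hst.live_idem hst.sig_nonneg hst.assigned
  refine ⟨p, hp, ?_⟩
  have hgap : ∀ i s, (0 : M) ≤
      ((1 + ε) / 2) • (1 : M) - vop (ypm x s) * T.emb (st.sig i) * vop (ypm x s) + st.R i s :=
    fun i s => le_trans (smul_nonneg hγ.le zero_le_one) (hst.gap i s)
  choose e he1 he2 he3 he4 using fun i s =>
    exists_piece_cut (ypm_facts hx hx1 s).1 (ypm_facts hx hx1 s).2 (z := (1 + ε) / 2) (a := a)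
      (κ := κ) (by linarith) ha0 hκlt (hqi i) (hqσ i) (hgap i s)
  have hn : ∑ i, (T.n2 (st.R i true) ^ 2 + T.n2 (st.R i false) ^ 2) ≤ K / A := by
    have h := ((Wpot2_parts (P := ⟨ε, r⟩) (S := ⟨μ, γ, A, ς⟩) hε hμ.le hγ hA.le hς.le
      hst).2).trans hW
    rw [le_div_iff₀ hA]
    refine le_of_mul_le_mul_left ?_ hμ
    calc μ * ((∑ i, (T.n2 (st.R i true) ^ 2 + T.n2 (st.R i false) ^ 2)) * A)
        = A * μ * ∑ i, (T.n2 (st.R i true) ^ 2 + T.n2 (st.R i false) ^ 2) := by ring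
      _ ≤ μ * K := h
  have hA' : K / A ≤ ηf * dd ^ 2 := by
    rw [div_le_iff₀ hA]
    rw [div_le_iff₀ (by positivity)] at hA₀
    linarith
  have htr : ∀ s, 1 - d ≤ ∑ i, T.tr (e i s) := by
    intro s
    have hle : ∑ i, (T.tau (q i) - T.tr (e i s)) ≤ ∑ i, (T.n2 (st.R i s) / dd) ^ 2 :=
      Finset.sum_le_sum fun i _ => he4 i s
    have hbd : ∑ i, (T.n2 (st.R i s) / dd) ^ 2 ≤ ηf := by
      simp only [div_pow, ← Finset.sum_div]
      rw [div_le_iff₀ (by positivity)]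
      refine le_trans ?_ (hn.trans hA')
      refine Finset.sum_le_sum fun i _ => ?_
      cases s <;> linarith [sq_nonneg (T.n2 (st.R i true)), sq_nonneg (T.n2 (st.R i false))]
    rw [Finset.sum_sub_distrib, hqsum] at hle
    linarith
  have he : ∀ s i, IsStarProjection (e i s) ∧ T.emb (p i) * e i s = e i s := fun s i =>
    ⟨he1 i s, by rw [← he2 i s, ← mul_assoc, ← map_mul, hpq i]⟩
  refine T.two_sided_cut hε hx hx1 hd0.le ?_ hp he htr he3
  rw [hd, mul_div_assoc', div_le_iff₀ (by positivity), mul_comm, mul_add, mul_one]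
  exact le_add_of_nonneg_right (mul_nonneg (sq_nonneg ε) hδ.le)

variable (T) in
/-- paving with `⌈312320 / ε²⌉` pieces from the one-step property of the two-sided walk -/
theorem pavable_two
    (hstep : ∀ (P : TParams) (x : M), 0 < P.ε → P.ε ≤ 1 / 16 → 1 ≤ P.r → IsSelfAdjoint x →
      ‖x‖ ≤ 1 → T.E x = 0 → T.TStepSpec P x)
    {ε : ℝ} (h0 : 0 < ε) (h1 : ε < 1) (hx : IsSelfAdjoint x) :
    T.Pavable x ε (twoPieces ε) := by
  intro δ hδ
  set a : C(Ω, ℝ) := T.E x with ha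
  have hanorm : ‖a‖ ≤ ‖x‖ := T.norm_E_le hx
  set c : ℝ := (2 * ‖x‖)⁻¹ with hc
  set u : M := c • (x - T.emb a) with hu
  have husa : IsSelfAdjoint u :=
    IsSelfAdjoint.smul (IsSelfAdjoint.all c) (hx.sub (T.emb_selfAdjoint a))
  have hun : ‖u‖ ≤ 1 := by
    have hxa : ‖x - T.emb a‖ ≤ 2 * ‖x‖ :=
      (norm_sub_le _ _).trans (by rw [T.emb_norm]; linarith)
    rw [hu, norm_smul, Real.norm_eq_abs, abs_of_nonneg (by positivity), hc]
    rcases eq_or_lt_of_le (norm_nonneg x) with h' | h'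
    · simp [← h']
    · rw [inv_mul_le_iff₀ (by positivity)]; linarith
  have hEu : T.E u = 0 := by rw [hu, map_smul, map_sub, T.E_emb, ha, sub_self, smul_zero]
  have hr : Two.L ≤ (twoPieces ε : ℝ) * ((ε / 16) ^ 2 / 20) := by
    have h := mul_le_mul_of_nonneg_right (Nat.le_ceil (312320 / ε ^ 2))
      (show (0 : ℝ) ≤ (ε / 16) ^ 2 / 20 by positivity)
    refine le_trans (le_of_eq ?_) h
    rw [Two.L]; field_simp; norm_num
  have hr1 : 1 ≤ twoPieces ε := Nat.ceil_pos.2 (by positivity)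
  have hε : ε / 16 ≤ 1 / 16 := by linarith
  obtain ⟨p, hp, q, hq, hqtr, hqn⟩ := T.pavable_two_normalised (ε := ε / 16) (r := twoPieces ε)
    (by positivity) hε hr husa hun
    (hstep ⟨ε / 16, twoPieces ε⟩ u (by positivity) hε hr1 husa hun hEu) hδ
  refine ⟨p, hp, a, hanorm, q, hq, hqtr, ?_⟩
  have key : (∑ i, T.emb (p i) * x * T.emb (p i)) - T.emb a =
      (2 * ‖x‖) • ∑ i, T.emb (p i) * u * T.emb (p i) := by
    have e1 : (2 * ‖x‖) • u = x - T.emb a := by
      rw [hu, smul_smul, hc]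
      rcases eq_or_lt_of_le (norm_nonneg x) with h' | h'
      · have hx0 : x = 0 := norm_eq_zero.1 h'.symm
        simp [hx0, ha]
      · rw [mul_inv_cancel₀ (by positivity), one_smul]
    have e2 : T.emb a = ∑ i, T.emb (p i) * T.emb a * T.emb (p i) := by
      simp only [← map_mul, mul_comm _ a, mul_assoc, hp.idem]
      rw [← map_sum, ← Finset.mul_sum, hp.sum_one, mul_one]
    conv_lhs => arg 2; rw [e2]
    rw [← Finset.sum_sub_distrib, Finset.smul_sum]
    refine Finset.sum_congr rfl fun i _ => ?_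
    rw [← sub_mul, ← mul_sub, ← e1]
    simp only [mul_smul_comm, smul_mul_assoc]
  rw [key, mul_smul_comm, smul_mul_assoc, norm_smul, Real.norm_eq_abs,
    abs_of_nonneg (by positivity)]
  calc 2 * ‖x‖ * ‖q * (∑ i, T.emb (p i) * u * T.emb (p i)) * q‖
      ≤ 2 * ‖x‖ * (5 * (ε / 16)) := mul_le_mul_of_nonneg_left hqn (by positivity)
    _ ≤ ε * ‖x‖ := by nlinarith [mul_nonneg h0.le (norm_nonneg x)]

end TMasa

end Vale.Agent.P078
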