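import Mathlib
import Vale.Agent.P078.Move
import Vale.Agent.P078.TwoState
import Vale.Agent.P078.TwoLower

/-! The effect of a move on the potential of the two-sided walk. -/

noncomputable section

open scoped ComplexOrder

set_option linter.unusedSectionVars false

namespace Vale.Agent.P078

universe u v

variable {M : Type u} [CStarAlgebra M] [PartialOrder M] [StarOrderedRing M]
  {Ω : Type v} [TopologicalSpace Ω] [CompactSpace Ω] [T2Space Ω]

namespace Two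

/-- `dpsi`, made continuous everywhere -/
def dpsiC (ε x : ℝ) : ℝ := dpsi ε (min x 1)

/-- `hpsi`, made continuous everywhere -/
def hpsiC (ε x : ℝ) : ℝ := hpsi ε (min x 1)

lemma continuous_mOf_min {ε : ℝ} (hε : 0 < ε) : Continuous fun x : ℝ => mOf ε (min x 1) := by
  unfold mOf
  refine continuous_const.div (by fun_prop) fun x => ?_
  have := min_le_right x (1 : ℝ)
  linarith

lemma continuous_dpsiC {ε : ℝ} (hε : 0 < ε) : Continuous (dpsiC ε) := by
  have := continuous_mOf_min hε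
  unfold dpsiC dpsi e1Of spOf
  fun_prop

lemma continuous_hpsiC {ε : ℝ} (hε : 0 < ε) : Continuous (hpsiC ε) := by
  have := continuous_mOf_min hε
  unfold hpsiC hpsi e1Of spOf
  fun_prop

lemma continuous_dphi : Continuous dphi := by unfold dphi; fun_prop

/-- a uniform second order Taylor bound for the profile -/
def PsiTaylor (ε K : ℝ) : Prop :=
  ∀ x d : ℝ, 0 ≤ x → x ≤ 1 - 2 * ε → x + d ≤ 1 - ε →
    |psiC ε (x + d) - (psi ε x + dpsi ε x * d + hpsi ε x * d ^ 2)| ≤ K * |d| ^ 3 ∧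
      |psi ε x| ≤ K ∧ |dpsi ε x| ≤ K ∧ |hpsi ε x| ≤ K

lemma psi_move {ε K x h h2 H t : ℝ} (hT : PsiTaylor ε K) (hx0 : 0 ≤ x) (hx : x ≤ 1 - 2 * ε)
    (ht0 : 0 ≤ t) (ht1 : t ≤ 1) (hh : |h| ≤ H) (hh2 : |h2| ≤ H)
    (hd : x + (t * h + t ^ 2 * h2) ≤ 1 - ε) :
    |psiC ε (x + (t * h + t ^ 2 * h2))
        - (psi ε x + t * (dpsi ε x * h) + t ^ 2 * (dpsi ε x * h2 + hpsi ε x * h ^ 2))|
      ≤ K * (8 * H ^ 3 + 3 * H ^ 2) * t ^ 3 ∧
    |dpsi ε x * h| ≤ K * H ∧ |dpsi ε x * h2 + hpsi ε x * h ^ 2| ≤ K * (H + H ^ 2) := by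
  obtain ⟨hTe, -, hd1, hd2⟩ := hT x _ hx0 hx hd
  have hH : 0 ≤ H := (abs_nonneg _).trans hh
  have hK : 0 ≤ K := (abs_nonneg _).trans hd1
  have ht3 := pow_nonneg ht0 3
  set d := t * h + t ^ 2 * h2 with hdd
  have ht2 : t ^ 2 ≤ t := by nlinarith
  have hdb : |d| ≤ 2 * H * t := by
    refine (abs_add_le _ _).trans ?_
    rw [abs_mul, abs_mul, abs_of_nonneg ht0, abs_of_nonneg (sq_nonneg t)]
    nlinarith [mul_le_mul_of_nonneg_left hh ht0, mul_le_mul ht2 hh2 (abs_nonneg _) ht0]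
  have n1 : |dpsi ε x * h| ≤ K * H := by
    rw [abs_mul]; exact mul_le_mul hd1 hh (abs_nonneg _) hK
  have n2 : |dpsi ε x * h2| ≤ K * H := by
    rw [abs_mul]; exact mul_le_mul hd1 hh2 (abs_nonneg _) hK
  have n3 : |hpsi ε x * h ^ 2| ≤ K * H ^ 2 := by
    rw [abs_mul, abs_pow]
    exact mul_le_mul hd2 (pow_le_pow_left₀ (abs_nonneg _) hh 2) (by positivity) hK
  refine ⟨?_, n1, (abs_add_le _ _).trans (by linarith)⟩
  have e : psiC ε (x + d) - (psi ε x + t * (dpsi ε x * h)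
        + t ^ 2 * (dpsi ε x * h2 + hpsi ε x * h ^ 2))
      = (psiC ε (x + d) - (psi ε x + dpsi ε x * d + hpsi ε x * d ^ 2))
        + t ^ 3 * (hpsi ε x * (2 * (h * h2) + t * h2 ^ 2)) := by
    simp only [hdd]; ring
  rw [e]
  refine (abs_add_le _ _).trans ?_
  have p1 : K * |d| ^ 3 ≤ K * (8 * H ^ 3) * t ^ 3 := by
    rw [mul_assoc, show 8 * H ^ 3 * t ^ 3 = (2 * H * t) ^ 3 by ring]
    exact mul_le_mul_of_nonneg_left (pow_le_pow_left₀ (abs_nonneg _) hdb 3) hK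
  have p2 : |t ^ 3 * (hpsi ε x * (2 * (h * h2) + t * h2 ^ 2))| ≤ K * (3 * H ^ 2) * t ^ 3 := by
    rw [abs_mul, abs_mul, abs_of_nonneg ht3, mul_comm]
    refine mul_le_mul_of_nonneg_right ?_ ht3
    refine mul_le_mul hd2 ?_ (abs_nonneg _) hK
    refine (abs_add_le _ _).trans ?_
    rw [abs_mul, abs_mul, abs_mul, abs_of_nonneg ht0, abs_two, abs_pow]
    have q1 := mul_le_mul hh hh2 (abs_nonneg _) hH
    have q2 := mul_le_mul ht1 (pow_le_pow_left₀ (abs_nonneg _) hh2 2) (by positivity) zero_le_one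
    nlinarith
  linarith

lemma phi_move {x h h2 H t : ℝ} (hx0 : 0 ≤ x) (hx : x ≤ 1) (ht0 : 0 ≤ t) (ht1 : t ≤ 1)
    (hh : |h| ≤ H) (hh2 : |h2| ≤ H) :
    Exp3 (2 + 2 * H + 6 * H ^ 2) t (phi (x + (t * h + t ^ 2 * h2))) (phi x) (dphi x * h)
      (dphi x * h2 - 2 * h ^ 2) := by
  have hH : 0 ≤ H := (abs_nonneg _).trans hh
  have hd : |dphi x| ≤ 2 := by unfold dphi; rw [abs_le]; constructor <;> linarith
  have n1 : |dphi x * h| ≤ 2 * H := by
    rw [abs_mul]; exact mul_le_mul hd hh (abs_nonneg _) (by norm_num)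
  have n2 : |dphi x * h2| ≤ 2 * H := by
    rw [abs_mul]; exact mul_le_mul hd hh2 (abs_nonneg _) (by norm_num)
  have n3 : |2 * h ^ 2| ≤ 2 * H ^ 2 := by
    rw [abs_mul, abs_two, abs_pow]
    exact mul_le_mul_of_nonneg_left (pow_le_pow_left₀ (abs_nonneg _) hh 2) (by norm_num)
  refine ⟨?_, n1.trans (by nlinarith), (abs_sub _ _).trans (by nlinarith), ?_⟩
  · rw [abs_of_nonneg (phi_nonneg hx0 hx)]
    unfold phi
    nlinarith
  have e : phi (x + (t * h + t ^ 2 * h2)) - (phi x + t * (dphi x * h)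
      + t ^ 2 * (dphi x * h2 - 2 * h ^ 2))
      = t ^ 3 * (-2 * (2 * (h * h2) + t * h2 ^ 2)) := by
    unfold phi dphi; ring
  rw [e, abs_mul, abs_of_nonneg (pow_nonneg ht0 3), mul_comm]
  refine mul_le_mul_of_nonneg_right ?_ (pow_nonneg ht0 3)
  rw [abs_mul, abs_neg, abs_two]
  have q : |2 * (h * h2) + t * h2 ^ 2| ≤ 3 * H ^ 2 := by
    refine (abs_add_le _ _).trans ?_
    rw [abs_mul, abs_mul, abs_mul, abs_of_nonneg ht0, abs_two, abs_pow]
    have q1 := mul_le_mul hh hh2 (abs_nonneg _) hH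
    have q2 := mul_le_mul ht1 (pow_le_pow_left₀ (abs_nonneg _) hh2 2) (by positivity) zero_le_one
    nlinarith
  nlinarith

end Two

lemma Exp3.add' {C t x x0 x1 x2 y y0 y1 y2 : ℝ} (hx : Exp3 C t x x0 x1 x2)
    (hy : Exp3 C t y y0 y1 y2) : Exp3 (2 * C) t (x + y) (x0 + y0) (x1 + y1) (x2 + y2) := by
  obtain ⟨a0, a1, a2, ae⟩ := hx
  obtain ⟨b0, b1, b2, be⟩ := hy
  refine ⟨(abs_add_le _ _).trans (by linarith), (abs_add_le _ _).trans (by linarith),
    (abs_add_le _ _).trans (by linarith), ?_⟩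
  rw [show x + y - (x0 + y0 + t * (x1 + y1) + t ^ 2 * (x2 + y2))
    = (x - (x0 + t * x1 + t ^ 2 * x2)) + (y - (y0 + t * y1 + t ^ 2 * y2)) by ring]
  exact (abs_add_le _ _).trans (by linarith)

lemma Exp3.mono {C C' t x x0 x1 x2 : ℝ} (hx : Exp3 C t x x0 x1 x2) (h : C ≤ C') (ht : 0 ≤ t) :
    Exp3 C' t x x0 x1 x2 :=
  ⟨hx.h0.trans h, hx.h1.trans h, hx.h2.trans h,
    hx.err.trans (mul_le_mul_of_nonneg_right h (pow_nonneg ht 3))⟩

/-- the off-band part of a sandwiched perturbation -/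
def offb (T : TMasa M Ω) (v N : M) (h : C(Ω, ℝ)) : M :=
  v * T.emb h * v - N * (v * T.emb h * v) * N

namespace TMasa

open Chan Res

variable (T : TMasa M Ω) (P : TParams) (x : M)

/-- the regularised sandwich of a channel and a sign -/
def Xp2 (st : TSt M Ω P.r) (N : Fin P.r → Bool → M) (i : Fin P.r) (s : Bool) : M :=
  Xp (vpm x s) (T.Zop2 P x st i s) (N i s)

/-- the derivative of the Huber term -/
def lam2 (st : TSt M Ω P.r) : C(Ω, ℝ) :=
  comp1 Profile.dhub (ContinuousMap.const Ω Two.L - T.Fval2 P x st)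

/-- the derivative of the constraint in one channel -/
def Jop2 (st : TSt M Ω P.r) (N : Fin P.r → Bool → M) (i : Fin P.r) : Module.End ℝ C(Ω, ℝ) :=
  mlt (comp1 (Two.dpsiC P.ε) (st.sig i)
      - comp1 Two.dphi (st.sig i) * (T.aval2 P x st i true + T.aval2 P x st i false))
    - mlt (cphi2 (st.sig i)) * (T.K (T.Xp2 P x st N i true) + T.K (T.Xp2 P x st N i false))

/-- the quadratic second order part of the constraint -/
def Fq2 (st : TSt M Ω P.r) (N : Fin P.r → Bool → M) (h : Fin P.r → C(Ω, ℝ)) (i : Fin P.r) :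
    C(Ω, ℝ) :=
  (comp1 (Two.hpsiC P.ε) (st.sig i) + (2 : ℝ) • (T.aval2 P x st i true + T.aval2 P x st i false))
      * (h i * h i)
    - comp1 Two.dphi (st.sig i) * (h i * (T.K (T.Xp2 P x st N i true) (h i)
        + T.K (T.Xp2 P x st N i false) (h i)))
    - cphi2 (st.sig i)
      * (T.E (T.Xp2 P x st N i true * T.emb (h i) * T.Xp2 P x st N i true * T.emb (h i)
            * T.Xp2 P x st N i true)
        + T.E (T.Xp2 P x st N i false * T.emb (h i) * T.Xp2 P x st N i false * T.emb (h i)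
            * T.Xp2 P x st N i false))

/-- the second order part of the constraint -/
def F22 (st : TSt M Ω P.r) (N : Fin P.r → Bool → M) (ρ : ℝ) (h h2 : Fin P.r → C(Ω, ℝ))
    (i : Fin P.r) : C(Ω, ℝ) :=
  T.Jop2 P x st N i (h2 i)
    + ρ • (cphi2 (st.sig i) * (T.E (Bop (vpm x true) (T.Zop2 P x st i true) (N i true))
        + T.E (Bop (vpm x false) (T.Zop2 P x st i false) (N i false))))
    + T.Fq2 P x st N h i

/-- the linear part of a move -/
def lin2 (S : TSmalls) (st : TSt M Ω P.r) (N : Fin P.r → Bool → M) (h : Fin P.r → C(Ω, ℝ)) : ℝ :=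
  - T.tau (st.live * (T.lam2 P x st * ∑ i, T.Jop2 P x st N i (h i)))
    + S.μ * Two.C1 P.ε * (∑ i, T.tau (h i))
    + S.μ * (∑ i, (T.tau (h i * T.E (X2 (vpm x true) (T.Zop2 P x st i true) (N i true)))
        + T.tau (h i * T.E (X2 (vpm x false) (T.Zop2 P x st i false) (N i false)))))
    + S.A * S.μ * (∑ i, (2 * T.ip (st.R i true) (offb T (vpm x true) (N i true) (h i))
        + 2 * T.ip (st.R i false) (offb T (vpm x false) (N i false) (h i))))

/-- the part of second order coming from the channel `i` and sign `s` in the trace of the resolvent -/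
def trSec (st : TSt M Ω P.r) (N : Fin P.r → Bool → M) (h h2 : Fin P.r → C(Ω, ℝ)) (i : Fin P.r)
    (s : Bool) : ℝ :=
  T.tau (h2 i * T.E (X2 (vpm x s) (T.Zop2 P x st i s) (N i s)))
    + T.tau (h i * T.K2 (T.Xp2 P x st N i s) (X2 (vpm x s) (T.Zop2 P x st i s) (N i s)) (h i))

/-- the part of second order coming from the channel `i` and sign `s` in the correction -/
def RSec (st : TSt M Ω P.r) (N : Fin P.r → Bool → M) (ρ : ℝ) (h h2 : Fin P.r → C(Ω, ℝ))
    (i : Fin P.r) (s : Bool) : ℝ :=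
  T.n2 (offb T (vpm x s) (N i s) (h i)) ^ 2
    + 2 * T.ip (st.R i s) (offb T (vpm x s) (N i s) (h2 i) + ρ • (1 - N i s))

/-- the second order part of a move -/
def sec2 (S : TSmalls) (st : TSt M Ω P.r) (N : Fin P.r → Bool → M) (ρ : ℝ)
    (h h2 : Fin P.r → C(Ω, ℝ)) : ℝ :=
  T.tau (st.live * ((∑ i, T.Jop2 P x st N i (h i)) * ∑ i, T.Jop2 P x st N i (h i))) / 2
    - T.tau (st.live * (T.lam2 P x st * ∑ i, T.F22 P x st N ρ h h2 i))
    + S.μ * Two.C1 P.ε * (∑ i, T.tau (h2 i))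
    + S.μ * (∑ i, (T.trSec P x st N h h2 i true + T.trSec P x st N h h2 i false))
    + S.A * S.μ * (∑ i, (T.RSec P x st N ρ h h2 i true + T.RSec P x st N ρ h h2 i false))

/-- the state after a move -/
def move2 (st : TSt M Ω P.r) (N : Fin P.r → Bool → M) (ρ t : ℝ) (h h2 : Fin P.r → C(Ω, ℝ)) :
    TSt M Ω P.r where
  sig i := st.sig i + (t • h i + t ^ 2 • h2 i)
  R i s := st.R i s + (vpm x s * (t • T.emb (h i) + t ^ 2 • T.emb (h2 i)) * vpm x s
    - Dop (vpm x s) (N i s) ρ t (T.emb (h i)) (T.emb (h2 i)))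
  live := st.live

variable {P x}

lemma ypm_nonneg (hx : IsSelfAdjoint x) (hx1 : ‖x‖ ≤ 1) (s : Bool) : 0 ≤ ypm x s := by
  refine smul_nonneg (by norm_num) ?_
  have h1 := le_norm_smul hx
  have h2 := le_norm_smul hx.neg
  rw [norm_neg] at h2
  have h3 : ‖x‖ • (1 : M) ≤ 1 := by
    simpa using smul_le_smul_of_nonneg_right hx1 (zero_le_one (α := M))
  cases s
  · simpa using h1.trans h3
  · have := h2.trans h3
    simpa [add_comm] using sub_nonneg.2 this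

lemma ypm_le_one (hx : IsSelfAdjoint x) (hx1 : ‖x‖ ≤ 1) (s : Bool) : ypm x s ≤ 1 := by
  have h := ypm_nonneg hx hx1 (!s)
  have e : ypm x s + ypm x (!s) = 1 := by
    cases s <;> simp only [ypm, Bool.not_false, Bool.not_true, if_true, if_false,
      Bool.false_eq_true] <;> module
  calc ypm x s ≤ ypm x s + ypm x (!s) := le_add_of_nonneg_right h
    _ = 1 := e

lemma vpm_props (hx : IsSelfAdjoint x) (hx1 : ‖x‖ ≤ 1) (s : Bool) :
    IsSelfAdjoint (vpm x s) ∧ ‖vpm x s‖ ≤ 1 ∧ vpm x s * vpm x s = ypm x s :=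
  TMasa.vop_props (ypm_nonneg hx hx1 s) (ypm_le_one hx hx1 s)

lemma Zop2_move (st : TSt M Ω P.r) (N : Fin P.r → Bool → M) (ρ t : ℝ) (h h2 : Fin P.r → C(Ω, ℝ))
    (i : Fin P.r) (s : Bool) : T.Zop2 P x (T.move2 P x st N ρ t h h2) i s =
      T.Zop2 P x st i s - Dop (vpm x s) (N i s) ρ t (T.emb (h i)) (T.emb (h2 i)) := by
  simp only [Zop2, move2, map_add, map_smul, mul_add, add_mul]
  abel

/-- exact splitting of the correction -/
lemma n2_R_le2 {v N : M} (hv1 : ‖v‖ ≤ 1) {ρ t H R₀ : ℝ} (hρ : 0 ≤ ρ) (hρ' : ρ ≤ R₀) (ht0 : 0 ≤ t)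
    (ht1 : t ≤ 1) {h h2 : C(Ω, ℝ)} (hh : ‖h‖ ≤ H) (hh2 : ‖h2‖ ≤ H) {γ : ℝ} {Z : M}
    (hb : Band γ Z N) (R : M) :
    T.n2 (R + (v * (t • T.emb h + t ^ 2 • T.emb h2) * v
        - Dop v N ρ t (T.emb h) (T.emb h2))) ^ 2
      ≤ T.n2 R ^ 2 + t * (2 * T.ip R (offb T v N h))
        + t ^ 2 * (T.n2 (offb T v N h) ^ 2 + 2 * T.ip R (offb T v N h2 + ρ • (1 - N)))
        + 3 * (2 * H + R₀) ^ 2 * t ^ 3 := by
  set R1 := offb T v N h with hR1
  set R2 := offb T v N h2 + ρ • (1 - N) with hR2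
  have e : v * (t • T.emb h + t ^ 2 • T.emb h2) * v - Dop v N ρ t (T.emb h) (T.emb h2)
      = t • R1 + t ^ 2 • R2 := by
    simp only [hR1, hR2, offb, Dop, mul_add, add_mul, mul_smul_comm, smul_mul_assoc, smul_sub,
      smul_add, smul_smul]
    abel
  rw [e, T.n2_sq, T.n2_sq]
  simp only [T.ip_add_left, T.ip_add_right, T.ip_smul_left, T.ip_smul_right, T.ip_comm R1 R,
    T.ip_comm R2 R, T.ip_comm R2 R1, ← T.n2_sq]
  have hH : 0 ≤ H := (norm_nonneg h).trans hh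
  have hR : 0 ≤ R₀ := hρ.trans hρ'
  have hp1 : T.n2 (1 - N) ≤ 1 := (T.n2_le_norm _).trans (proj_norm_le hb.proj.one_sub)
  have hoff : ∀ f : C(Ω, ℝ), ‖f‖ ≤ H → T.n2 (offb T v N f) ≤ 2 * H := by
    intro f hf
    refine (T.n2_offband_le hb _).trans ?_
    rw [← T.n2_proj hb.proj.one_sub]
    have := norm_sandwich_le hv1 (T.emb f)
    rw [T.emb_norm] at this
    calc _ ≤ (2 * ‖v * T.emb f * v‖) * 1 := mul_le_mul_of_nonneg_left hp1 (by positivity)
      _ ≤ _ := by linarith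
  have h2' : T.n2 R2 ≤ 2 * H + R₀ := by
    refine (T.n2_add _ _).trans (add_le_add (hoff h2 hh2) ?_)
    rw [T.n2_smul, abs_of_nonneg hρ]
    exact (mul_le_mul hρ' hp1 (T.n2_nonneg _) hR).trans (by linarith)
  have h3' : T.n2 R1 ≤ 2 * H + R₀ := (hoff h hh).trans (by linarith)
  have h4 : T.ip R1 R2 ≤ (2 * H + R₀) * (2 * H + R₀) :=
    (le_abs_self _).trans ((T.abs_ip_le _ _).trans
      (mul_le_mul h3' h2' (T.n2_nonneg _) (by linarith)))
  have h5 : T.n2 R2 ^ 2 ≤ (2 * H + R₀) ^ 2 := pow_le_pow_left₀ (T.n2_nonneg _) h2' 2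
  have ht4 : t ^ 4 ≤ t ^ 3 := pow_le_pow_of_le_one ht0 ht1 (by norm_num)
  nlinarith [mul_le_mul_of_nonneg_left h4 (pow_nonneg ht0 3),
    mul_le_mul ht4 h5 (sq_nonneg _) (pow_nonneg ht0 3)]

/-- the constant of the pointwise expansion -/
def moveConst2 (K γ H R₀ : ℝ) : ℝ :=
  max (2 + 2 * H + 6 * H ^ 2) (2 * (11 * (1 / γ + 1) ^ 4 * (2 * H + R₀ + 1) ^ 3))
    + K * (8 * H ^ 3 + 4 * H ^ 2 + H + 1)

/-- the bound of the pointwise expansion -/
def moveB (r : ℕ) (K γ H R₀ : ℝ) : ℝ := (r : ℝ) * (20 * (moveConst2 K γ H R₀ + 1) ^ 2)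

/-- expansion of the constraint along a move -/
lemma Fval2_move (hε : 0 < P.ε) {K : ℝ} (hK : Two.PsiTaylor P.ε K) {S : TSmalls}
    {γ H R₀ ρ t : ℝ} (hγ : 0 < γ) (hx : IsSelfAdjoint x) (hx1 : ‖x‖ ≤ 1) {st : TSt M Ω P.r}
    {N : Fin P.r → Bool → M} (hinv : T.TStInv P x S st)
    (hb : ∀ i s, Band γ (T.Zop2 P x st i s) (N i s))
    {h h2 : Fin P.r → C(Ω, ℝ)} (hρ : 0 ≤ ρ) (hρ' : ρ ≤ R₀) (ht0 : 0 ≤ t) (ht1 : t ≤ 1)
    (htγ : 2 * t * H ≤ γ) (htε : 2 * t * H ≤ P.ε) (hH : 0 ≤ H) (hh : ∀ i, ‖h i‖ ≤ H)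
    (hh2 : ∀ i, ‖h2 i‖ ≤ H) (ω : Ω) :
    |T.Fval2 P x (T.move2 P x st N ρ t h h2) ω - (T.Fval2 P x st ω
        + t * (∑ i, T.Jop2 P x st N i (h i)) ω
        + t ^ 2 * (∑ i, T.F22 P x st N ρ h h2 i) ω)|
      ≤ moveB P.r K γ H R₀ * t ^ 3 ∧
    |(∑ i, T.Jop2 P x st N i (h i)) ω| ≤ moveB P.r K γ H R₀ ∧
    |(∑ i, T.F22 P x st N ρ h h2 i) ω| ≤ moveB P.r K γ H R₀ := by
  set st' := T.move2 P x st N ρ t h h2 with hst'
  set Cm := moveConst2 K γ H R₀ with hCmdef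
  have hR : 0 ≤ R₀ := hρ.trans hρ'
  have hK0 : ∀ i, 0 ≤ K := fun i => (abs_nonneg _).trans
    (hK (st.sig i ω) 0 (hinv.sig_nonneg i ω) (hinv.sig_le i ω)
      (by linarith [hinv.sig_le i ω])).2.1
  have habs : ∀ i ω, |h i ω| ≤ H ∧ |h2 i ω| ≤ H := fun i ω =>
    ⟨((h i).norm_coe_le_norm ω).trans (hh i), ((h2 i).norm_coe_le_norm ω).trans (hh2 i)⟩
  have ht2 : t ^ 2 ≤ t := by nlinarith
  have hd : ∀ i ω, |t * h i ω + t ^ 2 * h2 i ω| ≤ 2 * t * H := fun i ω => by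
    refine (abs_add_le _ _).trans ?_
    rw [abs_mul, abs_mul, abs_of_nonneg ht0, abs_of_nonneg (sq_nonneg t)]
    nlinarith [mul_le_mul_of_nonneg_left (habs i ω).1 ht0,
      mul_le_mul ht2 (habs i ω).2 (abs_nonneg _) ht0]
  have hsig : ∀ i ω, st'.sig i ω = st.sig i ω + (t * h i ω + t ^ 2 * h2 i ω) := fun i ω => by
    simp [hst', move2]
  set a : Fin P.r → Bool → ℝ := fun i s => T.aval2 P x st i s ω with ha
  set a1 : Fin P.r → Bool → ℝ := fun i s => T.K (T.Xp2 P x st N i s) (h i) ω with ha1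
  set a2 : Fin P.r → Bool → ℝ := fun i s => T.K (T.Xp2 P x st N i s) (h2 i) ω
      - ρ * T.E (Bop (vpm x s) (T.Zop2 P x st i s) (N i s)) ω
      + T.E (T.Xp2 P x st N i s * T.emb (h i) * T.Xp2 P x st N i s * T.emb (h i)
          * T.Xp2 P x st N i s) ω with ha2
  set Ca := 11 * (1 / γ + 1) ^ 4 * (2 * H + R₀ + 1) ^ 3 with hCa
  have haval : ∀ i s, Exp3 Ca t (T.aval2 P x st' i s ω) (a i s) (a1 i s) (a2 i s) := fun i s => by
    obtain ⟨hv, hv1, -⟩ := vpm_props hx hx1 s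
    have := aval_expand (T := T) (hb i s) hv1 hv hρ hρ' ht0 ht1 (hh i) (hh2 i) htγ ω
    rw [← T.Zop2_move] at this
    exact this
  have hfac : ∀ i, max (2 + 2 * H + 6 * H ^ 2) (2 * Ca) ≤ Cm := fun i => by
    have := hK0 i
    rw [hCmdef, moveConst2, ← hCa]
    exact le_add_of_nonneg_right (by positivity)
  have hA : ∀ i, Exp3 Cm t (T.aval2 P x st' i true ω + T.aval2 P x st' i false ω)
      (a i true + a i false) (a1 i true + a1 i false) (a2 i true + a2 i false) := fun i =>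
    ((haval i true).add' (haval i false)).mono ((le_max_right _ _).trans (hfac i)) ht0
  have hsl : ∀ i, st.sig i ω ≤ 1 - 2 * P.ε := fun i => hinv.sig_le i ω
  have hs0 : ∀ i, 0 ≤ st.sig i ω := fun i => hinv.sig_nonneg i ω
  have hphi : ∀ i, Exp3 Cm t (Two.phi (st'.sig i ω)) (Two.phi (st.sig i ω))
      (Two.dphi (st.sig i ω) * h i ω)
      (Two.dphi (st.sig i ω) * h2 i ω - 2 * h i ω ^ 2) := fun i => by
    have := Two.phi_move (H := H) (hs0 i) (by linarith [hsl i]) ht0 ht1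
      (habs i ω).1 (habs i ω).2
    rw [hsig]
    exact this.mono ((le_max_left _ _).trans (hfac i)) ht0
  have hpsi := fun i => Two.psi_move (H := H) hK (hs0 i) (hsl i) ht0 ht1
    (habs i ω).1 (habs i ω).2 (by linarith [(abs_le.1 (hd i ω)).2, hsl i])
  have hCK : ∀ i, K * (8 * H ^ 3 + 3 * H ^ 2) ≤ Cm ∧ K * H ≤ Cm ∧ K * (H + H ^ 2) ≤ Cm := fun i => by
    have h0 : 0 ≤ max (2 + 2 * H + 6 * H ^ 2) (2 * Ca) := le_max_of_le_left (by positivity)
    have := hK0 i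
    have e : Cm = max (2 + 2 * H + 6 * H ^ 2) (2 * Ca) + K * (8 * H ^ 3 + 4 * H ^ 2 + H + 1) := by
      rw [hCmdef, moveConst2, ← hCa]
    have k1 : 0 ≤ K * H := by positivity
    have k2 : 0 ≤ K * H ^ 2 := by positivity
    have k3 : 0 ≤ K * H ^ 3 := by positivity
    refine ⟨?_, ?_, ?_⟩ <;> rw [e] <;> nlinarith
  set F1 : Fin P.r → C(Ω, ℝ) := fun i => T.Jop2 P x st N i (h i) with hF1
  set F2 : Fin P.r → C(Ω, ℝ) := fun i => T.F22 P x st N ρ h h2 i with hF2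
  have hmin : ∀ i, min (st.sig i ω) 1 = st.sig i ω := fun i =>
    min_eq_left (by linarith [hinv.sig_le i ω])
  have hap : ∀ i, F1 i ω = Two.dpsi P.ε (st.sig i ω) * h i ω
        - (Two.dphi (st.sig i ω) * h i ω * (a i true + a i false)
          + Two.phi (st.sig i ω) * (a1 i true + a1 i false))
      ∧ F2 i ω = Two.dpsi P.ε (st.sig i ω) * h2 i ω + Two.hpsi P.ε (st.sig i ω) * h i ω ^ 2
        - ((Two.dphi (st.sig i ω) * h2 i ω - 2 * h i ω ^ 2) * (a i true + a i false)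
          + Two.dphi (st.sig i ω) * h i ω * (a1 i true + a1 i false)
          + Two.phi (st.sig i ω) * (a2 i true + a2 i false)) := fun i => by
    constructor
    · simp [hF1, Jop2, mlt, cphi2, comp1_apply (Two.continuous_dpsiC hε),
        comp1_apply Two.continuous_dphi, Two.dpsiC, hmin, ha, ha1]
      ring
    · simp [hF2, F22, Fq2, Jop2, mlt, cphi2, comp1_apply (Two.continuous_dpsiC hε),
        comp1_apply (Two.continuous_hpsiC hε), comp1_apply Two.continuous_dphi, Two.dpsiC,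
        Two.hpsiC, hmin, ha, ha1, ha2]
      ring
  simp only [Fval2, ContinuousMap.coe_sum, Finset.sum_apply, ContinuousMap.sub_apply,
    ContinuousMap.mul_apply, ContinuousMap.add_apply]
  have hCm0 : ∀ i, 0 ≤ Cm := fun i => (mul_nonneg (hK0 i) hH).trans (hCK i).2.1
  have hb1 : ∀ i, |F1 i ω| ≤ 20 * (Cm + 1) ^ 2 := fun i => by
    rw [(hap i).1]
    refine (abs_sub _ _).trans ((add_le_add ((hpsi i).2.1.trans (hCK i).2.1)
      (abs_add_le _ _)).trans ?_)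
    have q1 := mul_le_mul (hphi i).h1 (hA i).h0 (abs_nonneg _) (hCm0 i)
    have q2 := mul_le_mul (hphi i).h0 (hA i).h1 (abs_nonneg _) (hCm0 i)
    rw [← abs_mul] at q1 q2
    nlinarith [hCm0 i]
  have hb2 : ∀ i, |F2 i ω| ≤ 20 * (Cm + 1) ^ 2 := fun i => by
    rw [(hap i).2]
    refine (abs_sub _ _).trans ((add_le_add ((hpsi i).2.2.trans (hCK i).2.2)
      (abs_add_three _ _ _)).trans ?_)
    have q1 := mul_le_mul (hphi i).h2 (hA i).h0 (abs_nonneg _) (hCm0 i)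
    have q2 := mul_le_mul (hphi i).h1 (hA i).h1 (abs_nonneg _) (hCm0 i)
    have q3 := mul_le_mul (hphi i).h0 (hA i).h2 (abs_nonneg _) (hCm0 i)
    rw [← abs_mul] at q1 q2 q3
    nlinarith [hCm0 i]
  have hsum : ∀ g : Fin P.r → ℝ, (∀ i, |g i| ≤ 20 * (Cm + 1) ^ 2) →
      |∑ i, g i| ≤ moveB P.r K γ H R₀ := fun g hg => by
    refine (Finset.abs_sum_le_sum_abs _ _).trans ((Finset.sum_le_sum fun i _ => hg i).trans ?_)
    simp [moveB, hCmdef]
  refine ⟨?_, hsum _ hb1, hsum _ hb2⟩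
  rw [Finset.mul_sum, Finset.mul_sum, ← Finset.sum_add_distrib, ← Finset.sum_add_distrib,
    ← Finset.sum_sub_distrib]
  refine (Finset.abs_sum_le_sum_abs _ _).trans ((Finset.sum_le_sum (g := fun _ =>
    20 * (Cm + 1) ^ 2 * t ^ 3) fun i _ => ?_).trans (le_of_eq ?_))
  · have := Exp3.sub_mul (Cs := Cm) (s := Two.psiC P.ε (st'.sig i ω))
      (s0 := Two.psi P.ε (st.sig i ω)) (s1 := Two.dpsi P.ε (st.sig i ω) * h i ω)
      (s2 := Two.dpsi P.ε (st.sig i ω) * h2 i ω + Two.hpsi P.ε (st.sig i ω) * h i ω ^ 2)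
      ht0 ht1 (by
        rw [hsig]
        exact (hpsi i).1.trans (mul_le_mul_of_nonneg_right (hCK i).1 (pow_nonneg ht0 3)))
      (hphi i) (hA i)
    rw [← (hap i).1, ← (hap i).2] at this
    refine le_trans (le_of_eq ?_) (this.trans
      (mul_le_mul_of_nonneg_right (by nlinarith [hCm0 i]) (pow_nonneg ht0 3)))
    simp [cphi2, cpsi2, dif_pos hε, Two.psiC, hmin, ha, hst', F1, F2]
  · simp [moveB, hCmdef]; ring

/-- a move changes the potential by its linear and second order parts -/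
theorem exists_move_bound2 (P : TParams) (hε : 0 < P.ε) {K : ℝ} (hK : Two.PsiTaylor P.ε K)
    (S : TSmalls) (hμ : 0 < S.μ) (hγ : 0 < S.γ) (hA : 0 ≤ S.A) (hς : 0 ≤ S.ς) (H R₀ : ℝ)
    (hH : 0 ≤ H) (hR : 0 ≤ R₀) :
    ∃ C : ℝ, 0 ≤ C ∧ ∀ (x : M), IsSelfAdjoint x → ‖x‖ ≤ 1 → ∀ (st : TSt M Ω P.r)
      (N : Fin P.r → Bool → M),
      T.TStInv P x S st → (∀ i s, Band S.γ (T.Zop2 P x st i s) (N i s)) →
      (∀ i ω, st.sig i ω = 0 ∨ S.ς / 4 ≤ st.sig i ω) →
      ∀ (ρ t : ℝ) (h h2 : Fin P.r → C(Ω, ℝ)), 0 ≤ ρ → ρ ≤ R₀ → 0 ≤ t → t ≤ 1 →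
        2 * t * H ≤ S.γ → 2 * t * H ≤ S.ς / 4 → 2 * t * H ≤ P.ε →
        (∀ i, ‖h i‖ ≤ H) → (∀ i, ‖h2 i‖ ≤ H) →
        (∀ i ω, (st.sig i ω = 0 ∨ st.live ω = 0) → h i ω = 0 ∧ h2 i ω = 0) →
        ((∀ i, 0 ≤ (T.move2 P x st N ρ t h h2).sig i) ∧
         (∀ ω, st.live ω = 0 → ∃ i, (T.move2 P x st N ρ t h h2).sig i ω = 1 - 2 * P.ε ∧
            ∀ j, j ≠ i → (T.move2 P x st N ρ t h h2).sig j ω = 0) ∧
         (∀ i s, IsSelfAdjoint ((T.move2 P x st N ρ t h h2).R i s)) ∧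
         (∀ i s, S.γ • (1 : M) ≤ T.Zop2 P x (T.move2 P x st N ρ t h h2) i s) ∧
         T.Wpot2 P x S (T.move2 P x st N ρ t h h2) ≤
           T.Wpot2 P x S st + t * T.lin2 P x S st N h + t ^ 2 * T.sec2 P x S st N ρ h h2
            + C * t ^ 3) := by
  set CA := 11 * (1 / S.γ + 1) ^ 4 * (2 * H + R₀ + 1) ^ 3 with hCA
  set B := moveB P.r K S.γ H R₀ with hB
  set CR := 3 * (2 * H + R₀) ^ 2 with hCR
  refine ⟨2 * |B| + 4 * B ^ 2 + P.r * (2 * (S.μ * CA) + 2 * (S.A * S.μ * CR)), by positivity, ?_⟩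
  intro x hx hx1 st N hinv hb hclean ρ t h h2 hρ hρ' ht0 ht1 htγ htς htε hh hh2 hzero
  set st' := T.move2 P x st N ρ t h h2 with hst'
  have habs : ∀ i ω, |h i ω| ≤ H ∧ |h2 i ω| ≤ H := fun i ω =>
    ⟨((h i).norm_coe_le_norm ω).trans (hh i), ((h2 i).norm_coe_le_norm ω).trans (hh2 i)⟩
  have ht2 : t ^ 2 ≤ t := by nlinarith
  have hd : ∀ i ω, |t * h i ω + t ^ 2 * h2 i ω| ≤ 2 * t * H := fun i ω => by
    refine (abs_add_le _ _).trans ?_
    rw [abs_mul, abs_mul, abs_of_nonneg ht0, abs_of_nonneg (sq_nonneg t)]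
    nlinarith [mul_le_mul_of_nonneg_left (habs i ω).1 ht0,
      mul_le_mul ht2 (habs i ω).2 (abs_nonneg _) ht0]
  have hsig : ∀ i ω, st'.sig i ω = st.sig i ω + (t * h i ω + t ^ 2 * h2 i ω) := fun i ω => by
    simp [hst', move2]
  have hdead : ∀ i ω, (st.sig i ω = 0 ∨ st.live ω = 0) → st'.sig i ω = st.sig i ω := fun i ω hc => by
    rw [hsig, (hzero i ω hc).1, (hzero i ω hc).2]; ring
  have hsnn : ∀ i ω, 0 ≤ st'.sig i ω := fun i ω => by
    rcases hclean i ω with hc | hc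
    · rw [hdead i ω (Or.inl hc), hc]
    · rw [hsig]; linarith [(abs_le.1 (hd i ω)).1]
  have hgap : ∀ i s, S.γ • (1 : M) ≤ T.Zop2 P x st' i s := fun i s => by
    obtain ⟨hv, hv1, -⟩ := vpm_props hx hx1 s
    rw [hst', T.Zop2_move]
    exact (T.res_Dop_expand (hb i s) hv1 hv hρ hρ' ht0 ht1 (hh i) (hh2 i) htγ).1
  have hRsa : ∀ i s, IsSelfAdjoint (st'.R i s) := fun i s => by
    obtain ⟨hv, hv1, -⟩ := vpm_props hx hx1 s
    have hu : ∀ f : C(Ω, ℝ), IsSelfAdjoint (vpm x s * T.emb f * vpm x s) := fun f => by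
      simpa [hv.star_eq] using (T.emb_selfAdjoint f).conjugate (vpm x s)
    show IsSelfAdjoint (st.R i s + _)
    refine (hinv.R_sa i s).add (IsSelfAdjoint.sub ?_ ?_)
    · rw [← map_smul, ← map_smul, ← map_add]; exact hu _
    · unfold Dop
      refine IsSelfAdjoint.sub ?_ ((IsSelfAdjoint.all _).smul (hb i s).proj.one_sub.isSelfAdjoint)
      rw [← map_smul, ← map_smul, ← map_add]
      have h3 := (hu (t • h i + t ^ 2 • h2 i)).conjugate (N i s)
      rwa [(hb i s).proj.isSelfAdjoint.star_eq] at h3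
  refine ⟨fun i ω => hsnn i ω, ?_, hRsa, hgap, ?_⟩
  · intro ω hω
    obtain ⟨i, hi, hj⟩ := hinv.assigned ω hω
    exact ⟨i, by rw [hdead i ω (Or.inr hω), hi], fun j hji => by
      rw [hdead j ω (Or.inr hω), hj j hji]⟩
  set F1 : Fin P.r → C(Ω, ℝ) := fun i => T.Jop2 P x st N i (h i) with hF1
  set F2 : Fin P.r → C(Ω, ℝ) := fun i => T.F22 P x st N ρ h h2 i with hF2
  have hF := fun ω => T.Fval2_move (S := S) hε hK hγ hx hx1 hinv hb hρ hρ' ht0 ht1 htγ htε hH hh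
    hh2 ω
  have hhub : T.tau (st'.live * chub2 (ContinuousMap.const Ω Two.L - T.Fval2 P x st'))
      ≤ T.tau (st.live * chub2 (ContinuousMap.const Ω Two.L - T.Fval2 P x st))
        - t * T.tau (st.live * (T.lam2 P x st * ∑ i, F1 i))
        - t ^ 2 * T.tau (st.live * (T.lam2 P x st * ∑ i, F2 i))
        + t ^ 2 * (T.tau (st.live * ((∑ i, F1 i) * ∑ i, F1 i)) / 2)
        + (2 * |B| + 4 * B ^ 2) * t ^ 3 := by
    have key : st'.live * chub2 (ContinuousMap.const Ω Two.L - T.Fval2 P x st') ≤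
        st.live * chub2 (ContinuousMap.const Ω Two.L - T.Fval2 P x st)
        + ((-t) • (st.live * (T.lam2 P x st * ∑ i, F1 i))
        + ((-(t ^ 2)) • (st.live * (T.lam2 P x st * ∑ i, F2 i))
        + ((t ^ 2 / 2) • (st.live * ((∑ i, F1 i) * ∑ i, F1 i))
        + ((2 * |B| + 4 * B ^ 2) * t ^ 3) • (1 : C(Ω, ℝ))))) := by
      intro ω
      show st.live ω * Profile.hub (Two.L - T.Fval2 P x st' ω) ≤ _
      simp only [ContinuousMap.toFun_eq_coe, ContinuousMap.add_apply, ContinuousMap.mul_apply,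
        ContinuousMap.smul_apply, smul_eq_mul, ContinuousMap.one_apply, lam2,
        comp1_apply continuous_dhub, ContinuousMap.sub_apply, ContinuousMap.const_apply, chub2,
        ContinuousMap.coe_mk]
      obtain ⟨he, hf1, hf2⟩ := hF ω
      set f1 := (∑ i, F1 i) ω
      set f2 := (∑ i, F2 i) ω
      set l := st.live ω with hl
      have hl0 : 0 ≤ l := idem_nonneg hinv.live_idem ω
      have hl1 : l ≤ 1 := idem_le_one hinv.live_idem ω
      set y := Two.L - T.Fval2 P x st ω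
      set d := T.Fval2 P x st' ω - T.Fval2 P x st ω
      set e := d - (t * f1 + t ^ 2 * f2) with hed
      have he' : |e| ≤ |B| * t ^ 3 := by
        refine le_trans ?_ (mul_le_mul_of_nonneg_right (le_abs_self B) (pow_nonneg ht0 3))
        simp only [hed, d]; refine le_trans (le_of_eq ?_) he; congr 1; ring
      have hexp := hub_expand (x := y) (d := d) hl0 hl1 ht0 ht1
        (by simpa only [hed, d] using he') (hf1.trans (le_abs_self B)) (hf2.trans (le_abs_self B))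
      rw [show y - d = Two.L - T.Fval2 P x st' ω by simp only [y, d]; ring, sq_abs] at hexp
      linarith
    have := T.tau_mono key
    simp only [map_add, map_smul, smul_eq_mul, T.tau_one] at this
    linarith
  have hsum : ∑ i, T.tau (st'.sig i) = ∑ i, T.tau (st.sig i) + t * ∑ i, T.tau (h i)
      + t ^ 2 * ∑ i, T.tau (h2 i) := by
    simp only [hst', move2, map_add, map_smul, smul_eq_mul, Finset.sum_add_distrib, Finset.mul_sum]
    ring
  have htr : ∀ i s, T.tr (T.Gop2 P x st' i s) ≤ T.tr (T.Gop2 P x st i s)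
      + t * T.tau (h i * T.E (X2 (vpm x s) (T.Zop2 P x st i s) (N i s)))
      + t ^ 2 * T.trSec P x st N h h2 i s + CA * t ^ 3 := fun i s => by
    obtain ⟨hv, hv1, -⟩ := vpm_props hx hx1 s
    show T.tr (res (T.Zop2 P x st' i s)) ≤ _
    rw [hst', T.Zop2_move]
    exact T.tr_res_le (hb i s) hv1 hv hρ hρ' ht0 ht1 (hh i) (hh2 i) htγ
  have hRle : ∀ i s, T.n2 (st'.R i s) ^ 2 ≤ T.n2 (st.R i s) ^ 2
      + t * (2 * T.ip (st.R i s) (offb T (vpm x s) (N i s) (h i)))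
      + t ^ 2 * T.RSec P x st N ρ h h2 i s + CR * t ^ 3 := fun i s =>
    T.n2_R_le2 (vpm_props hx hx1 s).2.1 hρ hρ' ht0 ht1 (hh i) (hh2 i) (hb i s) (st.R i s)
  have hpos : ∑ i, T.tau (T.pos (st'.sig i)) ≤ ∑ i, T.tau (T.pos (st.sig i)) :=
    Finset.sum_le_sum fun i _ => T.tau_mono (T.pos_le_pos fun ω hω => by
      rcases hclean i ω with hc | hc
      · rw [hdead i ω (Or.inl hc), hc] at hω; exact absurd hω (lt_irrefl 0)
      · exact lt_of_le_of_ne (hinv.sig_nonneg i ω) fun he => by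
          rw [hdead i ω (Or.inl he.symm)] at hω; linarith)
  have htrs := Finset.sum_le_sum fun i (_ : i ∈ Finset.univ) =>
    add_le_add (htr i true) (htr i false)
  have hRs := Finset.sum_le_sum fun i (_ : i ∈ Finset.univ) =>
    add_le_add (hRle i true) (hRle i false)
  simp only [Finset.sum_add_distrib, ← Finset.mul_sum, Finset.sum_const, Finset.card_univ,
    Fintype.card_fin, nsmul_eq_mul] at htrs hRs
  rw [lin2, sec2, Wpot2, Wpot2]
  simp only [hF1, hF2] at hhub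
  simp only [Finset.sum_add_distrib, ← Finset.mul_sum] at hhub ⊢
  rw [hsum]
  linarith [mul_le_mul_of_nonneg_left htrs hμ.le,
    mul_le_mul_of_nonneg_left hRs (mul_nonneg hA hμ.le), mul_le_mul_of_nonneg_left hpos hς]

end TMasa

end Vale.Agent.P078
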