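import Mathlib
import Vale.Agent.P078.TwoMove
import Vale.Agent.P078.Forms
import Vale.Agent.P078.OmegaSpec

/-! Operators and trace estimates for one step of the two-sided walk. -/

noncomputable section

open scoped ComplexOrder

set_option linter.unusedSectionVars false

namespace Vale.Agent.P078

universe u v

variable {M : Type u} [CStarAlgebra M] [PartialOrder M] [StarOrderedRing M]
  {Ω : Type v} [TopologicalSpace Ω] [CompactSpace Ω] [T2Space Ω]

namespace TMasa

open Chan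

variable (T : TMasa M Ω)

lemma omega_sub_of_mem {V W : Module.End ℝ C(Ω, ℝ)} (hV : V ∈ T.TT) (hW : W ∈ T.TT) :
    T.omega (V - W) = T.omega V - T.omega W := by
  have := T.omega_add_of_mem (sub_mem hV hW) hW
  rw [sub_add_cancel] at this
  linarith

lemma omega_smul_mlt_K2 (c : ℝ) (D : C(Ω, ℝ)) {X Z : M} (hX : IsSelfAdjoint X)
    (hZ : IsSelfAdjoint Z) :
    T.omega (mlt D * (c • T.K2 X Z)) = c * T.tau (D * (T.E X * T.E Z)) := by
  have e : mlt D * (c • T.K2 X Z) = mlt (c • D) * T.K2 X Z :=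
    LinearMap.ext fun g => by
      show D * (c • T.K2 X Z g) = (c • D) * T.K2 X Z g
      rw [mul_smul_comm, smul_mul_assoc]
  rw [e, T.omega_mlt_mul_K2 _ hX hZ, smul_mul_assoc, map_smul, smul_eq_mul]

lemma K_eq_K2 {X : M} (hX : IsSelfAdjoint X) : T.K X = T.K2 X X := by
  rw [K, hX.star_eq]

lemma omega_mlt_mul_K (f : C(Ω, ℝ)) {X : M} (hX : IsSelfAdjoint X) :
    T.omega (mlt f * T.K X) = T.tau (f * (T.E X * T.E X)) := by
  rw [T.K_eq_K2 hX, T.omega_mlt_mul_K2 f hX hX]

/-- the trace of a product of two positive elements is nonnegative -/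
lemma tr_mul_nonneg {a b : M} (ha : 0 ≤ a) (hb : 0 ≤ b) : 0 ≤ T.tr (a * b) := by
  have hs : IsSelfAdjoint (CFC.sqrt b) := IsSelfAdjoint.of_nonneg (CFC.sqrt_nonneg _)
  have e : T.tr (a * b) = T.tr (CFC.sqrt b * a * CFC.sqrt b) := by
    conv_lhs => rw [← CFC.sqrt_mul_sqrt_self b hb, ← mul_assoc, T.tr_mul_comm]
    rw [mul_assoc]
  rw [e]
  exact T.tr_nonneg (hs.conjugate_nonneg ha)

lemma tau_mul_K2_nonneg {X Z : M} (hX : 0 ≤ X) (hZ : 0 ≤ Z) (g : C(Ω, ℝ)) :
    0 ≤ T.tau (g * T.K2 X Z g) := by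
  rw [K2_apply, tau_mul_E, ← mul_assoc, ← mul_assoc]
  exact T.tr_mul_nonneg ((T.emb_selfAdjoint g).conjugate_nonneg hX) hZ

lemma tau_mul_K_comm {X : M} (hX : IsSelfAdjoint X) (f g : C(Ω, ℝ)) :
    T.tau (f * T.K X g) = T.tau (g * T.K X f) := by
  rw [T.tau_mul_K, hX.star_eq]

/-- moving a weight inside the quadratic term -/
lemma tau_mul_K2_weight {X : M} (w h : C(Ω, ℝ)) :
    T.tau (h * T.K2 (X * T.emb w * X) X h) = T.tau (w * T.E (X * T.emb h * X * T.emb h * X)) := by
  rw [K2_apply, tau_mul_E, tau_mul_E, show T.emb h * (X * T.emb w * X * T.emb h * X)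
    = (T.emb h * X) * (T.emb w * (X * T.emb h * X)) by simp only [mul_assoc], T.tr_mul_comm]
  simp only [mul_assoc]

lemma omega_weight {X : M} (hX : IsSelfAdjoint X) (D w : C(Ω, ℝ)) :
    T.omega (mlt D * T.K2 (X * T.emb w * X) X) = T.tau (w * T.K X (D * T.E X)) := by
  have h : IsSelfAdjoint (X * T.emb w * X) := by
    simpa [hX.star_eq] using (T.emb_selfAdjoint w).conjugate X
  rw [T.omega_mlt_mul_K2 D h hX, T.tau_mul_K_comm hX, T.K_apply, hX.star_eq]
  congr 1
  ring

/-- Kadison–Schwarz for the expectation -/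
lemma K_ge_mul_sq {X : M} (hX : IsSelfAdjoint X) {g : C(Ω, ℝ)} (hg : 0 ≤ g) (ω : Ω) :
    g ω * T.E X ω ^ 2 ≤ T.K X g ω := by
  have h := T.E_schwarz (T.emb (csqrt g) * X) 1 ω
  rw [star_mul, T.star_emb, hX.star_eq, mul_one, star_one, mul_one, T.E_one,
    ContinuousMap.one_apply, mul_one, T.E_mul_emb] at h
  have e : X * T.emb (csqrt g) * (T.emb (csqrt g) * X) = X * T.emb g * X := by
    rw [mul_assoc X (T.emb (csqrt g)), ← mul_assoc (T.emb (csqrt g)), ← map_mul, csqrt_mul_self hg,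
      mul_assoc]
  rw [e, ContinuousMap.mul_apply, mul_pow] at h
  rw [T.K_apply, hX.star_eq]
  refine le_trans (le_of_eq ?_) h
  rw [show csqrt g ω = Real.sqrt (g ω) from rfl, Real.sq_sqrt (show 0 ≤ g ω from hg ω)]

lemma E_XhXhX_nonneg {X : M} (hX : 0 ≤ X) (h : C(Ω, ℝ)) :
    0 ≤ T.E (X * T.emb h * X * T.emb h * X) := by
  refine T.E_nonneg ?_
  have hs : IsSelfAdjoint X := IsSelfAdjoint.of_nonneg hX
  have := star_left_conjugate_nonneg hX (T.emb h * X)
  simpa only [star_mul, hs.star_eq, T.star_emb, mul_assoc] using this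

/-- the off-band quadratic form -/
def offOp (v N : M) : Module.End ℝ C(Ω, ℝ) := T.K (v * v) - T.K (v * N * v)

variable {v N : M}

lemma offOp_mem (hv : IsSelfAdjoint v) (hN : IsSelfAdjoint N) : T.offOp v N ∈ T.TT :=
  sub_mem (T.K_mem (by simpa [hv.star_eq] using IsSelfAdjoint.star_mul_self v))
    (T.K_mem (by simpa [hv.star_eq] using hN.conjugate v))

lemma n2_offb_sq (hv : IsSelfAdjoint v) (hN : IsStarProjection N) (h : C(Ω, ℝ)) :
    T.n2 (offb T v N h) ^ 2 = T.tau (h * T.offOp v N h) := by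
  have hy : IsSelfAdjoint (v * v) := by simpa [hv.star_eq] using IsSelfAdjoint.star_mul_self v
  have hn : IsSelfAdjoint (v * N * v) := by
    simpa [hv.star_eq] using hN.isSelfAdjoint.conjugate v
  set Y := v * T.emb h * v with hY
  have hYs : IsSelfAdjoint Y := by
    rw [hY]; simpa [hv.star_eq] using (T.emb_selfAdjoint h).conjugate v
  have hWs : IsSelfAdjoint (N * Y * N) := by
    simpa [hN.isSelfAdjoint.star_eq] using hYs.conjugate N
  have e1 : T.tr (N * Y * N * (N * Y * N)) = T.tr (N * Y * N * Y) := by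
    rw [show N * Y * N * (N * Y * N) = N * Y * (N * N) * Y * N by simp only [mul_assoc],
      hN.isIdempotentElem.eq, T.tr_mul_comm (N * Y * N * Y) N]
    simp only [← mul_assoc, hN.isIdempotentElem.eq]
  have e2 : T.tr (Y * (N * Y * N)) = T.tr (N * Y * N * Y) := T.tr_mul_comm _ _
  have e3 : T.tr (Y * Y) = T.tau (h * T.K (v * v) h) := by
    rw [T.K_apply, hy.star_eq, tau_mul_E, hY,
      show v * T.emb h * v * (v * T.emb h * v) = v * (T.emb h * (v * v) * (T.emb h * v)) by
        simp only [mul_assoc], T.tr_mul_comm]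
    simp only [mul_assoc]
  have e4 : T.tr (N * Y * N * Y) = T.tau (h * T.K (v * N * v) h) := by
    rw [T.K_apply, hn.star_eq, tau_mul_E, hY,
      show N * (v * T.emb h * v) * N * (v * T.emb h * v)
        = (N * v) * (T.emb h * (v * N * v) * (T.emb h * v)) by simp only [mul_assoc],
      T.tr_mul_comm]
    simp only [mul_assoc]
  rw [T.n2_sq, ip, show offb T v N h = Y - N * Y * N from rfl, (hYs.sub hWs).star_eq, offOp,
    LinearMap.sub_apply, mul_sub h, map_sub T.tau, ← e3, ← e4]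
  simp only [mul_sub, sub_mul, map_sub, e1, e2]
  ring

lemma omega_offOp_le (hv : IsSelfAdjoint v) (hN : IsStarProjection N) (hy1 : v * v ≤ 1)
    {D : C(Ω, ℝ)} {cD : ℝ} (hD : 0 ≤ D) (hD' : ∀ ω, D ω ≤ cD) (hE : ∀ ω, T.E (v * v) ω = 1 / 2) :
    T.omega (mlt D * T.offOp v N) ≤ cD * T.tr (1 - N) := by
  have hy : IsSelfAdjoint (v * v) := by simpa [hv.star_eq] using IsSelfAdjoint.star_mul_self v
  have hn : IsSelfAdjoint (v * N * v) := by
    simpa [hv.star_eq] using hN.isSelfAdjoint.conjugate v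
  rw [offOp, mul_sub, T.omega_sub_of_mem (mul_mem (T.mlt_mem D) (T.K_mem hy))
    (mul_mem (T.mlt_mem D) (T.K_mem hn)), T.omega_mlt_mul_K D hy, T.omega_mlt_mul_K D hn,
    ← map_sub]
  have hC0 : 0 ≤ v * (1 - N) * v := hv.conjugate_nonneg hN.one_sub.nonneg
  have hle : D * (T.E (v * v) * T.E (v * v)) - D * (T.E (v * N * v) * T.E (v * N * v))
      ≤ cD • T.E (v * (1 - N) * v) := by
    refine ContinuousMap.le_def.2 fun ω => ?_
    have h1 : 0 ≤ T.E (v * N * v) ω := T.E_nonneg (hv.conjugate_nonneg hN.nonneg) ω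
    have h2 : 0 ≤ T.E (v * (1 - N) * v) ω := T.E_nonneg hC0 ω
    have e : T.E (v * (1 - N) * v) ω = T.E (v * v) ω - T.E (v * N * v) ω := by
      simp [mul_sub, sub_mul]
    have hd : 0 ≤ D ω := hD ω
    simp only [ContinuousMap.sub_apply, ContinuousMap.mul_apply, ContinuousMap.smul_apply,
      smul_eq_mul]
    rw [e, hE ω] at h2 ⊢
    have h3 : 1 / 2 * (1 / 2) - T.E (v * N * v) ω * T.E (v * N * v) ω
        ≤ 1 / 2 - T.E (v * N * v) ω := by nlinarith
    calc D ω * (1 / 2 * (1 / 2)) - D ω * (T.E (v * N * v) ω * T.E (v * N * v) ω)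
        ≤ D ω * (1 / 2 - T.E (v * N * v) ω) := by nlinarith [mul_le_mul_of_nonneg_left h3 hd]
      _ ≤ cD * (1 / 2 - T.E (v * N * v) ω) := mul_le_mul_of_nonneg_right (hD' ω) h2
  refine (T.tau_mono hle).trans ?_
  rw [map_smul, smul_eq_mul]
  rcases isEmpty_or_nonempty Ω with hΩ | ⟨⟨ω₀⟩⟩
  · have : T.E (v * (1 - N) * v) = 0 := ContinuousMap.ext fun ω => hΩ.elim ω
    have h10 : (1 : C(Ω, ℝ)) = 0 := ContinuousMap.ext fun ω => hΩ.elim ω
    have := T.tau_one
    rw [h10, map_zero] at this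
    exact absurd this zero_ne_one
  refine mul_le_mul_of_nonneg_left ?_ ((hD ω₀).trans (hD' ω₀))
  rw [T.tau_E, T.tr_mul_comm (v * (1 - N)), ← mul_assoc]
  have e : T.tr (v * v * (1 - N)) = T.tr ((1 - N) * (v * v) * (1 - N)) := by
    rw [mul_assoc (1 - N), T.tr_mul_comm (1 - N), mul_assoc (v * v) (1 - N),
      hN.one_sub.isIdempotentElem.eq]
  rw [e]
  refine T.tr_mono ((hN.one_sub.isSelfAdjoint.conjugate_le_conjugate hy1).trans (le_of_eq ?_))
  rw [mul_one, hN.one_sub.isIdempotentElem.eq]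

/-- the weight of an off-band perturbation in the correction term -/
def offW (v N R : M) : C(Ω, ℝ) := T.E (v * (R - N * R * N) * v)

lemma ip_offb (R : M) (hR : IsSelfAdjoint R) (f : C(Ω, ℝ)) :
    T.ip R (offb T v N f) = T.tau (f * T.offW v N R) := by
  rw [ip, hR.star_eq, offW, tau_mul_E, offb, mul_sub, map_sub,
    show T.emb f * (v * (R - N * R * N) * v)
      = T.emb f * v * R * v - T.emb f * v * N * R * N * v by
      simp only [mul_sub, sub_mul, mul_assoc], map_sub]
  congr 1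
  · rw [show R * (v * T.emb f * v) = (R * v) * (T.emb f * v) by simp only [mul_assoc],
      T.tr_mul_comm]
    simp only [mul_assoc]
  · rw [show R * (N * (v * T.emb f * v) * N) = (R * N * v) * (T.emb f * v * N) by
      simp only [mul_assoc], T.tr_mul_comm]
    simp only [mul_assoc]

/-- absolute value -/
def cabs (f : C(Ω, ℝ)) : C(Ω, ℝ) := ⟨fun ω => |f ω|, by fun_prop⟩

lemma tau_abs_offW {γ : ℝ} {Z : M} (hb : Band γ Z N) (hv1 : ‖v‖ ≤ 1) (R : M) (hR : IsSelfAdjoint R) :
    T.tau (cabs (T.offW v N R)) ≤ T.n2 R * (2 * Real.sqrt (T.tr (1 - N))) := by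
  set w := T.offW v N R
  set s : C(Ω, ℝ) := T.pos w - (1 - T.pos w) with hs
  have hsw : s * w = cabs w := by
    ext ω
    show (T.pos w ω - (1 - T.pos w ω)) * w ω = |w ω|
    rcases idem_zero_or_one (T.pos_mul_self w) ω with h | h
    · rw [h, abs_of_nonpos (T.nonpos_of_pos_eq_zero h)]; ring
    · rw [h, abs_of_nonneg (T.nonneg_of_pos_eq_one h)]; ring
  have hs1 : ‖s‖ ≤ 1 := (ContinuousMap.norm_le _ zero_le_one).2 fun ω => by
    rcases idem_zero_or_one (T.pos_mul_self w) ω with h | h <;> simp [hs, h]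
  rw [← hsw, ← T.ip_offb R hR]
  refine (le_abs_self _).trans ((T.abs_ip_le _ _).trans
    (mul_le_mul_of_nonneg_left ?_ (T.n2_nonneg _)))
  refine (T.n2_offband_le hb _).trans
    (mul_le_mul_of_nonneg_right (mul_le_of_le_one_right zero_le_two ?_) (Real.sqrt_nonneg _))
  refine (norm_sandwich_le hv1 _).trans ?_
  rwa [T.emb_norm]

/-- the set where a function exceeds a threshold in absolute value has small trace -/
lemma tau_exceed_le (u : C(Ω, ℝ)) {t : ℝ} (ht : 0 < t) :
    t * T.tau (T.pos (cabs u - ContinuousMap.const Ω t)) ≤ T.tau (cabs u) := by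
  have h : t • T.pos (cabs u - ContinuousMap.const Ω t) ≤ cabs u := by
    refine ContinuousMap.le_def.2 fun ω => ?_
    show t * T.pos (cabs u - ContinuousMap.const Ω t) ω ≤ |u ω|
    rcases idem_zero_or_one (T.pos_mul_self (cabs u - ContinuousMap.const Ω t)) ω with h | h
    · rw [h, mul_zero]; exact abs_nonneg _
    · have h' : 0 ≤ |u ω| - t := T.nonneg_of_pos_eq_one h
      rw [h, mul_one]
      linarith
  have := T.tau_mono h
  rwa [map_smul, smul_eq_mul] at this

end TMasa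

end Vale.Agent.P078
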