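import Mathlib
import Vale.Agent.P078.TwoState

/-! The scalar inequalities of the two-sided walk. -/

noncomputable section

set_option linter.unusedSectionVars false
set_option linter.unusedVariables false

namespace Vale.Agent.P078.Two

/-- the denominator of the step weight -/
def dens (ε x B : ℝ) : ℝ := e1Of ε x ^ 2 * (2 + 2 * spOf ε x) + ε * mOf ε x / (1 - x) * max B 0

/-- the loss of one sign -/
def lossS (x a m' : ℝ) : ℝ :=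
  dphi x ^ 2 * (a - m') / (4 * phi x) - dphi x * a * m' - phi x * a ^ 2 * (1 / x + m')

variable {ε x : ℝ}

lemma mOf_pos (hε : 0 < ε) (hx : x ≤ 1 - 2 * ε) : 0 < mOf ε x := by
  have h : 0 < 1 + ε - x := by linarith
  rw [mOf]; positivity

lemma mOf_le (hε : 0 < ε) (hx : x ≤ 1 - 2 * ε) : mOf ε x ≤ 1 / (3 * ε) := by
  rw [mOf]
  exact one_div_le_one_div_of_le (by linarith) (by linarith)

lemma mOf_le' (hε : 0 < ε) (hx : x ≤ 1 - 2 * ε) : mOf ε x ≤ 1 / (2 * ε) :=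
  (mOf_le hε hx).trans (one_div_le_one_div_of_le (by linarith) (by linarith))

lemma half_le_mOf (hε : 0 < ε) (hε1 : ε ≤ 1 / 16) (hx0 : 0 ≤ x) (hx : x ≤ 1 - 2 * ε) :
    1 / 2 ≤ mOf ε x := by
  rw [mOf]
  exact one_div_le_one_div_of_le (by linarith) (by linarith)

lemma spOf_nonneg (hε : 0 < ε) (hx0 : 0 ≤ x) (hx : x ≤ 1 - 2 * ε) : 0 ≤ spOf ε x :=
  mul_nonneg (mul_nonneg hε.le hx0) (mOf_pos hε hx).le

lemma spOf_le_third (hε : 0 < ε) (hx0 : 0 ≤ x) (hx : x ≤ 1 - 2 * ε) : spOf ε x ≤ 1 / 3 := by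
  have h1 := mul_le_mul_of_nonneg_left (mOf_le hε hx) (mul_nonneg hε.le hx0)
  have h2 : ε * x * (1 / (3 * ε)) = x / 3 := by field_simp
  unfold spOf
  linarith

lemma spOf_le (hε : 0 < ε) (hx0 : 0 ≤ x) (hx : x ≤ 1 - 2 * ε) : spOf ε x ≤ 1 / 2 :=
  (spOf_le_third hε hx0 hx).trans (by norm_num)

lemma le_spOf (hε : 0 < ε) (hε1 : ε ≤ 1 / 16) (hx0 : 0 ≤ x) (hx : x ≤ 1 - 2 * ε) :
    ε * x / 2 ≤ spOf ε x := by
  have h1 := mul_le_mul_of_nonneg_left (half_le_mOf hε hε1 hx0 hx) (mul_nonneg hε.le hx0)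
  unfold spOf
  linarith

lemma le_e1Of (hε : 0 < ε) (hε1 : ε ≤ 1 / 16) (hx0 : 0 ≤ x) (hx : x ≤ 1 - 2 * ε) :
    ε / 2 ≤ e1Of ε x := by
  have h1 : 1 / (1 + ε) ≤ mOf ε x := one_div_le_one_div_of_le (by linarith) (by linarith)
  have h2 : (1 / (1 + ε)) ^ 2 ≤ mOf ε x ^ 2 := pow_le_pow_left₀ (by positivity) h1 2
  have h3 : ε * (1 + ε) * (1 / (1 + ε)) ^ 2 = ε / (1 + ε) := by field_simp
  have h4 := mul_le_mul_of_nonneg_left h2 (show 0 ≤ ε * (1 + ε) by positivity)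
  have h5 : ε / 2 ≤ ε / (1 + ε) := div_le_div_of_nonneg_left hε.le (by linarith) (by linarith)
  unfold e1Of
  linarith

lemma e1Of_nonneg (hε : 0 < ε) : 0 ≤ e1Of ε x := by unfold e1Of; positivity

lemma e1Of_le (hε : 0 < ε) (hε1 : ε ≤ 1 / 16) (hx : x ≤ 1 - 2 * ε) : e1Of ε x ≤ 1 / (4 * ε) := by
  have h1 := pow_le_pow_left₀ (mOf_pos hε hx).le (mOf_le hε hx) 2
  have h2 := mul_le_mul_of_nonneg_left h1 (show 0 ≤ ε * (1 + ε) by positivity)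
  have h3 : ε * (1 + ε) * (1 / (3 * ε)) ^ 2 = (1 + ε) / (9 * ε) := by field_simp; ring
  have h4 : (1 + ε) / (9 * ε) ≤ 1 / (4 * ε) := by
    rw [div_le_div_iff₀ (by positivity) (by positivity)]; nlinarith
  unfold e1Of
  linarith

lemma inv_pow_le (hε : 0 < ε) (hε1 : ε ≤ 1 / 16) {a b : ℕ} (h : a ≤ b) : 1 / ε ^ a ≤ 1 / ε ^ b :=
  one_div_le_one_div_of_le (pow_pos hε b) (pow_le_pow_of_le_one hε.le (by linarith) h)

theorem dens_ge (hε : 0 < ε) (hε1 : ε ≤ 1 / 16) (hx0 : 0 ≤ x) (hx : x ≤ 1 - 2 * ε) (B : ℝ) :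
    ε ^ 4 ≤ dens ε x B := by
  have h1 := pow_le_pow_left₀ (by positivity) (le_e1Of hε hε1 hx0 hx) 2
  have h2 : 0 ≤ ε * mOf ε x / (1 - x) * max B 0 := mul_nonneg
    (div_nonneg (mul_nonneg hε.le (mOf_pos hε hx).le) (by linarith)) (le_max_right _ _)
  have h3 : ε ^ 4 ≤ (ε / 2) ^ 2 * 2 := by
    have : ε ^ 2 ≤ 1 / 2 := by nlinarith
    nlinarith [mul_le_mul_of_nonneg_left this (sq_nonneg ε)]
  have h4 : e1Of ε x ^ 2 * 2 ≤ e1Of ε x ^ 2 * (2 + 2 * spOf ε x) :=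
    mul_le_mul_of_nonneg_left (by linarith [spOf_nonneg hε hx0 hx]) (sq_nonneg _)
  unfold dens
  linarith

lemma dens_pos (hε : 0 < ε) (hε1 : ε ≤ 1 / 16) (hx0 : 0 ≤ x) (hx : x ≤ 1 - 2 * ε) (B : ℝ) :
    0 < dens ε x B :=
  (pow_pos hε 4).trans_le (dens_ge hε hε1 hx0 hx B)

theorem dens_le (hε : 0 < ε) (hε1 : ε ≤ 1 / 16) (hx0 : 0 ≤ x) (hx : x ≤ 1 - 2 * ε) {B : ℝ}
    (hB : 0 ≤ B) : dens ε x B ≤ C1 ε * ε * (B + 1 / 4) := by
  have e : C1 ε * ε = 4 * (1 / ε ^ 5) := by rw [C1]; field_simp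
  have h1 : e1Of ε x ^ 2 * (2 + 2 * spOf ε x) ≤ 1 / ε ^ 5 := by
    have a1 := pow_le_pow_left₀ (e1Of_nonneg hε) (e1Of_le hε hε1 hx) 2
    have a2 : (2 : ℝ) + 2 * spOf ε x ≤ 3 := by linarith [spOf_le hε hx0 hx]
    refine le_trans (mul_le_mul a1 a2 (by linarith [spOf_nonneg hε hx0 hx]) (sq_nonneg _)) ?_
    refine le_trans ?_ (inv_pow_le hε hε1 (show 2 ≤ 5 by norm_num))
    rw [show (1 / (4 * ε)) ^ 2 * 3 = 3 / 16 * (1 / ε ^ 2) by field_simp; ring]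
    exact mul_le_of_le_one_left (by positivity) (by norm_num)
  have h2 : ε * mOf ε x / (1 - x) ≤ 4 * (1 / ε ^ 5) := by
    have a1 : ε * mOf ε x ≤ 1 / 3 := by
      refine (mul_le_mul_of_nonneg_left (mOf_le hε hx) hε.le).trans (le_of_eq ?_)
      field_simp
    refine (div_le_div₀ (by norm_num) a1 (by positivity) (show 2 * ε ≤ 1 - x by linarith)).trans ?_
    have := inv_pow_le hε hε1 (show 1 ≤ 5 by norm_num)
    rw [pow_one] at this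
    rw [show 1 / 3 / (2 * ε) = 1 / 6 * (1 / ε) by field_simp; ring]
    nlinarith [show 0 < 1 / ε by positivity]
  have h3 := mul_le_mul_of_nonneg_right h2 hB
  rw [e, dens, max_eq_left hB]
  linarith

theorem psi_zero : psi ε 0 = 0 := by simp [psi, spOf]

theorem psi_le (hε : 0 < ε) (hx0 : 0 ≤ x) (hx : x ≤ 1 - 2 * ε) : psi ε x ≤ 4 * x := by
  have h1 := spOf_nonneg hε hx0 hx
  have h2 := spOf_le hε hx0 hx
  unfold psi
  nlinarith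

theorem psi_taylor (hε : 0 < ε) (hε1 : ε ≤ 1 / 16) (hx0 : 0 ≤ x) (hx : x ≤ 1 - 2 * ε) {d : ℝ}
    (hd : x + d ≤ 1 - ε) :
    |psiC ε (x + d) - (psi ε x + dpsi ε x * d + hpsi ε x * d ^ 2)| ≤
      (1000 / ε ^ 8) * |d| ^ 3 := by
  set m := mOf ε x with hm
  set m₂ := mOf ε (x + d) with hm₂
  have hm0 : 0 < m := mOf_pos hε hx
  have hn : (1 + ε - x) ≠ 0 := by linarith
  have hn₂ : (1 + ε - (x + d)) ≠ 0 := by linarith
  have hm20 : 0 < m₂ := by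
    have : 0 < 1 + ε - (x + d) := by linarith
    rw [hm₂, mOf]; positivity
  have hm2le : m₂ ≤ 1 / (2 * ε) := by
    rw [hm₂, mOf]; exact one_div_le_one_div_of_le (by linarith) (by linarith)
  have hrel : m₂ - m = m₂ * m * d := by
    rw [hm, hm₂, mOf, mOf]; field_simp; ring
  set s := spOf ε x with hs
  set e := e1Of ε x with he
  have hsp : spOf ε (x + d) = s + (e * d + e * m₂ * d ^ 2) := by
    have e1 : ∀ u, 1 + ε - u ≠ 0 → spOf ε u = ε * (1 + ε) * mOf ε u - ε := fun u hu => by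
      rw [spOf, mOf]; field_simp; ring
    rw [hs, e1 _ hn₂, e1 _ hn, ← hm, ← hm₂, he, e1Of, ← hm]
    linear_combination (ε * (1 + ε) + ε * (1 + ε) * m * d) * hrel
  have hrem : psiC ε (x + d) - (psi ε x + dpsi ε x * d + hpsi ε x * d ^ 2) =
      d ^ 3 * ((s - 3) * e * m₂ * m + e ^ 2 * m₂ * (2 + m₂ * d) / 2) := by
    rw [psiC, min_eq_left (by linarith), psi, hsp, psi, dpsi, hpsi, ← hs, ← he, ← hm]
    linear_combination ((s - 3) * e * d ^ 2) * hrel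
  rw [hrem, abs_mul, abs_pow, mul_comm]
  refine mul_le_mul_of_nonneg_right ?_ (pow_nonneg (abs_nonneg d) 3)
  have hs0 := spOf_nonneg hε hx0 hx
  have hs1 := spOf_le hε hx0 hx
  rw [← hs] at hs0 hs1
  have he0 : 0 ≤ e := e1Of_nonneg hε
  have he1 : e ≤ 1 / (4 * ε) := e1Of_le hε hε1 hx
  have hmle : m ≤ 1 / (3 * ε) := mOf_le hε hx
  have hmd : |2 + m₂ * d| ≤ 3 + 1 / ε := by
    have a : m₂ * d = m₂ / m - 1 := by
      rw [eq_sub_iff_add_eq, eq_div_iff hm0.ne']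
      linear_combination -hrel
    have b : m₂ / m ≤ 1 / ε := by
      rw [div_le_iff₀ hm0]
      refine hm2le.trans ?_
      have := mul_le_mul_of_nonneg_left (half_le_mOf hε hε1 hx0 hx) (show 0 ≤ 1 / ε by positivity)
      rw [← hm] at this
      refine le_trans (le_of_eq ?_) this
      field_simp
    rw [a, abs_le]
    have : 0 ≤ m₂ / m := by positivity
    constructor <;> linarith
  calc |(s - 3) * e * m₂ * m + e ^ 2 * m₂ * (2 + m₂ * d) / 2|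
      ≤ |(s - 3) * e * m₂ * m| + |e ^ 2 * m₂ * (2 + m₂ * d) / 2| := abs_add_le _ _
    _ = |s - 3| * e * m₂ * m + e ^ 2 * m₂ * |2 + m₂ * d| / 2 := by
        rw [abs_mul, abs_mul, abs_mul, abs_div, abs_mul, abs_mul, abs_of_nonneg he0,
          abs_of_pos hm20, abs_of_pos hm0, abs_of_nonneg (sq_nonneg e), abs_two]
    _ ≤ 3 * (1 / (4 * ε)) * (1 / (2 * ε)) * (1 / (3 * ε)) +
          (1 / (4 * ε)) ^ 2 * (1 / (2 * ε)) * (3 + 1 / ε) / 2 := by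
        have : |s - 3| ≤ 3 := abs_le.2 ⟨by linarith, by linarith⟩
        gcongr
    _ = 11 / 64 * (1 / ε ^ 3) + 1 / 64 * (1 / ε ^ 4) := by field_simp; ring
    _ ≤ 1000 / ε ^ 8 := by
        have a1 := inv_pow_le hε hε1 (show 3 ≤ 8 by norm_num)
        have a2 := inv_pow_le hε hε1 (show 4 ≤ 8 by norm_num)
        have a3 : 0 < 1 / ε ^ 8 := by positivity
        rw [show 1000 / ε ^ 8 = 1000 * (1 / ε ^ 8) by ring]
        linarith

theorem abs_psi_le (hε : 0 < ε) (hε1 : ε ≤ 1 / 16) (hx0 : 0 ≤ x) (hx : x ≤ 1 - 2 * ε) :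
    |psi ε x| ≤ 100 / ε ^ 6 := by
  have h1 := spOf_nonneg hε hx0 hx
  have h2 := spOf_le hε hx0 hx
  have h3 := inv_pow_le hε hε1 (show 0 ≤ 6 by norm_num)
  rw [pow_zero, div_one] at h3
  rw [show 100 / ε ^ 6 = 100 * (1 / ε ^ 6) by ring, psi, abs_le]
  constructor <;> nlinarith

theorem abs_dpsi_le (hε : 0 < ε) (hε1 : ε ≤ 1 / 16) (hx0 : 0 ≤ x) (hx : x ≤ 1 - 2 * ε) :
    |dpsi ε x| ≤ 100 / ε ^ 6 := by
  have h1 := spOf_nonneg hε hx0 hx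
  have h2 := spOf_le hε hx0 hx
  have h3 := e1Of_nonneg (x := x) hε
  have h4 := e1Of_le hε hε1 hx
  have h5 := inv_pow_le hε hε1 (show 1 ≤ 6 by norm_num)
  rw [pow_one] at h5
  have h6 : 1 / (4 * ε) ≤ 1 / ε := one_div_le_one_div_of_le hε (by linarith)
  have h7 : (4 : ℝ) ≤ 1 / ε := by rw [le_div_iff₀ hε]; linarith
  rw [show 100 / ε ^ 6 = 100 * (1 / ε ^ 6) by ring, dpsi, abs_le]
  constructor <;> nlinarith

theorem abs_hpsi_le (hε : 0 < ε) (hε1 : ε ≤ 1 / 16) (hx0 : 0 ≤ x) (hx : x ≤ 1 - 2 * ε) :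
    |hpsi ε x| ≤ 100 / ε ^ 6 := by
  have h1 := spOf_nonneg hε hx0 hx
  have h2 := spOf_le hε hx0 hx
  have h3 := e1Of_nonneg (x := x) hε
  have h4 := e1Of_le hε hε1 hx
  have hm := mOf_pos hε hx
  have a : mOf ε x * e1Of ε x ≤ 1 / (3 * ε) * (1 / (4 * ε)) :=
    mul_le_mul (mOf_le hε hx) h4 h3 (by positivity)
  have b : e1Of ε x ^ 2 ≤ (1 / (4 * ε)) ^ 2 := pow_le_pow_left₀ h3 h4 2
  have e : 1 / (3 * ε) * (1 / (4 * ε)) = 1 / 12 * (1 / ε ^ 2) ∧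
      (1 / (4 * ε)) ^ 2 = 1 / 16 * (1 / ε ^ 2) :=
    ⟨by field_simp; ring, by field_simp; ring⟩
  have h5 := inv_pow_le hε hε1 (show 2 ≤ 6 by norm_num)
  have h6 : 0 ≤ mOf ε x * e1Of ε x := mul_nonneg hm.le h3
  rw [show 100 / ε ^ 6 = 100 * (1 / ε ^ 6) by ring, hpsi, abs_le]
  constructor <;> nlinarith [sq_nonneg (e1Of ε x)]

variable {τ : ℝ}

lemma tau_small (hε : 0 < ε) (hε1 : ε ≤ 1 / 16) (hτ : τ ≤ ε ^ 10) : τ ≤ ε ^ 4 * (1 / 16) ^ 6 :=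
  hτ.trans ((pow_add ε 4 6).le.trans
    (mul_le_mul_of_nonneg_left (pow_le_pow_left₀ hε.le hε1 6) (by positivity)))

theorem f_le (hε : 0 < ε) (hε1 : ε ≤ 1 / 16) (hx0 : 0 ≤ x) (hx : x ≤ 1 - 2 * ε) (hτ0 : 0 ≤ τ)
    (hτ : τ ≤ ε ^ 10) {a b : ℝ} (ha : mOf ε x - τ ≤ a) (hb : mOf ε x - τ ≤ b) :
    psi ε x - phi x * (a + b) ≤ 3 / 2 * spOf ε x := by
  have h1 := spOf_nonneg hε hx0 hx
  have h2 := spOf_le_third hε hx0 hx
  have hq : 0 ≤ phi x := by unfold phi; nlinarith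
  have h4 := mul_le_mul_of_nonneg_left (add_le_add ha hb) hq
  have hn : (1 + ε - x) ≠ 0 := by linarith
  have e : psi ε x - phi x * (mOf ε x + mOf ε x) = spOf ε x + spOf ε x ^ 2 / 2 := by
    rw [psi, phi, spOf, mOf]; field_simp; ring
  have h5 := tau_small hε hε1 hτ
  have h8 : τ ≤ ε / 48 := h5.trans (by
    have : ε ^ 4 ≤ ε := pow_le_of_le_one hε.le (by linarith) (by norm_num)
    nlinarith)
  have h9 : phi x * (2 * τ) ≤ spOf ε x / 3 := by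
    have a1 : phi x ≤ 2 * x := by unfold phi; nlinarith
    have a2 := le_spOf hε hε1 hx0 hx
    have a3 : phi x * (2 * τ) ≤ 2 * x * (2 * τ) := mul_le_mul_of_nonneg_right a1 (by linarith)
    have a4 : x * τ ≤ x * (ε / 48) := mul_le_mul_of_nonneg_left h8 hx0
    linarith
  nlinarith

lemma phi_bounds (hε : 0 < ε) (hx0 : 0 ≤ x) (hx : x ≤ 1 - 2 * ε) :
    0 ≤ phi x ∧ phi x ≤ 1 / 2 ∧ |dphi x| ≤ 2 := by
  refine ⟨?_, ?_, ?_⟩
  · unfold phi; nlinarith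
  · unfold phi; nlinarith [sq_nonneg (2 * x - 1)]
  · unfold dphi; rw [abs_le]; constructor <;> linarith

lemma dphi_add_phi_mOf (hε : 0 < ε) (hx : x ≤ 1 - 2 * ε) :
    dphi x + 2 * phi x * mOf ε x = 2 * mOf ε x * (1 + ε - x - 2 * ε * x) := by
  have hn : (1 + ε - x) ≠ 0 := by linarith
  rw [dphi, phi, mOf]; field_simp; ring

lemma gain_expand (h H D₁ D₂ m ap an δ : ℝ) :
    h + 2 * (ap + an + δ) - H * (ap + an + δ - m)
        + D₁ * ((ap + an + δ) * (ap + an + δ - m) - ap ^ 2 - an ^ 2)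
        + D₂ * (ap ^ 2 * (ap + an + δ - m - ap) + an ^ 2 * (ap + an + δ - m - an)) =
      (h + 4 * m - H * m) + ((ap - m) + (an - m) + δ) * (2 - H + D₁ * m + D₂ * m ^ 2)
      + 2 * (ap - m) * (an - m) * (D₁ + 2 * D₂ * m)
      + D₂ * ((ap - m) * (an - m) * ((ap - m) + (an - m)) + (ap ^ 2 + an ^ 2 - m ^ 2) * δ)
      + D₁ * δ * (2 * m + 2 * ((ap - m) + (an - m)) + δ) := by
  ring

lemma gain_const (hε : 0 < ε) (hε1 : ε ≤ 1 / 16) (hx0 : 0 ≤ x) (hx : x ≤ 1 - 2 * ε) (hτ0 : 0 ≤ τ)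
    (hτ : τ ≤ ε / 1000) :
    e1Of ε x ^ 2 * (2 + 2 * spOf ε x) / 12 ≤
      hpsi ε x + 4 * (mOf ε x - τ) - dpsi ε x * (mOf ε x - τ) := by
  have hn : (1 + ε - x) ≠ 0 := by linarith
  have i0 : hpsi ε x + 4 * mOf ε x - dpsi ε x * mOf ε x = e1Of ε x ^ 2 / 2 := by
    rw [hpsi, dpsi, spOf, e1Of, mOf]; field_simp; ring
  have idp : 4 - dpsi ε x = e1Of ε x * (3 - spOf ε x) := by rw [dpsi]; ring
  have e : hpsi ε x + 4 * (mOf ε x - τ) - dpsi ε x * (mOf ε x - τ) =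
      e1Of ε x ^ 2 / 2 - τ * (e1Of ε x * (3 - spOf ε x)) := by rw [← idp, ← i0]; ring
  rw [e]
  have he := le_e1Of hε hε1 hx0 hx
  have hs0 := spOf_nonneg hε hx0 hx
  have hs1 := spOf_le_third hε hx0 hx
  have h1 : τ * (e1Of ε x * (3 - spOf ε x)) ≤ e1Of ε x / 4 * e1Of ε x := by
    calc τ * (e1Of ε x * (3 - spOf ε x)) ≤ ε / 1000 * (e1Of ε x * 3) :=
          mul_le_mul hτ (mul_le_mul_of_nonneg_left (by linarith) (by linarith))
            (mul_nonneg (by linarith) (by linarith)) (by linarith)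
      _ ≤ _ := by nlinarith
  nlinarith [sq_nonneg (e1Of ε x)]

lemma gain_slope (hε : 0 < ε) (hε1 : ε ≤ 1 / 16) (hx0 : 0 ≤ x) (hx : x ≤ 1 - 2 * ε) (hτ0 : 0 ≤ τ)
    (hτ : τ ≤ ε ^ 2 / 1000) :
    ε * mOf ε x / (1 - x) / 12 ≤
      2 - dpsi ε x + dphi x * (mOf ε x - τ) + phi x * (mOf ε x - τ) ^ 2 := by
  have hn : (1 + ε - x) ≠ 0 := by linarith
  have i1 : 2 - dpsi ε x + dphi x * mOf ε x + phi x * mOf ε x ^ 2 =
      e1Of ε x * (1 - spOf ε x) := by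
    rw [dpsi, dphi, phi, spOf, e1Of, mOf]; field_simp; ring
  have e : 2 - dpsi ε x + dphi x * (mOf ε x - τ) + phi x * (mOf ε x - τ) ^ 2 =
      e1Of ε x * (1 - spOf ε x) - τ * (dphi x + phi x * (2 * mOf ε x - τ)) := by rw [← i1]; ring
  rw [e]
  obtain ⟨hφ0, hφ1, hdφ⟩ := phi_bounds hε hx0 hx
  have hm := mOf_pos hε hx
  have hmle := mOf_le hε hx
  have hmge := half_le_mOf hε hε1 hx0 hx
  have a1 : τ * (dphi x + phi x * (2 * mOf ε x - τ)) ≤ τ * (3 / ε) := by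
    refine mul_le_mul_of_nonneg_left ?_ hτ0
    have b1 := (le_abs_self _).trans hdφ
    have b2 : phi x * (2 * mOf ε x - τ) ≤ 1 / 2 * (2 * mOf ε x) :=
      mul_le_mul hφ1 (by linarith) (by nlinarith) (by norm_num)
    have b3 : 1 / (3 * ε) = 1 / 3 * (1 / ε) := by field_simp
    have b4 : (16 : ℝ) ≤ 1 / ε := by rw [le_div_iff₀ hε]; linarith
    rw [show (3 : ℝ) / ε = 3 * (1 / ε) by ring]
    linarith
  have a2 : τ * (3 / ε) ≤ ε / 300 := by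
    rw [mul_div_assoc', div_le_iff₀ hε]
    nlinarith
  have a3 : ε * mOf ε x / (1 - x) / 12 ≤ e1Of ε x / 4 := by
    rw [e1Of, div_div, div_le_iff₀ (by linarith)]
    have : 1 ≤ (1 + ε) * mOf ε x * ((1 - x) * 3) := by
      rw [mOf, mul_one_div, div_mul_eq_mul_div, le_div_iff₀ (by linarith)]
      nlinarith
    nlinarith [mul_le_mul_of_nonneg_left this (mul_nonneg hε.le hm.le)]
  have a4 := le_e1Of hε hε1 hx0 hx
  have a5 : e1Of ε x * (2 / 3) ≤ e1Of ε x * (1 - spOf ε x) :=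
    mul_le_mul_of_nonneg_left (by linarith [spOf_le_third hε hx0 hx]) (by linarith)
  linarith

lemma gain_cross (hε : 0 < ε) (hε1 : ε ≤ 1 / 16) (hx0 : 0 ≤ x) (hx : x ≤ 1 - 2 * ε) (hτ0 : 0 ≤ τ)
    (hτ : τ ≤ ε / 1000) : 0 ≤ dphi x + 2 * phi x * (mOf ε x - τ) := by
  rw [mul_sub, ← add_sub_assoc, dphi_add_phi_mOf hε hx]
  obtain ⟨hφ0, hφ1, -⟩ := phi_bounds hε hx0 hx
  have hm := half_le_mOf hε hε1 hx0 hx
  have a : ε ≤ 1 + ε - x - 2 * ε * x := by nlinarith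
  have b : 2 * phi x * τ ≤ τ := by nlinarith
  have c : 1 * ε ≤ 2 * mOf ε x * (1 + ε - x - 2 * ε * x) :=
    mul_le_mul (by linarith) a hε.le (by linarith)
  linarith

lemma gain_band (hε : 0 < ε) (hε1 : ε ≤ 1 / 16) (hx0 : 0 ≤ x) (hx : x ≤ 1 - 2 * ε) {bp bn δ m₁ : ℝ}
    (hbp : 0 ≤ bp) (hbn : 0 ≤ bn) (hδ : 0 ≤ δ) (hm0 : 0 ≤ m₁) (hm1 : m₁ ≤ 1 / (3 * ε)) :
    -(100 / ε ^ 6 * (1 + (bp + bn + δ)) * δ) ≤ dphi x * δ * (2 * m₁ + 2 * (bp + bn) + δ) := by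
  have h6 := inv_pow_le hε hε1 (show 1 ≤ 6 by norm_num)
  rw [pow_one] at h6
  have h7 : (16 : ℝ) ≤ 1 / ε := by rw [le_div_iff₀ hε]; linarith
  have b3 : 1 / (3 * ε) = 1 / 3 * (1 / ε) := by field_simp
  obtain ⟨-, -, hdφ⟩ := phi_bounds hε hx0 hx
  have u0 : 0 ≤ δ * (2 * m₁ + 2 * (bp + bn) + δ) := mul_nonneg hδ (by linarith)
  set I := 1 / ε ^ 6
  have u1 : 2 * (2 * m₁ + 2 * (bp + bn) + δ) ≤ 100 * I * (1 + (bp + bn + δ)) := by
    have : 4 * (bp + bn + δ) ≤ 100 * I * (bp + bn + δ) :=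
      mul_le_mul_of_nonneg_right (by linarith) (by linarith)
    linarith
  have u2 := mul_le_mul_of_nonneg_right (neg_le_of_abs_le hdφ) u0
  have u3 := mul_le_mul_of_nonneg_left u1 hδ
  rw [show 100 / ε ^ 6 = 100 * I by simp only [I]; ring]
  linarith

theorem gain (hε : 0 < ε) (hε1 : ε ≤ 1 / 16) (hx0 : 0 ≤ x) (hx : x ≤ 1 - 2 * ε) (hτ0 : 0 ≤ τ)
    (hτ : τ ≤ ε ^ 10) {ap an A : ℝ} (hap : mOf ε x - τ ≤ ap) (han : mOf ε x - τ ≤ an)
    (hA : ap + an ≤ A) :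
    dens ε x (A - 2 * (mOf ε x - τ)) / 12 ≤
      hpsi ε x + 2 * A - dpsi ε x * (A - (mOf ε x - τ))
        + dphi x * (A * (A - (mOf ε x - τ)) - ap ^ 2 - an ^ 2)
        + phi x * (ap ^ 2 * (A - (mOf ε x - τ) - ap) + an ^ 2 * (A - (mOf ε x - τ) - an))
        + 100 / ε ^ 6 * (1 + (A - 2 * (mOf ε x - τ))) * (A - ap - an) := by
  have hτs := tau_small hε hε1 hτ
  have h42 : ε ^ 4 ≤ ε ^ 2 := pow_le_pow_of_le_one hε.le (by linarith) (by norm_num)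
  have h21 : ε ^ 2 ≤ ε := pow_le_of_le_one hε.le (by linarith) (by norm_num)
  have hτ2 : τ ≤ ε ^ 2 / 1000 := by linarith
  have hτ1 : τ ≤ ε / 1000 := by linarith
  obtain ⟨hφ0, -, -⟩ := phi_bounds hε hx0 hx
  have hm := half_le_mOf hε hε1 hx0 hx
  have hm0 : 0 ≤ mOf ε x - τ := by linarith
  obtain ⟨δ, rfl⟩ : ∃ δ, A = ap + an + δ := ⟨A - ap - an, by ring⟩
  have hδ : 0 ≤ δ := by linarith
  have hbp := sub_nonneg.2 hap
  have hbn := sub_nonneg.2 han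
  have hB : ap + an + δ - 2 * (mOf ε x - τ) =
      (ap - (mOf ε x - τ)) + (an - (mOf ε x - τ)) + δ := by ring
  have hδ' : ap + an + δ - ap - an = δ := by ring
  rw [gain_expand (hpsi ε x) (dpsi ε x) (dphi x) (phi x) (mOf ε x - τ) ap an δ, hB, hδ', dens,
    max_eq_left (by linarith : (0 : ℝ) ≤ (ap - (mOf ε x - τ)) + (an - (mOf ε x - τ)) + δ)]
  have c0 := gain_const hε hε1 hx0 hx hτ0 hτ1
  have c1 := mul_le_mul_of_nonneg_left (gain_slope hε hε1 hx0 hx hτ0 hτ2)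
    (by linarith : (0 : ℝ) ≤ (ap - (mOf ε x - τ)) + (an - (mOf ε x - τ)) + δ)
  have c2 := mul_nonneg (mul_nonneg hbp hbn) (gain_cross hε hε1 hx0 hx hτ0 hτ1)
  have c3 := gain_band hε hε1 hx0 hx hbp hbn hδ hm0 (by linarith [mOf_le hε hx])
  have hsq : 0 ≤ ap ^ 2 + an ^ 2 - (mOf ε x - τ) ^ 2 := by
    have := pow_le_pow_left₀ hm0 hap 2
    nlinarith [sq_nonneg an]
  have c4 := mul_nonneg hφ0 (add_nonneg (mul_nonneg (mul_nonneg hbp hbn) (add_nonneg hbp hbn))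
    (mul_nonneg hsq hδ))
  linarith

/-- `x` times the loss of one sign -/
def gS (x a m' : ℝ) : ℝ :=
  (1 - 2 * x) ^ 2 * (a - m') / (2 * (1 - x)) - 2 * x * (1 - 2 * x) * a * m'
    - 2 * x * (1 - x) * a ^ 2 * (1 + x * m')

/-- the slope of the loss -/
def kS (x m : ℝ) : ℝ :=
  2 * x - 2 * (1 - 2 * x) + ((1 - 2 * x) ^ 2 / (2 * (1 - x)) - 2 * x * (1 - 2 * x) * m
    - 4 * x * (1 - x) * m * (1 + x * m)) - 1 / (1 - x)

lemma gS_eq (hx0 : x ≠ 0) (hx1 : (1 - x) ≠ 0) (a m' : ℝ) : x * lossS x a m' = gS x a m' := by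
  rw [lossS, phi, dphi, gS]; field_simp; ring

lemma loss_const (hε : 0 < ε) (hx : x ≤ 1 - 2 * ε) :
    ε * mOf ε x * (dpsi ε x + x * hpsi ε x + (2 * x - 2 * (1 - 2 * x)) * (2 * mOf ε x)
      + 2 * gS x (mOf ε x) (mOf ε x)) = e1Of ε x ^ 2 * (1 + 3 / 2 * spOf ε x) := by
  have hn : (1 + ε - x) ≠ 0 := by linarith
  simp only [gS, sub_self, mul_zero, zero_div, zero_sub]
  rw [dpsi, hpsi, spOf, e1Of, mOf]
  field_simp
  ring

lemma kS_le (hε : 0 < ε) (hx0 : 0 ≤ x) (hx : x ≤ 1 - 2 * ε) : kS x (mOf ε x) ≤ -(1 / 2) := by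
  have hx1 : (0 : ℝ) < 1 - x := by linarith
  have hne := hx1.ne'
  have hm := mOf_pos hε hx
  have e : kS x (mOf ε x) * (1 - x) =
      -((1 - x) * (1 + x * mOf ε x) * (dphi x + 2 * phi x * mOf ε x)) - 1 / 2 := by
    rw [kS, dphi, phi]; field_simp; ring
  rw [dphi_add_phi_mOf hε hx] at e
  have h1 : 0 ≤ (1 - x) * (1 + x * mOf ε x) * (2 * mOf ε x * (1 + ε - x - 2 * ε * x)) :=
    mul_nonneg (mul_nonneg hx1.le (by positivity)) (mul_nonneg (by linarith) (by nlinarith))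
  nlinarith

lemma delta_slope_le (hx : x < 1) : 2 * x - 2 * (1 - 2 * x) - 1 / (1 - x) ≤ 0 := by
  have hx1 : (0 : ℝ) < 1 - x := by linarith
  rw [sub_nonpos, le_div_iff₀ hx1]
  nlinarith [sq_nonneg (3 * x - 2)]

lemma xD_bounds (hx0 : 0 ≤ x) (hx1 : x ≤ 1) :
    0 ≤ x * (1 - x) ∧ x * (1 - x) ≤ 1 / 4 ∧ 0 ≤ x ^ 2 * (1 - x) ∧ x ^ 2 * (1 - x) ≤ 1 / 4 := by
  have a : 0 ≤ x * (1 - x) := mul_nonneg hx0 (by linarith)
  have b : x * (1 - x) ≤ 1 / 4 := by nlinarith [sq_nonneg (2 * x - 1)]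
  refine ⟨a, b, ?_, ?_⟩ <;> rw [pow_two, mul_assoc]
  · exact mul_nonneg hx0 a
  · exact (mul_le_of_le_one_left a hx1).trans b

lemma pD_le (hε : 0 < ε) (hx0 : 0 ≤ x) (hx : x ≤ 1 - 2 * ε) :
    0 ≤ (1 - 2 * x) ^ 2 / (2 * (1 - x)) ∧ (1 - 2 * x) ^ 2 / (2 * (1 - x)) ≤ 1 / ε / 4 := by
  have hx1 : (0 : ℝ) < 1 - x := by linarith
  refine ⟨by positivity, (div_le_div₀ zero_le_one (by nlinarith) (by positivity)
    (show 4 * ε ≤ 2 * (1 - x) by linarith)).trans (le_of_eq ?_)⟩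
  field_simp

lemma xpm_le (hε : 0 < ε) (hx0 : 0 ≤ x) (hx : x ≤ 1 - 2 * ε) :
    |2 * x * (1 - 2 * x) * mOf ε x| ≤ 2 / 3 * (1 / ε) := by
  have hm := mOf_pos hε hx
  have h1 : |2 * x * (1 - 2 * x)| ≤ 2 := by
    rw [abs_le]; constructor <;> nlinarith
  rw [abs_mul, abs_of_pos hm]
  refine (mul_le_mul h1 (mOf_le hε hx) hm.le (by norm_num)).trans (le_of_eq ?_)
  field_simp

lemma abs_kS_le (hε : 0 < ε) (hε1 : ε ≤ 1 / 16) (hx0 : 0 ≤ x) (hx : x ≤ 1 - 2 * ε) :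
    |kS x (mOf ε x)| ≤ 4 * (1 / ε) ^ 2 := by
  have hm := mOf_pos hε hx
  obtain ⟨a0, a1⟩ := pD_le hε hx0 hx
  obtain ⟨b0, b1⟩ := abs_le.1 (xpm_le hε hx0 hx)
  obtain ⟨c0, c1, -, -⟩ := xD_bounds hx0 (by linarith)
  have hI : (16 : ℝ) ≤ 1 / ε := by rw [le_div_iff₀ hε]; linarith
  have hmI : mOf ε x ≤ 1 / 3 * (1 / ε) := (mOf_le hε hx).trans (le_of_eq (by field_simp))
  have d1 : 1 / (1 - x) ≤ 1 / 2 * (1 / ε) :=
    (one_div_le_one_div_of_le (by positivity) (show 2 * ε ≤ 1 - x by linarith)).trans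
      (le_of_eq (by field_simp))
  have d0 : 0 ≤ 1 / (1 - x) := one_div_nonneg.2 (by linarith)
  have e1 : 1 + x * mOf ε x ≤ 1 + 1 / 3 * (1 / ε) := by
    linarith [mul_le_of_le_one_left hm.le (show x ≤ 1 by linarith)]
  have e2 : x * (1 - x) * mOf ε x * (1 + x * mOf ε x) ≤
      1 / 4 * (1 / 3 * (1 / ε)) * (1 + 1 / 3 * (1 / ε)) :=
    mul_le_mul (mul_le_mul c1 hmI hm.le (by norm_num)) e1 (by positivity) (by positivity)
  have e3 : 0 ≤ x * (1 - x) * mOf ε x * (1 + x * mOf ε x) :=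
    mul_nonneg (mul_nonneg c0 hm.le) (by positivity)
  set I := 1 / ε
  have hII : 16 * I ≤ I ^ 2 := by nlinarith
  unfold kS
  rw [abs_le]
  constructor <;> nlinarith

lemma abs_c2_le (hε : 0 < ε) (hε1 : ε ≤ 1 / 16) (hx0 : 0 ≤ x) (hx : x ≤ 1 - 2 * ε) :
    |-((1 - 2 * x) ^ 2 / (2 * (1 - x))) - 2 * x * (1 - 2 * x) * mOf ε x
      - 2 * (x ^ 2 * (1 - x)) * mOf ε x ^ 2| ≤ (1 / ε) ^ 2 := by
  obtain ⟨a0, a1⟩ := pD_le hε hx0 hx
  obtain ⟨b0, b1⟩ := abs_le.1 (xpm_le hε hx0 hx)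
  obtain ⟨-, -, e0, e1⟩ := xD_bounds hx0 (by linarith)
  have hI : (16 : ℝ) ≤ 1 / ε := by rw [le_div_iff₀ hε]; linarith
  have hm := mOf_pos hε hx
  have hmI : mOf ε x ≤ 1 / 3 * (1 / ε) := (mOf_le hε hx).trans (le_of_eq (by field_simp))
  have u1 := mul_le_mul e1 (pow_le_pow_left₀ hm.le hmI 2) (sq_nonneg _) (by norm_num)
  have u0 := mul_nonneg e0 (sq_nonneg (mOf ε x))
  have hII := mul_le_mul_of_nonneg_right hI (show (0 : ℝ) ≤ 1 / ε by positivity)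
  rw [abs_le]
  constructor <;> linarith

lemma abs_c3_le (hε : 0 < ε) (hε1 : ε ≤ 1 / 16) (hx0 : 0 ≤ x) (hx : x ≤ 1 - 2 * ε) :
    |-2 * x * (1 - 2 * x) - 4 * (x ^ 2 * (1 - x)) * mOf ε x| ≤ 2 * (1 / ε) := by
  obtain ⟨-, -, e0, e1⟩ := xD_bounds hx0 (by linarith)
  have hI : (16 : ℝ) ≤ 1 / ε := by rw [le_div_iff₀ hε]; linarith
  have hm := mOf_pos hε hx
  have hmI : mOf ε x ≤ 1 / 3 * (1 / ε) := (mOf_le hε hx).trans (le_of_eq (by field_simp))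
  have u1 := mul_le_mul e1 hmI hm.le (by norm_num)
  have u0 := mul_nonneg e0 hm.le
  obtain ⟨v0, v1⟩ := abs_le.1 (show |2 * x * (1 - 2 * x)| ≤ 2 by
    rw [abs_le]; constructor <;> nlinarith)
  rw [abs_le]
  constructor <;> linarith

lemma gS_le (hε : 0 < ε) (hε1 : ε ≤ 1 / 16) (hx0 : 0 ≤ x) (hx : x ≤ 1 - 2 * ε) (hτ0 : 0 ≤ τ)
    (hτ : τ ≤ ε / 1000) {a m' : ℝ} (ha : mOf ε x - τ ≤ a) (hm' : |m' - mOf ε x| ≤ τ) :
    gS x a m' + (2 * x - 2 * (1 - 2 * x) - 1 / (1 - x)) * (a - mOf ε x) ≤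
      gS x (mOf ε x) (mOf ε x) + τ * (6 * (1 / ε) ^ 2) := by
  set m := mOf ε x with hm
  set b := a - m with hb
  set d := m' - m with hd
  set c₂ := -((1 - 2 * x) ^ 2 / (2 * (1 - x))) - 2 * x * (1 - 2 * x) * m
    - 2 * (x ^ 2 * (1 - x)) * m ^ 2 with hc₂
  have hid : gS x a m' + (2 * x - 2 * (1 - 2 * x) - 1 / (1 - x)) * b =
      gS x m m + b * kS x m + d * c₂
        + d * b * (-2 * x * (1 - 2 * x) - 4 * (x ^ 2 * (1 - x)) * m)
        - 2 * (x * (1 - x)) * b ^ 2 * (1 + x * m + x * d) := by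
    simp only [gS, kS, hc₂, hb, hd]; ring
  rw [hid]
  have hmpos := mOf_pos hε hx
  obtain ⟨a0, a1⟩ := pD_le hε hx0 hx
  obtain ⟨b0, b1⟩ := abs_le.1 (xpm_le hε hx0 hx)
  obtain ⟨c0, c1, e0, e1⟩ := xD_bounds hx0 (by linarith)
  have hI : (16 : ℝ) ≤ 1 / ε := by rw [le_div_iff₀ hε]; linarith
  have hmI : m ≤ 1 / 3 * (1 / ε) := (mOf_le hε hx).trans (le_of_eq (by field_simp))
  have hτI : τ * (1 / ε) ≤ 1 / 1000 := by rw [mul_one_div, div_le_iff₀ hε]; linarith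
  set I := 1 / ε
  have hII : 16 * I ≤ I ^ 2 := by nlinarith
  have q0 : 0 ≤ 2 * (x * (1 - x)) * b ^ 2 * (1 + x * m + x * d) := by
    refine mul_nonneg (mul_nonneg (by linarith) (sq_nonneg b)) ?_
    have h1 := mul_le_mul_of_nonneg_left (neg_le_of_abs_le hm') hx0
    have h2 : x * τ ≤ τ := mul_le_of_le_one_left hτ0 (by linarith)
    have h3 := mul_nonneg hx0 hmpos.le
    linarith
  have hc2 : |c₂| ≤ I ^ 2 := abs_c2_le hε hε1 hx0 hx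
  have q1 : d * c₂ ≤ τ * I ^ 2 := (le_abs_self _).trans (by
    rw [abs_mul]; exact mul_le_mul hm' hc2 (abs_nonneg _) hτ0)
  have q2 : d * b * (-2 * x * (1 - 2 * x) - 4 * (x ^ 2 * (1 - x)) * m) ≤ τ * |b| * (2 * I) := by
    refine (le_abs_self _).trans ?_
    rw [abs_mul, abs_mul]
    exact mul_le_mul (mul_le_mul_of_nonneg_right hm' (abs_nonneg _)) (abs_c3_le hε hε1 hx0 hx)
      (abs_nonneg _) (mul_nonneg hτ0 (abs_nonneg _))
  have hbτ : 0 ≤ b + τ := by rw [hb]; linarith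
  have q3 : |b| ≤ (b + τ) + τ := abs_le.2 ⟨by linarith, by linarith⟩
  have hk0 : kS x m + τ * (2 * I) ≤ 0 := by
    have := kS_le hε hx0 hx
    rw [← hm] at this
    linarith
  have q4 : τ * |b| * (2 * I) ≤ τ * ((b + τ) + τ) * (2 * I) := by gcongr
  have q5 := mul_nonpos_of_nonneg_of_nonpos hbτ hk0
  have q6 : -(kS x m * τ) ≤ 4 * I ^ 2 * τ := by
    have := mul_le_mul_of_nonneg_right (neg_le_of_abs_le (abs_kS_le hε hε1 hx0 hx)) hτ0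
    rw [← hm] at this
    linarith
  have q7 : τ * τ * (2 * I) ≤ τ * I ^ 2 := by
    rw [mul_assoc]
    refine mul_le_mul_of_nonneg_left ?_ hτ0
    linarith
  linarith

theorem loss (hε : 0 < ε) (hε1 : ε ≤ 1 / 16) (hx0 : 0 < x) (hx : x ≤ 1 - 2 * ε) (hτ0 : 0 ≤ τ)
    (hτ : τ ≤ ε ^ 10) {ap an A mp mn : ℝ} (hap : mOf ε x - τ ≤ ap) (han : mOf ε x - τ ≤ an)
    (hA : ap + an ≤ A) (hmp : |mp - mOf ε x| ≤ τ) (hmn : |mn - mOf ε x| ≤ τ) :
    spOf ε x * ((dpsi ε x - dphi x * A) / x + hpsi ε x + 2 * A + lossS x ap mp + lossS x an mn)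
      ≤ dens ε x (A - 2 * (mOf ε x - τ)) := by
  have hτs := tau_small hε hε1 hτ
  have hτ4 : τ ≤ ε ^ 4 / 1000 := by
    refine hτs.trans ?_
    nlinarith [pow_pos hε 4]
  have h41 : ε ^ 4 ≤ ε := pow_le_of_le_one hε.le (by linarith) (by norm_num)
  have hτ1 : τ ≤ ε / 1000 := by linarith
  set m := mOf ε x with hm
  have hmpos : 0 < m := mOf_pos hε hx
  have hD : (0 : ℝ) < 1 - x := by linarith
  have e0 : spOf ε x * ((dpsi ε x - dphi x * A) / x + hpsi ε x + 2 * A + lossS x ap mp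
      + lossS x an mn) = ε * m * (dpsi ε x + x * hpsi ε x + (2 * x - 2 * (1 - 2 * x)) * A
      + gS x ap mp + gS x an mn) := by
    rw [← gS_eq hx0.ne' hD.ne', ← gS_eq hx0.ne' hD.ne', spOf, ← hm, dphi]
    field_simp
    ring
  have hB0 : 0 ≤ A - 2 * (m - τ) := by linarith
  rw [e0, dens, max_eq_left hB0, ← hm]
  have h1 := gS_le hε hε1 hx0.le hx hτ0 hτ1 hap hmp
  have h2 := gS_le hε hε1 hx0.le hx hτ0 hτ1 han hmn
  rw [← hm] at h1 h2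
  have h3 : (2 * x - 2 * (1 - 2 * x) - 1 / (1 - x)) * (A - ap - an) ≤ 0 :=
    mul_nonpos_of_nonpos_of_nonneg (delta_slope_le (by linarith)) (by linarith)
  have h4 : 0 ≤ τ * (1 / (1 - x)) := mul_nonneg hτ0 (one_div_nonneg.2 hD.le)
  have hsum : dpsi ε x + x * hpsi ε x + (2 * x - 2 * (1 - 2 * x)) * A + gS x ap mp + gS x an mn ≤
      dpsi ε x + x * hpsi ε x + (2 * x - 2 * (1 - 2 * x)) * (2 * m) + 2 * gS x m m
        + (A - 2 * (m - τ)) * (1 / (1 - x)) + τ * (12 * (1 / ε) ^ 2) := by linarith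
  have h5 := mul_le_mul_of_nonneg_left hsum (mul_nonneg hε.le hmpos.le)
  have key := loss_const (x := x) hε hx
  rw [← hm] at key
  have h6 : ε * m * (τ * (12 * (1 / ε) ^ 2)) ≤ e1Of ε x ^ 2 := by
    have a1 : ε * m ≤ 1 / 3 :=
      (mul_le_mul_of_nonneg_left (mOf_le hε hx) hε.le).trans (le_of_eq (by field_simp))
    have a2 : τ * (12 * (1 / ε) ^ 2) ≤ ε ^ 2 / 4 := by
      rw [one_div_pow, mul_one_div, mul_div_assoc', div_le_iff₀ (by positivity)]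
      nlinarith [pow_pos hε 4]
    have a3 := pow_le_pow_left₀ (by positivity) (le_e1Of hε hε1 hx0.le hx) 2
    have a4 := mul_le_mul a1 a2 (by positivity) (by norm_num)
    nlinarith
  have h7 : ε * m * ((A - 2 * (m - τ)) * (1 / (1 - x))) =
      ε * m / (1 - x) * (A - 2 * (m - τ)) := by ring
  have h8 := mul_nonneg (sq_nonneg (e1Of ε x)) (spOf_nonneg hε hx0.le hx)
  linarith

end Vale.Agent.P078.Two
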