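import Mathlib
import Vale.Agent.P078.Chan

/-! The Schwarz inequality of one channel of the two-sided walk. -/

noncomputable section

open scoped ComplexOrder

set_option linter.unusedSectionVars false

namespace Vale.Agent.P078

universe u v

variable {M : Type u} [CStarAlgebra M] [PartialOrder M] [StarOrderedRing M]
  {Ω : Type v} [TopologicalSpace Ω] [CompactSpace Ω] [T2Space Ω] (T : TMasa M Ω)

namespace TMasa

open Res Chan

/-- the corrected mean of the square of the band of a channel -/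
def ddOf (v N R : M) (z : ℝ) : C(Ω, ℝ) :=
  T.E (v * N * v) - z⁻¹ • T.E (v * (N * R * N) * v)

lemma gramE {P : M} (hP : 0 ≤ P) (a b c : M) (k₁ k₂ : ℝ) (ω : Ω) :
    0 ≤ T.E (star c * P * c) ω + k₁ ^ 2 * T.E (star a * P * a) ω
      + k₂ ^ 2 * T.E (star b * P * b) ω - 2 * k₁ * T.E (star a * P * c) ω
      - 2 * k₂ * T.E (star b * P * c) ω + 2 * k₁ * k₂ * T.E (star a * P * b) ω := by
  have h : (0 : ℝ) ≤ T.E (star (c - k₁ • a - k₂ • b) * P * (c - k₁ • a - k₂ • b)) ω :=
    T.E_nonneg (star_left_conjugate_nonneg hP _) ω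
  have hsym : ∀ u w : M, T.E (star u * P * w) = T.E (star w * P * u) := fun u w => by
    rw [← T.E_star, star_mul, star_mul, star_star, (IsSelfAdjoint.of_nonneg hP).star_eq, mul_assoc]
  simp only [star_sub, star_smul, star_trivial, sub_mul, mul_sub, smul_mul_assoc, mul_smul_comm,
    map_sub, map_smul, ContinuousMap.sub_apply, ContinuousMap.smul_apply, smul_eq_mul,
    hsym c a, hsym c b, hsym b a] at h
  linarith

lemma chan_loss_id {s z d φ : ℝ} (hs : s ≠ 0) (hz : z ≠ 0) (hn : z - s * d ≠ 0) (hφ : φ ≠ 0)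
    (p h₀ a k q : ℝ) :
    h₀ ^ 2 * (p ^ 2 * (a - d / (z - s * d)) / (4 * φ) - p * a * (d / (z - s * d))
        - φ * a ^ 2 * (1 / s + d / (z - s * d))) - (-p * h₀ * k - φ * q) =
      φ * (q + (-(p * h₀) / (2 * φ * s)) ^ 2 * (s + s ^ 2 * a)
        + ((z * h₀ * a - -(p * h₀) / (2 * φ * s) * (z * s)) / (z * s * (z - s * d))) ^ 2
          * (z * s * (z - s * d))
        - 2 * (-(p * h₀) / (2 * φ * s)) * (h₀ * a + s * k)
        - 2 * ((z * h₀ * a - -(p * h₀) / (2 * φ * s) * (z * s)) / (z * s * (z - s * d))) * (z * h₀ * a)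
        + 2 * (-(p * h₀) / (2 * φ * s))
          * ((z * h₀ * a - -(p * h₀) / (2 * φ * s) * (z * s)) / (z * s * (z - s * d))) * (z * s)) := by
  obtain ⟨D, hD⟩ : ∃ D, D = z - s * d := ⟨_, rfl⟩
  have hd : d = (z - D) / s := by rw [hD]; field_simp; ring
  have hD0 : D ≠ 0 := hD ▸ hn
  rw [← hD, hd]
  field_simp
  ring

variable {γ : ℝ} {v Z N R : M} {z : ℝ} {σ : C(Ω, ℝ)}

/-- the Gram inequality of a channel -/
lemma chan_gram (hb : Band γ Z N) (hv : IsSelfAdjoint v)
    (hZ : Z = z • (1 : M) - v * T.emb σ * v + R) (hz : z ≠ 0) (hσ : 0 ≤ σ) (w : C(Ω, ℝ))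
    (k₁ k₂ : ℝ) (ω : Ω) :
    0 ≤ (T.K (Xp v Z N) (σ * (w * w)) ω
        + T.E (Xp v Z N * T.emb (σ * w) * Xp v Z N * T.emb (σ * w) * Xp v Z N) ω)
      + k₁ ^ 2 * (σ ω + σ ω ^ 2 * T.E (Xp v Z N) ω)
      + k₂ ^ 2 * (z * σ ω * (z - σ ω * T.ddOf v N R z ω))
      - 2 * k₁ * (σ ω * w ω * T.E (Xp v Z N) ω + σ ω * T.K (Xp v Z N) (σ * w) ω)
      - 2 * k₂ * (z * (σ ω * w ω) * T.E (Xp v Z N) ω) + 2 * k₁ * k₂ * (z * σ ω) := by
  set X := Xp v Z N with hX
  set S := T.emb σ with hS
  set W := T.emb w with hW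
  set G := res Z with hG
  set Y := v * N * v with hY
  have hN : star N = N := hb.proj.isSelfAdjoint.star_eq
  have hNN : N * N = N := hb.proj.isIdempotentElem.eq
  have hGN : N * G = G * N := hb.commG.eq
  have hXs : star X = X := (hb.Xp_sa hv).star_eq
  have hZs : star Z = Z := hb.sa.star_eq
  have hGZ : G * Z = 1 := res_mul hb.pos hb.gap
  have hZG : Z * G = 1 := mul_res hb.pos hb.gap
  have hSs : star S = S := T.star_emb σ
  have hWs : star W = W := T.star_emb w
  have hS0 : 0 ≤ S := T.emb_nonneg hσ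
  have hH : T.emb (σ * w) = S * W := map_mul T.emb _ _
  have hH' : T.emb (σ * w) = W * S := by rw [mul_comm σ w, map_mul]
  have hX' : v * N * G * (N * v) = X := by
    rw [hX, Xp, ← hG]
    calc v * N * G * (N * v) = v * (N * G) * N * v := by simp only [mul_assoc]
      _ = v * (G * (N * N)) * v := by rw [hGN]; simp only [mul_assoc]
      _ = _ := by rw [hNN]
  have hYs : star Y = Y := by rw [hY]; simp [hv.star_eq, hN, mul_assoc]
  have h1 := T.gramE hS0 1 (z • (1 : M) - Y * S) (W * X) k₁ k₂ ω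
  have h2 := T.gramE (res_nonneg hb.pos hb.gap) (N * v * S) (Z * (N * v * S))
    (N * v * T.emb (σ * w) * X) k₁ k₂ ω
  rw [← hG] at h2
  -- the first component
  have a1 : T.E (star (W * X) * S * (W * X)) = T.K X (σ * (w * w)) := by
    rw [T.K_apply, hXs, show σ * (w * w) = w * σ * w by ring, map_mul T.emb, map_mul T.emb,
      star_mul, hXs, hWs,
      ← hS, ← hW]
    simp only [mul_assoc]
  have a2 : T.E (star (1 : M) * S * 1) = σ := by rw [star_one, one_mul, mul_one, hS, T.E_emb]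
  have a3 : T.E (star (1 : M) * S * (W * X)) = σ * w * T.E X := by
    rw [star_one, one_mul, ← mul_assoc, ← hH, T.E_emb_mul]
  have et : star (z • (1 : M) - Y * S) = z • (1 : M) - S * Y := by
    simp [hSs, hYs]
  have a4 : T.E (star (1 : M) * S * (z • (1 : M) - Y * S)) = z • σ - T.E (S * Y * S) := by
    rw [star_one, one_mul, mul_sub, mul_smul_comm, mul_one, ← mul_assoc, map_sub, map_smul, hS,
      T.E_emb]
  have a5 : T.E (star (z • (1 : M) - Y * S) * S * (W * X)) =
      z • (σ * w * T.E X) - T.E (S * Y * (T.emb (σ * w) * X)) := by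
    rw [et, sub_mul, sub_mul, smul_mul_assoc, smul_mul_assoc, one_mul, ← mul_assoc S W X, ← hH,
      map_sub, map_smul, T.E_emb_mul, hH]
    simp only [mul_assoc]
  have a6 : T.E (star (z • (1 : M) - Y * S) * S * (z • (1 : M) - Y * S)) =
      (z * z) • σ - (2 * z) • T.E (S * Y * S) + T.E (S * Y * S * Y * S) := by
    rw [et]
    simp only [sub_mul, mul_sub, smul_mul_assoc, mul_smul_comm, one_mul, mul_one, smul_smul,
      map_sub, map_smul, ← mul_assoc, hS, T.E_emb]
    rw [two_mul, add_smul, smul_sub, smul_smul]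
    abel
  -- the second component
  have es : star (N * v * S) = S * v * N := by simp [hv.star_eq, hN, hSs, mul_assoc]
  have ec : star (N * v * T.emb (σ * w) * X) = X * T.emb (σ * w) * v * N := by
    rw [star_mul, star_mul, star_mul, T.star_emb, hXs, hv.star_eq, hN]
    simp only [mul_assoc]
  have b1 : T.E (star (N * v * T.emb (σ * w) * X) * G * (N * v * T.emb (σ * w) * X)) =
      T.E (X * T.emb (σ * w) * X * T.emb (σ * w) * X) := by
    rw [ec]
    congr 1
    calc _ = X * T.emb (σ * w) * (v * N * G * (N * v)) * T.emb (σ * w) * X := by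
          simp only [mul_assoc]
      _ = _ := by rw [hX']
  have b2 : T.E (star (N * v * S) * G * (N * v * S)) = σ * (σ * T.E X) := by
    rw [es, show S * v * N * G * (N * v * S) = S * (v * N * G * (N * v)) * S by
      simp only [mul_assoc], hX', hS, T.E_mul_emb, T.E_emb_mul]
  have b3 : T.E (star (N * v * S) * G * (N * v * T.emb (σ * w) * X)) = σ * T.K X (σ * w) := by
    rw [es, show S * v * N * G * (N * v * T.emb (σ * w) * X) =
      S * ((v * N * G * (N * v)) * T.emb (σ * w) * X) by simp only [mul_assoc], hX', hS,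
      T.E_emb_mul, T.K_apply, hXs]
  have hZN : N * G * (Z * N) = N := by
    rw [mul_assoc, ← mul_assoc G, hGZ, one_mul, hNN]
  have b4 : T.E (star (N * v * S) * G * (Z * (N * v * S))) = T.E (S * Y * S) := by
    rw [es, show S * v * N * G * (Z * (N * v * S)) = S * v * (N * G * (Z * N)) * v * S by
      simp only [mul_assoc], hZN, hY]
    simp only [mul_assoc]
  have est : star (Z * (N * v * S)) = S * v * N * Z := by rw [star_mul, es, hZs]
  have b5 : T.E (star (Z * (N * v * S)) * G * (N * v * T.emb (σ * w) * X)) =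
      T.E (S * Y * (T.emb (σ * w) * X)) := by
    rw [est, show S * v * N * Z * G * (N * v * T.emb (σ * w) * X) =
      S * v * (N * (Z * G) * N) * v * (T.emb (σ * w) * X) by simp only [mul_assoc], hZG, mul_one,
      hNN, hY]
    simp only [mul_assoc]
  have b6 : T.E (star (Z * (N * v * S)) * G * (Z * (N * v * S))) =
      z • T.E (S * Y * S) - T.E (S * Y * S * Y * S) + T.E (S * (v * (N * R * N) * v) * S) := by
    rw [est, show S * v * N * Z * G * (Z * (N * v * S)) =
      S * v * N * ((Z * G) * Z) * (N * v * S) by simp only [mul_assoc], hZG, one_mul,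
      ← map_smul, ← map_sub, ← map_add]
    congr 1
    rw [hZ, hY]
    simp only [sub_mul, mul_sub, add_mul, mul_add, smul_mul_assoc, mul_smul_comm, mul_one, one_mul,
      mul_assoc]
    simp only [← mul_assoc N N, hNN]
  rw [a1, a2, a3, a4, a5, a6] at h1
  rw [b1, b2, b3, b4, b5, b6] at h2
  simp only [hS, T.E_mul_emb, T.E_emb_mul, ContinuousMap.add_apply, ContinuousMap.sub_apply,
    ContinuousMap.mul_apply, ContinuousMap.smul_apply, smul_eq_mul] at h1 h2
  have hdd : T.ddOf v N R z ω = T.E Y ω - z⁻¹ * T.E (v * (N * R * N) * v) ω := by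
    simp [ddOf, hY]
  have key : z * σ ω * (z - σ ω * T.ddOf v N R z ω) = z * z * σ ω - z * (σ ω * (σ ω * T.E Y ω))
      + σ ω * (σ ω * T.E (v * (N * R * N) * v) ω) := by
    rw [hdd]; field_simp; ring
  rw [key]
  linarith

/-- the lower bound of the barrier -/
theorem dd_div_le (hb : Band γ Z N) (hv : IsSelfAdjoint v)
    (hZ : Z = z • (1 : M) - v * T.emb σ * v + R) (hz : 0 < z) (hσ : 0 ≤ σ) {ω : Ω}
    (hσω : 0 < σ ω) (hd : 0 < z - σ ω * T.ddOf v N R z ω) :
    T.ddOf v N R z ω / (z - σ ω * T.ddOf v N R z ω) ≤ T.E (Xp v Z N) ω := by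
  set d := T.ddOf v N R z ω with hdd
  set a := T.E (Xp v Z N) ω with ha
  have h := T.chan_gram hb hv hZ hz.ne' hσ 0 1 (-(1 / (z - σ ω * d))) ω
  simp only [mul_zero, map_zero, ContinuousMap.zero_apply, zero_mul, ← hdd, ← ha] at h
  have e : (σ ω + σ ω ^ 2 * a) + (-(1 / (z - σ ω * d))) ^ 2 * (z * σ ω * (z - σ ω * d))
      + 2 * (-(1 / (z - σ ω * d))) * (z * σ ω) = σ ω ^ 2 * (a - d / (z - σ ω * d)) := by
    field_simp
    ring
  have h2 : 0 ≤ σ ω ^ 2 * (a - d / (z - σ ω * d)) := by linarith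
  exact sub_nonneg.1 ((mul_nonneg_iff_of_pos_left (by positivity)).1 h2)

/-- the loss of one sign -/
theorem chan_loss (hb : Band γ Z N) (hv : IsSelfAdjoint v)
    (hZ : Z = z • (1 : M) - v * T.emb σ * v + R) (hz : 0 < z) (hσ : 0 ≤ σ) {ω : Ω}
    (hσω : 0 < σ ω) (hd : 0 < z - σ ω * T.ddOf v N R z ω) {h w : C(Ω, ℝ)} (hw : h = σ * w)
    {φ : ℝ} (hφ : 0 < φ) (p : ℝ) :
    -p * h ω * T.K (Xp v Z N) h ω
      - φ * (T.K (Xp v Z N) (σ * (w * w)) ω
        + T.E (Xp v Z N * T.emb h * Xp v Z N * T.emb h * Xp v Z N) ω) ≤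
    h ω ^ 2 * (p ^ 2 * (T.E (Xp v Z N) ω - T.ddOf v N R z ω / (z - σ ω * T.ddOf v N R z ω)) / (4 * φ)
      - p * T.E (Xp v Z N) ω * (T.ddOf v N R z ω / (z - σ ω * T.ddOf v N R z ω))
      - φ * T.E (Xp v Z N) ω ^ 2 *
        (1 / σ ω + T.ddOf v N R z ω / (z - σ ω * T.ddOf v N R z ω))) := by
  subst hw
  set d := T.ddOf v N R z ω with hdd
  set a := T.E (Xp v Z N) ω with ha
  set k := T.K (Xp v Z N) (σ * w) ω with hk
  set q := T.K (Xp v Z N) (σ * (w * w)) ω
    + T.E (Xp v Z N * T.emb (σ * w) * Xp v Z N * T.emb (σ * w) * Xp v Z N) ω with hq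
  have e0 : (σ * w) ω = σ ω * w ω := rfl
  rw [e0]
  set s := σ ω with hs
  set h₀ := s * w ω with hh₀
  set k₁ := -(p * h₀) / (2 * φ * s) with hk₁
  set k₂ := (z * h₀ * a - k₁ * (z * s)) / (z * s * (z - s * d)) with hk₂
  have h := T.chan_gram hb hv hZ hz.ne' hσ w k₁ k₂ ω
  rw [← hs, ← hh₀, ← hdd, ← ha, ← hk, ← hq] at h
  have hmul := mul_nonneg hφ.le h
  have e := chan_loss_id hσω.ne' hz.ne' hd.ne' hφ.ne' p h₀ a k q
  rw [← hk₁] at e
  rw [← hk₂] at e
  linarith

end TMasa

end Vale.Agent.P078
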