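import Mathlib
import Vale.Agent.P078.TwoOps
import Vale.Agent.P078.TwoScalar
import Vale.Agent.P078.TwoSchwarz

/-! The covariance of one step of the two-sided walk and its pointwise properties. -/

noncomputable section

open scoped ComplexOrder

set_option linter.unusedSectionVars false

namespace Vale.Agent.P078

universe u v

variable {M : Type u} [CStarAlgebra M] [PartialOrder M] [StarOrderedRing M]
  {Ω : Type v} [TopologicalSpace Ω] [CompactSpace Ω] [T2Space Ω]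

namespace Two

/-- clipping to the range of the channels -/
def clip (ε x : ℝ) : ℝ := max 0 (min x (1 - 2 * ε))

/-- the tolerance on the corrected expectations -/
def tol (ε : ℝ) : ℝ := ε ^ 13

/-- the shifted barrier offset -/
def m₁Of (ε x : ℝ) : ℝ := mOf ε x - ε ^ 10

/-- the bound on the covariance -/
def cD (ε μ : ℝ) : ℝ := 3 / (ε ^ 5 * μ)

lemma clip_eq {ε x : ℝ} (h0 : 0 ≤ x) (h1 : x ≤ 1 - 2 * ε) : clip ε x = x := by
  rw [clip, min_eq_left h1, max_eq_right h0]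

lemma clip_le {ε x : ℝ} (hε : ε ≤ 1 / 2) : clip ε x ≤ 1 - 2 * ε :=
  max_le (by linarith) (min_le_right _ _)

lemma continuous_clip (ε : ℝ) : Continuous (clip ε) := by unfold clip; fun_prop

lemma continuous_mClip {ε : ℝ} (hε : 0 < ε) (hε1 : ε ≤ 1 / 2) :
    Continuous fun x => mOf ε (clip ε x) := by
  unfold mOf
  refine continuous_const.div (continuous_const.sub (continuous_clip ε)) fun x => ?_
  have := clip_le (x := x) hε1
  linarith

lemma continuous_spClip {ε : ℝ} (hε : 0 < ε) (hε1 : ε ≤ 1 / 2) :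
    Continuous fun x => spOf ε (clip ε x) := by
  have := continuous_mClip hε hε1
  have := continuous_clip ε
  unfold spOf
  fun_prop

lemma continuous_m₁Clip {ε : ℝ} (hε : 0 < ε) (hε1 : ε ≤ 1 / 2) :
    Continuous fun x => m₁Of ε (clip ε x) :=
  (continuous_mClip hε hε1).sub continuous_const

/-- the constant part of the weight -/
def densC (ε x : ℝ) : ℝ := e1Of ε (clip ε x) ^ 2 * (2 + 2 * spOf ε (clip ε x))

/-- the slope of the weight -/
def densS (ε x : ℝ) : ℝ := ε * mOf ε (clip ε x) / (1 - clip ε x)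

lemma continuous_densC {ε : ℝ} (hε : 0 < ε) (hε1 : ε ≤ 1 / 2) : Continuous (densC ε) := by
  have := continuous_mClip hε hε1
  have := continuous_spClip hε hε1
  unfold densC e1Of
  fun_prop

lemma continuous_densS {ε : ℝ} (hε : 0 < ε) (hε1 : ε ≤ 1 / 2) : Continuous (densS ε) := by
  have := continuous_mClip hε hε1
  have := continuous_clip ε
  unfold densS
  exact Continuous.div (by fun_prop) (by fun_prop) fun x => by
    have := clip_le (x := x) hε1
    linarith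

lemma continuous_invMax {c : ℝ} (hc : 0 < c) : Continuous fun u : ℝ => (max u c)⁻¹ :=
  Continuous.inv₀ (by fun_prop) fun _ => ne_of_gt (lt_of_lt_of_le hc (le_max_right _ _))

/-- the offset with corrected expectation is close to the offset -/
lemma mdiff_le {ε x d : ℝ} (hε : 0 < ε) (hε1 : ε ≤ 1 / 16) (hx0 : 0 ≤ x) (hx : x ≤ 1 - 2 * ε)
    (hd : |d - 1 / 2| ≤ tol ε) :
    0 < (1 + ε) / 2 - x * d ∧ |d / ((1 + ε) / 2 - x * d) - mOf ε x| ≤ ε ^ 10 := by
  obtain ⟨hd0, hd1⟩ := abs_le.1 hd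
  have ht : tol ε ≤ ε ^ 10 * (1 / 16) ^ 3 := by
    rw [tol, show ε ^ 13 = ε ^ 10 * ε ^ 3 by ring]
    exact mul_le_mul_of_nonneg_left (pow_le_pow_left₀ hε.le hε1 3) (by positivity)
  have ht2 : tol ε ≤ ε / 2 := by
    have h10 : ε ^ 10 ≤ ε := pow_le_of_le_one hε.le (by linarith) (by norm_num)
    nlinarith [ht, h10]
  have hdd : ε ≤ (1 + ε) / 2 - x * d := by
    have : x * d ≤ x / 2 + tol ε := by nlinarith
    linarith
  refine ⟨lt_of_lt_of_le hε hdd, ?_⟩
  have h0 : 0 < 1 + ε - x := by linarith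
  have hd' : 0 < (1 + ε) / 2 - x * d := lt_of_lt_of_le hε hdd
  have e : d / ((1 + ε) / 2 - x * d) - mOf ε x
      = (1 + ε) * (d - 1 / 2) / (((1 + ε) / 2 - x * d) * (1 + ε - x)) := by
    rw [mOf, div_sub_div _ _ hd'.ne' h0.ne']
    congr 1
    ring
  rw [e, abs_div, abs_mul, abs_of_pos (by linarith : (0:ℝ) < 1 + ε),
    abs_of_pos (mul_pos hd' h0), div_le_iff₀ (mul_pos hd' h0)]
  have h1 : ε * (3 * ε) ≤ ((1 + ε) / 2 - x * d) * (1 + ε - x) :=
    mul_le_mul hdd (by linarith) (by linarith) hd'.le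
  have h13 : tol ε = ε ^ 11 * ε ^ 2 := by rw [tol]; ring
  have h11 : ε ^ 11 ≤ ε ^ 10 := pow_le_pow_of_le_one hε.le (by linarith) (by norm_num)
  calc (1 + ε) * |d - 1 / 2| ≤ 2 * tol ε :=
        mul_le_mul (by linarith) hd (abs_nonneg _) zero_le_two
    _ ≤ ε ^ 10 * (ε * (3 * ε)) := by rw [h13]; nlinarith [sq_nonneg ε, pow_pos hε 10]
    _ ≤ _ := mul_le_mul_of_nonneg_left h1 (by positivity)

end Two

namespace TMasa

open Chan

variable (T : TMasa M Ω) (P : TParams) (x : M)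

/-- the corrected expectation of `y` -/
def dd2 (st : TSt M Ω P.r) (N : Fin P.r → Bool → M) (i : Fin P.r) (s : Bool) : C(Ω, ℝ) :=
  T.ddOf (vpm x s) (N i s) (st.R i s) ((1 + P.ε) / 2)

/-- where the corrected expectation is within tolerance -/
def good2 (st : TSt M Ω P.r) (N : Fin P.r → Bool → M) (i : Fin P.r) : C(Ω, ℝ) :=
  (1 - T.pos (cabs (T.dd2 P x st N i true - ContinuousMap.const Ω (1 / 2))
      - ContinuousMap.const Ω (Two.tol P.ε)))
    * (1 - T.pos (cabs (T.dd2 P x st N i false - ContinuousMap.const Ω (1 / 2))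
      - ContinuousMap.const Ω (Two.tol P.ε)))

/-- the total barrier of a channel -/
def Asum (st : TSt M Ω P.r) (i : Fin P.r) : C(Ω, ℝ) :=
  T.aval2 P x st i true + T.aval2 P x st i false

/-- the shifted offset of a channel -/
def m₁F (st : TSt M Ω P.r) (i : Fin P.r) : C(Ω, ℝ) :=
  comp1 (fun u => Two.m₁Of P.ε (Two.clip P.ε u)) (st.sig i)

/-- the drift -/
def betaF (st : TSt M Ω P.r) (i : Fin P.r) : C(Ω, ℝ) := T.Asum P x st i - m₁F P st i

/-- the weight -/
def densF (st : TSt M Ω P.r) (i : Fin P.r) : C(Ω, ℝ) :=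
  comp1 (Two.densC P.ε) (st.sig i)
    + comp1 (Two.densS P.ε) (st.sig i)
      * comp1 (fun b => max b 0) (T.Asum P x st i - (2 : ℝ) • m₁F P st i)

/-- the rescaled variable of a channel -/
def spF (st : TSt M Ω P.r) (i : Fin P.r) : C(Ω, ℝ) :=
  comp1 (fun u => Two.spOf P.ε (Two.clip P.ε u)) (st.sig i)

/-- the variance of a channel -/
def Dfun (μ : ℝ) (st : TSt M Ω P.r) (N : Fin P.r → Bool → M) (i : Fin P.r) : C(Ω, ℝ) :=
  st.live * T.good2 P x st N i * spF P st i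
    * (comp1 (fun u => (max u (P.ε ^ 4))⁻¹) (T.densF P x st i)
      * comp1 (fun u => (max u μ)⁻¹) (T.lam2 P x st + ContinuousMap.const Ω μ))

/-- the curvature of straight lines in the reciprocal variable -/
def gam0 (ς : ℝ) (st : TSt M Ω P.r) (i : Fin P.r) : C(Ω, ℝ) :=
  comp1 (fun u => (max u (ς / 4))⁻¹) (st.sig i)

/-- the deterministic second order motion -/
def uFun (μ ς : ℝ) (st : TSt M Ω P.r) (N : Fin P.r → Bool → M) (i : Fin P.r) : C(Ω, ℝ) :=
  -((T.betaF P x st i + gam0 P ς st i) * T.Dfun P x μ st N i)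

/-- the standing assumptions on a state -/
structure Ctx (S : TSmalls) (st : TSt M Ω P.r) (N : Fin P.r → Bool → M) : Prop where
  ε_pos : 0 < P.ε
  ε_le : P.ε ≤ 1 / 16
  sa : IsSelfAdjoint x
  norm_le : ‖x‖ ≤ 1
  centered : T.E x = 0
  inv : T.TStInv P x S st
  band : ∀ i s, Band S.γ (T.Zop2 P x st i s) (N i s)
  clean : ∀ i ω, st.sig i ω = 0 ∨ S.ς / 4 ≤ st.sig i ω
  μ_pos : 0 < S.μ
  ς_pos : 0 < S.ς

variable {T P x} {S : TSmalls} {st : TSt M Ω P.r} {N : Fin P.r → Bool → M}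

lemma E_ypm (hE : T.E x = 0) (s : Bool) (ω : Ω) : T.E (ypm x s) ω = 1 / 2 := by
  cases s <;> simp [ypm, T.E_one, hE]

namespace Ctx

variable (C : T.Ctx P x S st N)
include C

lemma sig0 (i : Fin P.r) (ω : Ω) : 0 ≤ st.sig i ω := C.inv.sig_nonneg i ω

lemma sig1 (i : Fin P.r) (ω : Ω) : st.sig i ω ≤ 1 - 2 * P.ε := C.inv.sig_le i ω

lemma clip_sig (i : Fin P.r) (ω : Ω) : Two.clip P.ε (st.sig i ω) = st.sig i ω :=
  Two.clip_eq (C.sig0 i ω) (C.sig1 i ω)

lemma half : P.ε ≤ 1 / 2 := by linarith [C.ε_le]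

lemma m₁F_apply (i : Fin P.r) (ω : Ω) : m₁F P st i ω = Two.m₁Of P.ε (st.sig i ω) := by
  rw [m₁F, comp1_apply (Two.continuous_m₁Clip C.ε_pos C.half), C.clip_sig]

lemma spF_apply (i : Fin P.r) (ω : Ω) : spF P st i ω = Two.spOf P.ε (st.sig i ω) := by
  rw [spF, comp1_apply (Two.continuous_spClip C.ε_pos C.half), C.clip_sig]

lemma densF_apply (i : Fin P.r) (ω : Ω) : T.densF P x st i ω =
    Two.dens P.ε (st.sig i ω) (T.Asum P x st i ω - 2 * Two.m₁Of P.ε (st.sig i ω)) := by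
  simp only [densF, ContinuousMap.add_apply, ContinuousMap.mul_apply,
    comp1_apply (Two.continuous_densC C.ε_pos C.half),
    comp1_apply (Two.continuous_densS C.ε_pos C.half),
    comp1_apply (show Continuous fun b : ℝ => max b 0 by fun_prop), ContinuousMap.sub_apply,
    ContinuousMap.smul_apply, smul_eq_mul, C.m₁F_apply, Two.densC, Two.densS, C.clip_sig, Two.dens]

lemma gam0_apply (i : Fin P.r) (ω : Ω) :
    gam0 P S.ς st i ω = (max (st.sig i ω) (S.ς / 4))⁻¹ := by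
  rw [gam0, comp1_apply (Two.continuous_invMax (by linarith [C.ς_pos]))]

lemma gam0_nonneg (i : Fin P.r) : 0 ≤ gam0 P S.ς st i := fun ω => by
  show 0 ≤ gam0 P S.ς st i ω
  rw [C.gam0_apply]
  exact inv_nonneg.2 (le_max_of_le_left (C.sig0 i ω))

lemma lam_bounds (ω : Ω) : 0 ≤ T.lam2 P x st ω ∧ T.lam2 P x st ω ≤ 1 := by
  rw [lam2, comp1_apply continuous_dhub]
  exact ⟨Profile.dhub_nonneg _, Profile.dhub_le_one _⟩

lemma Dfun_apply (i : Fin P.r) (ω : Ω) : T.Dfun P x S.μ st N i ω =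
    st.live ω * T.good2 P x st N i ω * Two.spOf P.ε (st.sig i ω) /
      (T.densF P x st i ω * (T.lam2 P x st ω + S.μ)) := by
  have hd := Two.dens_ge C.ε_pos C.ε_le (C.sig0 i ω) (C.sig1 i ω)
    (T.Asum P x st i ω - 2 * Two.m₁Of P.ε (st.sig i ω))
  rw [← C.densF_apply] at hd
  simp only [Dfun, ContinuousMap.mul_apply, ContinuousMap.add_apply, ContinuousMap.const_apply,
    comp1_apply (Two.continuous_invMax (pow_pos C.ε_pos 4)),
    comp1_apply (Two.continuous_invMax C.μ_pos), C.spF_apply, max_eq_left hd,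
    max_eq_left (show S.μ ≤ T.lam2 P x st ω + S.μ by linarith [(C.lam_bounds ω).1])]
  rw [div_eq_mul_inv, mul_inv]

lemma good2_idem (i : Fin P.r) : T.good2 P x st N i * T.good2 P x st N i = T.good2 P x st N i := by
  have h : ∀ p : C(Ω, ℝ), p * p = p → (1 - p) * (1 - p) = 1 - p := fun p hp => by
    rw [sub_mul, one_mul, mul_sub, mul_one, hp, sub_self, sub_zero]
  rw [good2, mul_mul_mul_comm, h _ (T.pos_mul_self _), h _ (T.pos_mul_self _)]

lemma Dfun_nonneg (i : Fin P.r) : 0 ≤ T.Dfun P x S.μ st N i := fun ω => by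
  show 0 ≤ T.Dfun P x S.μ st N i ω
  have hd := Two.dens_pos C.ε_pos C.ε_le (C.sig0 i ω) (C.sig1 i ω)
    (T.Asum P x st i ω - 2 * Two.m₁Of P.ε (st.sig i ω))
  rw [← C.densF_apply] at hd
  have h1 : 0 ≤ st.live ω := idem_nonneg C.inv.live_idem ω
  have h2 : 0 ≤ T.good2 P x st N i ω := idem_nonneg (C.good2_idem i) ω
  have h3 := Two.spOf_nonneg C.ε_pos (C.sig0 i ω) (C.sig1 i ω)
  have h4 := (C.lam_bounds ω).1
  have := C.μ_pos
  rw [C.Dfun_apply]
  positivity

lemma aval_nonneg (i : Fin P.r) (s : Bool) (ω : Ω) : 0 ≤ T.aval2 P x st i s ω :=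
  aval2_nonneg (C.band i s).pos i s (C.inv.gap i s) ω

lemma aval_ge (i : Fin P.r) (s : Bool) (ω : Ω) :
    T.E (T.Xp2 P x st N i s) ω ≤ T.aval2 P x st i s ω :=
  T.E_mono ((C.band i s).Xp_le (isSelfAdjoint_vpm x s)) ω

lemma band_le (i : Fin P.r) (s : Bool) (ω : Ω) :
    T.aval2 P x st i s ω - T.E (T.Xp2 P x st N i s) ω ≤
      2 * S.γ * T.E (Bop (vpm x s) (T.Zop2 P x st i s) (N i s)) ω :=
  T.E_band_le (C.band i s) (isSelfAdjoint_vpm x s) ω

lemma good_facts (i : Fin P.r) (ω : Ω) (hg : T.good2 P x st N i ω = 1) (hσ : 0 < st.sig i ω)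
    (s : Bool) :
    0 < (1 + P.ε) / 2 - st.sig i ω * T.dd2 P x st N i s ω ∧
      |T.dd2 P x st N i s ω / ((1 + P.ε) / 2 - st.sig i ω * T.dd2 P x st N i s ω)
          - Two.mOf P.ε (st.sig i ω)| ≤ P.ε ^ 10 ∧
      Two.m₁Of P.ε (st.sig i ω) ≤ T.E (T.Xp2 P x st N i s) ω := by
  have hboth : ∀ s, |T.dd2 P x st N i s ω - 1 / 2| ≤ Two.tol P.ε := by
    have h : ∀ u : C(Ω, ℝ), T.pos (cabs u - ContinuousMap.const Ω (Two.tol P.ε)) ω = 0 →
        |u ω| ≤ Two.tol P.ε := fun u hu => by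
      have h' : |u ω| - Two.tol P.ε ≤ 0 := T.nonpos_of_pos_eq_zero hu
      linarith
    rw [good2, ContinuousMap.mul_apply] at hg
    rcases idem_zero_or_one (T.pos_mul_self (cabs (T.dd2 P x st N i true
      - ContinuousMap.const Ω (1 / 2)) - ContinuousMap.const Ω (Two.tol P.ε))) ω with ha | ha
    · rcases idem_zero_or_one (T.pos_mul_self (cabs (T.dd2 P x st N i false
        - ContinuousMap.const Ω (1 / 2)) - ContinuousMap.const Ω (Two.tol P.ε))) ω with hb | hb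
      · intro s; cases s
        · exact h _ hb
        · exact h _ ha
      · simp only [ContinuousMap.sub_apply, ContinuousMap.one_apply] at hg
        rw [hb] at hg; simp at hg
    · simp only [ContinuousMap.sub_apply, ContinuousMap.one_apply] at hg
      rw [ha] at hg; simp at hg
  obtain ⟨h1, h2⟩ := Two.mdiff_le C.ε_pos C.ε_le (C.sig0 i ω) (C.sig1 i ω) (hboth s)
  refine ⟨h1, h2, le_trans ?_ (T.dd_div_le (C.band i s) (isSelfAdjoint_vpm x s) rfl
    (by linarith [C.ε_pos]) (C.inv.sig_nonneg i) hσ h1)⟩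
  rw [Two.m₁Of]
  simp only [dd2] at h2
  linarith [(abs_le.1 h2).1]

/-- either the variance vanishes or the channel is active -/
lemma cases (i : Fin P.r) (ω : Ω) : T.Dfun P x S.μ st N i ω = 0 ∨
    (st.live ω = 1 ∧ T.good2 P x st N i ω = 1 ∧ 0 < st.sig i ω ∧
      gam0 P S.ς st i ω = (st.sig i ω)⁻¹) := by
  rw [C.Dfun_apply]
  rcases idem_zero_or_one C.inv.live_idem ω with hl | hl
  · left; simp [hl]
  rcases idem_zero_or_one (C.good2_idem i) ω with hg | hg
  · left; simp [hg]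
  rcases C.clean i ω with h0 | h0
  · left; simp [h0, Two.spOf]
  · right
    exact ⟨hl, hg, by linarith [C.ς_pos], by rw [C.gam0_apply, max_eq_left h0]⟩

lemma active_bounds (i : Fin P.r) (ω : Ω) (hl : st.live ω = 1)
    (hg : T.good2 P x st N i ω = 1) (hσ : 0 < st.sig i ω) :
    0 ≤ T.Asum P x st i ω - 2 * Two.m₁Of P.ε (st.sig i ω) ∧
    1 / 4 ≤ Two.m₁Of P.ε (st.sig i ω) ∧ Two.m₁Of P.ε (st.sig i ω) ≤ 1 / P.ε ∧
    Two.spOf P.ε (st.sig i ω) ≤ st.sig i ω / 3 ∧
    (1 + (T.Asum P x st i ω - 2 * Two.m₁Of P.ε (st.sig i ω))) * T.Dfun P x S.μ st N i ω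
      ≤ 3 * Two.spOf P.ε (st.sig i ω) / (P.ε ^ 4 * S.μ) := by
  have hε := C.ε_pos
  have hε1 := C.ε_le
  have hμ := C.μ_pos
  have hs0 := C.sig0 i ω
  have hs1 := C.sig1 i ω
  have hD := C.Dfun_apply i ω
  rw [hl, hg, one_mul, one_mul] at hD
  set σ := st.sig i ω
  set m := Two.mOf P.ε σ with hm
  have hfp := fun s => ((C.good_facts i ω hg hσ s).2.2).trans (C.aval_ge i s ω)
  have hB0 : 0 ≤ T.Asum P x st i ω - 2 * Two.m₁Of P.ε σ := by
    rw [Asum, ContinuousMap.add_apply]; linarith [hfp true, hfp false]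
  have hmh := Two.half_le_mOf hε hε1 hs0 hs1
  have hmu := Two.mOf_le hε hs1
  have h10 : P.ε ^ 10 ≤ 1 / 4 := (pow_le_of_le_one hε.le (by linarith) (by norm_num)).trans
    (by linarith)
  have h3e : 1 / (3 * P.ε) ≤ 1 / P.ε := one_div_le_one_div_of_le hε (by linarith)
  have hp10 := pow_pos hε 10
  have hsp0 := Two.spOf_nonneg hε hs0 hs1
  have hspσ : Two.spOf P.ε σ ≤ σ / 3 := by
    rw [Two.spOf]
    refine (mul_le_mul_of_nonneg_left hmu (mul_nonneg hε.le hs0)).trans (le_of_eq ?_)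
    field_simp
  refine ⟨hB0, by rw [Two.m₁Of]; linarith, by rw [Two.m₁Of]; linarith, hspσ, ?_⟩
  have hd1 : P.ε ^ 4 ≤ T.densF P x st i ω := by
    rw [C.densF_apply]; exact Two.dens_ge hε hε1 hs0 hs1 _
  set B := T.Asum P x st i ω - 2 * Two.m₁Of P.ε σ with hB
  have hd2 : P.ε / 2 * B ≤ T.densF P x st i ω := by
    rw [C.densF_apply, Two.dens, max_eq_left hB0]
    refine (mul_le_mul_of_nonneg_right (b := P.ε / 2) (c := P.ε * m / (1 - σ)) ?_ hB0).trans
      (le_add_of_nonneg_left (mul_nonneg (sq_nonneg _) (by linarith)))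
    rw [le_div_iff₀ (by linarith)]
    nlinarith
  set den := T.densF P x st i ω
  have hden0 : 0 < den := lt_of_lt_of_le (pow_pos hε 4) hd1
  have hlam := (C.lam_bounds ω).1
  have hε4 : P.ε ^ 4 * (1 + B) ≤ 3 * den := by
    have h1 : P.ε ^ 4 * B ≤ P.ε * B :=
      mul_le_mul_of_nonneg_right (pow_le_of_le_one hε.le (by linarith) (by norm_num)) hB0
    linarith [mul_add (P.ε ^ 4) 1 B]
  rw [hD, mul_div_assoc', div_le_div_iff₀ (mul_pos hden0 (by linarith)) (by positivity)]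
  have h1 : P.ε ^ 4 * (1 + B) * S.μ ≤ 3 * den * (T.lam2 P x st ω + S.μ) :=
    mul_le_mul hε4 (by linarith) hμ.le (by positivity)
  calc (1 + B) * Two.spOf P.ε σ * (P.ε ^ 4 * S.μ)
      = Two.spOf P.ε σ * (P.ε ^ 4 * (1 + B) * S.μ) := by ring
    _ ≤ Two.spOf P.ε σ * (3 * den * (T.lam2 P x st ω + S.μ)) :=
        mul_le_mul_of_nonneg_left h1 hsp0
    _ = 3 * Two.spOf P.ε σ * (den * (T.lam2 P x st ω + S.μ)) := by ring

lemma Dfun_bounds (i : Fin P.r) (ω : Ω) :
    T.Dfun P x S.μ st N i ω ≤ Two.cD P.ε S.μ ∧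
    gam0 P S.ς st i ω * T.Dfun P x S.μ st N i ω ≤ Two.cD P.ε S.μ ∧
    |T.uFun P x S.μ S.ς st N i ω| ≤ Two.cD P.ε S.μ ∧
    0 ≤ T.betaF P x st i ω * T.Dfun P x S.μ st N i ω ∧
    (1 + (T.Asum P x st i ω - 2 * Two.m₁Of P.ε (st.sig i ω))) * T.Dfun P x S.μ st N i ω
      ≤ Two.phi (st.sig i ω) / (4 * P.ε ^ 5 * S.μ) := by
  have hε := C.ε_pos
  have hε1 := C.ε_le
  have hμ := C.μ_pos
  have hs0 := C.sig0 i ω
  have hs1 := C.sig1 i ω
  have hc : 0 ≤ Two.cD P.ε S.μ := by unfold Two.cD; positivity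
  have hphi := (Two.phi_bounds hε hs0 hs1).1
  rcases C.cases i ω with h0 | ⟨hl, hg, hσ, hγ⟩
  · have hu : T.uFun P x S.μ S.ς st N i ω = 0 := by simp [uFun, h0]
    rw [h0, hu, mul_zero, mul_zero, mul_zero, abs_zero]
    exact ⟨hc, hc, hc, le_rfl, by positivity⟩
  obtain ⟨hB0, hm1, hm2, hspσ, key⟩ := C.active_bounds i ω hl hg hσ
  have hD0 : 0 ≤ T.Dfun P x S.μ st N i ω := C.Dfun_nonneg i ω
  have hβ : T.betaF P x st i ω = (T.Asum P x st i ω - 2 * Two.m₁Of P.ε (st.sig i ω))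
      + Two.m₁Of P.ε (st.sig i ω) := by
    rw [betaF, ContinuousMap.sub_apply, C.m₁F_apply]; ring
  set σ := st.sig i ω
  set D := T.Dfun P x S.μ st N i ω
  set B := T.Asum P x st i ω - 2 * Two.m₁Of P.ε σ
  set q := 1 / (P.ε ^ 4 * S.μ) with hq
  have hq0 : 0 < q := by positivity
  have hu1 : 1 ≤ 1 / P.ε := by rw [le_div_iff₀ hε]; linarith
  have hcD : Two.cD P.ε S.μ = 3 * q * (1 / P.ε) := by rw [hq, Two.cD]; field_simp
  have hcq : 3 * q ≤ Two.cD P.ε S.μ := by
    rw [hcD]; exact le_mul_of_one_le_right (by positivity) hu1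
  have hDB : (1 + B) * D ≤ σ * q := by
    refine key.trans (le_trans (div_le_div_of_nonneg_right (b := σ) (by linarith) (by positivity))
      (le_of_eq ?_))
    rw [hq]; ring
  have hDle : D ≤ σ * q := le_trans (le_mul_of_one_le_left hD0 (by linarith)) hDB
  have hσq : σ * q ≤ q := mul_le_of_le_one_left hq0.le (by linarith)
  have hγD : gam0 P S.ς st i ω * D ≤ q := by
    rw [hγ, inv_mul_le_iff₀ hσ]
    exact hDle
  have hβD : T.betaF P x st i ω * D ≤ 1 / P.ε * q := by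
    have h1 : B + Two.m₁Of P.ε σ ≤ 1 / P.ε * (1 + B) := by
      have := le_mul_of_one_le_left hB0 hu1
      rw [mul_add, mul_one]
      linarith
    rw [hβ]
    refine (mul_le_mul_of_nonneg_right h1 hD0).trans ?_
    rw [mul_assoc]
    exact mul_le_mul_of_nonneg_left (hDB.trans hσq) (by positivity)
  have hβ0 : 0 ≤ T.betaF P x st i ω * D := mul_nonneg (by rw [hβ]; linarith) hD0
  have h0 : 0 ≤ gam0 P S.ς st i ω * D := mul_nonneg (by rw [hγ]; positivity) hD0
  refine ⟨by linarith, by linarith, ?_, hβ0, ?_⟩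
  · rw [uFun, ContinuousMap.neg_apply, ContinuousMap.mul_apply, ContinuousMap.add_apply, abs_neg,
      add_mul, abs_of_nonneg (add_nonneg hβ0 h0), hcD]
    have := le_mul_of_one_le_left hq0.le hu1
    linarith [mul_comm (1 / P.ε) q]
  · refine key.trans ?_
    rw [div_le_div_iff₀ (by positivity) (by positivity), Two.phi]
    have h1 : 2 * P.ε ≤ 1 - σ := by linarith
    have h2 : Two.spOf P.ε σ * (12 * P.ε) ≤ 2 * σ * (1 - σ) := by
      calc Two.spOf P.ε σ * (12 * P.ε) ≤ σ / 3 * (12 * P.ε) :=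
            mul_le_mul_of_nonneg_right hspσ (by positivity)
        _ = 2 * σ * (2 * P.ε) := by ring
        _ ≤ _ := mul_le_mul_of_nonneg_left h1 (by positivity)
    calc 3 * Two.spOf P.ε σ * (4 * P.ε ^ 5 * S.μ)
        = Two.spOf P.ε σ * (12 * P.ε) * (P.ε ^ 4 * S.μ) := by ring
      _ ≤ _ := mul_le_mul_of_nonneg_right h2 (by positivity)

end Ctx

end TMasa

end Vale.Agent.P078
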