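import Mathlib
import Vale.Agent.P078.TwoWeights

/-! The quadratic forms of one step of the two-sided walk. -/

noncomputable section

open scoped ComplexOrder

set_option linter.unusedSectionVars false

namespace Vale.Agent.P078

universe u v

variable {M : Type u} [CStarAlgebra M] [PartialOrder M] [StarOrderedRing M]
  {Ω : Type v} [TopologicalSpace Ω] [CompactSpace Ω] [T2Space Ω]

namespace TMasa

open Chan

variable (T : TMasa M Ω) (P : TParams) (x : M)

/-- the weight of the Huber term -/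
def Lam (st : TSt M Ω P.r) : C(Ω, ℝ) := st.live * T.lam2 P x st

/-- the coefficient of the diagonal part of the derivative -/
def cJf (st : TSt M Ω P.r) (i : Fin P.r) : C(Ω, ℝ) :=
  comp1 (Two.dpsiC P.ε) (st.sig i) - comp1 Two.dphi (st.sig i) * T.Asum P x st i

/-- the transpose of the derivative -/
def Jop2' (st : TSt M Ω P.r) (N : Fin P.r → Bool → M) (i : Fin P.r) : Module.End ℝ C(Ω, ℝ) :=
  mlt (T.cJf P x st i)
    - (T.K (T.Xp2 P x st N i true) + T.K (T.Xp2 P x st N i false)) * mlt (cphi2 (st.sig i))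

/-- the favourable quadratic form -/
def P2op (ς : ℝ) (st : TSt M Ω P.r) (N : Fin P.r → Bool → M) (i : Fin P.r) :
    Module.End ℝ C(Ω, ℝ) :=
  mlt (gam0 P ς st i * T.Jop2' P x st N i (T.Lam P x st)
      + T.Lam P x st * (comp1 (Two.hpsiC P.ε) (st.sig i) + (2 : ℝ) • T.Asum P x st i))
    - mlt (T.Lam P x st * comp1 Two.dphi (st.sig i))
      * (T.K (T.Xp2 P x st N i true) + T.K (T.Xp2 P x st N i false))
    - (T.K2 (T.Xp2 P x st N i true * T.emb (T.Lam P x st * cphi2 (st.sig i))
          * T.Xp2 P x st N i true) (T.Xp2 P x st N i true)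
      + T.K2 (T.Xp2 P x st N i false * T.emb (T.Lam P x st * cphi2 (st.sig i))
          * T.Xp2 P x st N i false) (T.Xp2 P x st N i false))

/-- the absolute weight of the correction -/
def wR (st : TSt M Ω P.r) (N : Fin P.r → Bool → M) (i : Fin P.r) (s : Bool) : C(Ω, ℝ) :=
  cabs (T.offW (vpm x s) (N i s) (st.R i s))

/-- the squared sandwich of a channel and a sign -/
def X22 (st : TSt M Ω P.r) (N : Fin P.r → Bool → M) (i : Fin P.r) (s : Bool) : M :=
  X2 (vpm x s) (T.Zop2 P x st i s) (N i s)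

/-- the positive quadratic form -/
def Q2op (S : TSmalls) (st : TSt M Ω P.r) (N : Fin P.r → Bool → M) (i : Fin P.r) :
    Module.End ℝ C(Ω, ℝ) :=
  mlt (gam0 P S.ς st i * ((S.μ * Two.C1 P.ε) • (1 : C(Ω, ℝ))
      + S.μ • (T.E (T.X22 P x st N i true) + T.E (T.X22 P x st N i false))
      + (2 * S.A * S.μ) • (T.wR P x st N i true + T.wR P x st N i false)))
    + S.μ • (T.K2 (T.Xp2 P x st N i true) (T.X22 P x st N i true)
      + T.K2 (T.Xp2 P x st N i false) (T.X22 P x st N i false))
    + (S.A * S.μ) • (T.offOp (vpm x true) (N i true) + T.offOp (vpm x false) (N i false))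

/-- the deterministic second order part -/
def det2 (S : TSmalls) (ρ : ℝ) (st : TSt M Ω P.r) (N : Fin P.r → Bool → M)
    (u : Fin P.r → C(Ω, ℝ)) (i : Fin P.r) : ℝ :=
  - T.tau (T.Lam P x st * T.Jop2 P x st N i (u i))
    - ρ * T.tau (T.Lam P x st * (cphi2 (st.sig i)
        * (T.E (Bop (vpm x true) (T.Zop2 P x st i true) (N i true))
          + T.E (Bop (vpm x false) (T.Zop2 P x st i false) (N i false)))))
    + S.μ * Two.C1 P.ε * T.tau (u i)
    + S.μ * (T.tau (u i * T.E (T.X22 P x st N i true))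
        + T.tau (u i * T.E (T.X22 P x st N i false)))
    + S.A * S.μ * (2 * T.tau (u i * T.offW (vpm x true) (N i true) (st.R i true))
        + 2 * ρ * T.ip (st.R i true) (1 - N i true)
        + (2 * T.tau (u i * T.offW (vpm x false) (N i false) (st.R i false))
        + 2 * ρ * T.ip (st.R i false) (1 - N i false)))

variable {T P x} {S : TSmalls} {st : TSt M Ω P.r} {N : Fin P.r → Bool → M}

namespace Ctx

variable (C : T.Ctx P x S st N)
include C

lemma Xp2_nonneg (i : Fin P.r) (s : Bool) : 0 ≤ T.Xp2 P x st N i s :=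
  (C.band i s).Xp_nonneg (isSelfAdjoint_vpm x s)

lemma Xp2_sa (i : Fin P.r) (s : Bool) : IsSelfAdjoint (T.Xp2 P x st N i s) :=
  .of_nonneg (C.Xp2_nonneg i s)

lemma X22_nonneg (i : Fin P.r) (s : Bool) : 0 ≤ T.X22 P x st N i s :=
  (C.band i s).X2_nonneg (isSelfAdjoint_vpm x s)

lemma conj_emb_sa (i : Fin P.r) (s : Bool) (w : C(Ω, ℝ)) :
    IsSelfAdjoint (T.Xp2 P x st N i s * T.emb w * T.Xp2 P x st N i s) := by
  simpa [(C.Xp2_sa i s).star_eq] using (T.emb_selfAdjoint w).conjugate (T.Xp2 P x st N i s)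

lemma Lam_bounds (ω : Ω) : 0 ≤ T.Lam P x st ω ∧ T.Lam P x st ω ≤ 1 := by
  rw [Lam, ContinuousMap.mul_apply]
  have h1 : 0 ≤ st.live ω := idem_nonneg C.inv.live_idem ω
  exact ⟨mul_nonneg h1 (C.lam_bounds ω).1,
    mul_le_one₀ (idem_le_one C.inv.live_idem ω) (C.lam_bounds ω).1 (C.lam_bounds ω).2⟩

lemma P2op_mem (i : Fin P.r) : T.P2op P x S.ς st N i ∈ T.TT :=
  sub_mem (sub_mem (T.mlt_mem _) (mul_mem (T.mlt_mem _)
      (add_mem (T.K_mem (C.Xp2_sa i true)) (T.K_mem (C.Xp2_sa i false)))))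
    (add_mem (T.K2_mem (C.conj_emb_sa i true _) (C.Xp2_sa i true))
      (T.K2_mem (C.conj_emb_sa i false _) (C.Xp2_sa i false)))

lemma Q2op_mem (i : Fin P.r) : T.Q2op P x S st N i ∈ T.TT :=
  add_mem (add_mem (T.mlt_mem _) (Subalgebra.smul_mem _
      (add_mem (T.K2_mem (C.Xp2_sa i true) (.of_nonneg (C.X22_nonneg i true)))
        (T.K2_mem (C.Xp2_sa i false) (.of_nonneg (C.X22_nonneg i false)))) _))
    (Subalgebra.smul_mem _
      (add_mem (T.offOp_mem (isSelfAdjoint_vpm x true) (C.band i true).proj.isSelfAdjoint)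
        (T.offOp_mem (isSelfAdjoint_vpm x false) (C.band i false).proj.isSelfAdjoint)) _)

lemma Jop2_mem (i : Fin P.r) : T.Jop2 P x st N i ∈ T.TT :=
  sub_mem (T.mlt_mem _) (mul_mem (T.mlt_mem _)
    (add_mem (T.K_mem (C.Xp2_sa i true)) (T.K_mem (C.Xp2_sa i false))))

lemma Jop2'_mem (i : Fin P.r) : T.Jop2' P x st N i ∈ T.TT :=
  sub_mem (T.mlt_mem _)
    (mul_mem (add_mem (T.K_mem (C.Xp2_sa i true)) (T.K_mem (C.Xp2_sa i false))) (T.mlt_mem _))

lemma Jop2_adj (i : Fin P.r) (f g : C(Ω, ℝ)) :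
    T.tau (f * T.Jop2 P x st N i g) = T.tau (g * T.Jop2' P x st N i f) := by
  have e : ∀ s, T.tau (f * (cphi2 (st.sig i) * T.K (T.Xp2 P x st N i s) g))
      = T.tau (g * T.K (T.Xp2 P x st N i s) (cphi2 (st.sig i) * f)) := fun s => by
    rw [show f * (cphi2 (st.sig i) * T.K (T.Xp2 P x st N i s) g)
        = cphi2 (st.sig i) * f * T.K (T.Xp2 P x st N i s) g by ring,
      T.tau_mul_K_comm (C.Xp2_sa i s)]
  simp only [Jop2, Jop2', cJf, Asum, LinearMap.sub_apply, LinearMap.add_apply, Module.End.mul_apply,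
    mlt, LinearMap.mulLeft_apply, mul_sub, mul_add, map_sub, map_add, e]
  congr 1
  congr 1
  ring

lemma Jop2_bnd (i : Fin P.r) :
    T.Bnd2 (100 / P.ε ^ 6 + 4 / S.γ + (2 / S.γ ^ 2) * 1) (T.Jop2 P x st N i) ∧
    T.Bnd2 (100 / P.ε ^ 6 + 4 / S.γ + (2 / S.γ ^ 2) * 1) (T.Jop2' P x st N i) := by
  have hγ := (C.band i true).pos
  have hA : ∀ s ω, |T.aval2 P x st i s ω| ≤ 1 / S.γ := fun s ω => by
    have hv := isSelfAdjoint_vpm x s
    refine (T.E_le_norm (IsSelfAdjoint.of_nonneg (hv.conjugate_nonneg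
      (Res.res_nonneg hγ (C.inv.gap i s)))) ω).trans ?_
    exact (norm_sandwich_le (vpm_props C.sa C.norm_le s).2.1 _).trans
      (Res.norm_res_le hγ (C.inv.gap i s))
  have hc : T.Bnd2 (100 / P.ε ^ 6 + 4 / S.γ) (mlt (T.cJf P x st i)) := by
    have := C.ε_pos
    refine T.bnd2_mlt ((ContinuousMap.norm_le _ (by positivity)).2 fun ω => ?_)
    have hd := Two.abs_dpsi_le C.ε_pos C.ε_le (C.sig0 i ω) (C.sig1 i ω)
    have hp := (Two.phi_bounds C.ε_pos (C.sig0 i ω) (C.sig1 i ω)).2.2
    rw [Real.norm_eq_abs, cJf, ContinuousMap.sub_apply, ContinuousMap.mul_apply, Asum,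
      ContinuousMap.add_apply, comp1_apply (Two.continuous_dpsiC C.ε_pos),
      comp1_apply Two.continuous_dphi, Two.dpsiC,
      min_eq_left (by linarith [C.sig1 i ω, C.ε_pos] : st.sig i ω ≤ 1)]
    refine (abs_sub _ _).trans (add_le_add hd ?_)
    rw [abs_mul, show 4 / S.γ = 2 * (1 / S.γ + 1 / S.γ) by ring]
    exact mul_le_mul hp ((abs_add_le _ _).trans (add_le_add (hA true ω) (hA false ω)))
      (abs_nonneg _) (by norm_num)
  have hK : T.Bnd2 (2 / S.γ ^ 2) (T.K (T.Xp2 P x st N i true) + T.K (T.Xp2 P x st N i false)) := by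
    have h := fun s => T.bnd2_K (C.Xp2_sa i s)
      ((C.band i s).norm_Xp_le (vpm_props C.sa C.norm_le s).2.1)
    rw [show 2 / S.γ ^ 2 = (1 / S.γ) ^ 2 + (1 / S.γ) ^ 2 by rw [div_pow, one_pow]; ring]
    refine ⟨fun f => ?_, fun f => ?_⟩ <;> rw [LinearMap.add_apply, add_mul]
    · exact (norm_add_le _ _).trans (add_le_add ((h true).1 f) ((h false).1 f))
    · rw [map_add]
      exact (T.n2_add _ _).trans (add_le_add ((h true).2 f) ((h false).2 f))
  have hφ : T.Bnd2 1 (mlt (cphi2 (st.sig i))) := by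
    refine T.bnd2_mlt ((ContinuousMap.norm_le _ zero_le_one).2 fun ω => ?_)
    obtain ⟨h0, h1, -⟩ := Two.phi_bounds C.ε_pos (C.sig0 i ω) (C.sig1 i ω)
    show |Two.phi (st.sig i ω)| ≤ 1
    rw [abs_of_nonneg h0]; linarith
  refine ⟨?_, hc.sub (hK.mul (by positivity) hφ)⟩
  rw [mul_one, ← one_mul (2 / S.γ ^ 2)]
  exact hc.sub (hφ.mul zero_le_one hK)

lemma Q2op_nonneg (hA : 0 ≤ S.A) (i : Fin P.r) (g : C(Ω, ℝ)) :
    0 ≤ T.tau (g * T.Q2op P x S st N i g) := by
  have := C.μ_pos
  simp only [Q2op, LinearMap.add_apply, LinearMap.smul_apply, mul_add, mul_smul_comm, map_add,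
    map_smul, smul_eq_mul, mlt, LinearMap.mulLeft_apply]
  have hX := fun s => T.tau_mul_K2_nonneg (C.Xp2_nonneg i s) (C.X22_nonneg i s) g
  have hO : ∀ s, 0 ≤ T.tau (g * T.offOp (vpm x s) (N i s) g) := fun s => by
    rw [← T.n2_offb_sq (isSelfAdjoint_vpm x s) (C.band i s).proj]; exact sq_nonneg _
  refine add_nonneg (add_nonneg (T.tau_nonneg fun ω => ?_) ?_) ?_
  · have h0 : 0 ≤ gam0 P S.ς st i ω := C.gam0_nonneg i ω
    have hx : ∀ s, 0 ≤ T.E (T.X22 P x st N i s) ω := fun s => T.E_nonneg (C.X22_nonneg i s) ω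
    have hC1 : 0 ≤ Two.C1 P.ε := by have := C.ε_pos; unfold Two.C1; positivity
    have hw : ∀ s, 0 ≤ T.wR P x st N i s ω := fun s => abs_nonneg _
    simp only [ContinuousMap.toFun_eq_coe, ContinuousMap.mul_apply, ContinuousMap.add_apply,
      ContinuousMap.smul_apply, smul_eq_mul, ContinuousMap.one_apply, ContinuousMap.coe_zero,
      Pi.zero_apply]
    have h2 : 0 ≤ gam0 P S.ς st i ω * (S.μ * Two.C1 P.ε * 1)
        + gam0 P S.ς st i ω * (S.μ * T.E (T.X22 P x st N i true) ω
          + S.μ * T.E (T.X22 P x st N i false) ω)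
        + gam0 P S.ς st i ω * (2 * S.A * S.μ * T.wR P x st N i true ω
          + 2 * S.A * S.μ * T.wR P x st N i false ω) := by
      have := hx true; have := hx false; have := hw true; have := hw false
      positivity
    nlinarith [mul_nonneg (mul_self_nonneg (g ω)) h2]
  · exact add_nonneg (mul_nonneg C.μ_pos.le (hX true)) (mul_nonneg C.μ_pos.le (hX false))
  · exact add_nonneg (mul_nonneg (mul_nonneg hA C.μ_pos.le) (hO true))
      (mul_nonneg (mul_nonneg hA C.μ_pos.le) (hO false))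

/-- the form of `P2op` -/
lemma tau_P2op (i : Fin P.r) (h : Fin P.r → C(Ω, ℝ)) :
    T.tau (h i * T.P2op P x S.ς st N i (h i)) =
      T.tau (T.Lam P x st * (T.Jop2 P x st N i (gam0 P S.ς st i * (h i * h i))
        + T.Fq2 P x st N h i)) := by
  have e1 : T.tau (h i * (gam0 P S.ς st i * T.Jop2' P x st N i (T.Lam P x st) * h i))
      = T.tau (T.Lam P x st * T.Jop2 P x st N i (gam0 P S.ς st i * (h i * h i))) := by
    rw [C.Jop2_adj]
    congr 1; ring
  simp only [P2op, Fq2, LinearMap.sub_apply, LinearMap.add_apply, Module.End.mul_apply, mlt,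
    LinearMap.mulLeft_apply, mul_add, mul_sub, map_add, map_sub, T.tau_mul_K2_weight]
  rw [add_mul, mul_add, map_add, e1]
  simp only [Asum, add_mul, mul_add, smul_add, mul_smul_comm, smul_mul_assoc, map_add,
    map_smul]
  ring_nf

/-- the second order part is bounded by the forms and the deterministic part -/
lemma sec2_le (hA : 0 ≤ S.A) (ρ : ℝ) (h u : Fin P.r → C(Ω, ℝ)) :
    T.sec2 P x S st N ρ h (fun i => gam0 P S.ς st i * (h i * h i) + u i) ≤
      T.tau (st.live * ((∑ i, T.Jop2 P x st N i (h i)) * ∑ i, T.Jop2 P x st N i (h i))) / 2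
      + ∑ i, T.tau (h i * (T.Q2op P x S st N i - T.P2op P x S.ς st N i) (h i))
      + ∑ i, T.det2 P x S ρ st N u i := by
  set g : Fin P.r → C(Ω, ℝ) := fun i => gam0 P S.ς st i * (h i * h i) with hg
  have key : ∀ i, - T.tau (T.Lam P x st * T.F22 P x st N ρ h (fun i => g i + u i) i)
      + S.μ * Two.C1 P.ε * T.tau (g i + u i)
      + S.μ * (T.trSec P x st N h (fun i => g i + u i) i true
          + T.trSec P x st N h (fun i => g i + u i) i false)
      + S.A * S.μ * (T.RSec P x st N ρ h (fun i => g i + u i) i true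
          + T.RSec P x st N ρ h (fun i => g i + u i) i false) ≤
      T.tau (h i * (T.Q2op P x S st N i - T.P2op P x S.ς st N i) (h i))
        + T.det2 P x S ρ st N u i := by
    intro i
    have hRs : ∀ s, T.RSec P x st N ρ h (fun i => g i + u i) i s ≤
        T.tau (h i * T.offOp (vpm x s) (N i s) (h i)) + 2 * T.tau (g i * T.wR P x st N i s)
          + (2 * T.tau (u i * T.offW (vpm x s) (N i s) (st.R i s))
            + 2 * ρ * T.ip (st.R i s) (1 - N i s)) := fun s => by
      have hv := isSelfAdjoint_vpm x s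
      rw [RSec, T.n2_offb_sq hv (C.band i s).proj, T.ip_add_right, T.ip_smul_right,
        T.ip_offb _ (C.inv.R_sa i s), add_mul (g i), map_add]
      have h1 : T.tau (g i * T.offW (vpm x s) (N i s) (st.R i s))
          ≤ T.tau (g i * T.wR P x st N i s) := T.tau_mono fun ω => by
        show g i ω * _ ≤ g i ω * |_|
        refine mul_le_mul_of_nonneg_left (le_abs_self _) ?_
        show 0 ≤ gam0 P S.ς st i ω * (h i ω * h i ω)
        exact mul_nonneg (C.gam0_nonneg i ω) (mul_self_nonneg _)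
      linarith
    have eq : T.tau (h i * T.Q2op P x S st N i (h i)) =
        S.μ * Two.C1 P.ε * T.tau (g i)
        + S.μ * (T.tau (g i * T.E (T.X22 P x st N i true))
            + T.tau (g i * T.E (T.X22 P x st N i false)))
        + S.μ * (T.tau (h i * T.K2 (T.Xp2 P x st N i true) (T.X22 P x st N i true) (h i))
            + T.tau (h i * T.K2 (T.Xp2 P x st N i false) (T.X22 P x st N i false) (h i)))
        + S.A * S.μ * (T.tau (h i * T.offOp (vpm x true) (N i true) (h i))
            + T.tau (h i * T.offOp (vpm x false) (N i false) (h i))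
            + 2 * T.tau (g i * T.wR P x st N i true) + 2 * T.tau (g i * T.wR P x st N i false)) := by
      have e : ∀ f : C(Ω, ℝ), h i * (gam0 P S.ς st i * f * h i) = g i * f := fun f => by
        simp only [hg]; ring
      simp only [Q2op, LinearMap.add_apply, LinearMap.smul_apply, mlt, LinearMap.mulLeft_apply]
      rw [mul_add, mul_add, e]
      simp only [mul_add, mul_smul_comm, map_add, map_smul, smul_eq_mul, mul_one]
      ring
    have hAμ := mul_le_mul_of_nonneg_left (add_le_add (hRs true) (hRs false))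
      (mul_nonneg hA C.μ_pos.le)
    rw [LinearMap.sub_apply, mul_sub (h i), map_sub T.tau, eq, C.tau_P2op, det2]
    simp only [trSec, F22, map_add, add_mul, mul_add, mul_smul_comm, map_smul, smul_eq_mul,
      ← show T.Xp2 P x st N i true = Xp (vpm x true) (T.Zop2 P x st i true) (N i true) from rfl,
      ← show T.X22 P x st N i true = X2 (vpm x true) (T.Zop2 P x st i true) (N i true) from rfl,
      ← show T.X22 P x st N i false = X2 (vpm x false) (T.Zop2 P x st i false) (N i false) from rfl]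
    simp only [mul_add] at hAμ ⊢
    simp only [hg] at hAμ ⊢
    linarith
  have := Finset.sum_le_sum fun i (_ : i ∈ Finset.univ) => key i
  simp only [Finset.sum_add_distrib, Finset.sum_neg_distrib, ← Finset.mul_sum] at this
  rw [sec2]
  have e : T.tau (st.live * (T.lam2 P x st * ∑ i, T.F22 P x st N ρ h (fun i => g i + u i) i))
      = ∑ i, T.tau (T.Lam P x st * T.F22 P x st N ρ h (fun i => g i + u i) i) := by
    rw [← mul_assoc, Finset.mul_sum, map_sum]; rfl
  simp only [hg, Finset.sum_add_distrib, ← Finset.mul_sum] at this e ⊢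
  linarith

end Ctx

end TMasa

end Vale.Agent.P078
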