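import Mathlib
import Vale.Agent.P078.TwoForms

/-! The estimates of one step of the two-sided walk. -/

noncomputable section

open scoped ComplexOrder

set_option linter.unusedSectionVars false

namespace Vale.Agent.P078

universe u v

variable {M : Type u} [CStarAlgebra M] [PartialOrder M] [StarOrderedRing M]
  {Ω : Type v} [TopologicalSpace Ω] [CompactSpace Ω] [T2Space Ω]

namespace Two

/-- the push of the band -/
def rho (ε γ μ : ℝ) : ℝ := 50 * γ / (ε ^ 11 * μ)

end Two

namespace TMasa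

open Chan

variable (T : TMasa M Ω)

lemma omega_smul_of_mem {W : Module.End ℝ C(Ω, ℝ)} (hW : W ∈ T.TT) (c : ℝ) :
    T.omega (c • W) = c * T.omega W := by
  refine tendsto_nhds_unique (T.omega_tendsto (Subalgebra.smul_mem _ hW c))
    (((T.omega_tendsto hW).const_mul c).congr fun P => ?_)
  simp [omegaP, Finset.mul_sum]

lemma tr_sandwich_proj_le {v p : M} (hp : IsStarProjection p) (hy : v * v ≤ 1) :
    T.tr (v * p * v) ≤ T.tr p := by
  rw [T.tr_mul_comm (v * p), ← mul_assoc]
  have e : T.tr (v * v * p) = T.tr (p * (v * v) * p) := by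
    rw [mul_assoc p, T.tr_mul_comm p, mul_assoc (v * v) p, hp.isIdempotentElem.eq]
  rw [e]
  refine T.tr_mono ((hp.isSelfAdjoint.conjugate_le_conjugate hy).trans (le_of_eq ?_))
  rw [mul_one, hp.isIdempotentElem.eq]

variable {T} {P : TParams} {x : M} {S : TSmalls} {st : TSt M Ω P.r} {N : Fin P.r → Bool → M}

namespace Ctx

variable (C : T.Ctx P x S st N)
include C

lemma min_sig (i : Fin P.r) (ω : Ω) : min (st.sig i ω) 1 = st.sig i ω :=
  min_eq_left (by linarith [C.sig1 i ω, C.ε_pos])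

lemma Jop2_apply (i : Fin P.r) (g : C(Ω, ℝ)) (ω : Ω) :
    T.Jop2 P x st N i g ω =
      (Two.dpsi P.ε (st.sig i ω) - Two.dphi (st.sig i ω) * T.Asum P x st i ω) * g ω
        - Two.phi (st.sig i ω)
          * (T.K (T.Xp2 P x st N i true) g ω + T.K (T.Xp2 P x st N i false) g ω) := by
  simp [Jop2, Asum, mlt, cphi2, comp1_apply (Two.continuous_dpsiC C.ε_pos),
    comp1_apply Two.continuous_dphi, Two.dpsiC, C.min_sig]

lemma Fq2_apply (i : Fin P.r) (h : Fin P.r → C(Ω, ℝ)) (ω : Ω) :
    T.Fq2 P x st N h i ω =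
      (Two.hpsi P.ε (st.sig i ω) + 2 * T.Asum P x st i ω) * h i ω ^ 2
        - Two.dphi (st.sig i ω) * h i ω
          * (T.K (T.Xp2 P x st N i true) (h i) ω + T.K (T.Xp2 P x st N i false) (h i) ω)
        - Two.phi (st.sig i ω)
          * (T.E (T.Xp2 P x st N i true * T.emb (h i) * T.Xp2 P x st N i true * T.emb (h i)
              * T.Xp2 P x st N i true) ω
            + T.E (T.Xp2 P x st N i false * T.emb (h i) * T.Xp2 P x st N i false * T.emb (h i)
              * T.Xp2 P x st N i false) ω) := by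
  simp [Fq2, Asum, cphi2, comp1_apply (Two.continuous_hpsiC C.ε_pos),
    comp1_apply Two.continuous_dphi, Two.hpsiC, C.min_sig]
  ring

/-- the pointwise quadratic upper bound -/
lemma loss_pointwise (i : Fin P.r) (h : Fin P.r → C(Ω, ℝ)) (u : C(Ω, ℝ))
    (hh : h i = csqrt (T.Dfun P x S.μ st N i) * u) (ω : Ω) :
    T.Lam P x st ω * (T.Jop2 P x st N i (gam0 P S.ς st i * (h i * h i)) ω
      + T.Fq2 P x st N h i ω) ≤ u ω * u ω := by
  have hsq : ∀ ω, h i ω ^ 2 = T.Dfun P x S.μ st N i ω * u ω ^ 2 := fun ω => by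
    rw [hh, ContinuousMap.mul_apply, mul_pow]
    congr 1
    exact Real.sq_sqrt (C.Dfun_nonneg i ω)
  have hzero : ∀ ω, T.Dfun P x S.μ st N i ω = 0 → h i ω = 0 := fun ω h0 =>
    (pow_eq_zero_iff two_ne_zero).1 (by rw [hsq, h0, zero_mul])
  have hw : h i = st.sig i * (gam0 P S.ς st i * h i) ∧
      gam0 P S.ς st i * (h i * h i)
        = st.sig i * ((gam0 P S.ς st i * h i) * (gam0 P S.ς st i * h i)) := by
    constructor <;> ext ω <;> rcases C.cases i ω with h0 | ⟨-, -, hσ, hγ⟩
    · simp [hzero ω h0]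
    · simp [hγ, hσ.ne']
    · simp [hzero ω h0]
    · simp [hγ]; field_simp
  have hγh : 0 ≤ gam0 P S.ς st i * (h i * h i) := fun ω =>
    mul_nonneg (C.gam0_nonneg i ω) (mul_self_nonneg (h i ω))
  have hKn : ∀ s, 0 ≤ T.K (T.Xp2 P x st N i s) (gam0 P S.ς st i * (h i * h i)) ω := fun s =>
    T.K_nonneg _ hγh ω
  have hCn : ∀ s, 0 ≤ T.E (T.Xp2 P x st N i s * T.emb (h i) * T.Xp2 P x st N i s * T.emb (h i)
      * T.Xp2 P x st N i s) ω := fun s => T.E_XhXhX_nonneg (C.Xp2_nonneg i s) (h i) ω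
  obtain ⟨hL0, -⟩ := C.Lam_bounds ω
  have hphi := (Two.phi_bounds C.ε_pos (C.sig0 i ω) (C.sig1 i ω)).1
  rw [C.Jop2_apply, C.Fq2_apply, ContinuousMap.mul_apply, ContinuousMap.mul_apply]
  rcases C.cases i ω with h0 | ⟨hl, hg, hσ, hγ⟩
  · refine le_trans (mul_nonpos_of_nonneg_of_nonpos hL0 ?_) (mul_self_nonneg _)
    rw [hzero ω h0]
    have k1 := mul_nonneg hphi (add_nonneg (hKn true) (hKn false))
    have k2 := mul_nonneg hphi (add_nonneg (hCn true) (hCn false))
    nlinarith
  have hσ1 := C.sig1 i ω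
  have hφpos : 0 < Two.phi (st.sig i ω) :=
    mul_pos (by linarith) (by linarith [C.ε_pos])
  have hch : ∀ s, -Two.dphi (st.sig i ω) * h i ω * T.K (T.Xp2 P x st N i s) (h i) ω
      - Two.phi (st.sig i ω) * (T.K (T.Xp2 P x st N i s) (gam0 P S.ς st i * (h i * h i)) ω
        + T.E (T.Xp2 P x st N i s * T.emb (h i) * T.Xp2 P x st N i s * T.emb (h i)
          * T.Xp2 P x st N i s) ω)
      ≤ h i ω ^ 2 * Two.lossS (st.sig i ω) (T.E (T.Xp2 P x st N i s) ω)
          (T.dd2 P x st N i s ω / ((1 + P.ε) / 2 - st.sig i ω * T.dd2 P x st N i s ω)) := fun s => by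
    rw [hw.2]
    exact T.chan_loss (C.band i s) (isSelfAdjoint_vpm x s) rfl (by linarith [C.ε_pos])
      (C.inv.sig_nonneg i) hσ (C.good_facts i ω hg hσ s).1 hw.1 hφpos _
  obtain ⟨-, mp, ap⟩ := C.good_facts i ω hg hσ true
  obtain ⟨-, mn, an⟩ := C.good_facts i ω hg hσ false
  have hA : T.E (T.Xp2 P x st N i true) ω + T.E (T.Xp2 P x st N i false) ω
      ≤ T.Asum P x st i ω := by
    rw [Asum, ContinuousMap.add_apply]
    exact add_le_add (C.aval_ge i true ω) (C.aval_ge i false ω)
  have hX := Two.loss C.ε_pos C.ε_le hσ hσ1 (pow_nonneg C.ε_pos.le 10) le_rfl ap an hA mp mn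
  rw [show Two.mOf P.ε (st.sig i ω) - P.ε ^ 10 = Two.m₁Of P.ε (st.sig i ω) from rfl,
    ← C.densF_apply] at hX
  set σ := st.sig i ω with hσd
  set X := (Two.dpsi P.ε σ - Two.dphi σ * T.Asum P x st i ω) / σ + Two.hpsi P.ε σ
    + 2 * T.Asum P x st i ω + Two.lossS σ (T.E (T.Xp2 P x st N i true) ω)
      (T.dd2 P x st N i true ω / ((1 + P.ε) / 2 - σ * T.dd2 P x st N i true ω))
    + Two.lossS σ (T.E (T.Xp2 P x st N i false) ω)
      (T.dd2 P x st N i false ω / ((1 + P.ε) / 2 - σ * T.dd2 P x st N i false ω)) with hXd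
  have hbr : (Two.dpsi P.ε σ - Two.dphi σ * T.Asum P x st i ω) * (gam0 P S.ς st i ω * (h i ω * h i ω))
      - Two.phi σ * (T.K (T.Xp2 P x st N i true) (gam0 P S.ς st i * (h i * h i)) ω
          + T.K (T.Xp2 P x st N i false) (gam0 P S.ς st i * (h i * h i)) ω)
      + ((Two.hpsi P.ε σ + 2 * T.Asum P x st i ω) * h i ω ^ 2
        - Two.dphi σ * h i ω
          * (T.K (T.Xp2 P x st N i true) (h i) ω + T.K (T.Xp2 P x st N i false) (h i) ω)
        - Two.phi σ
          * (T.E (T.Xp2 P x st N i true * T.emb (h i) * T.Xp2 P x st N i true * T.emb (h i)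
              * T.Xp2 P x st N i true) ω
            + T.E (T.Xp2 P x st N i false * T.emb (h i) * T.Xp2 P x st N i false * T.emb (h i)
              * T.Xp2 P x st N i false) ω)) ≤ h i ω ^ 2 * X := by
    have e : h i ω ^ 2 * X = h i ω ^ 2 * ((Two.dpsi P.ε σ - Two.dphi σ * T.Asum P x st i ω) / σ)
        + (Two.hpsi P.ε σ + 2 * T.Asum P x st i ω) * h i ω ^ 2
        + h i ω ^ 2 * Two.lossS σ (T.E (T.Xp2 P x st N i true) ω)
          (T.dd2 P x st N i true ω / ((1 + P.ε) / 2 - σ * T.dd2 P x st N i true ω))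
        + h i ω ^ 2 * Two.lossS σ (T.E (T.Xp2 P x st N i false) ω)
          (T.dd2 P x st N i false ω / ((1 + P.ε) / 2 - σ * T.dd2 P x st N i false ω)) := by
      rw [hXd]; ring
    have e2 : (Two.dpsi P.ε σ - Two.dphi σ * T.Asum P x st i ω) * (gam0 P S.ς st i ω * (h i ω * h i ω))
        = h i ω ^ 2 * ((Two.dpsi P.ε σ - Two.dphi σ * T.Asum P x st i ω) / σ) := by
      rw [hγ]; ring
    have h1 := hch true
    have h2 := hch false
    rw [e, e2]
    linarith
  refine (mul_le_mul_of_nonneg_left hbr hL0).trans ?_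
  have hden : 0 < T.densF P x st i ω := by
    rw [C.densF_apply]; exact Two.dens_pos C.ε_pos C.ε_le (C.sig0 i ω) hσ1 _
  obtain ⟨hl0, -⟩ := C.lam_bounds ω
  have hμ := C.μ_pos
  rw [Lam, ContinuousMap.mul_apply, hl, one_mul, hsq, C.Dfun_apply, hl, hg, one_mul, one_mul,
    ← hσd]
  set den := T.densF P x st i ω
  set lm := T.lam2 P x st ω + S.μ with hlm
  have hlm0 : 0 < lm := by linarith
  rw [show T.lam2 P x st ω * (Two.spOf P.ε σ / (den * lm) * u ω ^ 2 * X)
    = (T.lam2 P x st ω / lm) * ((Two.spOf P.ε σ * X) / den) * (u ω * u ω) by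
      field_simp]
  refine mul_le_of_le_one_left (mul_self_nonneg _) ?_
  have h1 : T.lam2 P x st ω / lm ≤ 1 := (div_le_one hlm0).2 (by linarith)
  have h2 : Two.spOf P.ε σ * X / den ≤ 1 := (div_le_one hden).2 hX
  calc T.lam2 P x st ω / lm * (Two.spOf P.ε σ * X / den) ≤ T.lam2 P x st ω / lm * 1 :=
        mul_le_mul_of_nonneg_left h2 (div_nonneg hl0 hlm0.le)
    _ ≤ 1 := by linarith

/-- the favourable form is at most the identity in the scale of the covariance -/
lemma P2op_le (i : Fin P.r) (u : C(Ω, ℝ)) :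
    T.tau ((csqrt (T.Dfun P x S.μ st N i) * u)
      * T.P2op P x S.ς st N i (csqrt (T.Dfun P x S.μ st N i) * u)) ≤ T.tau (u * u) := by
  have := C.tau_P2op i (fun j => csqrt (T.Dfun P x S.μ st N j) * u)
  rw [this]
  exact T.tau_mono fun ω =>
    C.loss_pointwise i (fun j => csqrt (T.Dfun P x S.μ st N j) * u) u rfl ω

/-- the deterministic second order of the constraint at full covariance -/
def G0 (_C : T.Ctx P x S st N) (ρ : ℝ) (i : Fin P.r) : C(Ω, ℝ) :=
  T.Dfun P x S.μ st N i * (comp1 (Two.hpsiC P.ε) (st.sig i) + (2 : ℝ) • T.Asum P x st i)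
    - T.Dfun P x S.μ st N i * comp1 Two.dphi (st.sig i)
      * (T.E (T.Xp2 P x st N i true) * T.E (T.Xp2 P x st N i true)
        + T.E (T.Xp2 P x st N i false) * T.E (T.Xp2 P x st N i false))
    - cphi2 (st.sig i)
      * (T.K (T.Xp2 P x st N i true) (T.Dfun P x S.μ st N i * T.E (T.Xp2 P x st N i true))
        + T.K (T.Xp2 P x st N i false) (T.Dfun P x S.μ st N i * T.E (T.Xp2 P x st N i false)))
    + T.Jop2 P x st N i
        (gam0 P S.ς st i * T.Dfun P x S.μ st N i + T.uFun P x S.μ S.ς st N i)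
    + ρ • (cphi2 (st.sig i)
      * (T.E (Bop (vpm x true) (T.Zop2 P x st i true) (N i true))
        + T.E (Bop (vpm x false) (T.Zop2 P x st i false) (N i false))))

lemma beta_sub_nonneg (i : Fin P.r) (s : Bool) :
    0 ≤ (T.betaF P x st i - T.E (T.Xp2 P x st N i s)) * T.Dfun P x S.μ st N i := fun ω => by
  show 0 ≤ (T.betaF P x st i ω - T.E (T.Xp2 P x st N i s) ω) * T.Dfun P x S.μ st N i ω
  rcases C.cases i ω with h0 | ⟨-, hg, hσ, -⟩
  · rw [h0, mul_zero]
  · refine mul_nonneg ?_ (C.Dfun_nonneg i ω)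
    have h1 := (C.good_facts i ω hg hσ true).2.2
    have h2 := (C.good_facts i ω hg hσ false).2.2
    have a1 := C.aval_ge i true ω
    have a2 := C.aval_ge i false ω
    rw [betaF, ContinuousMap.sub_apply, C.m₁F_apply, Asum, ContinuousMap.add_apply]
    cases s <;> linarith

lemma G0_ge (i : Fin P.r) (ω : Ω) :
    T.Dfun P x S.μ st N i ω * T.densF P x st i ω / 12
      ≤ C.G0 (Two.rho P.ε S.γ S.μ) i ω := by
  set ρ := Two.rho P.ε S.γ S.μ with hρ
  set D := T.Dfun P x S.μ st N i
  set a' : Bool → C(Ω, ℝ) := fun s => T.E (T.Xp2 P x st N i s) with ha'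
  have hJ : gam0 P S.ς st i * D + T.uFun P x S.μ S.ς st N i = -(T.betaF P x st i * D) := by
    rw [uFun]; ring
  have hK : ∀ s, a' s ω ^ 2 * ((T.betaF P x st i ω - a' s ω) * D ω)
      ≤ T.K (T.Xp2 P x st N i s) (T.betaF P x st i * D) ω
        - T.K (T.Xp2 P x st N i s) (D * a' s) ω := fun s => by
    have h := T.K_ge_mul_sq (C.Xp2_sa i s) (C.beta_sub_nonneg i s) ω
    rw [sub_mul, map_sub, ContinuousMap.sub_apply, mul_comm (T.E _) D,
      ContinuousMap.sub_apply, ContinuousMap.mul_apply, ContinuousMap.mul_apply] at h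
    refine le_trans (le_of_eq ?_) h
    simp only [ha', D]
    ring
  have hB : ∀ s, 0 ≤ T.E (Bop (vpm x s) (T.Zop2 P x st i s) (N i s)) ω := fun s =>
    T.E_nonneg ((C.band i s).Bop_nonneg (isSelfAdjoint_vpm x s)) ω
  have hε := C.ε_pos
  have hμ := C.μ_pos
  have hγ := (C.band i true).pos
  obtain ⟨hφ, -, -⟩ := Two.phi_bounds hε (C.sig0 i ω) (C.sig1 i ω)
  have hρ0 : 0 ≤ ρ := by rw [hρ, Two.rho]; positivity
  set B := T.Asum P x st i ω - 2 * Two.m₁Of P.ε (st.sig i ω) with hBdef
  set δ := T.Asum P x st i ω - a' true ω - a' false ω with hδ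
  have hδ0 : 0 ≤ δ := by
    rw [hδ, Asum, ContinuousMap.add_apply]
    linarith [C.aval_ge i true ω, C.aval_ge i false ω]
  have hδb : δ ≤ 2 * S.γ * (T.E (Bop (vpm x true) (T.Zop2 P x st i true) (N i true)) ω
      + T.E (Bop (vpm x false) (T.Zop2 P x st i false) (N i false)) ω) := by
    rw [hδ, Asum, ContinuousMap.add_apply]
    linarith [C.band_le i true ω, C.band_le i false ω]
  have hDB := (C.Dfun_bounds i ω).2.2.2.2
  -- the band term
  have hband : 100 / P.ε ^ 6 * ((1 + B) * D ω) * δ ≤ ρ * (Two.phi (st.sig i ω)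
      * (T.E (Bop (vpm x true) (T.Zop2 P x st i true) (N i true)) ω
        + T.E (Bop (vpm x false) (T.Zop2 P x st i false) (N i false)) ω)) := by
    refine (mul_le_mul_of_nonneg_right (mul_le_mul_of_nonneg_left hDB (by positivity)) hδ0).trans ?_
    refine (mul_le_mul_of_nonneg_left hδb (by positivity)).trans (le_of_eq ?_)
    rw [hρ, Two.rho]; field_simp; ring
  have hsum := add_le_add (mul_le_mul_of_nonneg_left (hK true) hφ)
    (mul_le_mul_of_nonneg_left (hK false) hφ)
  have e : C.G0 ρ i ω = D ω * (Two.hpsi P.ε (st.sig i ω) + 2 * T.Asum P x st i ω)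
      - D ω * Two.dphi (st.sig i ω) * (a' true ω * a' true ω + a' false ω * a' false ω)
      - Two.phi (st.sig i ω) * (T.K (T.Xp2 P x st N i true) (D * a' true) ω
          + T.K (T.Xp2 P x st N i false) (D * a' false) ω)
      - ((Two.dpsi P.ε (st.sig i ω) - Two.dphi (st.sig i ω) * T.Asum P x st i ω)
          * (T.betaF P x st i ω * D ω)
        - Two.phi (st.sig i ω) * (T.K (T.Xp2 P x st N i true) (T.betaF P x st i * D) ω
          + T.K (T.Xp2 P x st N i false) (T.betaF P x st i * D) ω))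
      + ρ * (Two.phi (st.sig i ω)
        * (T.E (Bop (vpm x true) (T.Zop2 P x st i true) (N i true)) ω
          + T.E (Bop (vpm x false) (T.Zop2 P x st i false) (N i false)) ω)) := by
    simp only [G0, hJ, map_neg, ContinuousMap.add_apply, ContinuousMap.sub_apply,
      ContinuousMap.mul_apply, ContinuousMap.neg_apply, ContinuousMap.smul_apply, smul_eq_mul,
      C.Jop2_apply, cphi2, ContinuousMap.coe_mk, comp1_apply (Two.continuous_hpsiC hε),
      comp1_apply Two.continuous_dphi, Two.hpsiC, C.min_sig, ha', D]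
    ring
  rw [e]
  have hβ : T.betaF P x st i ω = T.Asum P x st i ω - Two.m₁Of P.ε (st.sig i ω) := by
    rw [betaF, ContinuousMap.sub_apply, C.m₁F_apply]
  have hD0 : 0 ≤ D ω := C.Dfun_nonneg i ω
  rcases C.cases i ω with h0 | ⟨-, hg, hσ, -⟩
  · have h0' : D ω = 0 := h0
    rw [h0'] at hsum ⊢
    have := mul_nonneg hρ0 (mul_nonneg hφ (add_nonneg (hB true) (hB false)))
    linarith
  have hgain := Two.gain hε C.ε_le (C.sig0 i ω) (C.sig1 i ω) (pow_nonneg hε.le 10) le_rfl
    (A := T.Asum P x st i ω) (C.good_facts i ω hg hσ true).2.2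
    (C.good_facts i ω hg hσ false).2.2 (by linarith)
  have hg' := mul_le_mul_of_nonneg_left hgain hD0
  rw [show Two.mOf P.ε (st.sig i ω) - P.ε ^ 10 = Two.m₁Of P.ε (st.sig i ω) from rfl, ← hBdef,
    ← hβ] at hg'
  rw [C.densF_apply, ← hBdef]
  simp only [ha'] at hg' hband hsum ⊢
  linarith

/-- the bound of the error of the correction in one channel and sign -/
def errR (_C : T.Ctx P x S st N) (i : Fin P.r) (s : Bool) : ℝ :=
  S.A * S.μ * (Two.cD P.ε S.μ * T.tr (1 - N i s)
    + (8 * Two.cD P.ε S.μ + 2 * Two.rho P.ε S.γ S.μ)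
      * (T.n2 (st.R i s) * Real.sqrt (T.tr (1 - N i s))))

/-- the mean of the forms plus the deterministic part in one channel -/
theorem mean_le (hA : 0 ≤ S.A) (i : Fin P.r) :
    T.omega (mlt (T.Dfun P x S.μ st N i) * (T.Q2op P x S st N i - T.P2op P x S.ς st N i))
      + T.det2 P x S (Two.rho P.ε S.γ S.μ) st N (T.uFun P x S.μ S.ς st N) i
    ≤ - T.tau (st.live * T.good2 P x st N i * spF P st i) / 12 + (C.errR i true + C.errR i false) := by
  set D := T.Dfun P x S.μ st N i with hD
  set ρ := Two.rho P.ε S.γ S.μ with hρ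
  set u := T.uFun P x S.μ S.ς st N i with hu
  set g0 := gam0 P S.ς st i with hg0
  set lm := T.Lam P x st with hlm
  set a' : Bool → C(Ω, ℝ) := fun s => T.E (T.Xp2 P x st N i s) with ha'
  set e2 : Bool → C(Ω, ℝ) := fun s => T.E (T.X22 P x st N i s) with he2
  have hX2 : ∀ s, IsSelfAdjoint (T.X22 P x st N i s) := fun s => .of_nonneg (C.X22_nonneg i s)
  have mD := T.mlt_mem D
  -- the value on the positive form
  have hO : ∀ s, T.omega (mlt D * T.offOp (vpm x s) (N i s)) ≤ Two.cD P.ε S.μ * T.tr (1 - N i s) := by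
    intro s
    obtain ⟨hv, -, hvv⟩ := vpm_props C.sa C.norm_le s
    refine T.omega_offOp_le hv (C.band i s).proj (hvv ▸ ypm_le_one C.sa C.norm_le s)
      (C.Dfun_nonneg i) (fun ω => (C.Dfun_bounds i ω).1) fun ω => ?_
    rw [hvv]; exact E_ypm C.centered s ω
  have mK2 := fun s => T.K2_mem (C.Xp2_sa i s) (hX2 s)
  have mO := fun s => T.offOp_mem (isSelfAdjoint_vpm x s) (C.band i s).proj.isSelfAdjoint
  have mK := fun s => T.K_mem (C.Xp2_sa i s)
  have mW := fun s => T.K2_mem (C.conj_emb_sa i s (lm * cphi2 (st.sig i))) (C.Xp2_sa i s)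
  have eQ : T.omega (mlt D * T.Q2op P x S st N i) =
      S.μ * Two.C1 P.ε * T.tau (g0 * D)
      + S.μ * (T.tau (g0 * D * e2 true) + T.tau (g0 * D * e2 false))
      + 2 * S.A * S.μ * (T.tau (g0 * D * T.wR P x st N i true) + T.tau (g0 * D * T.wR P x st N i false))
      + S.μ * (T.tau (D * (a' true * e2 true)) + T.tau (D * (a' false * e2 false)))
      + S.A * S.μ * (T.omega (mlt D * T.offOp (vpm x true) (N i true))
        + T.omega (mlt D * T.offOp (vpm x false) (N i false))) := by
    simp only [Q2op, mul_add, mul_smul_comm, smul_add]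
    rw [T.omega_add_of_mem (add_mem (mul_mem mD (T.mlt_mem _)) (add_mem
        (Subalgebra.smul_mem _ (mul_mem mD (mK2 true)) _)
        (Subalgebra.smul_mem _ (mul_mem mD (mK2 false)) _)))
      (add_mem (Subalgebra.smul_mem _ (mul_mem mD (mO true)) _)
        (Subalgebra.smul_mem _ (mul_mem mD (mO false)) _)),
      T.omega_add_of_mem (mul_mem mD (T.mlt_mem _)) (add_mem
        (Subalgebra.smul_mem _ (mul_mem mD (mK2 true)) _)
        (Subalgebra.smul_mem _ (mul_mem mD (mK2 false)) _)),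
      T.omega_add_of_mem (Subalgebra.smul_mem _ (mul_mem mD (mK2 true)) _)
        (Subalgebra.smul_mem _ (mul_mem mD (mK2 false)) _),
      T.omega_add_of_mem (Subalgebra.smul_mem _ (mul_mem mD (mO true)) _)
        (Subalgebra.smul_mem _ (mul_mem mD (mO false)) _),
      T.omega_smul_of_mem (mul_mem mD (mK2 true)), T.omega_smul_of_mem (mul_mem mD (mK2 false)),
      T.omega_smul_of_mem (mul_mem mD (mO true)), T.omega_smul_of_mem (mul_mem mD (mO false)),
      T.omega_mlt_mul_K2 _ (C.Xp2_sa i true) (hX2 true),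
      T.omega_mlt_mul_K2 _ (C.Xp2_sa i false) (hX2 false), mlt_mul_mlt, T.omega_mlt]
    simp only [mul_add, mul_smul_comm, map_add, map_smul, smul_eq_mul, mul_one,
      mul_comm D g0, ← mul_assoc D g0, hg0, ha', he2]
    ring
  have eP : T.omega (mlt D * T.P2op P x S.ς st N i) =
      T.tau (lm * T.Jop2 P x st N i (g0 * D))
      + T.tau (lm * (D * (comp1 (Two.hpsiC P.ε) (st.sig i) + (2 : ℝ) • T.Asum P x st i)))
      - T.tau (lm * (D * comp1 Two.dphi (st.sig i)
          * (a' true * a' true + a' false * a' false)))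
      - T.tau (lm * (cphi2 (st.sig i) * (T.K (T.Xp2 P x st N i true) (D * a' true)
          + T.K (T.Xp2 P x st N i false) (D * a' false)))) := by
    simp only [P2op, mul_add, mul_sub, ← mul_assoc (mlt D) (mlt _) (T.K _), mlt_mul_mlt]
    rw [T.omega_sub_of_mem (sub_mem (T.mlt_mem _) (add_mem (mul_mem (T.mlt_mem _) (mK true))
        (mul_mem (T.mlt_mem _) (mK false)))) (add_mem (mul_mem mD (mW true)) (mul_mem mD (mW false))),
      T.omega_sub_of_mem (T.mlt_mem _) (add_mem (mul_mem (T.mlt_mem _) (mK true))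
        (mul_mem (T.mlt_mem _) (mK false))),
      T.omega_add_of_mem (mul_mem (T.mlt_mem _) (mK true)) (mul_mem (T.mlt_mem _) (mK false)),
      T.omega_add_of_mem (mul_mem mD (mW true)) (mul_mem mD (mW false)), T.omega_mlt,
      T.omega_mlt_mul_K _ (C.Xp2_sa i true), T.omega_mlt_mul_K _ (C.Xp2_sa i false),
      T.omega_weight (C.Xp2_sa i true), T.omega_weight (C.Xp2_sa i false)]
    rw [C.Jop2_adj, map_add]
    simp only [ha', hg0, hlm, hD, mul_add, map_add]
    ring_nf
  -- collect
  have eC : - T.omega (mlt D * T.P2op P x S.ς st N i)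
      - T.tau (lm * T.Jop2 P x st N i u)
      - ρ * T.tau (lm * (cphi2 (st.sig i)
        * (T.E (Bop (vpm x true) (T.Zop2 P x st i true) (N i true))
          + T.E (Bop (vpm x false) (T.Zop2 P x st i false) (N i false)))))
      = - T.tau (lm * C.G0 ρ i) := by
    rw [eP, G0]
    simp only [ha', hg0, hu, hD, map_add, mul_add, mul_sub, map_sub, mul_smul_comm, map_smul,
      smul_eq_mul]
    ring
  have hgain : T.tau (st.live * T.good2 P x st N i * spF P st i) / 12
      ≤ T.tau (lm * C.G0 ρ i) + S.μ * Two.C1 P.ε * T.tau (T.betaF P x st i * D) := by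
    have h : (1 / 12 : ℝ) • (st.live * T.good2 P x st N i * spF P st i)
        ≤ lm * C.G0 ρ i + (S.μ * Two.C1 P.ε) • (T.betaF P x st i * D) := by
      refine ContinuousMap.le_def.2 fun ω => ?_
      simp only [ContinuousMap.smul_apply, smul_eq_mul, ContinuousMap.mul_apply,
        ContinuousMap.add_apply, hlm, Lam, C.spF_apply]
      have hd := Two.dens_pos C.ε_pos C.ε_le (C.sig0 i ω) (C.sig1 i ω)
        (T.Asum P x st i ω - 2 * Two.m₁Of P.ε (st.sig i ω))
      rw [← C.densF_apply] at hd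
      obtain ⟨hl0, -⟩ := C.lam_bounds ω
      have hμ := C.μ_pos
      have hDe : T.Dfun P x S.μ st N i ω * (T.densF P x st i ω * (T.lam2 P x st ω + S.μ))
          = st.live ω * T.good2 P x st N i ω * Two.spOf P.ε (st.sig i ω) := by
        rw [C.Dfun_apply, div_mul_cancel₀]
        exact (mul_pos hd (by linarith)).ne'
      have h1 : T.densF P x st i ω * T.Dfun P x S.μ st N i ω / 12
          ≤ Two.C1 P.ε * (T.betaF P x st i ω * T.Dfun P x S.μ st N i ω) := by
        have hD0 : 0 ≤ T.Dfun P x S.μ st N i ω := C.Dfun_nonneg i ω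
        rcases C.cases i ω with h0 | ⟨hl', hg', hσ', -⟩
        · simp [h0]
        obtain ⟨hB0, hm1, -, -, -⟩ := C.active_bounds i ω hl' hg' hσ'
        have h2 := Two.dens_le C.ε_pos C.ε_le (C.sig0 i ω) (C.sig1 i ω) hB0
        rw [← C.densF_apply] at h2
        have hC1 : 0 ≤ Two.C1 P.ε := by have := C.ε_pos; unfold Two.C1; positivity
        have h3 : T.densF P x st i ω ≤ Two.C1 P.ε * T.betaF P x st i ω := by
          refine h2.trans ?_
          rw [betaF, ContinuousMap.sub_apply, C.m₁F_apply, mul_assoc]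
          refine mul_le_mul_of_nonneg_left ?_ hC1
          refine (mul_le_of_le_one_left (by linarith) (by linarith [C.ε_le])).trans ?_
          linarith
        rw [← mul_assoc]
        exact le_trans (div_le_self (mul_nonneg hd.le hD0) (by norm_num))
          (mul_le_mul_of_nonneg_right h3 hD0)
      have hG := C.G0_ge i ω
      rw [← hρ] at hG
      have hll : 0 ≤ st.live ω := idem_nonneg C.inv.live_idem ω
      rw [← hDe]
      rcases idem_zero_or_one C.inv.live_idem ω with hl | hl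
      · have h0 : T.Dfun P x S.μ st N i ω = 0 := by rw [C.Dfun_apply, hl]; simp
        simp [hD, h0, hl]
      · rw [hl, one_mul, hD]
        have h4 := mul_le_mul_of_nonneg_left hG hl0
        have h5 := mul_le_mul_of_nonneg_left h1 hμ.le
        linarith
    have := T.tau_mono h
    simp only [map_smul, map_add, smul_eq_mul] at this
    linarith
  have htr : ∀ s, T.tau (g0 * D * e2 s) + T.tau (D * (a' s * e2 s)) + T.tau (u * e2 s) ≤ 0 := by
    intro s
    rw [← map_add, ← map_add]
    have h : g0 * D * e2 s + D * (a' s * e2 s) + u * e2 s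
        ≤ 0 := by
      refine ContinuousMap.le_def.2 fun ω => ?_
      have h1 : 0 ≤ (T.betaF P x st i ω - a' s ω) * D ω := C.beta_sub_nonneg i s ω
      have h2 : 0 ≤ e2 s ω := T.E_nonneg (C.X22_nonneg i s) ω
      simp only [hu, uFun, hg0, ContinuousMap.add_apply, ContinuousMap.mul_apply,
        ContinuousMap.neg_apply, ContinuousMap.zero_apply, ← hD]
      nlinarith [mul_nonneg h1 h2]
    simpa using T.tau_mono h
  have hR : ∀ s, 2 * T.tau (g0 * D * T.wR P x st N i s) + 2 * T.tau (u * T.offW (vpm x s) (N i s) (st.R i s))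
      + 2 * ρ * T.ip (st.R i s) (1 - N i s)
      ≤ (8 * Two.cD P.ε S.μ + 2 * ρ) * (T.n2 (st.R i s) * Real.sqrt (T.tr (1 - N i s))) := by
    intro s
    have hw := T.tau_abs_offW (C.band i s) (vpm_props C.sa C.norm_le s).2.1 (st.R i s) (C.inv.R_sa i s)
    have h1 : g0 * D * T.wR P x st N i s ≤ Two.cD P.ε S.μ • cabs (T.offW (vpm x s) (N i s) (st.R i s)) := by
      refine ContinuousMap.le_def.2 fun ω => ?_
      exact mul_le_mul_of_nonneg_right (C.Dfun_bounds i ω).2.1 (abs_nonneg _)
    have h2 : u * T.offW (vpm x s) (N i s) (st.R i s)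
        ≤ Two.cD P.ε S.μ • cabs (T.offW (vpm x s) (N i s) (st.R i s)) := by
      refine ContinuousMap.le_def.2 fun ω => ?_
      refine (le_abs_self _).trans ?_
      show |u ω * _| ≤ Two.cD P.ε S.μ * |_|
      rw [abs_mul]
      exact mul_le_mul_of_nonneg_right (C.Dfun_bounds i ω).2.2.1 (abs_nonneg _)
    have h1' := T.tau_mono h1
    have h2' := T.tau_mono h2
    rw [map_smul, smul_eq_mul] at h1' h2'
    have hc : 0 ≤ Two.cD P.ε S.μ := by
      have := C.ε_pos; have := C.μ_pos; unfold Two.cD; positivity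
    have h3 : T.ip (st.R i s) (1 - N i s) ≤ T.n2 (st.R i s) * Real.sqrt (T.tr (1 - N i s)) := by
      rw [← T.n2_proj (C.band i s).proj.one_sub]
      exact (le_abs_self _).trans (T.abs_ip_le _ _)
    have hρ0 : 0 ≤ ρ := by
      have := C.ε_pos; have := C.μ_pos; have := (C.band i s).pos
      rw [hρ, Two.rho]; positivity
    have h4 := mul_le_mul_of_nonneg_left hw hc
    have h5 := mul_le_mul_of_nonneg_left h3 hρ0
    linarith
  have hAμ : 0 ≤ S.A * S.μ := mul_nonneg hA C.μ_pos.le
  have eu : T.tau (T.betaF P x st i * D) = - T.tau (g0 * D) - T.tau u := by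
    rw [hu, uFun, ← hD, ← hg0, map_neg, add_mul, map_add]; ring
  rw [mul_sub, T.omega_sub_of_mem (mul_mem mD (C.Q2op_mem i)) (mul_mem mD (C.P2op_mem i)), eQ, det2,
    errR, errR, ← hρ, ← hlm, ← hu, neg_div]
  have h6 := mul_le_mul_of_nonneg_left (add_le_add (htr true) (htr false)) C.μ_pos.le
  have h7 := mul_le_mul_of_nonneg_left (add_le_add (hR true) (hR false)) hAμ
  have h8 := mul_le_mul_of_nonneg_left (add_le_add (hO true) (hO false)) hAμ
  rw [eu] at hgain
  simp only [he2] at h6
  simp only [he2, ha'] at h6 ⊢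
  linarith

/-- the trace of the set where the corrected expectation is off -/
lemma bad_le (i : Fin P.r) :
    Two.tol P.ε * T.tau (1 - T.good2 P x st N i) ≤
      (T.tr (1 - N i true) + 2 * T.n2 (st.R i true))
      + (T.tr (1 - N i false) + 2 * T.n2 (st.R i false)) := by
  set t := Two.tol P.ε with ht
  have ht0 : 0 < t := pow_pos C.ε_pos 13
  set p : Bool → C(Ω, ℝ) := fun s =>
    T.pos (cabs (T.dd2 P x st N i s - ContinuousMap.const Ω (1 / 2)) - ContinuousMap.const Ω t)
  have hu : ∀ s, t * T.tau (p s) ≤ T.tr (1 - N i s) + 2 * T.n2 (st.R i s) := by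
    intro s
    refine (T.tau_exceed_le _ ht0).trans ?_
    obtain ⟨hv, hv1, hvv⟩ := vpm_props C.sa C.norm_le s
    set v := vpm x s
    set e := T.E (v * (N i s * st.R i s * N i s) * v) with he
    have hC0 : 0 ≤ T.E (v * (1 - N i s) * v) :=
      T.E_nonneg (hv.conjugate_nonneg (C.band i s).proj.one_sub.nonneg)
    have hz : 0 < (1 + P.ε) / 2 := by linarith [C.ε_pos]
    have h : cabs (T.dd2 P x st N i s - ContinuousMap.const Ω (1 / 2))
        ≤ T.E (v * (1 - N i s) * v) + (2 : ℝ) • cabs e := by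
      refine ContinuousMap.le_def.2 fun ω => ?_
      show |T.dd2 P x st N i s ω - 1 / 2| ≤ T.E (v * (1 - N i s) * v) ω + 2 * |e ω|
      have e1 : T.dd2 P x st N i s ω - 1 / 2
          = -(T.E (v * (1 - N i s) * v) ω) - ((1 + P.ε) / 2)⁻¹ * e ω := by
        have h' : T.E (v * v) ω = 1 / 2 := by rw [hvv]; exact E_ypm C.centered s ω
        simp [dd2, ddOf, mul_sub, sub_mul, he, v] at h' ⊢
        linarith
      rw [e1]
      refine (abs_sub _ _).trans (add_le_add ?_ ?_)
      · rw [abs_neg, abs_of_nonneg (show 0 ≤ T.E (v * (1 - N i s) * v) ω from hC0 ω)]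
      · rw [abs_mul, abs_of_pos (inv_pos.2 hz)]
        refine mul_le_mul_of_nonneg_right ?_ (abs_nonneg _)
        rw [inv_le_comm₀ hz two_pos]
        linarith [C.ε_pos]
    refine (T.tau_mono h).trans ?_
    rw [map_add, map_smul, smul_eq_mul, T.tau_E]
    refine add_le_add (T.tr_sandwich_proj_le (C.band i s).proj.one_sub
      (hvv ▸ ypm_le_one C.sa C.norm_le s)) (mul_le_mul_of_nonneg_left ?_ two_pos.le)
    set σ : C(Ω, ℝ) := T.pos e - (1 - T.pos e) with hσ
    have hσe : σ * e = cabs e := by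
      ext ω
      show (T.pos e ω - (1 - T.pos e ω)) * e ω = |e ω|
      rcases idem_zero_or_one (T.pos_mul_self e) ω with h | h
      · rw [h, abs_of_nonpos (T.nonpos_of_pos_eq_zero h)]; ring
      · rw [h, abs_of_nonneg (T.nonneg_of_pos_eq_one h)]; ring
    have hσ1 : ‖σ‖ ≤ 1 := (ContinuousMap.norm_le _ zero_le_one).2 fun ω => by
      rcases idem_zero_or_one (T.pos_mul_self e) ω with h | h <;> simp [hσ, h]
    have e2 : T.tau (σ * e) = T.ip (st.R i s) (N i s * (v * T.emb σ * v) * N i s) := by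
      rw [he, tau_mul_E, ip, (C.inv.R_sa i s).star_eq,
        show T.emb σ * (v * (N i s * st.R i s * N i s) * v)
          = (T.emb σ * v * N i s) * (st.R i s * N i s * v) by simp only [mul_assoc], T.tr_mul_comm]
      simp only [mul_assoc]
    rw [← hσe, e2]
    refine (le_abs_self _).trans ((T.abs_ip_le _ _).trans
      (mul_le_of_le_one_right (T.n2_nonneg _) ((T.n2_le_norm _).trans ?_)))
    have hn := proj_norm_le (C.band i s).proj
    refine (norm_mul_le _ _).trans (mul_le_one₀ ((norm_mul_le _ _).trans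
      (mul_le_one₀ hn (norm_nonneg _) ?_)) (norm_nonneg _) hn)
    refine (norm_sandwich_le hv1 _).trans ?_
    rwa [T.emb_norm]
  have h : 1 - T.good2 P x st N i ≤ p true + p false := by
    refine ContinuousMap.le_def.2 fun ω => ?_
    show 1 - (1 - p true ω) * (1 - p false ω) ≤ p true ω + p false ω
    have h1 : 0 ≤ p true ω := idem_nonneg (T.pos_mul_self _) ω
    have h2 : 0 ≤ p false ω := idem_nonneg (T.pos_mul_self _) ω
    nlinarith
  have h' := mul_le_mul_of_nonneg_left (T.tau_mono h) ht0.le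
  rw [map_add] at h'
  linarith [hu true, hu false]

/-- the constraint keeps the rescaled variables large -/
lemma gain_sum_ge :
    60 * T.tau st.live ≤ 3 / 2 * (∑ i, T.tau (st.live * T.good2 P x st N i * spF P st i))
      + 4 * (∑ i, T.tau (1 - T.good2 P x st N i))
      + 120 * T.tau (st.live * chub2 (ContinuousMap.const Ω Two.L - T.Fval2 P x st)) := by
  have h : (60 : ℝ) • st.live ≤ (3 / 2 : ℝ) • (∑ i, st.live * T.good2 P x st N i * spF P st i)
      + (4 : ℝ) • (∑ i, (1 - T.good2 P x st N i))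
      + (120 : ℝ) • (st.live * chub2 (ContinuousMap.const Ω Two.L - T.Fval2 P x st)) := by
    refine ContinuousMap.le_def.2 fun ω => ?_
    simp only [ContinuousMap.smul_apply, smul_eq_mul, ContinuousMap.add_apply,
      ContinuousMap.sum_apply, ContinuousMap.mul_apply, ContinuousMap.sub_apply,
      ContinuousMap.one_apply, chub2, ContinuousMap.coe_mk, ContinuousMap.const_apply, C.spF_apply]
    have hg0 : ∀ i, 0 ≤ 1 - T.good2 P x st N i ω := fun i =>
      sub_nonneg.2 (idem_le_one (C.good2_idem i) ω)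
    have hh := Profile.hub_nonneg (Two.L - T.Fval2 P x st ω)
    have hsum2 : 0 ≤ ∑ i, (1 - T.good2 P x st N i ω) := Finset.sum_nonneg fun i _ => hg0 i
    rcases idem_zero_or_one C.inv.live_idem ω with hl | hl
    · simp only [hl, zero_mul, Finset.sum_const_zero, mul_zero]
      linarith
    simp only [hl, one_mul, mul_one]
    have hsum1 : 0 ≤ ∑ i, T.good2 P x st N i ω * Two.spOf P.ε (st.sig i ω) :=
      Finset.sum_nonneg fun i _ => mul_nonneg (idem_nonneg (C.good2_idem i) ω)
        (Two.spOf_nonneg C.ε_pos (C.sig0 i ω) (C.sig1 i ω))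
    rcases le_or_gt (Two.L - T.Fval2 P x st ω) 1 with hF | hF
    swap
    · have := Profile.half_le_hub hF.le
      linarith
    have hFle : T.Fval2 P x st ω ≤ 3 / 2 * (∑ i, T.good2 P x st N i ω * Two.spOf P.ε (st.sig i ω))
        + 4 * ∑ i, (1 - T.good2 P x st N i ω) := by
      simp only [Fval2, ContinuousMap.sum_apply, Finset.mul_sum, ← Finset.sum_add_distrib]
      refine Finset.sum_le_sum fun i _ => ?_
      simp only [ContinuousMap.sub_apply, ContinuousMap.mul_apply, ContinuousMap.add_apply, cphi2,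
        cpsi2, ContinuousMap.coe_mk, dif_pos C.ε_pos, Two.psiC, C.min_sig]
      obtain ⟨hφ, -, -⟩ := Two.phi_bounds C.ε_pos (C.sig0 i ω) (C.sig1 i ω)
      rcases idem_zero_or_one (C.good2_idem i) ω with hg | hg
      · rw [hg, zero_mul, mul_zero, zero_add, sub_zero, mul_one]
        have := Two.psi_le C.ε_pos (C.sig0 i ω) (C.sig1 i ω)
        have := mul_nonneg hφ (add_nonneg (C.aval_nonneg i true ω) (C.aval_nonneg i false ω))
        have := C.sig1 i ω
        have := C.ε_pos
        linarith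
      · rw [hg, one_mul, sub_self, mul_zero, add_zero]
        rcases eq_or_lt_of_le (C.sig0 i ω) with h0 | h0
        · rw [← h0]; simp [Two.psi_zero, Two.phi, Two.spOf]
        · exact Two.f_le C.ε_pos C.ε_le h0.le (C.sig1 i ω) (pow_nonneg C.ε_pos.le 10) le_rfl
            ((C.good_facts i ω hg h0 true).2.2.trans (C.aval_ge i true ω))
            ((C.good_facts i ω hg h0 false).2.2.trans (C.aval_ge i false ω))
    have hL : Two.L = 61 := rfl
    linarith
  have := T.tau_mono h
  simpa only [map_smul, map_add, map_sum, smul_eq_mul] using this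

end Ctx

end TMasa

end Vale.Agent.P078
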