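import Mathlib
import Vale.Agent.P078.TwoEst
import Vale.Agent.P078.OmegaSpec
import Vale.Agent.P078.Forms
import Vale.Agent.P078.Spectral

/-! One step of the two-sided walk. -/

noncomputable section

open scoped ComplexOrder

set_option linter.unusedSectionVars false

namespace Vale.Agent.P078

universe u v

variable {M : Type u} [CStarAlgebra M] [PartialOrder M] [StarOrderedRing M]
  {Ω : Type v} [TopologicalSpace Ω] [CompactSpace Ω] [T2Space Ω]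

namespace Two

lemma psiTaylor {ε : ℝ} (hε : 0 < ε) (hε1 : ε ≤ 1 / 16) : PsiTaylor ε (1000 / ε ^ 8) := by
  intro x d hx0 hx hd
  have h : 100 / ε ^ 6 ≤ 1000 / ε ^ 8 := by
    rw [div_le_div_iff₀ (by positivity) (by positivity)]
    have h2 : ε ^ 2 ≤ 1 := pow_le_one₀ hε.le (by linarith)
    nlinarith [pow_pos hε 6, mul_le_mul_of_nonneg_left h2 (pow_pos hε 6).le]
  exact ⟨psi_taylor hε hε1 hx0 hx hd, (abs_psi_le hε hε1 hx0 hx).trans h,
    (abs_dpsi_le hε hε1 hx0 hx).trans h, (abs_hpsi_le hε hε1 hx0 hx).trans h⟩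

end Two

namespace TMasa

open Chan

variable {T : TMasa M Ω} {P : TParams} {x : M} {S : TSmalls} {st : TSt M Ω P.r}
  {N : Fin P.r → Bool → M}

lemma lin2_neg (h : Fin P.r → C(Ω, ℝ)) :
    T.lin2 P x S st N (-h) = - T.lin2 P x S st N h := by
  have e : ∀ i s, T.ip (st.R i s) (offb T (vpm x s) (N i s) (-h i))
      = - T.ip (st.R i s) (offb T (vpm x s) (N i s) (h i)) := fun i s => by
    rw [show offb T (vpm x s) (N i s) (-h i) = (-1 : ℝ) • offb T (vpm x s) (N i s) (h i) by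
      simp only [offb, map_neg, mul_neg, neg_mul, neg_smul, one_smul]; abel, T.ip_smul_right]
    ring
  simp only [lin2, Pi.neg_apply, map_neg, neg_mul, mul_neg, e, Finset.sum_neg_distrib,
    Finset.sum_add_distrib]
  ring

lemma Wpot2_components (hε : 0 < P.ε) (hμ : 0 < S.μ) (hγ : 0 < S.γ) (hA : 0 < S.A) (hς : 0 ≤ S.ς)
    (hst : T.TStInv P x S st) {K : ℝ} (hW : T.Wpot2 P x S st ≤ S.μ * K) :
    T.tau (st.live * chub2 (ContinuousMap.const Ω Two.L - T.Fval2 P x st)) ≤ S.μ * K ∧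
    (∑ i, (T.tr (T.Gop2 P x st i true) + T.tr (T.Gop2 P x st i false))) ≤ K ∧
    (∑ i, (T.n2 (st.R i true) ^ 2 + T.n2 (st.R i false) ^ 2)) ≤ K / S.A := by
  have h1 : 0 ≤ T.tau (st.live * chub2 (ContinuousMap.const Ω Two.L - T.Fval2 P x st)) :=
    T.tau_nonneg fun ω => mul_nonneg (idem_nonneg hst.live_idem ω) (Profile.hub_nonneg _)
  have h2 : 0 ≤ S.μ * Two.C1 P.ε * (∑ i, T.tau (st.sig i)) :=
    mul_nonneg (mul_nonneg hμ.le (by unfold Two.C1; positivity))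
      (Finset.sum_nonneg fun i _ => T.tau_nonneg (hst.sig_nonneg i))
  have h3 : 0 ≤ S.μ * (∑ i, (T.tr (T.Gop2 P x st i true) + T.tr (T.Gop2 P x st i false))) :=
    mul_nonneg hμ.le (Finset.sum_nonneg fun i _ => add_nonneg
      (T.tr_nonneg (Res.res_nonneg hγ (hst.gap i true)))
      (T.tr_nonneg (Res.res_nonneg hγ (hst.gap i false))))
  have h4 : 0 ≤ S.A * S.μ * (∑ i, (T.n2 (st.R i true) ^ 2 + T.n2 (st.R i false) ^ 2)) :=
    mul_nonneg (mul_nonneg hA.le hμ.le) (Finset.sum_nonneg fun i _ => by positivity)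
  have h5 : 0 ≤ S.ς * (∑ i, T.tau (T.pos (st.sig i))) :=
    mul_nonneg hς (Finset.sum_nonneg fun i _ => T.tau_nonneg (idem_nonneg (T.pos_mul_self _)))
  rw [Wpot2] at hW
  refine ⟨by linarith, le_of_mul_le_mul_left (by linarith) hμ, ?_⟩
  rw [le_div_iff₀ hA]
  exact le_of_mul_le_mul_left (a := S.μ) (by linarith) hμ

namespace Ctx

variable (C : T.Ctx P x S st N)
include C

lemma sum_band_le {K : ℝ} (hγ : 0 ≤ S.γ)
    (htr : (∑ i, (T.tr (T.Gop2 P x st i true) + T.tr (T.Gop2 P x st i false))) ≤ K) :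
    (∑ i, (T.tr (1 - N i true) + T.tr (1 - N i false))) ≤ 2 * S.γ * K := by
  refine (Finset.sum_le_sum (g := fun i => 2 * S.γ *
    (T.tr (T.Gop2 P x st i true) + T.tr (T.Gop2 P x st i false))) fun i _ => ?_).trans ?_
  · rw [mul_add]
    exact add_le_add (T.tr_band_le (C.band i true)) (T.tr_band_le (C.band i false))
  · rw [← Finset.mul_sum]
    exact mul_le_mul_of_nonneg_left htr (by linarith)

lemma sum_bad_le {K θ : ℝ} (hγ : 0 ≤ S.γ) (hθ : 0 < θ)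
    (htr : (∑ i, (T.tr (T.Gop2 P x st i true) + T.tr (T.Gop2 P x st i false))) ≤ K)
    (hR : (∑ i, (T.n2 (st.R i true) ^ 2 + T.n2 (st.R i false) ^ 2)) ≤ K / S.A) :
    Two.tol P.ε * (∑ i, T.tau (1 - T.good2 P x st N i)) ≤
      2 * S.γ * K + K / (S.A * θ) + 2 * P.r * θ := by
  have h2 : ∀ R : ℝ, 2 * R ≤ R ^ 2 / θ + θ := fun R => by
    rw [div_add' _ _ _ hθ.ne', le_div_iff₀ hθ]
    nlinarith [sq_nonneg (R - θ)]
  rw [Finset.mul_sum]
  refine (Finset.sum_le_sum (g := fun i => (T.tr (1 - N i true) + T.tr (1 - N i false))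
    + ((T.n2 (st.R i true) ^ 2 + T.n2 (st.R i false) ^ 2) / θ + 2 * θ)) fun i _ => ?_).trans ?_
  · have := C.bad_le i
    have := h2 (T.n2 (st.R i true))
    have := h2 (T.n2 (st.R i false))
    rw [add_div]
    linarith
  · rw [Finset.sum_add_distrib, Finset.sum_add_distrib (g := fun _ => 2 * θ), ← Finset.sum_div,
      Finset.sum_const, Finset.card_univ, Fintype.card_fin, nsmul_eq_mul, ← div_div]
    have := C.sum_band_le hγ htr
    have := div_le_div_of_nonneg_right hR hθ.le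
    linarith

lemma sum_err_le {K g : ℝ} (hA : 0 < S.A) (hg : 0 < g) (hg1 : g ≤ 1) (hγ : S.γ = g ^ 2)
    (htr : (∑ i, (T.tr (T.Gop2 P x st i true) + T.tr (T.Gop2 P x st i false))) ≤ K)
    (hR : (∑ i, (T.n2 (st.R i true) ^ 2 + T.n2 (st.R i false) ^ 2)) ≤ K / S.A) :
    (∑ i, (C.errR i true + C.errR i false)) ≤
      g * (S.A * S.μ * (2 * Two.cD P.ε S.μ * K
        + (8 * Two.cD P.ε S.μ + 2 * (50 / (P.ε ^ 11 * S.μ))) * (K / (2 * S.A) + K))) := by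
  have hε := C.ε_pos
  have hμ := C.μ_pos
  have hγ0 : 0 < S.γ := hγ ▸ pow_pos hg 2
  have hγg : S.γ ≤ g := by rw [hγ]; nlinarith
  set c := Two.cD P.ε S.μ
  have hc : 0 ≤ c := by simp only [c, Two.cD]; positivity
  set d := 8 * c + 2 * (50 / (P.ε ^ 11 * S.μ))
  have hd : 8 * c + 2 * Two.rho P.ε S.γ S.μ ≤ d := by
    simp only [d, Two.rho]
    gcongr
    linarith
  have hd0 : 0 ≤ 8 * c + 2 * Two.rho P.ε S.γ S.μ := by unfold Two.rho; positivity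
  have hone : ∀ i s, C.errR i s ≤ S.A * S.μ * (c * (2 * S.γ * T.tr (T.Gop2 P x st i s))
      + d * (g * (T.n2 (st.R i s) ^ 2 / 2 + T.tr (T.Gop2 P x st i s)))) := by
    intro i s
    have hb : T.tr (1 - N i s) ≤ 2 * S.γ * T.tr (T.Gop2 P x st i s) := T.tr_band_le (C.band i s)
    have hq0 : 0 ≤ T.tr (1 - N i s) := T.tr_nonneg (C.band i s).projC.nonneg
    set q := Real.sqrt (T.tr (1 - N i s))
    set R := T.n2 (st.R i s)
    have hq : q ^ 2 ≤ 2 * g ^ 2 * T.tr (T.Gop2 P x st i s) := by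
      rw [← hγ]; exact (Real.sq_sqrt hq0).trans_le hb
    have hRq : R * q ≤ g * (R ^ 2 / 2 + T.tr (T.Gop2 P x st i s)) := by
      refine le_of_mul_le_mul_left (a := g) ?_ hg
      nlinarith [sq_nonneg (g * R - q)]
    refine mul_le_mul_of_nonneg_left (add_le_add (mul_le_mul_of_nonneg_left hb hc) ?_)
      (mul_nonneg hA.le hμ.le)
    exact mul_le_mul hd hRq (mul_nonneg (T.n2_nonneg _) (Real.sqrt_nonneg _)) (hd0.trans hd)
  refine (Finset.sum_le_sum fun i _ => add_le_add (hone i true) (hone i false)).trans ?_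
  set G := ∑ i, (T.tr (T.Gop2 P x st i true) + T.tr (T.Gop2 P x st i false))
  set R2 := ∑ i, (T.n2 (st.R i true) ^ 2 + T.n2 (st.R i false) ^ 2)
  have e : (∑ i, (S.A * S.μ * (c * (2 * S.γ * T.tr (T.Gop2 P x st i true))
      + d * (g * (T.n2 (st.R i true) ^ 2 / 2 + T.tr (T.Gop2 P x st i true))))
      + S.A * S.μ * (c * (2 * S.γ * T.tr (T.Gop2 P x st i false))
      + d * (g * (T.n2 (st.R i false) ^ 2 / 2 + T.tr (T.Gop2 P x st i false))))))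
      = S.A * S.μ * (c * (2 * S.γ * G) + d * (g * (R2 / 2 + G))) := by
    simp only [G, R2, Finset.mul_sum, Finset.sum_div, ← Finset.sum_add_distrib]
    exact Finset.sum_congr rfl fun i _ => by ring
  rw [e]
  have hG0 : 0 ≤ G := Finset.sum_nonneg fun i _ => add_nonneg
    (T.tr_nonneg (Res.res_nonneg hγ0 (C.inv.gap i true)))
    (T.tr_nonneg (Res.res_nonneg hγ0 (C.inv.gap i false)))
  have h1 : c * (2 * S.γ * G) ≤ g * (2 * c * K) := by
    have := mul_le_mul hγg htr hG0 hg.le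
    nlinarith
  have h2 : d * (g * (R2 / 2 + G)) ≤ g * (d * (K / (2 * S.A) + K)) := by
    rw [mul_left_comm, show K / (2 * S.A) = K / S.A / 2 by ring]
    exact mul_le_mul_of_nonneg_left
      (mul_le_mul_of_nonneg_left (by linarith) (hd0.trans hd)) hg.le
  calc S.A * S.μ * (c * (2 * S.γ * G) + d * (g * (R2 / 2 + G)))
      ≤ S.A * S.μ * (g * (2 * c * K) + g * (d * (K / (2 * S.A) + K))) :=
        mul_le_mul_of_nonneg_left (add_le_add h1 h2) (mul_nonneg hA.le hμ.le)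
    _ = _ := by ring

/-- the direction of a step -/
lemma exists_dir (hA : 0 < S.A) {ηf εd cJ cs H : ℝ}
    (hεd : 0 < εd) (hcJ : cJ = 100 / P.ε ^ 6 + 4 / S.γ + 2 / S.γ ^ 2 * 1) (hcJ0 : 0 ≤ cJ)
    (hcs : cs = Real.sqrt (Two.cD P.ε S.μ)) {k : ℕ} (hk : 1 ≤ k)
    (hres : ((P.r * cJ * cs) ^ 2 + 1) * P.r / (2 * k) ≤ εd)
    (hH : H = cs * 2 ^ k + 4 / S.ς * (cs * 2 ^ k) ^ 2 + Two.cD P.ε S.μ)
    (hlive : ηf ≤ T.tau st.live) {Bd E : ℝ}
    (hbad : (∑ i, T.tau (1 - T.good2 P x st N i)) ≤ Bd)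
    (herr : (∑ i, (C.errR i true + C.errR i false)) ≤ E)
    (hbudget : 20 / 3 * T.tau (st.live * chub2 (ContinuousMap.const Ω Two.L - T.Fval2 P x st))
      + 2 / 9 * Bd + E + 2 * εd ≤ 4 / 3 * ηf) :
    ∃ h h2 : Fin P.r → C(Ω, ℝ), (∀ i, ‖h i‖ ≤ H) ∧ (∀ i, ‖h2 i‖ ≤ H) ∧
      (∀ i ω, (st.sig i ω = 0 ∨ st.live ω = 0) → h i ω = 0 ∧ h2 i ω = 0) ∧
      T.lin2 P x S st N h ≤ 0 ∧
      T.sec2 P x S st N (Two.rho P.ε S.γ S.μ) h h2 ≤ -ηf := by
  have hε := C.ε_pos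
  have hμ := C.μ_pos
  have hς := C.ς_pos
  have hcD : 0 ≤ Two.cD P.ε S.μ := by unfold Two.cD; positivity
  have hcs0 : 0 ≤ cs := hcs ▸ Real.sqrt_nonneg _
  set D : Fin P.r → C(Ω, ℝ) := T.Dfun P x S.μ st N with hD
  set sd : Fin P.r → C(Ω, ℝ) := fun i => csqrt (D i) with hsd
  have hsdb : ∀ i, ‖sd i‖ ≤ cs := fun i => by
    refine (ContinuousMap.norm_le _ hcs0).2 fun ω => ?_
    show |Real.sqrt (D i ω)| ≤ cs
    rw [abs_of_nonneg (Real.sqrt_nonneg _), hcs]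
    exact Real.sqrt_le_sqrt (C.Dfun_bounds i ω).1
  obtain ⟨v, hv, hdir⟩ := T.exists_direction T.omegaSpec k hk hεd hcJ0 hcs0 hres C.inv.live_idem
    hsdb C.Jop2_mem C.Jop2'_mem C.Jop2_adj (fun i => hcJ ▸ (C.Jop2_bnd i).1)
    (fun i => hcJ ▸ (C.Jop2_bnd i).2) C.P2op_mem C.Q2op_mem C.P2op_le
    (fun i g => C.Q2op_nonneg hA.le i g)
  set h₀ : Fin P.r → C(Ω, ℝ) := fun i => sd i * v i with hh₀
  obtain ⟨h, hlin, hsgn⟩ : ∃ h : Fin P.r → C(Ω, ℝ), T.lin2 P x S st N h ≤ 0 ∧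
      (h = h₀ ∨ h = -h₀) := by
    rcases le_total (T.lin2 P x S st N h₀) 0 with hl | hl
    · exact ⟨h₀, hl, Or.inl rfl⟩
    · exact ⟨-h₀, by rw [lin2_neg]; linarith, Or.inr rfl⟩
  set u := T.uFun P x S.μ S.ς st N with hu
  refine ⟨h, fun i => gam0 P S.ς st i * (h i * h i) + u i, ?_⟩
  have habs : ∀ i ω, |h i ω| = |sd i ω * v i ω| := fun i ω => by
    rcases hsgn with rfl | rfl <;> simp [hh₀]
  set b := cs * 2 ^ k with hb
  have hb0 : 0 ≤ b := by positivity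
  have hsq0 : 0 ≤ 4 / S.ς * b ^ 2 := by positivity
  have hH0 : 0 ≤ H := by rw [hH]; positivity
  have hhb : ∀ i ω, |h i ω| ≤ b := fun i ω => by
    rw [habs, abs_mul]
    exact mul_le_mul (((sd i).norm_coe_le_norm ω).trans (hsdb i))
      (((v i).norm_coe_le_norm ω).trans (hv i)) (abs_nonneg _) hcs0
  refine ⟨fun i => (ContinuousMap.norm_le _ hH0).2 fun ω => ?_,
    fun i => (ContinuousMap.norm_le _ hH0).2 fun ω => ?_, fun i ω hor => ?_, hlin, ?_⟩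
  · rw [Real.norm_eq_abs, hH]
    linarith [hhb i ω]
  · rw [Real.norm_eq_abs, hH, ContinuousMap.add_apply, ContinuousMap.mul_apply,
      ContinuousMap.mul_apply]
    have hg : 0 ≤ gam0 P S.ς st i ω := C.gam0_nonneg i ω
    have hg4 : gam0 P S.ς st i ω ≤ 4 / S.ς := by
      rw [C.gam0_apply, show 4 / S.ς = (S.ς / 4)⁻¹ by rw [inv_div]]
      exact inv_anti₀ (by positivity) (le_max_right _ _)
    have h1 : |gam0 P S.ς st i ω * (h i ω * h i ω)| ≤ 4 / S.ς * b ^ 2 := by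
      rw [abs_mul, abs_of_nonneg hg, abs_mul, pow_two]
      exact mul_le_mul hg4 (mul_le_mul (hhb i ω) (hhb i ω) (abs_nonneg _) hb0) (by positivity)
        (by positivity)
    linarith [abs_add_le (gam0 P S.ς st i ω * (h i ω * h i ω)) (u i ω),
      (C.Dfun_bounds i ω).2.2.1]
  · have hD0 : D i ω = 0 := by
      show T.Dfun P x S.μ st N i ω = 0
      rw [C.Dfun_apply]
      rcases hor with h0 | h0
      · simp [h0, Two.spOf]
      · simp [h0]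
    have hh : h i ω = 0 := by
      rw [← abs_eq_zero, habs, abs_eq_zero]
      show Real.sqrt (D i ω) * v i ω = 0
      rw [hD0, Real.sqrt_zero, zero_mul]
    refine ⟨hh, ?_⟩
    have : T.Dfun P x S.μ st N i ω = 0 := hD0
    simp [hh, hu, uFun, this]
  -- the second order part
  have hsec := C.sec2_le hA.le (Two.rho P.ε S.γ S.μ) h u
  have heven : T.tau (st.live * ((∑ i, T.Jop2 P x st N i (h i)) * ∑ i, T.Jop2 P x st N i (h i))) / 2
      + ∑ i, T.tau (h i * (T.Q2op P x S st N i - T.P2op P x S.ς st N i) (h i))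
      = T.tau (st.live * ((∑ i, T.Jop2 P x st N i (h₀ i)) * ∑ i, T.Jop2 P x st N i (h₀ i))) / 2
      + ∑ i, T.tau (h₀ i * (T.Q2op P x S st N i - T.P2op P x S.ς st N i) (h₀ i)) := by
    rcases hsgn with rfl | rfl
    · rfl
    · simp only [Pi.neg_apply, map_neg, Finset.sum_neg_distrib, neg_mul_neg]
  have hsq : ∀ i, sd i * sd i = D i := fun i => csqrt_mul_self (C.Dfun_nonneg i)
  simp only [hsq] at hdir
  have hmean := Finset.sum_le_sum fun i (_ : i ∈ Finset.univ) => C.mean_le hA.le i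
  have hgain := C.gain_sum_ge
  rw [Finset.sum_add_distrib, Finset.sum_add_distrib, ← Finset.sum_div,
    Finset.sum_neg_distrib] at hmean
  simp only [hD, ← hu, hh₀] at hdir hmean heven hsec ⊢
  linarith

end Ctx

end TMasa

namespace Two

lemma exists_params {ε ηf A₀ : ℝ} (r : ℕ) (he : 0 < ε) (hηf : 0 < ηf) :
    ∃ μ A θ g : ℝ, 0 < μ ∧ μ ≤ 1 ∧ μ * K₀ ε r ≤ ηf / 28 ∧ 0 < A ∧ A₀ ≤ A ∧ 0 < θ ∧
      K₀ ε r / (A * θ) ≤ ηf * tol ε / 8 ∧ 2 * r * θ ≤ ηf * tol ε / 8 ∧ 0 < g ∧ g ≤ 1 / 2 ∧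
      g * (A * μ * (2 * cD ε μ * K₀ ε r
        + (8 * cD ε μ + 2 * (50 / (ε ^ 11 * μ))) * (K₀ ε r / (2 * A) + K₀ ε r))) ≤ ηf / 8 ∧
      2 * g ^ 2 * K₀ ε r ≤ ηf * tol ε / 8 := by
  have hK0 : 0 ≤ K₀ ε r := by rw [K₀, C1]; positivity
  generalize K₀ ε r = K at hK0 ⊢
  have ht : 0 < tol ε := pow_pos he 13
  generalize tol ε = t13 at ht ⊢
  obtain ⟨μ, hμ, hμ1, hμ2⟩ : ∃ μ : ℝ, 0 < μ ∧ μ ≤ 1 ∧ μ ≤ ηf / (28 * (K + 1)) :=
    ⟨_, lt_min one_pos (by positivity), min_le_left 1 (ηf / (28 * (K + 1))), min_le_right _ _⟩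
  rw [le_div_iff₀ (by positivity)] at hμ2
  obtain ⟨θ, hθ, hθ1⟩ : ∃ θ : ℝ, 0 < θ ∧ θ * (16 * ((r : ℝ) + 1)) = ηf * t13 :=
    ⟨ηf * t13 / (16 * ((r : ℝ) + 1)), by positivity, by field_simp⟩
  obtain ⟨A, hA1, hA₀, hAK⟩ : ∃ A : ℝ, 1 ≤ A ∧ A₀ ≤ A ∧ 8 * K / (ηf * t13 * θ) ≤ A :=
    ⟨max 1 (max A₀ (8 * K / (ηf * t13 * θ))), le_max_left _ _,
      (le_max_left _ _).trans (le_max_right _ _), (le_max_right _ _).trans (le_max_right _ _)⟩
  have hA : 0 < A := by linarith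
  have hcD : 0 ≤ cD ε μ := by unfold cD; positivity
  obtain ⟨CE, hCE, hCE0⟩ : ∃ CE, A * μ * (2 * cD ε μ * K
      + (8 * cD ε μ + 2 * (50 / (ε ^ 11 * μ))) * (K / (2 * A) + K)) = CE ∧ 0 ≤ CE :=
    ⟨_, rfl, by positivity⟩
  obtain ⟨g, hg, hg1, hg2, hg3⟩ : ∃ g : ℝ, 0 < g ∧ g ≤ 1 / 2 ∧ g ≤ ηf / (8 * (CE + 1)) ∧
      g ≤ ηf * t13 / (16 * (K + 1)) :=
    ⟨min (1 / 2) (min (ηf / (8 * (CE + 1))) (ηf * t13 / (16 * (K + 1)))),
      lt_min (by norm_num) (lt_min (by positivity) (by positivity)), min_le_left _ _,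
      (min_le_right _ _).trans (min_le_left _ _), (min_le_right _ _).trans (min_le_right _ _)⟩
  rw [le_div_iff₀ (by positivity)] at hg2 hg3
  rw [div_le_iff₀ (by positivity)] at hAK
  refine ⟨μ, A, θ, g, hμ, hμ1, by linarith, hA, hA₀, hθ, ?_, by linarith, hg, hg1,
    by rw [hCE]; linarith, ?_⟩
  · rw [div_le_iff₀ (by positivity)]; linarith
  · have : g ^ 2 ≤ g := by nlinarith
    linarith [mul_le_mul_of_nonneg_right this hK0]

lemma exists_time {m H C ηf : ℝ} (hm : 0 < m) (hH : 0 ≤ H) (hC : 0 ≤ C) (hηf : 0 < ηf) :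
    ∃ t : ℝ, 0 < t ∧ t ≤ 1 ∧ 2 * t * H ≤ m ∧ C * t ≤ ηf / 2 := by
  refine ⟨min 1 (min (m / (2 * H + 1)) (ηf / (2 * (C + 1)))),
    lt_min one_pos (lt_min (by positivity) (by positivity)), min_le_left _ _, ?_, ?_⟩
  all_goals generalize ht : min 1 (min (m / (2 * H + 1)) (ηf / (2 * (C + 1)))) = t
  · have h : t ≤ m / (2 * H + 1) := ht ▸ (min_le_right _ _).trans (min_le_left _ _)
    have h0 : 0 ≤ t := ht ▸ (lt_min one_pos (lt_min (by positivity) (by positivity))).le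
    rw [le_div_iff₀ (by positivity)] at h
    linarith
  · have h : t ≤ ηf / (2 * (C + 1)) := ht ▸ (min_le_right _ _).trans (min_le_right _ _)
    have h0 : 0 ≤ t := ht ▸ (lt_min one_pos (lt_min (by positivity) (by positivity))).le
    rw [le_div_iff₀ (by positivity)] at h
    linarith

lemma exists_steps (r : ℕ) (B : ℝ) {εd : ℝ} (hεd : 0 < εd) :
    ∃ k : ℕ, 1 ≤ k ∧ B * r / (2 * k) ≤ εd := by
  refine ⟨⌈B * r / (2 * εd)⌉₊ + 1, Nat.le_add_left _ _, ?_⟩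
  have := Nat.le_ceil (B * r / (2 * εd))
  push_cast
  rw [div_le_iff₀ (by positivity)] at this ⊢
  linarith

end Two

namespace TMasa

open Chan

/-- one step of the two-sided walk -/
theorem stepSpec2 (T : TMasa M Ω) (P : TParams) (x : M) (he : 0 < P.ε) (he1 : P.ε ≤ 1 / 16)
    (hx : IsSelfAdjoint x) (hx1 : ‖x‖ ≤ 1) (hEx : T.E x = 0) : T.TStepSpec P x := by
  intro ηf A₀ hηf
  obtain ⟨μ, A, θ, g, hμ, hμ1, hμK, hA, hA₀, hθ, hAK, hrθ, hg, hg2, hgE, hgK⟩ :=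
    Two.exists_params (A₀ := A₀) P.r he hηf
  obtain ⟨γ, hγg⟩ : ∃ γ, γ = g ^ 2 := ⟨_, rfl⟩
  have hγ : 0 < γ := hγg ▸ pow_pos hg 2
  have hγ1 : γ ≤ 1 / 4 := by rw [hγg]; nlinarith
  obtain ⟨S, hS⟩ : ∃ S : TSmalls, S = ⟨μ, γ, A, μ⟩ := ⟨_, rfl⟩
  obtain ⟨rfl, rfl, rfl, hSς⟩ : μ = S.μ ∧ γ = S.γ ∧ A = S.A ∧ S.ς = μ := by subst hS; simp
  have hρ0 : 0 ≤ Two.rho P.ε S.γ S.μ := by unfold Two.rho; positivity
  have hcD : 0 ≤ Two.cD P.ε S.μ := by unfold Two.cD; positivity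
  have hcJ0 : 0 ≤ 100 / P.ε ^ 6 + 4 / S.γ + 2 / S.γ ^ 2 * 1 := by positivity
  obtain ⟨cJ, hcJ⟩ : ∃ cJ, cJ = 100 / P.ε ^ 6 + 4 / S.γ + 2 / S.γ ^ 2 * 1 := ⟨_, rfl⟩
  obtain ⟨cs, hcs⟩ : ∃ cs, cs = Real.sqrt (Two.cD P.ε S.μ) := ⟨_, rfl⟩
  have hεd : 0 < ηf / 8 := by positivity
  obtain ⟨k, hk, hres⟩ := Two.exists_steps P.r ((P.r * cJ * cs) ^ 2 + 1) hεd
  obtain ⟨H, hH⟩ : ∃ H, H = cs * 2 ^ k + 4 / S.ς * (cs * 2 ^ k) ^ 2 + Two.cD P.ε S.μ := ⟨_, rfl⟩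
  have hς : 0 < S.ς := hSς ▸ hμ
  have hH0 : 0 ≤ H := by rw [hH, hcs]; positivity
  obtain ⟨C, hC, hmove⟩ := T.exists_move_bound2 P he (Two.psiTaylor he he1) S hμ hγ hA.le hς.le H
    (Two.rho P.ε S.γ S.μ) hH0 hρ0
  obtain ⟨t, ht0, ht1, htm, htC⟩ := Two.exists_time (m := min S.γ (min (S.ς / 4) P.ε))
    (lt_min hγ (lt_min (by positivity) he)) hH0 hC hηf
  refine ⟨S, t ^ 2 * (ηf / 2), hμ, hμ1, hγ, hγ1, hA₀, hA, hς, hSς.le, by positivity, ?_⟩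
  intro st₁ hinv₁ hW₁ hlive₁
  obtain ⟨st, hinv, hWle, hlv, hclean⟩ := exists_clean2 (S := S) he hμ.le hγ hinv₁ hς
    (by rw [hSς]; linarith)
  have hlive : ηf ≤ T.tau st.live := hlv ▸ hlive₁
  obtain ⟨hhub, htrG, hR2⟩ := Wpot2_components (S := S) he hμ hγ hA hς.le hinv (hWle.trans hW₁)
  choose N hb using fun i s => TMasa.exists_band (γ := S.γ) hγ (hinv.gap i s)
    (fun X hX s => by
      obtain ⟨Q, h1, h2, h3, h4⟩ := T.exists_spectralProjection hX s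
      exact ⟨Q, h1, (h2 X (Commute.refl X)).symm, h3, h4⟩)
  have Cx : T.Ctx P x S st N := ⟨he, he1, hx, hx1, hEx, hinv, hb, hclean, hμ, hς⟩
  have hbad : (∑ i, T.tau (1 - T.good2 P x st N i)) ≤ 3 * ηf / 8 := by
    refine le_of_mul_le_mul_left ((Cx.sum_bad_le hγ.le hθ htrG hR2).trans ?_) (pow_pos he 13)
    rw [← hγg] at hgK
    show _ ≤ Two.tol P.ε * _
    linarith
  have herr := (Cx.sum_err_le hA hg (by linarith) hγg htrG hR2).trans hgE
  obtain ⟨h, h2, hhb, hh2b, hzero, hlin, hsec⟩ := Cx.exists_dir hA hεd hcJ (hcJ ▸ hcJ0) hcs hk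
    hres hH hlive hbad herr (by linarith)
  obtain ⟨g1, g2, g3, g4, g5⟩ := hmove x hx hx1 st N hinv hb hclean (Two.rho P.ε S.γ S.μ) t h h2
    hρ0 le_rfl ht0.le ht1 (htm.trans (min_le_left _ _))
    (htm.trans ((min_le_right _ _).trans (min_le_left _ _)))
    (htm.trans ((min_le_right _ _).trans (min_le_right _ _))) hhb hh2b hzero
  obtain ⟨st', hinv', hW'⟩ := exists_assign2 (S := S)
    (st := T.move2 P x st N (Two.rho P.ε S.γ S.μ) t h h2) he (by linarith) hμ.le hγ hς.le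
    hinv.live_idem g1 g2 g3 g4
  refine ⟨st', hinv', hW'.trans (g5.trans ?_)⟩
  have h7 : C * t ^ 3 ≤ ηf / 2 * t ^ 2 := by
    calc C * t ^ 3 = (C * t) * t ^ 2 := by ring
      _ ≤ ηf / 2 * t ^ 2 := mul_le_mul_of_nonneg_right htC (sq_nonneg t)
  have h8 : t * T.lin2 P x S st N h ≤ 0 := mul_nonpos_of_nonneg_of_nonpos ht0.le hlin
  have h9 := mul_le_mul_of_nonneg_left hsec (sq_nonneg t)
  linarith

end TMasa

end Vale.Agent.P078
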